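import Vale.Agent.P321.Basic

namespace Vale.Agent.P321

open Finset



theorem smooth_pow {A : Alg} {σ : ℝ} (hA : Prob A) (hs : Smooth σ A) (N : ℕ) (hN : 1 ≤ N) (k : ℕ) :
    nrm (A ^ N * (A ^ k - 1)) ≤ k * √(σ / N) := by
  have h : A ^ N * (A ^ k - 1) = ∑ i ∈ range k, A ^ i * (A ^ N * (A - 1)) := by
    have h1 : A ^ k - 1 = ∑ i ∈ range k, A ^ i * (A - 1) := by
      rw [← Finset.sum_mul, geom_sum_mul]
    rw [h1, Finset.mul_sum]
    refine Finset.sum_congr rfl fun i _ => ?_
    rw [← mul_assoc, ← mul_assoc, ← pow_add, ← pow_add, add_comm]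
  rw [h]
  calc nrm (∑ i ∈ range k, A ^ i * (A ^ N * (A - 1)))
      ≤ ∑ i ∈ range k, nrm (A ^ i * (A ^ N * (A - 1))) := nrm_sum_le _ _
    _ ≤ ∑ i ∈ range k, √(σ / N) := by
        refine Finset.sum_le_sum fun i _ => ?_
        exact (contr_left (prob_pow hA i) _).trans (hs N hN)
    _ = k * √(σ / N) := by simp

/-- one commutator costs `2 k √(σ/G)` -/
theorem comm_step {A : Alg} {σ : ℝ} (hA : Prob A) (hs : Smooth σ A) (G : ℕ) (hG : 1 ≤ G)
    (P Q : ℕ) (C : Alg) (k : ℕ) :
    nrm (A ^ (P + G) * (C * A ^ k - A ^ k * C) * A ^ (Q + G))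
      ≤ 2 * (k * √(σ / G)) * nrm (A ^ P * C * A ^ Q) := by
  have hn : 0 ≤ nrm (A ^ P * C * A ^ Q) := nrm_nonneg _
  have h : A ^ (P + G) * (C * A ^ k - A ^ k * C) * A ^ (Q + G)
      = A ^ G * ((A ^ P * C * A ^ Q) * (A ^ G * (A ^ k - 1)))
        - (A ^ G * (A ^ k - 1)) * (A ^ P * C * A ^ Q) * A ^ G := by
    have e1 : A ^ (P + G) = A ^ G * A ^ P := by rw [← pow_add, add_comm]
    have e2 : A ^ (Q + G) = A ^ Q * A ^ G := by rw [← pow_add]
    have c1 : A ^ k * A ^ Q = A ^ Q * A ^ k := by rw [← pow_add, ← pow_add, add_comm]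
    have c2 : A ^ k * A ^ G = A ^ G * A ^ k := by rw [← pow_add, ← pow_add, add_comm]
    have c3 : A ^ k * A ^ P = A ^ P * A ^ k := by rw [← pow_add, ← pow_add, add_comm]
    rw [e1, e2]
    have t1 : A ^ G * A ^ P * (C * A ^ k - A ^ k * C) * (A ^ Q * A ^ G)
        = A ^ G * A ^ P * C * (A ^ k * A ^ Q) * A ^ G
          - A ^ G * (A ^ P * A ^ k) * C * A ^ Q * A ^ G := by noncomm_ring
    rw [t1, c1, ← c3]
    have t2 : A ^ G * A ^ P * C * (A ^ Q * A ^ k) * A ^ G
        = A ^ G * A ^ P * C * A ^ Q * (A ^ k * A ^ G) := by noncomm_ring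
    rw [t2, c2]
    noncomm_ring
  rw [h]
  have hk := smooth_pow hA hs G hG k
  calc _ ≤ nrm (A ^ G * ((A ^ P * C * A ^ Q) * (A ^ G * (A ^ k - 1))))
        + nrm ((A ^ G * (A ^ k - 1)) * (A ^ P * C * A ^ Q) * A ^ G) := nrm_sub_le _ _
    _ ≤ nrm ((A ^ P * C * A ^ Q) * (A ^ G * (A ^ k - 1)))
        + nrm ((A ^ G * (A ^ k - 1)) * (A ^ P * C * A ^ Q)) :=
        add_le_add (contr_left (prob_pow hA G) _) (contr_right (prob_pow hA G) _)
    _ ≤ nrm (A ^ P * C * A ^ Q) * nrm (A ^ G * (A ^ k - 1))
        + nrm (A ^ G * (A ^ k - 1)) * nrm (A ^ P * C * A ^ Q) :=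
        add_le_add (nrm_mul_le _ _) (nrm_mul_le _ _)
    _ ≤ nrm (A ^ P * C * A ^ Q) * (k * √(σ / G))
        + (k * √(σ / G)) * nrm (A ^ P * C * A ^ Q) :=
        add_le_add (mul_le_mul_of_nonneg_left hk hn) (mul_le_mul_of_nonneg_right hk hn)
    _ = _ := by ring

theorem smooth_comm {A : Alg} {σ : ℝ} (hA : Prob A) (hs : Smooth σ A) (G : ℕ) (hG : 1 ≤ G)
    (J : ℕ) (d : Alg) :
    nrm (A ^ (J * G) * comm A d J * A ^ (J * G)) ≤ (2 ^ J * √(σ / G)) ^ J * nrm d := by
  induction J with
  | zero => simp [comm]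
  | succ J ih =>
    have e : (J + 1) * G = J * G + G := by ring
    have hq : 0 ≤ √(σ / G) := Real.sqrt_nonneg _
    rw [e, comm]
    refine (comm_step hA hs G hG (J * G) (J * G) (comm A d J) (2 ^ J)).trans ?_
    have hd := nrm_nonneg d
    have h1 : (2 ^ J * √(σ / G)) ^ J ≤ (2 ^ (J + 1) * √(σ / G)) ^ J := by
      refine pow_le_pow_left₀ (by positivity) ?_ J
      refine mul_le_mul_of_nonneg_right ?_ hq
      exact pow_le_pow_right₀ (by norm_num) (by omega)
    calc 2 * (((2 ^ J : ℕ) : ℝ) * √(σ / G)) * nrm (A ^ (J * G) * comm A d J * A ^ (J * G))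
        ≤ 2 * (((2 ^ J : ℕ) : ℝ) * √(σ / G)) * ((2 ^ J * √(σ / G)) ^ J * nrm d) :=
          mul_le_mul_of_nonneg_left ih (by positivity)
      _ ≤ 2 * (((2 ^ J : ℕ) : ℝ) * √(σ / G)) * ((2 ^ (J + 1) * √(σ / G)) ^ J * nrm d) :=
          mul_le_mul_of_nonneg_left (mul_le_mul_of_nonneg_right h1 hd) (by positivity)
      _ = (2 ^ (J + 1) * √(σ / G)) ^ (J + 1) * nrm d := by push_cast; ring

/-! ### the smoothing kernel -/

/-- `Kop N X = X A^N - (1/N) ∑_{v=1}^N A^v X A^(N-v)` -/
noncomputable def Kop (A : Alg) (N : ℕ) (X : Alg) : Alg :=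
  ∑ v ∈ range N, (1 / (N : ℝ)) • ((X * A ^ (v + 1) - A ^ (v + 1) * X) * A ^ (N - (v + 1)))

theorem Kop_iter_bound {A : Alg} {σ : ℝ} (hA : Prob A) (hs : Smooth σ A) (N G : ℕ) (hN : 1 ≤ N)
    (hG : 1 ≤ G) (X : Alg) (J : ℕ) :
    nrm (A ^ (J * G) * ((Kop A N)^[J] X) * A ^ (J * G)) ≤ (2 * N * √(σ / G)) ^ J * nrm X := by
  induction J with
  | zero => simp
  | succ J ih =>
    rw [Function.iterate_succ_apply']
    set Y := (Kop A N)^[J] X with hY
    have e : (J + 1) * G = J * G + G := by ring
    have hq : 0 ≤ √(σ / G) := Real.sqrt_nonneg _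
    have hN0 : (0 : ℝ) < N := by exact_mod_cast hN
    have hn : 0 ≤ nrm (A ^ (J * G) * Y * A ^ (J * G)) := nrm_nonneg _
    rw [e, Kop, Finset.mul_sum, Finset.sum_mul]
    calc nrm (∑ v ∈ range N, A ^ (J * G + G) *
            ((1 / (N : ℝ)) • ((Y * A ^ (v + 1) - A ^ (v + 1) * Y) * A ^ (N - (v + 1))))
              * A ^ (J * G + G))
        ≤ ∑ v ∈ range N, nrm (A ^ (J * G + G) *
            ((1 / (N : ℝ)) • ((Y * A ^ (v + 1) - A ^ (v + 1) * Y) * A ^ (N - (v + 1))))
              * A ^ (J * G + G)) :=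
          nrm_sum_le _ _
      _ ≤ ∑ v ∈ range N, (1 / (N : ℝ)) * (2 * (N * √(σ / G)) *
            nrm (A ^ (J * G) * Y * A ^ (J * G))) := by
          refine Finset.sum_le_sum fun v hv => ?_
          have hv1 := mem_range.1 hv
          have e2 : A ^ (J * G + G) *
              ((1 / (N : ℝ)) • ((Y * A ^ (v + 1) - A ^ (v + 1) * Y) * A ^ (N - (v + 1))))
                * A ^ (J * G + G)
              = (1 / (N : ℝ)) • ((A ^ (J * G + G) * (Y * A ^ (v + 1) - A ^ (v + 1) * Y)
                * A ^ (J * G + G)) * A ^ (N - (v + 1))) := by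
            rw [mul_smul_comm, smul_mul_assoc]
            congr 1
            have c : A ^ (N - (v + 1)) * A ^ (J * G + G) = A ^ (J * G + G) * A ^ (N - (v + 1)) := by
              rw [← pow_add, ← pow_add, add_comm]
            rw [mul_assoc (A ^ (J * G + G) * (Y * A ^ (v + 1) - A ^ (v + 1) * Y)), ← c]
            noncomm_ring
          rw [e2, nrm_smul, abs_of_nonneg (by positivity)]
          refine mul_le_mul_of_nonneg_left ?_ (by positivity)
          refine (contr_right (prob_pow hA _) _).trans ?_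
          refine (comm_step hA hs G hG (J * G) (J * G) Y (v + 1)).trans ?_
          refine mul_le_mul_of_nonneg_right ?_ hn
          have : ((v + 1 : ℕ) : ℝ) ≤ N := by exact_mod_cast hv1
          have := mul_le_mul_of_nonneg_right this hq
          linarith
      _ = 2 * N * √(σ / G) * nrm (A ^ (J * G) * Y * A ^ (J * G)) := by
          rw [Finset.sum_const, card_range, nsmul_eq_mul]
          field_simp
      _ ≤ 2 * N * √(σ / G) * ((2 * N * √(σ / G)) ^ J * nrm X) :=
          mul_le_mul_of_nonneg_left ih (by positivity)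
      _ = _ := by ring

theorem Kop_apply (A : Alg) (N : ℕ) (hN : 1 ≤ N) (X : Alg) (a b : ℕ) (hb : N ≤ b) :
    A ^ a * Kop A N X * A ^ (b - N)
      = A ^ a * X * A ^ b - ∑ u ∈ range N, (1 / (N : ℝ)) • (A ^ (a + (u + 1)) * X * A ^ (b - (u + 1))) := by
  have hN0 : (0 : ℝ) < N := by exact_mod_cast hN
  have h1 : A ^ a * X * A ^ b = ∑ u ∈ range N, (1 / (N : ℝ)) • (A ^ a * X * A ^ b) := by
    rw [Finset.sum_const, card_range, ← Nat.cast_smul_eq_nsmul ℝ, smul_smul,
      mul_one_div_cancel hN0.ne', one_smul]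
  rw [h1, ← Finset.sum_sub_distrib, Kop, Finset.mul_sum, Finset.sum_mul]
  refine Finset.sum_congr rfl fun u hu => ?_
  have hu1 := mem_range.1 hu
  rw [mul_smul_comm, smul_mul_assoc, ← smul_sub]
  congr 1
  have e1 : A ^ b = A ^ (u + 1) * A ^ (N - (u + 1)) * A ^ (b - N) := by
    rw [← pow_add, ← pow_add]; congr 1; omega
  have e2 : A ^ (b - (u + 1)) = A ^ (N - (u + 1)) * A ^ (b - N) := by
    rw [← pow_add]; congr 1; omega
  rw [e1, e2, pow_add A a (u + 1)]
  noncomm_ring

theorem shift_sum {E : Type*} [AddCommMonoid E] (F : ℕ → E) (D T u : ℕ) (hT : D + u ≤ T)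
    (hF : ∀ v, D < v → F v = 0) :
    ∑ x ∈ range (T + 1), (if u ≤ x then F (x - u) else 0) = ∑ v ∈ range (D + 1), F v := by
  rw [← Finset.sum_filter]
  have h1 : ∑ x ∈ (range (T + 1)).filter (fun x => u ≤ x), F (x - u)
      = ∑ v ∈ range (T + 1 - u), F v := by
    refine Finset.sum_bij' (fun x _ => x - u) (fun v _ => v + u) ?_ ?_ ?_ ?_ ?_
    · intro x hx
      simp only [mem_filter, mem_range] at hx ⊢
      omega
    · intro v hv
      simp only [mem_filter, mem_range] at hv ⊢
      omega
    · intro x hx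
      simp only [mem_filter, mem_range] at hx ⊢
      omega
    · intro v hv
      simp
    · intro x hx
      rfl
  rw [h1]
  symm
  refine Finset.sum_subset ?_ ?_
  · intro v hv
    simp only [mem_range] at hv ⊢
    omega
  · intro v _ hv
    simp only [mem_range] at hv
    exact hF v (by omega)

/-- convolution with `(1/N) ∑_{u=1}^N z^u` -/
noncomputable def kc (N : ℕ) (e : ℕ → ℝ) (x : ℕ) : ℝ :=
  (1 / (N : ℝ)) * ∑ u ∈ range N, if u + 1 ≤ x then e (x - (u + 1)) else 0

theorem kc_abs (N : ℕ) (e : ℕ → ℝ) (x : ℕ) :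
    |kc N e x| ≤ (1 / (N : ℝ)) * ∑ u ∈ range N, if u + 1 ≤ x then |e (x - (u + 1))| else 0 := by
  rw [kc, abs_mul, abs_of_nonneg (by positivity : (0 : ℝ) ≤ 1 / N)]
  refine mul_le_mul_of_nonneg_left ?_ (by positivity)
  refine (Finset.abs_sum_le_sum_abs _ _).trans ?_
  refine Finset.sum_le_sum fun u _ => ?_
  split_ifs
  · exact le_rfl
  · simp

theorem kc_diff (N : ℕ) (e : ℕ → ℝ) (x : ℕ) :
    kc N e (x + 1) - kc N e x = (1 / (N : ℝ)) * (e x - if N ≤ x then e (x - N) else 0) := by
  have h1 : ∑ u ∈ range N, (if u + 1 ≤ x + 1 then e (x + 1 - (u + 1)) else 0)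
      = ∑ u ∈ range N, (if u ≤ x then e (x - u) else 0) := by
    refine Finset.sum_congr rfl fun u _ => ?_
    simp
  rw [kc, kc, h1, ← mul_sub, ← Finset.sum_sub_distrib,
    Finset.sum_range_sub' (fun u => if u ≤ x then e (x - u) else 0) N]
  simp

theorem kernel_aux {A : Alg} (N : ℕ) (hN : 1 ≤ N) (J : ℕ) :
    ∃ w : ℕ → ℝ, w 0 = 0 ∧ (∀ v, N * J < v → w v = 0) ∧
      (∑ v ∈ range (N * J + 1), |w v| ≤ 2 ^ J - 1) ∧
      (∀ v, |w v| ≤ (2 ^ J - 1) / N) ∧
      (∑ v ∈ range (N * J + 1), |w (v + 1) - w v| ≤ 2 * (2 ^ J - 1) / N) ∧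
      ∀ (M M' : ℕ) (X : Alg), N * J ≤ M' →
        A ^ M * X * A ^ M' - ∑ v ∈ range (N * J + 1), w v • (A ^ (M + v) * X * A ^ (M' - v))
          = A ^ M * ((Kop A N)^[J] X) * A ^ (M' - N * J) := by
  have hN0 : (0 : ℝ) < N := by exact_mod_cast hN
  induction J with
  | zero =>
    refine ⟨fun _ => 0, rfl, fun _ _ => rfl, by simp, by simp, by simp, ?_⟩
    intro M M' X _
    simp
  | succ J ih =>
    obtain ⟨w, w0, wsup, wl1, wmax, wtv, wid⟩ := ih
    set e : ℕ → ℝ := fun v => (if v = 0 then 1 else 0) - w v with he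
    have esup : ∀ v, N * J < v → e v = 0 := by
      intro v hv
      simp only [he]
      rw [wsup v hv, if_neg (by omega)]
      ring
    have el1 : ∑ v ∈ range (N * J + 1), |e v| ≤ 2 ^ J := by
      calc ∑ v ∈ range (N * J + 1), |e v|
          ≤ ∑ v ∈ range (N * J + 1), ((if v = 0 then 1 else 0) + |w v|) := by
            refine Finset.sum_le_sum fun v _ => ?_
            simp only [he]
            refine (abs_sub _ _).trans ?_
            split_ifs <;> simp
        _ = 1 + ∑ v ∈ range (N * J + 1), |w v| := by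
            rw [Finset.sum_add_distrib, Finset.sum_ite_eq' (range (N * J + 1)) 0]
            simp
        _ ≤ 2 ^ J := by linarith
    have eabs : ∀ (T u : ℕ), N * J + u ≤ T →
        ∑ x ∈ range (T + 1), (if u ≤ x then |e (x - u)| else 0)
          = ∑ v ∈ range (N * J + 1), |e v| := by
      intro T u hT
      refine shift_sum (fun v => |e v|) (N * J) T u hT ?_
      intro v hv
      simp [esup v hv]
    have hT : N * (J + 1) = N * J + N := by ring
    refine ⟨fun v => w v + kc N e v, ?_, ?_, ?_, ?_, ?_, ?_⟩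
    · simp [w0, kc]
    · intro v hv
      have h1 : w v = 0 := wsup v (by rw [hT] at hv; omega)
      have h2 : kc N e v = 0 := by
        rw [kc]
        have : ∑ u ∈ range N, (if u + 1 ≤ v then e (v - (u + 1)) else 0) = 0 := by
          refine Finset.sum_eq_zero fun u hu => ?_
          have := mem_range.1 hu
          rw [hT] at hv
          split_ifs
          · exact esup _ (by omega)
          · rfl
        rw [this, mul_zero]
      simp [h1, h2]
    · -- l1
      have h1 : ∑ v ∈ range (N * (J + 1) + 1), |w v| = ∑ v ∈ range (N * J + 1), |w v| := by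
        symm
        refine Finset.sum_subset ?_ ?_
        · intro v hv
          simp only [mem_range] at hv ⊢
          rw [hT]; omega
        · intro v _ hv
          simp only [mem_range] at hv
          rw [wsup v (by omega), abs_zero]
      have h2 : ∑ v ∈ range (N * (J + 1) + 1), |kc N e v| ≤ 2 ^ J := by
        calc ∑ v ∈ range (N * (J + 1) + 1), |kc N e v|
            ≤ ∑ v ∈ range (N * (J + 1) + 1), (1 / (N : ℝ)) * ∑ u ∈ range N,
                if u + 1 ≤ v then |e (v - (u + 1))| else 0 :=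
              Finset.sum_le_sum fun v _ => kc_abs N e v
          _ = (1 / (N : ℝ)) * ∑ u ∈ range N, ∑ v ∈ range (N * (J + 1) + 1),
                (if u + 1 ≤ v then |e (v - (u + 1))| else 0) := by
              rw [← Finset.mul_sum, Finset.sum_comm]
          _ = (1 / (N : ℝ)) * ∑ u ∈ range N, ∑ v ∈ range (N * J + 1), |e v| := by
              congr 1
              refine Finset.sum_congr rfl fun u hu => ?_
              have := mem_range.1 hu
              exact eabs _ _ (by rw [hT]; omega)
          _ = ∑ v ∈ range (N * J + 1), |e v| := by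
              rw [Finset.sum_const, card_range, nsmul_eq_mul, ← mul_assoc,
                one_div_mul_cancel hN0.ne', one_mul]
          _ ≤ 2 ^ J := el1
      calc ∑ v ∈ range (N * (J + 1) + 1), |w v + kc N e v|
          ≤ ∑ v ∈ range (N * (J + 1) + 1), (|w v| + |kc N e v|) :=
            Finset.sum_le_sum fun v _ => abs_add_le _ _
        _ ≤ (2 ^ J - 1) + 2 ^ J := by
            rw [Finset.sum_add_distrib, h1]
            exact add_le_add wl1 h2
        _ = 2 ^ (J + 1) - 1 := by ring
    · -- max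
      intro x
      have h1 : ∑ u ∈ range N, (if u + 1 ≤ x then |e (x - (u + 1))| else 0)
          ≤ ∑ v ∈ range (N * J + 1), |e v| := by
        rw [← Finset.sum_filter]
        have h3 : ∑ u ∈ (range N).filter (fun u => u + 1 ≤ x), |e (x - (u + 1))|
            = ∑ v ∈ ((range N).filter (fun u => u + 1 ≤ x)).image (fun u => x - (u + 1)), |e v| := by
          rw [Finset.sum_image]
          intro a ha b hb hab
          have ha' := (mem_filter.1 (Finset.mem_coe.1 ha)).2
          have hb' := (mem_filter.1 (Finset.mem_coe.1 hb)).2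
          simp only at hab
          omega
        rw [h3]
        have h4 : ∑ v ∈ ((range N).filter (fun u => u + 1 ≤ x)).image (fun u => x - (u + 1)), |e v|
            = ∑ v ∈ (((range N).filter (fun u => u + 1 ≤ x)).image (fun u => x - (u + 1))).filter
                (fun v => v ∈ range (N * J + 1)), |e v| := by
          rw [Finset.sum_filter]
          refine Finset.sum_congr rfl fun v _ => ?_
          split_ifs with hv
          · rfl
          · rw [esup v (by simp only [mem_range] at hv; omega), abs_zero]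
        rw [h4]
        refine Finset.sum_le_sum_of_subset_of_nonneg ?_ fun _ _ _ => abs_nonneg _
        intro v hv
        exact (mem_filter.1 hv).2
      have h2 : |kc N e x| ≤ 2 ^ J / N := by
        refine (kc_abs N e x).trans ?_
        calc (1 / (N : ℝ)) * ∑ u ∈ range N, (if u + 1 ≤ x then |e (x - (u + 1))| else 0)
            ≤ (1 / (N : ℝ)) * 2 ^ J := mul_le_mul_of_nonneg_left (h1.trans el1) (by positivity)
          _ = 2 ^ J / N := by ring
      calc |w x + kc N e x| ≤ |w x| + |kc N e x| := abs_add_le _ _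
        _ ≤ (2 ^ J - 1) / N + 2 ^ J / N := add_le_add (wmax x) h2
        _ = (2 ^ (J + 1) - 1) / N := by ring
    · -- tv
      have h1 : ∑ v ∈ range (N * (J + 1) + 1), |w (v + 1) - w v|
          = ∑ v ∈ range (N * J + 1), |w (v + 1) - w v| := by
        symm
        refine Finset.sum_subset ?_ ?_
        · intro v hv
          simp only [mem_range] at hv ⊢
          rw [hT]; omega
        · intro v _ hv
          simp only [mem_range] at hv
          rw [wsup v (by omega), wsup (v + 1) (by omega), sub_zero, abs_zero]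
      have h2 : ∑ v ∈ range (N * (J + 1) + 1), |kc N e (v + 1) - kc N e v| ≤ 2 * 2 ^ J / N := by
        calc ∑ v ∈ range (N * (J + 1) + 1), |kc N e (v + 1) - kc N e v|
            ≤ ∑ v ∈ range (N * (J + 1) + 1), (1 / (N : ℝ)) *
                ((if 0 ≤ v then |e (v - 0)| else 0) + (if N ≤ v then |e (v - N)| else 0)) := by
              refine Finset.sum_le_sum fun v _ => ?_
              rw [kc_diff, abs_mul, abs_of_nonneg (by positivity : (0 : ℝ) ≤ 1 / N)]
              refine mul_le_mul_of_nonneg_left ?_ (by positivity)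
              refine (abs_sub _ _).trans ?_
              split_ifs <;> simp_all
          _ = (1 / (N : ℝ)) * (∑ v ∈ range (N * J + 1), |e v| + ∑ v ∈ range (N * J + 1), |e v|) := by
              rw [← Finset.mul_sum, Finset.sum_add_distrib,
                eabs (N * (J + 1)) 0 (by rw [hT]; omega), eabs (N * (J + 1)) N (by rw [hT])]
          _ ≤ (1 / (N : ℝ)) * (2 ^ J + 2 ^ J) :=
              mul_le_mul_of_nonneg_left (add_le_add el1 el1) (by positivity)
          _ = 2 * 2 ^ J / N := by ring
      calc ∑ v ∈ range (N * (J + 1) + 1), |w (v + 1) + kc N e (v + 1) - (w v + kc N e v)|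
          ≤ ∑ v ∈ range (N * (J + 1) + 1), (|w (v + 1) - w v| + |kc N e (v + 1) - kc N e v|) := by
            refine Finset.sum_le_sum fun v _ => ?_
            have : w (v + 1) + kc N e (v + 1) - (w v + kc N e v)
                = (w (v + 1) - w v) + (kc N e (v + 1) - kc N e v) := by ring
            rw [this]
            exact abs_add_le _ _
        _ ≤ 2 * (2 ^ J - 1) / N + 2 * 2 ^ J / N := by
            rw [Finset.sum_add_distrib, h1]
            exact add_le_add wtv h2
        _ = 2 * (2 ^ (J + 1) - 1) / N := by ring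
    · -- identity
      intro M M' X hM'
      rw [hT] at hM'
      rw [Function.iterate_succ_apply]
      have h0 := wid M (M' - N) (Kop A N X) (by omega)
      have e0 : M' - N * (J + 1) = M' - N - N * J := by rw [hT]; omega
      rw [e0, ← h0]
      set f : ℕ → Alg := fun v => A ^ (M + v) * X * A ^ (M' - v) with hf
      have k1 : ∀ v ∈ range (N * J + 1), A ^ (M + v) * Kop A N X * A ^ (M' - N - v)
          = f v - ∑ u ∈ range N, (1 / (N : ℝ)) • f (v + (u + 1)) := by
        intro v hv
        have hv' := mem_range.1 hv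
        have h3 := Kop_apply A N hN X (M + v) (M' - v) (by omega)
        have e3 : M' - v - N = M' - N - v := by omega
        rw [e3] at h3
        rw [h3]
        simp only [hf]
        congr 1
        refine Finset.sum_congr rfl fun u hu => ?_
        have e4 : M + v + (u + 1) = M + (v + (u + 1)) := by ring
        have e5 : M' - v - (u + 1) = M' - (v + (u + 1)) := by omega
        rw [e4, e5]
      have k2 : ∑ x ∈ range (N * (J + 1) + 1), kc N e x • f x
          = ∑ v ∈ range (N * J + 1), e v • ∑ u ∈ range N, (1 / (N : ℝ)) • f (v + (u + 1)) := by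
        have l1 : ∀ x, kc N e x • f x = ∑ u ∈ range N,
            (if u + 1 ≤ x then ((1 / (N : ℝ)) * e (x - (u + 1))) • f ((x - (u + 1)) + (u + 1))
              else 0) := by
          intro x
          rw [kc, Finset.mul_sum, Finset.sum_smul]
          refine Finset.sum_congr rfl fun u _ => ?_
          split_ifs with hux
          · rw [Nat.sub_add_cancel hux]
          · simp
        simp only [l1]
        rw [Finset.sum_comm]
        have l2 : ∀ u ∈ range N, ∑ x ∈ range (N * (J + 1) + 1),
            (if u + 1 ≤ x then ((1 / (N : ℝ)) * e (x - (u + 1))) • f ((x - (u + 1)) + (u + 1))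
              else 0) = ∑ v ∈ range (N * J + 1), ((1 / (N : ℝ)) * e v) • f (v + (u + 1)) := by
          intro u hu
          have := mem_range.1 hu
          refine shift_sum (fun v => ((1 / (N : ℝ)) * e v) • f (v + (u + 1))) (N * J)
            (N * (J + 1)) (u + 1) (by rw [hT]; omega) ?_
          intro v hv
          simp only [esup v hv, mul_zero, zero_smul]
        rw [Finset.sum_congr rfl l2, Finset.sum_comm]
        refine Finset.sum_congr rfl fun v _ => ?_
        rw [Finset.smul_sum]
        refine Finset.sum_congr rfl fun u _ => ?_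
        rw [smul_smul, mul_comm]
      have k3 : ∑ v ∈ range (N * (J + 1) + 1), (w v + kc N e v) • f v
          = ∑ v ∈ range (N * J + 1), w v • f v + ∑ x ∈ range (N * (J + 1) + 1), kc N e x • f x := by
        simp only [add_smul]
        rw [Finset.sum_add_distrib]
        congr 1
        symm
        refine Finset.sum_subset ?_ ?_
        · intro v hv
          simp only [mem_range] at hv ⊢
          rw [hT]; omega
        · intro v _ hv
          simp only [mem_range] at hv
          rw [wsup v (by omega), zero_smul]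
      have k4 : ∀ g : ℕ → Alg, ∑ v ∈ range (N * J + 1), e v • g v
          = g 0 - ∑ v ∈ range (N * J + 1), w v • g v := by
        intro g
        simp only [he, sub_smul]
        rw [Finset.sum_sub_distrib]
        congr 1
        rw [Finset.sum_eq_single 0]
        · simp
        · intro b _ hb
          simp [hb]
        · intro h
          exact absurd (mem_range.2 (Nat.succ_pos _)) h
      have k5 : A ^ M * Kop A N X * A ^ (M' - N)
            - ∑ v ∈ range (N * J + 1), w v • (A ^ (M + v) * Kop A N X * A ^ (M' - N - v))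
          = ∑ v ∈ range (N * J + 1), e v • (f v - ∑ u ∈ range N, (1 / (N : ℝ)) • f (v + (u + 1))) := by
        have := k4 (fun v => A ^ (M + v) * Kop A N X * A ^ (M' - N - v))
        simp only [add_zero, Nat.sub_zero] at this
        rw [← this]
        refine Finset.sum_congr rfl fun v hv => ?_
        rw [k1 v hv]
      rw [k5]
      change A ^ M * X * A ^ M' - ∑ v ∈ range (N * (J + 1) + 1), (w v + kc N e v) • f v = _
      rw [k3, k2]
      simp only [smul_sub]
      rw [Finset.sum_sub_distrib, k4 f]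
      have f0 : f 0 = A ^ M * X * A ^ M' := by simp [hf]
      rw [f0]
      abel

/-- smoothing kernel. `w = -( (1-k)^J - 1 )`, `k = (1/N) ∑_{v=1}^N z^v` -/
theorem kernel {A : Alg} {σ : ℝ} (hA : Prob A) (hs : Smooth σ A) (N G J : ℕ) (hN : 1 ≤ N)
    (hG : 1 ≤ G) :
    ∃ w : ℕ → ℝ, (∀ v, w v ≠ 0 → 1 ≤ v ∧ v ≤ N * J) ∧
      (∑ v ∈ range (N * J + 1), |w v| ≤ 2 ^ J) ∧
      (∑ v ∈ range (N * J + 1), w v ^ 2 ≤ 4 ^ J / N) ∧
      (∑ v ∈ range (N * J + 1), |w (v + 1) - w v| ≤ 2 ^ (J + 1) / N) ∧
      ∀ (M M' : ℕ) (X : Alg), J * G ≤ M → J * (N + G) ≤ M' →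
        nrm (A ^ M * X * A ^ M' - ∑ v ∈ range (N * J + 1), w v • (A ^ (M + v) * X * A ^ (M' - v)))
          ≤ (2 * N * √(σ / G)) ^ J * nrm X := by
  have hN0 : (0 : ℝ) < N := by exact_mod_cast hN
  obtain ⟨w, w0, wsup, wl1, wmax, wtv, wid⟩ := kernel_aux (A := A) N hN J
  have hJ1 : (1 : ℝ) ≤ 2 ^ J := one_le_pow₀ (by norm_num)
  refine ⟨w, ?_, ?_, ?_, ?_, ?_⟩
  · intro v hv
    constructor
    · by_contra h
      have : v = 0 := by omega
      exact hv (this ▸ w0)
    · by_contra h
      exact hv (wsup v (by omega))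
  · linarith
  · calc ∑ v ∈ range (N * J + 1), w v ^ 2
        ≤ ∑ v ∈ range (N * J + 1), (2 ^ J / N) * |w v| := by
          refine Finset.sum_le_sum fun v _ => ?_
          have h1 : |w v| ≤ 2 ^ J / N := (wmax v).trans (by gcongr; linarith)
          calc w v ^ 2 = |w v| * |w v| := by rw [← sq, sq_abs]
            _ ≤ (2 ^ J / N) * |w v| := mul_le_mul_of_nonneg_right h1 (abs_nonneg _)
      _ = (2 ^ J / N) * ∑ v ∈ range (N * J + 1), |w v| := by rw [Finset.mul_sum]
      _ ≤ (2 ^ J / N) * 2 ^ J := mul_le_mul_of_nonneg_left (by linarith) (by positivity)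
      _ = 4 ^ J / N := by
          have : (4 : ℝ) ^ J = 2 ^ J * 2 ^ J := by rw [← mul_pow]; norm_num
          rw [this]; ring
  · refine wtv.trans ?_
    refine div_le_div_of_nonneg_right ?_ hN0.le
    rw [pow_succ]
    linarith
  · intro M M' X hM hM'
    have hM'' : N * J ≤ M' := by
      have : J * (N + G) = N * J + J * G := by ring
      omega
    rw [wid M M' X hM'']
    have e1 : A ^ M = A ^ (M - J * G) * A ^ (J * G) := by rw [← pow_add]; congr 1; omega
    have e2 : A ^ (M' - N * J) = A ^ (J * G) * A ^ (M' - N * J - J * G) := by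
      rw [← pow_add]; congr 1
      have : J * (N + G) = N * J + J * G := by ring
      omega
    rw [e1, e2]
    have e3 : A ^ (M - J * G) * A ^ (J * G) * (Kop A N)^[J] X *
        (A ^ (J * G) * A ^ (M' - N * J - J * G))
        = A ^ (M - J * G) * (A ^ (J * G) * (Kop A N)^[J] X * A ^ (J * G))
          * A ^ (M' - N * J - J * G) := by noncomm_ring
    rw [e3]
    refine (contr_right (prob_pow hA _) _).trans ((contr_left (prob_pow hA _) _).trans ?_)
    exact Kop_iter_bound hA hs N G hN hG X J

end Vale.Agent.P321
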