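import Vale.Agent.P321.OverlapChain
import Vale.Agent.P321.Smooth

/-!
# P321: shifting the array of defects by one defect, through a chain of overlapping blocks
-/

namespace Vale.Agent.P321

open Finset

namespace Chain

/-- a block: `A^l V A^G a^n A^G V A^r` -/
noncomputable def blk (A V : Alg) (G l n r : ℕ) : Alg :=
  A ^ l * V * A ^ G * (A ^ G * V * A ^ G) ^ n * (A ^ G * V * A ^ r)

/-- the shifted blocks -/
noncomputable def Y (A V : Alg) (G Sc T' κ p : ℕ) (i : ℕ) : Alg :=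
  if i < T' then blk A V G (p + (T' - i) * κ) (Sc - 2) (G + (i + 1) * κ)
  else if i = T' then blk A V G p (Sc - 1) p
  else blk A V G (G + (T' - (i - T' - 1)) * κ) (Sc - 2) (p + (i - T') * κ)

theorem blk_left (A V : Alg) (G l n r l' r' : ℕ) (h1 : l' + l = G) (h2 : r = G + r') :
    A ^ l' * blk A V G l n r
      = (A ^ G * V * A ^ G) * (A ^ G * V * A ^ G) ^ n * (A ^ G * V * A ^ G) * A ^ r' := by
  have e : A ^ l' * A ^ l = A ^ G := by rw [← pow_add, h1]
  unfold blk
  rw [h2, pow_add A G r']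
  generalize (A ^ G * V * A ^ G) ^ n = W
  simp only [← mul_assoc]
  rw [e]

theorem blk_mid (A V : Alg) (G l n r l' : ℕ) (h1 : l' + l = G) :
    A ^ l' * blk A V G l n r
      = (A ^ G * V * A ^ G) * (A ^ G * V * A ^ G) ^ n * (A ^ G * V * A ^ r) := by
  have e : A ^ l' * A ^ l = A ^ G := by rw [← pow_add, h1]
  unfold blk
  generalize (A ^ G * V * A ^ G) ^ n = W
  simp only [← mul_assoc]
  rw [e]

theorem blk_right (A V : Alg) (G l n r l' : ℕ) (h1 : l' + l = G + G) :
    (A ^ G * V * A ^ l') * blk A V G l n r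
      = (A ^ G * V * A ^ G) * ((A ^ G * V * A ^ G) * (A ^ G * V * A ^ G) ^ n)
        * (A ^ G * V * A ^ r) := by
  have e : A ^ l' * A ^ l = A ^ G * A ^ G := by rw [← pow_add, h1, pow_add]
  unfold blk
  generalize (A ^ G * V * A ^ G) ^ n = W
  calc (A ^ G * V * A ^ l') * (A ^ l * V * A ^ G * W * (A ^ G * V * A ^ r))
      = A ^ G * V * (A ^ l' * A ^ l) * V * A ^ G * W * (A ^ G * V * A ^ r) := by
        simp only [← mul_assoc]
    _ = _ := by
        rw [e]
        simp only [← mul_assoc]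

theorem prod_left (A V : Alg) (G Sc T' κ p : ℕ) (hG : G = T' * κ + p) (hSc : 3 ≤ Sc) :
    ∀ n, n ≤ T' → ((List.range n).map (Y A V G Sc T' κ p)).prod
      = (A ^ G * V * A ^ G) ^ (n * Sc) * A ^ (n * κ) := by
  intro n
  induction n with
  | zero =>
    intro _
    simp
  | succ n ih =>
    intro hn
    rw [List.range_succ, List.map_append, List.prod_append, ih (by omega)]
    simp only [List.map_cons, List.map_nil, List.prod_cons, List.prod_nil, mul_one]
    have e : Y A V G Sc T' κ p n = blk A V G (p + (T' - n) * κ) (Sc - 2) (G + (n + 1) * κ) := by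
      unfold Y
      rw [if_pos (by omega)]
    rw [e, mul_assoc, blk_left A V G _ _ _ (n * κ) ((n + 1) * κ) _ rfl]
    · set a := A ^ G * V * A ^ G with ha
      have e2 : a * a ^ (Sc - 2) * a = a ^ Sc := by
        rw [← pow_succ', ← pow_succ]
        congr 1
        omega
      rw [e2, ← mul_assoc, ← pow_add]
      congr 2
      ring
    · have : n * κ + (T' - n) * κ = T' * κ := by
        rw [← add_mul]
        congr 1
        omega
      omega

theorem prod_mid (A V : Alg) (G Sc T' κ p : ℕ) (hG : G = T' * κ + p) (hSc : 3 ≤ Sc) :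
    ((List.range (T' + 1)).map (Y A V G Sc T' κ p)).prod
      = (A ^ G * V * A ^ G) ^ ((T' + 1) * Sc) * (A ^ G * V * A ^ p) := by
  rw [List.range_succ, List.map_append, List.prod_append,
    prod_left A V G Sc T' κ p hG hSc T' le_rfl]
  simp only [List.map_cons, List.map_nil, List.prod_cons, List.prod_nil, mul_one]
  have e : Y A V G Sc T' κ p T' = blk A V G p (Sc - 1) p := by
    unfold Y
    rw [if_neg (by omega), if_pos rfl]
  rw [e, mul_assoc, blk_mid A V G _ _ _ (T' * κ) (by omega)]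
  set a := A ^ G * V * A ^ G with ha
  have e2 : a * a ^ (Sc - 1) = a ^ Sc := by
    rw [← pow_succ']
    congr 1
    omega
  rw [e2, ← mul_assoc, ← pow_add]
  congr 2
  ring

theorem prod_right (A V : Alg) (G Sc T' κ p : ℕ) (hG : G = T' * κ + p) (hSc : 3 ≤ Sc) :
    ∀ j, j ≤ T' → ((List.range (T' + 1 + j)).map (Y A V G Sc T' κ p)).prod
      = (A ^ G * V * A ^ G) ^ ((T' + 1 + j) * Sc) * (A ^ G * V * A ^ (p + j * κ)) := by
  intro j
  induction j with
  | zero =>
    intro _
    rw [add_zero, zero_mul, add_zero]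
    exact prod_mid A V G Sc T' κ p hG hSc
  | succ j ih =>
    intro hj
    have e0 : T' + 1 + (j + 1) = (T' + 1 + j) + 1 := by omega
    rw [e0, List.range_succ, List.map_append, List.prod_append, ih (by omega)]
    simp only [List.map_cons, List.map_nil, List.prod_cons, List.prod_nil, mul_one]
    have e : Y A V G Sc T' κ p (T' + 1 + j)
        = blk A V G (G + (T' - j) * κ) (Sc - 2) (p + (j + 1) * κ) := by
      unfold Y
      rw [if_neg (by omega), if_neg (by omega)]
      congr 3 <;> omega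
    rw [e, mul_assoc, blk_right A V G _ _ _ (p + j * κ)]
    · set a := A ^ G * V * A ^ G with ha
      have e2 : a * (a * a ^ (Sc - 2)) = a ^ Sc := by
        rw [← pow_succ', ← pow_succ']
        congr 1
        omega
      rw [e2, ← mul_assoc, ← pow_add]
      congr 2
      ring
    · have : j * κ + (T' - j) * κ = T' * κ := by
        rw [← add_mul]
        congr 1
        omega
      omega

theorem prod_all (A V : Alg) (G Sc T' κ p : ℕ) (hG : G = T' * κ + p) (hSc : 3 ≤ Sc) :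
    ((List.range (2 * T' + 1)).map (Y A V G Sc T' κ p)).prod
      = (A ^ G * V * A ^ G) ^ ((2 * T' + 1) * Sc + 1) := by
  have h := prod_right A V G Sc T' κ p hG hSc T' le_rfl
  have e : T' + 1 + T' = 2 * T' + 1 := by omega
  have e1 : p + T' * κ = G := by omega
  rw [e, e1] at h
  rw [h, pow_succ]

/-- replacing one defect -/
theorem one_defect {A V : Alg} (hA : Prob A) (p l r : ℕ) (hl : p ≤ l) (hr : p ≤ r) :
    nrm (A ^ l * (V - A) * A ^ r) ≤ nrm (A ^ p * (V - A) * A ^ p) := by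
  have e : A ^ l * (V - A) * A ^ r = A ^ (l - p) * (A ^ p * (V - A) * A ^ p) * A ^ (r - p) := by
    have e1 : A ^ l = A ^ (l - p) * A ^ p := by rw [← pow_add]; congr 1; omega
    have e2 : A ^ r = A ^ p * A ^ (r - p) := by rw [← pow_add]; congr 1; omega
    rw [e1, e2]
    simp only [mul_assoc]
  rw [e]
  exact le_trans (contr_right (prob_pow hA _) _) (contr_left (prob_pow hA _) _)

theorem blk_close {A V : Alg} (hA : Prob A) (hV : Prob V) (G p l n r : ℕ) (hG : p ≤ G)
    (hl : p ≤ l) (hr : p ≤ r) :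
    nrm (blk A V G l n r - A ^ (l + r + 2 * G + 2 + (2 * G + 1) * n))
      ≤ 2 * nrm (A ^ p * (V - A) * A ^ p)
        + nrm ((A ^ G * V * A ^ G) ^ n - (A ^ (2 * G + 1)) ^ n) := by
  set a := A ^ G * V * A ^ G with ha
  have hPa : Prob a := prob_mul (prob_mul (prob_pow hA _) hV) (prob_pow hA _)
  have e0 : A ^ (l + r + 2 * G + 2 + (2 * G + 1) * n)
      = A ^ l * A * A ^ G * (A ^ (2 * G + 1)) ^ n * (A ^ G * A * A ^ r) := by
    rw [← pow_mul, ← pow_succ, ← pow_succ, ← pow_add, ← pow_add, ← pow_add, ← pow_add]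
    congr 1
    ring
  have e1 : blk A V G l n r - A ^ (l + r + 2 * G + 2 + (2 * G + 1) * n)
      = (A ^ l * (V - A) * A ^ G) * (a ^ n * (A ^ G * V * A ^ r))
        + (A ^ l * A * A ^ G) * (a ^ n - (A ^ (2 * G + 1)) ^ n) * (A ^ G * V * A ^ r)
        + (A ^ l * A * A ^ G * (A ^ (2 * G + 1)) ^ n) * (A ^ G * (V - A) * A ^ r) := by
    rw [e0]
    unfold blk
    rw [← ha]
    noncomm_ring
  rw [e1]
  have hx : Prob (A ^ l * A * A ^ G) := prob_mul (prob_mul (prob_pow hA _) hA) (prob_pow hA _)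
  have hy : Prob (A ^ G * V * A ^ r) := prob_mul (prob_mul (prob_pow hA _) hV) (prob_pow hA _)
  have k1 : nrm ((A ^ l * (V - A) * A ^ G) * (a ^ n * (A ^ G * V * A ^ r)))
      ≤ nrm (A ^ p * (V - A) * A ^ p) :=
    le_trans (contr_right (prob_mul (prob_pow hPa _) hy) _) (one_defect hA p l G hl hG)
  have k2 : nrm ((A ^ l * A * A ^ G) * (a ^ n - (A ^ (2 * G + 1)) ^ n) * (A ^ G * V * A ^ r))
      ≤ nrm (a ^ n - (A ^ (2 * G + 1)) ^ n) :=
    le_trans (contr_right hy _) (contr_left hx _)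
  have k3 : nrm ((A ^ l * A * A ^ G * (A ^ (2 * G + 1)) ^ n) * (A ^ G * (V - A) * A ^ r))
      ≤ nrm (A ^ p * (V - A) * A ^ p) :=
    le_trans (contr_left (prob_mul hx (prob_pow (prob_pow hA _) _)) _)
      (one_defect hA p G r hG hr)
  have k4 := nrm_add_le ((A ^ l * (V - A) * A ^ G) * (a ^ n * (A ^ G * V * A ^ r))
        + (A ^ l * A * A ^ G) * (a ^ n - (A ^ (2 * G + 1)) ^ n) * (A ^ G * V * A ^ r))
        ((A ^ l * A * A ^ G * (A ^ (2 * G + 1)) ^ n) * (A ^ G * (V - A) * A ^ r))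
  have k5 := nrm_add_le ((A ^ l * (V - A) * A ^ G) * (a ^ n * (A ^ G * V * A ^ r)))
        ((A ^ l * A * A ^ G) * (a ^ n - (A ^ (2 * G + 1)) ^ n) * (A ^ G * V * A ^ r))
  linarith

end Chain

open Chain in
theorem base_chain {A V : Alg} {σ : ℝ} (hA : Prob A) (hV : Prob V) (hs : Smooth σ A)
    (G Sc T' κ p : ℕ) (hG : G = T' * κ + p) (hSc : 3 ≤ Sc)
    (h1 : ∀ S', Sc - 2 ≤ S' → S' ≤ Sc →
      nrm ((A ^ G * V * A ^ G) ^ S' - (A ^ (2 * G + 1)) ^ S') ≤ 1 / 8)
    (h2 : nrm (A ^ p * (V - A) * A ^ p) ≤ 1 / 16)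
    (h3 : (2 * p + 1 + κ) * √(σ / ((2 * G + 1 : ℕ) * (Sc - 2 : ℕ) : ℝ)) ≤ 1 / 8) :
    ∃ Z : Alg, Nonneg Z ∧ Le Z ((A ^ G * V * A ^ G) ^ ((2 * T' + 1) * Sc)) ∧
      Le Z ((A ^ G * V * A ^ G) ^ ((2 * T' + 1) * Sc + 1)) ∧
      (1 / 2 : ℝ) ^ (2 * T' + 1) ≤ mass Z := by
  set a := A ^ G * V * A ^ G with ha
  have hPa : Prob a := prob_mul (prob_mul (prob_pow hA _) hV) (prob_pow hA _)
  have hpG : p ≤ G := by omega
  -- the smoothness cost of a length change
  set N : ℕ := (2 * G + 1) * Sc with hN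
  have hN1 : 1 ≤ N := by
    rw [hN]
    have : 0 < (2 * G + 1) * Sc := Nat.mul_pos (by omega) (by omega)
    omega
  have hsq : √(σ / N) ≤ √(σ / ((2 * G + 1 : ℕ) * (Sc - 2 : ℕ) : ℝ)) := by
    have hpos : (0 : ℝ) < ((2 * G + 1 : ℕ) : ℝ) * ((Sc - 2 : ℕ) : ℝ) := by
      have h1 : (0 : ℝ) < ((2 * G + 1 : ℕ) : ℝ) := by exact_mod_cast (by omega : 0 < 2 * G + 1)
      have h2 : (0 : ℝ) < ((Sc - 2 : ℕ) : ℝ) := by exact_mod_cast (by omega : 0 < Sc - 2)
      positivity
    have hle : ((2 * G + 1 : ℕ) : ℝ) * ((Sc - 2 : ℕ) : ℝ) ≤ (N : ℝ) := by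
      rw [hN]
      rw [← Nat.cast_mul]
      exact_mod_cast Nat.mul_le_mul_left _ (by omega)
    rcases le_or_gt 0 σ with hσ | hσ
    · exact Real.sqrt_le_sqrt (div_le_div_of_nonneg_left hσ hpos hle)
    · have : σ / N ≤ 0 := div_nonpos_of_nonpos_of_nonneg hσ.le (Nat.cast_nonneg _)
      rw [Real.sqrt_eq_zero_of_nonpos this]
      exact Real.sqrt_nonneg _
  have hlen : ∀ c : ℕ, c ≤ 2 * p + 1 + κ → nrm (A ^ (N + c) - A ^ N) ≤ 1 / 8 := by
    intro c hc
    have e : A ^ (N + c) - A ^ N = A ^ N * (A ^ c - 1) := by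
      rw [pow_add, mul_sub, mul_one]
    rw [e]
    refine le_trans (smooth_pow hA hs N hN1 c) (le_trans ?_ h3)
    have hc' : (c : ℝ) ≤ 2 * p + 1 + κ := by exact_mod_cast hc
    exact mul_le_mul hc' hsq (Real.sqrt_nonneg _) (by positivity)
  have hblk : ∀ l n r c : ℕ, p ≤ l → p ≤ r → Sc - 2 ≤ n → n ≤ Sc → c ≤ 2 * p + 1 + κ →
      l + r + 2 * G + 2 + (2 * G + 1) * n = N + c →
      nrm (a ^ Sc - blk A V G l n r) ≤ 1 := by
    intro l n r c hl hr hn1 hn2 hc he
    have k1 := blk_close hA hV G p l n r hpG hl hr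
    rw [← ha, he] at k1
    have k2 := h1 n hn1 hn2
    have k3 := h1 Sc (by omega) le_rfl
    have k4 := hlen c hc
    have e1 : (A ^ (2 * G + 1)) ^ Sc = A ^ N := by rw [← pow_mul]
    rw [e1] at k3
    have e3 : a ^ Sc - blk A V G l n r
        = (a ^ Sc - A ^ N) - ((A ^ (N + c) - A ^ N) + (blk A V G l n r - A ^ (N + c))) := by
      abel
    rw [e3]
    have k5 := nrm_sub_le (a ^ Sc - A ^ N)
      ((A ^ (N + c) - A ^ N) + (blk A V G l n r - A ^ (N + c)))
    have k6 := nrm_add_le (A ^ (N + c) - A ^ N) (blk A V G l n r - A ^ (N + c))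
    linarith
  have hXY : ∀ i < 2 * T' + 1, nrm (a ^ Sc - Y A V G Sc T' κ p i) ≤ 1 := by
    intro i hi
    unfold Y
    by_cases c1 : i < T'
    · rw [if_pos c1]
      have e : (i + 1) * κ + (T' - i) * κ = T' * κ + κ := by
        rw [← add_mul, ← Nat.succ_mul]
        congr 1
        omega
      refine hblk _ _ _ κ (by omega) (by omega) (by omega) (by omega) (by omega) ?_
      have e2 : (2 * G + 1) * (Sc - 2) + (2 * G + 1) * 2 = N := by
        rw [← mul_add, hN]
        congr 1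
        omega
      omega
    · rw [if_neg c1]
      by_cases c2 : i = T'
      · rw [if_pos c2]
        have e2 : (2 * G + 1) * (Sc - 1) + (2 * G + 1) = N := by
          rw [← Nat.mul_succ, hN]
          congr 1
          omega
        refine hblk _ _ _ (2 * p + 1) (by omega) (by omega) (by omega) (by omega) (by omega) ?_
        omega
      · rw [if_neg c2]
        have e : (T' - (i - T' - 1)) * κ + (i - T') * κ = T' * κ + κ := by
          rw [← add_mul, ← Nat.succ_mul]
          congr 1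
          omega
        refine hblk _ _ _ κ (by omega) (by omega) (by omega) (by omega) (by omega) ?_
        have e2 : (2 * G + 1) * (Sc - 2) + (2 * G + 1) * 2 = N := by
          rw [← mul_add, hN]
          congr 1
          omega
        omega
  have hbp : ∀ l n r, Prob (blk A V G l n r) := fun l n r =>
    prob_mul (prob_mul (prob_mul (prob_mul (prob_pow hA _) hV) (prob_pow hA _)) (prob_pow hPa _))
      (prob_mul (prob_mul (prob_pow hA _) hV) (prob_pow hA _))
  have hYp : ∀ i, Prob (Y A V G Sc T' κ p i) := by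
    intro i
    unfold Y
    split_ifs
    · exact hbp _ _ _
    · exact hbp _ _ _
    · exact hbp _ _ _
  obtain ⟨Z, z0, z1, z2, z3⟩ := overlap_chain (2 * T' + 1) (fun _ => a ^ Sc)
    (Y A V G Sc T' κ p) (fun _ => prob_pow hPa _) hYp hXY
  refine ⟨Z, z0, ?_, ?_, z3⟩
  · have e : ((List.range (2 * T' + 1)).map (fun _ => a ^ Sc)).prod = a ^ ((2 * T' + 1) * Sc) := by
      rw [List.map_const', List.prod_replicate, List.length_range, ← pow_mul, mul_comm]
    rw [e] at z1
    exact z1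
  · rw [prod_all A V G Sc T' κ p hG hSc] at z2
    exact z2

end Vale.Agent.P321
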