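import Vale.Agent.P321.OverlapChain

/-!
# P321, module F (first half): overlap implies smoothness
-/

namespace Vale.Agent.P321

open Finset

namespace Ov

/-- binomial variance -/
theorem binom_var (n : ℕ) :
    ∑ j ∈ range (n + 1), (n.choose j : ℝ) * (2 * (j : ℝ) - n) ^ 2 = (n : ℝ) * 2 ^ n := by
  have h := congrArg (Polynomial.eval (1 / 2 : ℝ)) (bernsteinPolynomial.variance ℝ n)
  rw [Polynomial.eval_finsetSum] at h
  have h1 : ∀ j ∈ range (n + 1), Polynomial.eval (1 / 2 : ℝ)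
      ((n • Polynomial.X - (j : Polynomial ℝ)) ^ 2 * bernsteinPolynomial ℝ n j) =
      (1 / 4) * (1 / 2) ^ n * ((n.choose j : ℝ) * (2 * (j : ℝ) - n) ^ 2) := by
    intro j hj
    have hj' : j ≤ n := Nat.lt_succ_iff.1 (mem_range.1 hj)
    have h2 : (1 / 2 : ℝ) ^ n = (1 / 2) ^ j * (1 / 2) ^ (n - j) := by
      rw [← pow_add]
      congr 1
      omega
    unfold bernsteinPolynomial
    simp only [Polynomial.eval_mul, Polynomial.eval_pow, Polynomial.eval_sub,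
      Polynomial.eval_natCast, Polynomial.eval_X, Polynomial.eval_one, nsmul_eq_mul]
    rw [h2]
    have h3 : (1 - 1 / 2 : ℝ) = 1 / 2 := by norm_num
    rw [h3]
    ring
  rw [Finset.sum_congr rfl h1, ← Finset.mul_sum] at h
  simp only [Polynomial.eval_mul, Polynomial.eval_sub, Polynomial.eval_natCast, Polynomial.eval_X,
    Polynomial.eval_one, nsmul_eq_mul] at h
  have h4 : (1 / 2 : ℝ) ^ n * 2 ^ n = 1 := by
    rw [← mul_pow]
    norm_num
  have h5 := congrArg (fun x : ℝ => 4 * 2 ^ n * x) h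
  calc ∑ j ∈ range (n + 1), (n.choose j : ℝ) * (2 * (j : ℝ) - n) ^ 2
      = (1 / 2 : ℝ) ^ n * 2 ^ n *
        ∑ j ∈ range (n + 1), (n.choose j : ℝ) * (2 * (j : ℝ) - n) ^ 2 := by rw [h4, one_mul]
    _ = 4 * 2 ^ n * (1 / 4 * (1 / 2) ^ n *
        ∑ j ∈ range (n + 1), (n.choose j : ℝ) * (2 * (j : ℝ) - n) ^ 2) := by ring
    _ = 4 * 2 ^ n * ((n : ℝ) * (1 / 2) * (1 - 1 / 2)) := h5
    _ = n * 2 ^ n := by ring

theorem binom_abs (n : ℕ) :
    (∑ j ∈ range (n + 1), (n.choose j : ℝ) * |2 * (j : ℝ) - n|) ^ 2 ≤ n * 4 ^ n := by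
  have h1 := Finset.sum_sq_le_sum_mul_sum_of_sq_le_mul (range (n + 1))
    (r := fun j => (n.choose j : ℝ) * |2 * (j : ℝ) - n|)
    (f := fun j => (n.choose j : ℝ)) (g := fun j => (n.choose j : ℝ) * (2 * (j : ℝ) - n) ^ 2)
    (fun j _ => by positivity) (fun j _ => by positivity)
    (fun j _ => by
      refine le_of_eq ?_
      rw [mul_pow, sq_abs]
      ring)
  refine h1.trans (le_of_eq ?_)
  rw [binom_var n]
  have h2 : ∑ j ∈ range (n + 1), (n.choose j : ℝ) = 2 ^ n := by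
    have h3 := Nat.sum_range_choose n
    exact_mod_cast h3
  rw [h2]
  have h4 : (4 : ℝ) ^ n = 2 ^ n * 2 ^ n := by
    rw [← mul_pow]
    norm_num
  rw [h4]
  ring

theorem add_pow_alg (A : Alg) (n : ℕ) :
    (1 + A) ^ n = ∑ j ∈ range (n + 1), (n.choose j : ℝ) • A ^ j := by
  have h := (Commute.one_right A).add_pow n
  rw [add_comm 1 A, h]
  refine Finset.sum_congr rfl fun j _ => ?_
  rw [one_pow, mul_one, ← Nat.cast_comm, ← nsmul_eq_mul, Nat.cast_smul_eq_nsmul ℝ]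

theorem first_moment (A : Alg) (m : ℕ) :
    ∑ j ∈ range (m + 1 + 1), ((j : ℝ) * ((m + 1).choose j : ℝ)) • A ^ j =
      ((m : ℝ) + 1) • (A * (1 + A) ^ m) := by
  rw [Finset.sum_range_succ']
  simp only [Nat.cast_zero, zero_mul, zero_smul, add_zero]
  rw [add_pow_alg, Finset.mul_sum, Finset.smul_sum]
  refine Finset.sum_congr rfl fun j _ => ?_
  rw [mul_smul_comm, ← pow_succ', smul_smul]
  congr 1
  have h := Nat.add_one_mul_choose_eq m j
  have h2 : ((m : ℝ) + 1) * (m.choose j : ℝ) = ((m + 1).choose (j + 1) : ℝ) * ((j : ℝ) + 1) := by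
    exact_mod_cast h
  push_cast
  rw [h2]
  ring

theorem base_id (A : Alg) (m : ℕ) :
    ((m : ℝ) + 1) • ((1 + A) ^ m * (A - 1)) =
      ∑ j ∈ range (m + 1 + 1), (((m + 1).choose j : ℝ) * (2 * (j : ℝ) - (m + 1 : ℕ))) • A ^ j := by
  have h1 := first_moment A m
  have h2 := add_pow_alg A (m + 1)
  have h3 : ∑ j ∈ range (m + 1 + 1), (((m + 1).choose j : ℝ) * (2 * (j : ℝ) - (m + 1 : ℕ))) • A ^ j
      = (2 : ℝ) • (∑ j ∈ range (m + 1 + 1), ((j : ℝ) * ((m + 1).choose j : ℝ)) • A ^ j) -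
        ((m : ℝ) + 1) • ∑ j ∈ range (m + 1 + 1), ((m + 1).choose j : ℝ) • A ^ j := by
    rw [Finset.smul_sum, Finset.smul_sum, ← Finset.sum_sub_distrib]
    refine Finset.sum_congr rfl fun j _ => ?_
    rw [smul_smul, smul_smul, ← sub_smul]
    congr 1
    push_cast
    ring
  rw [h3, h1, ← h2, smul_comm (2 : ℝ), ← smul_sub]
  congr 1
  have h4 : Commute A ((1 + A) ^ m) :=
    ((Commute.one_right A).add_right (Commute.refl A)).pow_right m
  have h5 : (1 + A) ^ m * A = A * (1 + A) ^ m := h4.eq.symm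
  rw [mul_sub, mul_one, h5, pow_succ, mul_add, mul_one, h5, two_smul]
  abel

theorem nrm_pow {A : Alg} (hA : Prob A) (j : ℕ) : nrm (A ^ j) = 1 := prob_nrm (prob_pow hA j)

theorem base_bound {A : Alg} (hA : Prob A) (m : ℕ) :
    nrm ((1 + A) ^ m * (A - 1)) ^ 2 ≤ 4 ^ (m + 1) / ((m : ℝ) + 1) := by
  have hm : (0 : ℝ) < (m : ℝ) + 1 := by positivity
  have h1 : ((m : ℝ) + 1) * nrm ((1 + A) ^ m * (A - 1)) ≤
      ∑ j ∈ range (m + 1 + 1), ((m + 1).choose j : ℝ) * |2 * (j : ℝ) - (m + 1 : ℕ)| := by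
    have h2 : nrm (((m : ℝ) + 1) • ((1 + A) ^ m * (A - 1))) =
        ((m : ℝ) + 1) * nrm ((1 + A) ^ m * (A - 1)) := by
      rw [nrm_smul, abs_of_pos hm]
    rw [← h2, base_id]
    refine (nrm_sum_le _ _).trans (Finset.sum_le_sum fun j _ => ?_)
    rw [nrm_smul, nrm_pow hA, mul_one, abs_mul, abs_of_nonneg (by positivity)]
  have h3 := pow_le_pow_left₀ (mul_nonneg hm.le (nrm_nonneg _)) h1 2
  have h4 := h3.trans (binom_abs (m + 1))
  rw [mul_pow] at h4
  rw [le_div_iff₀ hm]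
  have h5 : ((m : ℝ) + 1) * (nrm ((1 + A) ^ m * (A - 1)) ^ 2 * ((m : ℝ) + 1)) ≤
      ((m : ℝ) + 1) * 4 ^ (m + 1) := by
    push_cast at h4
    calc ((m : ℝ) + 1) * (nrm ((1 + A) ^ m * (A - 1)) ^ 2 * ((m : ℝ) + 1))
        = ((m : ℝ) + 1) ^ 2 * nrm ((1 + A) ^ m * (A - 1)) ^ 2 := by ring
      _ ≤ ((m : ℝ) + 1) * 4 ^ (m + 1) := h4
  exact le_of_mul_le_mul_left h5 hm

/-- the averaged increments -/
noncomputable def U (A : Alg) (m : ℕ) : Alg := ((1 / 2 : ℝ) • (1 + A)) ^ m * (A - 1)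

theorem U_bound {A : Alg} (hA : Prob A) (m : ℕ) : nrm (U A m) ^ 2 ≤ 4 / ((m : ℝ) + 1) := by
  unfold U
  rw [smul_pow, smul_mul_assoc, nrm_smul, mul_pow, abs_of_nonneg (by positivity)]
  have h := base_bound hA m
  have h1 := mul_le_mul_of_nonneg_left h (by positivity : (0 : ℝ) ≤ ((1 / 2 : ℝ) ^ m) ^ 2)
  refine h1.trans (le_of_eq ?_)
  have h2 : ((1 / 2 : ℝ) ^ m) ^ 2 * 4 ^ m = 1 := by
    rw [← pow_mul, mul_comm m 2, pow_mul, ← mul_pow]
    norm_num
  rw [pow_succ]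
  calc ((1 / 2 : ℝ) ^ m) ^ 2 * (4 ^ m * 4 / ((m : ℝ) + 1))
      = (((1 / 2 : ℝ) ^ m) ^ 2 * 4 ^ m) * 4 / ((m : ℝ) + 1) := by ring
    _ = 4 / ((m : ℝ) + 1) := by rw [h2, one_mul]

/-- one step -/
theorem one_step {A Z : Alg} (hA : Prob A) (s : ℕ) (hZ : Nonneg Z) (h0 : Le Z (A ^ s))
    (h1 : Le Z (A ^ (s + 1))) (X : Alg) :
    nrm (A ^ (s + 1) * X) ≤ mass Z * nrm ((1 / 2 : ℝ) • (1 + A) * X) + (1 - mass Z) * nrm X := by
  set Y0 : Alg := A ^ s - Z with hY0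
  set Y1 : Alg := A ^ (s + 1) - Z with hY1
  have n0 : Nonneg Y0 := by
    intro z
    rw [hY0, MonoidAlgebra.coeff_sub, Finsupp.sub_apply]
    linarith [h0 z]
  have n1 : Nonneg Y1 := by
    intro z
    rw [hY1, MonoidAlgebra.coeff_sub, Finsupp.sub_apply]
    linarith [h1 z]
  have m0 : nrm Y0 = 1 - mass Z := by
    rw [nrm_of_nonneg n0, hY0, mass_sub, mass_pow, hA.2, one_pow]
  have m1 : nrm Y1 = 1 - mass Z := by
    rw [nrm_of_nonneg n1, hY1, mass_sub, mass_pow, hA.2, one_pow]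
  have e : A ^ (s + 1) * X = Z * ((1 / 2 : ℝ) • (1 + A) * X) +
      ((1 / 2 : ℝ) • (Y0 * (A * X)) + (1 / 2 : ℝ) • (Y1 * X)) := by
    have e1 : Y0 * (A * X) = A ^ (s + 1) * X - Z * (A * X) := by
      rw [hY0, sub_mul, ← mul_assoc, ← pow_succ]
    have e2 : Y1 * X = A ^ (s + 1) * X - Z * X := by
      rw [hY1, sub_mul]
    have e3 : Z * ((1 / 2 : ℝ) • (1 + A) * X) = (1 / 2 : ℝ) • (Z * X + Z * (A * X)) := by
      rw [smul_mul_assoc, mul_smul_comm, add_mul, one_mul, mul_add]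
    rw [e1, e2, e3, ← smul_add, ← smul_add]
    have e4 : Z * X + Z * (A * X) + (A ^ (s + 1) * X - Z * (A * X) + (A ^ (s + 1) * X - Z * X)) =
        (2 : ℝ) • (A ^ (s + 1) * X) := by
      rw [two_smul]
      abel
    rw [e4, smul_smul]
    norm_num
  rw [e]
  have hc : 0 ≤ 1 - mass Z := by rw [← m0]; exact nrm_nonneg _
  have b1 : nrm (Z * ((1 / 2 : ℝ) • (1 + A) * X)) ≤ mass Z * nrm ((1 / 2 : ℝ) • (1 + A) * X) := by
    have h := nrm_mul_le Z ((1 / 2 : ℝ) • (1 + A) * X)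
    rwa [nrm_of_nonneg hZ] at h
  have b2 : nrm ((1 / 2 : ℝ) • (Y0 * (A * X))) ≤ (1 / 2) * ((1 - mass Z) * nrm X) := by
    rw [nrm_smul, abs_of_pos (by norm_num)]
    refine mul_le_mul_of_nonneg_left ?_ (by norm_num)
    have h := nrm_mul_le Y0 (A * X)
    rw [m0] at h
    exact h.trans (mul_le_mul_of_nonneg_left (contr_left hA X) hc)
  have b3 : nrm ((1 / 2 : ℝ) • (Y1 * X)) ≤ (1 / 2) * ((1 - mass Z) * nrm X) := by
    rw [nrm_smul, abs_of_pos (by norm_num)]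
    refine mul_le_mul_of_nonneg_left ?_ (by norm_num)
    have h := nrm_mul_le Y1 X
    rwa [m1] at h
  have b4 := nrm_add_le (Z * ((1 / 2 : ℝ) • (1 + A) * X))
    ((1 / 2 : ℝ) • (Y0 * (A * X)) + (1 / 2 : ℝ) • (Y1 * X))
  have b5 := nrm_add_le ((1 / 2 : ℝ) • (Y0 * (A * X))) ((1 / 2 : ℝ) • (Y1 * X))
  linarith

theorem potential {c x : ℝ} (hc0 : 0 ≤ c) (hx : 1 ≤ x) :
    c * (4 / (x + 1)) + (1 - c) * (4 / x) ≤ 4 / (x + c / 2) := by
  have h1 : 0 < x := by linarith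
  have h2 : 0 < x + 1 := by linarith
  have h3 : 0 < x + c / 2 := by linarith
  have e : c * (4 / (x + 1)) + (1 - c) * (4 / x) = 4 * (x + 1 - c) / (x * (x + 1)) := by
    field_simp
    ring
  rw [e, div_le_div_iff₀ (mul_pos h1 h2) h3]
  nlinarith [mul_nonneg hc0 (by linarith : (0 : ℝ) ≤ x - 1), mul_nonneg hc0 hc0]

theorem main_bound {A Z : Alg} (hA : Prob A) (s : ℕ) (hZ : Nonneg Z) (h0 : Le Z (A ^ s))
    (h1 : Le Z (A ^ (s + 1))) (K : ℕ) :
    ∀ m : ℕ, nrm (A ^ ((s + 1) * K) * U A m) ^ 2 ≤ 4 / ((m : ℝ) + 1 + mass Z * K / 2) := by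
  have hc0 : 0 ≤ mass Z := mass_nonneg hZ
  have hc1 : mass Z ≤ 1 := by
    have h := mass_mono h0
    rwa [mass_pow, hA.2, one_pow] at h
  induction K with
  | zero =>
    intro m
    rw [Nat.mul_zero, pow_zero, one_mul]
    have h := U_bound hA m
    simpa using h
  | succ K ih =>
    intro m
    set X : Alg := A ^ ((s + 1) * K) * U A m with hX
    have e1 : A ^ ((s + 1) * (K + 1)) * U A m = A ^ (s + 1) * X := by
      rw [hX, ← mul_assoc, ← pow_add]
      congr 2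
      ring
    have e2 : (1 / 2 : ℝ) • (1 + A) * X = A ^ ((s + 1) * K) * U A (m + 1) := by
      have h4 : Commute ((1 / 2 : ℝ) • (1 + A)) (A ^ ((s + 1) * K)) := by
        refine Commute.smul_left ?_ _
        exact ((Commute.one_left A).add_left (Commute.refl A)).pow_right _
      rw [hX]
      unfold U
      rw [← mul_assoc, h4.eq, mul_assoc, ← mul_assoc, ← mul_assoc, pow_succ' _ m]
      simp only [mul_assoc]
    have h5 := one_step hA s hZ h0 h1 X
    rw [e2] at h5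
    rw [e1]
    have a1 := ih (m + 1)
    have a2 := ih m
    rw [← hX] at a2
    set a := nrm (A ^ ((s + 1) * K) * U A (m + 1)) with ha
    set b := nrm X with hb
    have h6 : nrm (A ^ (s + 1) * X) ^ 2 ≤ mass Z * a ^ 2 + (1 - mass Z) * b ^ 2 := by
      have h7 := pow_le_pow_left₀ (nrm_nonneg _) h5 2
      refine h7.trans ?_
      have h8 : mass Z * a ^ 2 + (1 - mass Z) * b ^ 2 -
          (mass Z * a + (1 - mass Z) * b) ^ 2 = mass Z * (1 - mass Z) * (a - b) ^ 2 := by ring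
      have h9 : 0 ≤ mass Z * (1 - mass Z) * (a - b) ^ 2 :=
        mul_nonneg (mul_nonneg hc0 (by linarith)) (sq_nonneg _)
      linarith
    refine h6.trans ?_
    have hx : (1 : ℝ) ≤ (m : ℝ) + 1 + mass Z * K / 2 := by
      have : 0 ≤ mass Z * K / 2 := by positivity
      have hm : (0 : ℝ) ≤ m := Nat.cast_nonneg m
      linarith
    have h10 := potential hc0 hx
    have e3 : (m : ℝ) + 1 + mass Z * ((K + 1 : ℕ) : ℝ) / 2 =
        (m : ℝ) + 1 + mass Z * K / 2 + mass Z / 2 := by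
      push_cast
      ring
    rw [e3]
    refine le_trans ?_ h10
    refine add_le_add (mul_le_mul_of_nonneg_left (a1.trans (le_of_eq ?_)) hc0)
      (mul_le_mul_of_nonneg_left a2 (by linarith))
    congr 1
    push_cast
    ring

end Ov

open Ov in
theorem overlap_smooth {A Z : Alg} (hA : Prob A) (s : ℕ) (c : ℝ) (hc : 0 < c)
    (hZ : Nonneg Z) (h0 : Le Z (A ^ s)) (h1 : Le Z (A ^ (s + 1))) (hm : c ≤ mass Z) :
    Smooth (200 * (s + 1) / c) A := by
  intro N hN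
  refine Real.le_sqrt_of_sq_le ?_
  set K : ℕ := N / (s + 1) with hK
  have hKN : (s + 1) * K ≤ N := Nat.mul_div_le N (s + 1)
  have hKN2 : N < (s + 1) * (K + 1) := Nat.lt_mul_div_succ N (Nat.succ_pos s)
  have h2 := main_bound hA s hZ h0 h1 K 0
  have h3 : nrm (A ^ N * (A - 1)) ≤ nrm (A ^ ((s + 1) * K) * U A 0) := by
    have e : A ^ N * (A - 1) = A ^ (N - (s + 1) * K) * (A ^ ((s + 1) * K) * U A 0) := by
      unfold U
      rw [pow_zero, one_mul, ← mul_assoc, ← pow_add]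
      congr 2
      omega
    rw [e]
    exact contr_left (prob_pow hA _) _
  have h4 := (pow_le_pow_left₀ (nrm_nonneg _) h3 2).trans h2
  refine h4.trans ?_
  have hN0 : (0 : ℝ) < N := by exact_mod_cast hN
  have hs0 : (0 : ℝ) < (s : ℝ) + 1 := by positivity
  have hc1 : mass Z ≤ 1 := by
    have h := mass_mono h0
    rwa [mass_pow, hA.2, one_pow] at h
  have h5 : (N : ℝ) ≤ ((s : ℝ) + 1) * ((K : ℝ) + 1) := by
    exact_mod_cast hKN2.le
  have h6 : c * N ≤ 2 * ((s : ℝ) + 1) * (((0 : ℕ) : ℝ) + 1 + mass Z * K / 2) := by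
    have h7 : c * N ≤ mass Z * (((s : ℝ) + 1) * ((K : ℝ) + 1)) :=
      mul_le_mul hm h5 hN0.le (by linarith)
    have hK0 : (0 : ℝ) ≤ K := Nat.cast_nonneg K
    have h8 : mass Z * (((s : ℝ) + 1) * ((K : ℝ) + 1)) =
        ((s : ℝ) + 1) * (mass Z * K + mass Z) := by ring
    have h9 : ((s : ℝ) + 1) * (mass Z * K + mass Z) ≤ ((s : ℝ) + 1) * (mass Z * K + 2) :=
      mul_le_mul_of_nonneg_left (by linarith) hs0.le
    have h10 : ((s : ℝ) + 1) * (mass Z * K + 2) =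
        2 * ((s : ℝ) + 1) * (((0 : ℕ) : ℝ) + 1 + mass Z * K / 2) := by
      push_cast
      ring
    linarith
  have hden : (0 : ℝ) < ((0 : ℕ) : ℝ) + 1 + mass Z * K / 2 := by
    have : 0 ≤ mass Z * K / 2 := by
      have := mass_nonneg hZ
      positivity
    push_cast
    linarith
  rw [div_div, div_le_div_iff₀ hden (mul_pos hc hN0)]
  nlinarith [h6, hs0, hden]

end Vale.Agent.P321
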