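import Vale.Agent.P321.ArrayClose
import Vale.Agent.P321.Chain
import Vale.Agent.P321.Overlap

/-!
# P321: the array of defects is smooth
-/

namespace Vale.Agent.P321

open Finset Filter Topology

theorem smooth_mono {A : Alg} {σ σ' : ℝ} (h : Smooth σ A) (hs : σ ≤ σ') : Smooth σ' A := by
  intro N hN
  refine (h N hN).trans (Real.sqrt_le_sqrt ?_)
  exact div_le_div_of_nonneg_right hs (Nat.cast_nonneg _)

namespace Scale

theorem growth {C c1 K ε : ℝ} (hC : 1 ≤ C) (hc : 0 < c1) (hK : 0 < K) (hε : 0 < ε) :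
    ∀ᶠ g : ℕ in atTop, 4 ≤ g ∧ ∃ y : ℝ, 1 ≤ y ∧ 2 * c1 + 4 ≤ y ∧
      Real.log 800 + 2 + 2 * c1 ≤ y * ε ∧ y ^ 2 = Real.log g ∧
      C * K * y ^ 2 ≤ g ∧ (C * y ^ 2) ^ 2 ≤ g := by
  have ty : Tendsto (fun g : ℕ => √(Real.log (g : ℝ))) atTop atTop :=
    Real.tendsto_sqrt_atTop.comp tlog
  have e1 : ∀ᶠ g : ℕ in atTop,
      (2 * c1 + 4) + (Real.log 800 + 2 + 2 * c1) / ε + 1 ≤ √(Real.log (g : ℝ)) :=
    ty.eventually_ge_atTop _
  have lo : ∀ (n : ℕ) (c : ℝ), 0 < c → ∀ᶠ g : ℕ in atTop, (Real.log (g : ℝ)) ^ n ≤ c * g := by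
    intro n c hc
    have h1 := (Real.isLittleO_pow_log_id_atTop (n := n)).bound hc
    have h2 := (tendsto_natCast_atTop_atTop (R := ℝ)).eventually h1
    filter_upwards [h2] with g hg
    rw [id, Real.norm_eq_abs, Real.norm_eq_abs, abs_of_nonneg (Nat.cast_nonneg (α := ℝ) g)] at hg
    exact (le_abs_self _).trans hg
  have hCp : 0 < C := by linarith
  have e2 : ∀ᶠ g : ℕ in atTop, (Real.log (g : ℝ)) ^ 1 ≤ (1 / (C * K)) * g :=
    lo 1 _ (by positivity)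
  have e3 : ∀ᶠ g : ℕ in atTop, (Real.log (g : ℝ)) ^ 2 ≤ (1 / C ^ 2) * g :=
    lo 2 _ (by positivity)
  have e4 : ∀ᶠ g : ℕ in atTop, 4 ≤ g := eventually_ge_atTop 4
  filter_upwards [e1, e2, e3, e4] with g g1 g2 g3 g4
  have hg4 : (4 : ℝ) ≤ g := by exact_mod_cast g4
  have hb0 : 0 ≤ (Real.log 800 + 2 + 2 * c1) / ε := by
    have : 0 ≤ Real.log 800 := Real.log_nonneg (by norm_num)
    positivity
  have hlog0 : 0 < Real.log (g : ℝ) := Real.log_pos (by linarith)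
  have hy2 : √(Real.log (g : ℝ)) ^ 2 = Real.log g := Real.sq_sqrt hlog0.le
  refine ⟨g4, √(Real.log (g : ℝ)), by linarith, by linarith, ?_, hy2, ?_, ?_⟩
  · rw [← div_le_iff₀ hε]
    linarith
  · rw [hy2]
    rw [pow_one, div_mul_eq_mul_div, one_mul, le_div_iff₀ (by positivity)] at g2
    linarith
  · rw [hy2]
    rw [div_mul_eq_mul_div, one_mul, le_div_iff₀ (by positivity)] at g3
    have e : (C * Real.log (g : ℝ)) ^ 2 = Real.log (g : ℝ) ^ 2 * C ^ 2 := by ring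
    rw [e]
    exact g3

/-- splitting `g` into `T'` pieces of length `κ` and a rest `p` -/
theorem split (g T' : ℕ) : ∃ κ p : ℕ, g = T' * κ + p ∧ (κ : ℝ) ≤ p ∧
    (g : ℝ) ≤ p * (T' + 1) ∧ (p : ℝ) * (T' + 1) ≤ g + (T' + 1) * T' := by
  obtain ⟨κ, hκ⟩ : ∃ κ : ℕ, κ = g / (T' + 1) := ⟨_, rfl⟩
  have hκ1 : κ * (T' + 1) ≤ g := by rw [hκ]; exact Nat.div_mul_le_self _ _
  have hκ2 : g < (κ + 1) * (T' + 1) := by
    have := Nat.lt_div_mul_add (a := g) (b := T' + 1) (by omega)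
    rw [← hκ] at this
    calc g < κ * (T' + 1) + (T' + 1) := this
      _ = (κ + 1) * (T' + 1) := by ring
  have hTκ' : κ * (T' + 1) = T' * κ + κ := by ring
  have hTκ : T' * κ ≤ g := by omega
  obtain ⟨p, hp⟩ : ∃ p : ℕ, p = g - T' * κ := ⟨_, rfl⟩
  have hgp : g = T' * κ + p := by omega
  have hpκ : κ ≤ p := by omega
  have hgpR : (g : ℝ) = T' * κ + p := by exact_mod_cast hgp
  have hκR1 : (κ : ℝ) * (T' + 1) ≤ g := by exact_mod_cast hκ1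
  have hκR2 : (g : ℝ) < (κ + 1) * (T' + 1) := by exact_mod_cast hκ2
  have h2 : (g : ℝ) * (T' + 1) = T' * κ * (T' + 1) + p * (T' + 1) := by
    rw [hgpR]; ring
  refine ⟨κ, p, hgp, by exact_mod_cast hpκ, ?_, ?_⟩
  · have h1 : (T' : ℝ) * κ * (T' + 1) ≤ T' * g := by
      have := mul_le_mul_of_nonneg_left hκR1 (Nat.cast_nonneg (α := ℝ) T')
      linarith
    linarith
  · have h3 : (T' : ℝ) * (g - (T' + 1)) ≤ T' * (κ * (T' + 1)) :=
      mul_le_mul_of_nonneg_left (by linarith) (Nat.cast_nonneg _)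
    linarith

/-- the smoothness cost -/
theorem cost {C σ c1 y : ℝ} (g Sc T' κ p : ℕ) (hC : 0 < C) (hσ : 0 < σ)
    (hc1 : 32 * √(σ * C) ≤ c1) (hy : 0 < y) (hg0 : (0 : ℝ) < g) (hSc3 : 3 ≤ Sc)
    (hSc : (g : ℝ) / (C * y ^ 2) / 2 ≤ (Sc : ℝ) - 2) (hT1 : c1 * y ≤ T')
    (hκ : (κ : ℝ) ≤ p) (hp : (p : ℝ) * (T' + 1) ≤ g + (T' + 1) * T')
    (hT : (3 * (T' : ℝ) + 1) * (T' + 1) ≤ g) :
    (2 * p + 1 + κ) * √(σ / ((2 * g + 1 : ℕ) * (Sc - 2 : ℕ) : ℝ)) ≤ 1 / 8 := by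
  have hX : 0 < C * y ^ 2 := by positivity
  have hT0 : (0 : ℝ) < (T' : ℝ) + 1 := by positivity
  have hD : (g : ℝ) ^ 2 / (C * y ^ 2) ≤ ((2 * g + 1 : ℕ) : ℝ) * ((Sc - 2 : ℕ) : ℝ) := by
    rw [Nat.cast_sub (by omega)]
    push_cast
    have h2 : (g : ℝ) ^ 2 / (C * y ^ 2) = (2 * g) * (g / (C * y ^ 2) / 2) := by field_simp
    rw [h2]
    exact mul_le_mul (by linarith) hSc (by positivity) (by positivity)
  have hs1 : √(σ / (((2 * g + 1 : ℕ) : ℝ) * ((Sc - 2 : ℕ) : ℝ))) ≤ √(σ * C) * (y / g) := by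
    have h1 : σ / (((2 * g + 1 : ℕ) : ℝ) * ((Sc - 2 : ℕ) : ℝ)) ≤ (σ * C) * (y / g) ^ 2 := by
      have h2 : σ / (((2 * g + 1 : ℕ) : ℝ) * ((Sc - 2 : ℕ) : ℝ))
          ≤ σ / ((g : ℝ) ^ 2 / (C * y ^ 2)) :=
        div_le_div_of_nonneg_left hσ.le (by positivity) hD
      refine h2.trans (le_of_eq ?_)
      rw [div_pow]
      field_simp
    refine (Real.sqrt_le_sqrt h1).trans (le_of_eq ?_)
    rw [Real.sqrt_mul (by positivity), Real.sqrt_sq (by positivity)]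
  have hlen : (2 * (p : ℝ) + 1 + κ) * (T' + 1) ≤ 4 * g := by
    have h1 : (κ : ℝ) * (T' + 1) ≤ p * (T' + 1) := mul_le_mul_of_nonneg_right hκ hT0.le
    have h2 : (2 * (p : ℝ) + 1 + κ) * (T' + 1)
        = 2 * (p * (T' + 1)) + (T' + 1) + κ * (T' + 1) := by ring
    have h3 : (3 * (T' : ℝ) + 1) * (T' + 1) = 3 * ((T' + 1) * T') + (T' + 1) := by ring
    rw [h2]
    linarith
  have hc1y : 32 * (√(σ * C) * y) ≤ T' + 1 := by
    have : 32 * √(σ * C) * y ≤ c1 * y := mul_le_mul_of_nonneg_right hc1 hy.le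
    linarith
  have hq0 : 0 ≤ √(σ * C) * y := by positivity
  calc (2 * (p : ℝ) + 1 + κ) * √(σ / (((2 * g + 1 : ℕ) : ℝ) * ((Sc - 2 : ℕ) : ℝ)))
      ≤ (2 * (p : ℝ) + 1 + κ) * (√(σ * C) * (y / g)) :=
        mul_le_mul_of_nonneg_left hs1 (by positivity)
    _ = ((2 * (p : ℝ) + 1 + κ) * (T' + 1)) * (√(σ * C) * y) / (g * (T' + 1)) := by
        field_simp
    _ ≤ (4 * g) * (√(σ * C) * y) / (g * (T' + 1)) := by
        apply div_le_div_of_nonneg_right _ (by positivity)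
        exact mul_le_mul_of_nonneg_right hlen hq0
    _ = 4 * (√(σ * C) * y) / (T' + 1) := by field_simp
    _ ≤ 1 / 8 := by
        rw [div_le_div_iff₀ hT0 (by norm_num)]
        linarith

/-- the final exponent -/
theorem final {C c1 y ε : ℝ} (g Sc T' : ℕ) (hC : 0 < C) (hy1 : 1 ≤ y)
    (hg0 : (0 : ℝ) < g) (hg1 : (1 : ℝ) ≤ g)
    (hT2 : (T' : ℝ) ≤ c1 * y + 1) (hTX : 2 * (T' : ℝ) + 2 ≤ C * y ^ 2)
    (hSc1 : (Sc : ℝ) ≤ g / (C * y ^ 2)) (hylog : y ^ 2 = Real.log g)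
    (hε : Real.log 800 + 2 + 2 * c1 ≤ y * ε) :
    200 * (((2 * T' + 1) * Sc : ℕ) + 1) / (1 / 2 : ℝ) ^ (2 * T' + 1) ≤ (g : ℝ) ^ (1 + ε) := by
  have hCX : 0 < C * y ^ 2 := by positivity
  have hs : (((2 * T' + 1) * Sc : ℕ) : ℝ) + 1 ≤ 2 * g := by
    push_cast
    have h1 : (2 * (T' : ℝ) + 1) * Sc ≤ (C * y ^ 2) * (g / (C * y ^ 2)) :=
      mul_le_mul (by linarith) hSc1 (Nat.cast_nonneg _) hCX.le
    rw [mul_div_cancel₀ _ hCX.ne'] at h1
    linarith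
  have h2 : (1 / 2 : ℝ) ^ (2 * T' + 1) = ((2 : ℝ) ^ (2 * T' + 1))⁻¹ := by
    rw [one_div, inv_pow]
  rw [h2, div_inv_eq_mul]
  have h3 : (2 : ℝ) ^ (2 * T' + 1) ≤ 2 * Real.exp (2 * T') := by
    have : (2 : ℝ) ^ 2 ≤ Real.exp 2 := by
      have h5 := Real.add_one_le_exp (1 : ℝ)
      have h6 : Real.exp 2 = Real.exp 1 * Real.exp 1 := by rw [← Real.exp_add]; norm_num
      rw [h6]
      nlinarith
    calc (2 : ℝ) ^ (2 * T' + 1) = 2 * ((2 : ℝ) ^ 2) ^ T' := by rw [← pow_mul, pow_succ]; ring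
      _ ≤ 2 * (Real.exp 2) ^ T' :=
          mul_le_mul_of_nonneg_left (pow_le_pow_left₀ (by norm_num) this _) (by norm_num)
      _ = 2 * Real.exp (2 * T') := by
          rw [← Real.exp_nat_mul]
          congr 2
          ring
  have h4 : Real.exp (2 * T') ≤ Real.exp (2 * (c1 * y + 1)) :=
    Real.exp_le_exp.2 (by linarith)
  have h5 : 800 * Real.exp (2 * (c1 * y + 1)) ≤ (g : ℝ) ^ ε := by
    have h6 : Real.log 800 + 2 * (c1 * y + 1) ≤ ε * y ^ 2 := by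
      have h8 : 0 ≤ Real.log 800 := Real.log_nonneg (by norm_num)
      have h9 : (Real.log 800 + 2) * 1 ≤ (Real.log 800 + 2) * y :=
        mul_le_mul_of_nonneg_left hy1 (by linarith)
      have h10 : (Real.log 800 + 2 + 2 * c1) * y ≤ (y * ε) * y :=
        mul_le_mul_of_nonneg_right hε (by linarith)
      have h11 : (y * ε) * y = ε * y ^ 2 := by ring
      linarith
    rw [Real.rpow_def_of_pos hg0, ← hylog]
    calc 800 * Real.exp (2 * (c1 * y + 1))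
        = Real.exp (Real.log 800) * Real.exp (2 * (c1 * y + 1)) := by
          rw [Real.exp_log (by norm_num)]
      _ = Real.exp (Real.log 800 + 2 * (c1 * y + 1)) := by rw [Real.exp_add]
      _ ≤ Real.exp (y ^ 2 * ε) := Real.exp_le_exp.2 (by linarith)
  rw [Real.rpow_add hg0, Real.rpow_one]
  calc 200 * ((((2 * T' + 1) * Sc : ℕ) : ℝ) + 1) * 2 ^ (2 * T' + 1)
      ≤ 200 * (2 * g) * (2 * Real.exp (2 * (c1 * y + 1))) := by
        apply mul_le_mul (by linarith) (by linarith) (by positivity) (by positivity)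
    _ = g * (800 * Real.exp (2 * (c1 * y + 1))) := by ring
    _ ≤ g * (g : ℝ) ^ ε := mul_le_mul_of_nonneg_left h5 hg0.le

/-- the choice of the parameters -/
theorem params {C σ C1 ε : ℝ} (hC : 1 ≤ C) (hσ : 0 < σ) (hC1 : 0 < C1) (hε : 0 < ε) :
    ∀ᶠ g : ℕ in atTop, ∃ Sc T' κ p : ℕ, g = T' * κ + p ∧ 3 ≤ Sc ∧ 1 ≤ p ∧
      (Sc : ℝ) ≤ g / (C * Real.log g) ∧
      C1 * (p : ℝ) ^ (-(1 / 6 : ℝ)) ≤ 1 / 16 ∧
      (2 * p + 1 + κ) * √(σ / ((2 * g + 1 : ℕ) * (Sc - 2 : ℕ) : ℝ)) ≤ 1 / 8 ∧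
      200 * (((2 * T' + 1) * Sc : ℕ) + 1) / (1 / 2 : ℝ) ^ (2 * T' + 1) ≤ (g : ℝ) ^ (1 + ε) := by
  obtain ⟨c1, hc1⟩ : ∃ c1 : ℝ, c1 = 32 * √(σ * C) + 1 := ⟨_, rfl⟩
  have hc10 : 0 < c1 := by rw [hc1]; positivity
  obtain ⟨K, hK⟩ : ∃ K : ℝ, K = (16 * C1) ^ 6 + 6 := ⟨_, rfl⟩
  have hK0 : 0 < K := by rw [hK]; positivity
  have hK6 : 6 ≤ K := by
    have : 0 ≤ (16 * C1) ^ 6 := by positivity
    linarith
  have hCp : 0 < C := by linarith
  filter_upwards [growth (c1 := 2 * c1) hC (by positivity) hK0 hε] with g hgr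
  obtain ⟨g4, y, hy1, hyc, hye, hylog, hKg, hCg⟩ := hgr
  have hg4 : (4 : ℝ) ≤ g := by exact_mod_cast g4
  have hg0 : (0 : ℝ) < g := by linarith
  rw [← hylog]
  have hy0 : 0 < y := by linarith
  have hCX : 0 < C * y ^ 2 := by positivity
  have hdK : K ≤ g / (C * y ^ 2) := by
    rw [le_div_iff₀ hCX]
    linarith
  obtain ⟨Sc, hSc⟩ : ∃ Sc : ℕ, Sc = ⌊(g : ℝ) / (C * y ^ 2)⌋₊ := ⟨_, rfl⟩
  have hSc1 : (Sc : ℝ) ≤ g / (C * y ^ 2) := by
    rw [hSc]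
    exact Nat.floor_le (by positivity)
  have hSc2 : (g : ℝ) / (C * y ^ 2) - 1 ≤ Sc := by
    have := Nat.lt_floor_add_one ((g : ℝ) / (C * y ^ 2))
    rw [← hSc] at this
    linarith
  have hSc3 : 3 ≤ Sc := by
    have : (3 : ℝ) ≤ Sc := by linarith
    exact_mod_cast this
  obtain ⟨T', hT⟩ : ∃ T' : ℕ, T' = ⌈c1 * y⌉₊ := ⟨_, rfl⟩
  have hT1 : c1 * y ≤ T' := by rw [hT]; exact Nat.le_ceil _
  have hT2 : (T' : ℝ) ≤ c1 * y + 1 := by
    have := Nat.ceil_lt_add_one (show 0 ≤ c1 * y by positivity)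
    rw [← hT] at this
    linarith
  have hTn : (0 : ℝ) ≤ (T' : ℝ) := Nat.cast_nonneg _
  have hTX : 3 * (T' : ℝ) + 3 ≤ C * y ^ 2 + 2 := by
    have h1 : 3 * (T' : ℝ) + 1 ≤ (2 * (2 * c1) + 4) * y := by
      have : 0 < c1 * y := by positivity
      linarith
    have h2 : (2 * (2 * c1) + 4) * y ≤ y * y := mul_le_mul_of_nonneg_right hyc hy0.le
    have h3 : y * y = y ^ 2 := by ring
    have h4 : y ^ 2 ≤ C * y ^ 2 := le_mul_of_one_le_left (by positivity) hC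
    linarith
  have hTX2 : 2 * (T' : ℝ) + 2 ≤ C * y ^ 2 := by
    have h1 : 2 * (T' : ℝ) + 2 ≤ (2 * (2 * c1) + 4) * y := by
      have : 0 < c1 * y := by positivity
      linarith
    have h2 : (2 * (2 * c1) + 4) * y ≤ y * y := mul_le_mul_of_nonneg_right hyc hy0.le
    have h3 : y * y = y ^ 2 := by ring
    have h4 : y ^ 2 ≤ C * y ^ 2 := le_mul_of_one_le_left (by positivity) hC
    linarith
  obtain ⟨κ, p, hgp, hκp, hgT, hpT⟩ := split g T'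
  have hpK : K ≤ p := by
    have h1 : (p : ℝ) * (T' + 1) ≤ p * (C * y ^ 2) :=
      mul_le_mul_of_nonneg_left (by linarith) (Nat.cast_nonneg _)
    have h2 : K * (C * y ^ 2) ≤ p * (C * y ^ 2) := by linarith
    exact le_of_mul_le_mul_right h2 hCX
  refine ⟨Sc, T', κ, p, hgp, hSc3, ?_, hSc1, ?_, ?_, ?_⟩
  · have : (1 : ℝ) ≤ p := by linarith
    exact_mod_cast this
  · have hp0 : (0 : ℝ) < p := by linarith
    have h1 : 16 * C1 ≤ (p : ℝ) ^ (1 / 6 : ℝ) := by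
      have h2 : (16 * C1) ^ 6 ≤ (p : ℝ) := by linarith
      calc 16 * C1 = ((16 * C1) ^ 6) ^ (1 / 6 : ℝ) := by
            rw [← Real.rpow_natCast (16 * C1) 6, ← Real.rpow_mul (by positivity)]
            norm_num
        _ ≤ (p : ℝ) ^ (1 / 6 : ℝ) := Real.rpow_le_rpow (by positivity) h2 (by norm_num)
    rw [Real.rpow_neg hp0.le]
    have h3 : 0 < (p : ℝ) ^ (1 / 6 : ℝ) := Real.rpow_pos_of_pos hp0 _
    rw [← div_eq_mul_inv, div_le_iff₀ h3]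
    linarith
  · refine cost (c1 := c1) g Sc T' κ p hCp hσ (by linarith) hy0 hg0 hSc3 (by linarith) hT1 hκp
      hpT ?_
    have h7 : (3 * (T' : ℝ) + 1) * (T' + 1) ≤ (C * y ^ 2) * (C * y ^ 2) :=
      mul_le_mul (by linarith) (by linarith) (by linarith) hCX.le
    calc (3 * (T' : ℝ) + 1) * (T' + 1) ≤ (C * y ^ 2) * (C * y ^ 2) := h7
      _ = (C * y ^ 2) ^ 2 := by ring
      _ ≤ g := hCg
  · exact final (c1 := c1) g Sc T' hCp hy1 hg0 (by linarith) hT2 hTX2 hSc1 hylog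
      (by linarith)

end Scale

open Scale in
theorem base_array {q : ℝ} (h0 : 0 < q) (h1 : q < 1) (ε : ℝ) (hε : 0 < ε) :
    ∀ᶠ g : ℕ in Filter.atTop,
      Smooth ((g : ℝ) ^ (1 + ε)) (tr q wU ^ g * tr q wV * tr q wU ^ g) := by
  obtain ⟨C, hC, hclose⟩ := base_array_close h0 h1
  obtain ⟨C1, hC1, hsingle⟩ := base_single h0 h1
  have hsm := base_smoothU h0 h1
  have hU : Prob (tr q wU) := tr_prob h0.le h1.le _
  have hV : Prob (tr q wV) := tr_prob h0.le h1.le _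
  obtain ⟨σ, hσ⟩ : ∃ σ : ℝ, σ = 200 / q ^ 2 := ⟨_, rfl⟩
  rw [← hσ] at hsm
  have hσ0 : 0 < σ := by rw [hσ]; positivity
  filter_upwards [hclose, params hC hσ0 hC1 hε] with g hg hp
  obtain ⟨Sc, T', κ, p, p1, p2, p3, p4, p5, p6, p7⟩ := hp
  obtain ⟨Z, z0, z1, z2, z3⟩ := base_chain hU hV hsm g Sc T' κ p p1 p2
    (fun S' a b => hg S' (by omega) ((show (S' : ℝ) ≤ Sc by exact_mod_cast b).trans p4))
    ((hsingle p p3).trans p5) p6
  have hPa : Prob (tr q wU ^ g * tr q wV * tr q wU ^ g) :=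
    prob_mul (prob_mul (prob_pow hU _) hV) (prob_pow hU _)
  exact smooth_mono (overlap_smooth hPa ((2 * T' + 1) * Sc) ((1 / 2) ^ (2 * T' + 1))
    (by positivity) z0 z1 z2 z3) p7

end Vale.Agent.P321
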