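import Vale.Agent.P321.Basic

/-! Dyadic telescoping. -/

namespace Vale.Agent.P321

open Finset

theorem dyadic {a P : Alg} (ha : Prob a) (hP : Prob P) (S : ℕ) (hS : 1 ≤ S) (ω : ℕ → ℝ)
    (h : ∀ S', 1 ≤ S' → S' ≤ S → nrm ((a ^ S' - P ^ S') * P ^ S') ≤ ω S') :
    nrm (a ^ S - P ^ S) ≤ (∑ j ∈ range (Nat.log 2 S), ω (S / 2 ^ (j + 1)))
      + (Nat.log 2 S + 1) * nrm (a - P) := by
  induction S using Nat.strong_induction_on with
  | _ S ih =>
    rcases Nat.lt_or_ge S 2 with h2 | h2
    · have e : S = 1 := by omega
      subst e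
      have l1 : Nat.log 2 1 = 0 := by norm_num
      rw [l1, pow_one, pow_one]
      simp
    · set m := S / 2 with hm
      have hm1 : 1 ≤ m := by omega
      have hmS : m < S := by omega
      have im := ih m hmS hm1 (fun S' a b => h S' a (by omega))
      have nn : 0 ≤ nrm (a - P) := nrm_nonneg _
      have hlog : Nat.log 2 S = Nat.log 2 m + 1 := by
        rw [hm, Nat.log_div_base]
        have : 1 ≤ Nat.log 2 S := Nat.log_pos (by norm_num) h2
        omega
      have even : nrm (a ^ (2 * m) - P ^ (2 * m)) ≤ nrm (a ^ m - P ^ m) + ω m := by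
        have e : a ^ (2 * m) - P ^ (2 * m) = a ^ m * (a ^ m - P ^ m) + (a ^ m - P ^ m) * P ^ m := by
          rw [two_mul, pow_add, pow_add, mul_sub, sub_mul]
          abel
        rw [e]
        refine le_trans (nrm_add_le _ _) ?_
        have k1 := contr_left (prob_pow ha m) (a ^ m - P ^ m)
        have k2 := h m hm1 hmS.le
        linarith
      have step : nrm (a ^ S - P ^ S) ≤ nrm (a ^ m - P ^ m) + ω m + nrm (a - P) := by
        rcases Nat.even_or_odd' S with ⟨c, hc | hc⟩
        · have : S = 2 * m := by omega
          rw [this]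
          linarith
        · have e1 : S = 2 * m + 1 := by omega
          have e : a ^ (2 * m + 1) - P ^ (2 * m + 1)
              = a * (a ^ (2 * m) - P ^ (2 * m)) + (a - P) * P ^ (2 * m) := by
            rw [pow_succ', pow_succ', mul_sub, sub_mul]
            abel
          rw [e1, e]
          refine le_trans (nrm_add_le _ _) ?_
          have k1 := contr_left ha (a ^ (2 * m) - P ^ (2 * m))
          have k2 := contr_right (prob_pow hP (2 * m)) (a - P)
          linarith
      have hsum : ∑ j ∈ range (Nat.log 2 S), ω (S / 2 ^ (j + 1))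
          = (∑ j ∈ range (Nat.log 2 m), ω (m / 2 ^ (j + 1))) + ω m := by
        rw [hlog, sum_range_succ']
        congr 1
        refine sum_congr rfl fun j _ => ?_
        rw [hm, Nat.div_div_eq_div_mul]
        congr 2
        ring
      rw [hsum, hlog]
      push_cast
      linarith

end Vale.Agent.P321
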