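import Vale.Agent.P321.SM
import Vale.Agent.P321.Dyadic

/-!
# P321: one scale of the comparison of the array of defects with the pure background
-/

namespace Vale.Agent.P321

open Finset

namespace Scale

theorem pick {h0 L : ℝ} (g S' : ℕ) (hL : 1 ≤ L) (h8 : 8 ≤ h0) (hg : 64 * h0 ^ 2 ≤ (g : ℝ))
    (hS' : 1 ≤ S') (y : ℝ) (hy0 : 0 < y) (hy1 : y ≤ 1)
    (hy8 : y ^ 8 = S' * L / g) :
    ∃ h M z : ℕ, h0 ≤ h * y ^ 4 ∧ h0 ≤ h ∧ 1 ≤ M ∧ 1 ≤ z ∧ g = M * h + z ∧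
      (g : ℝ) / 2 ≤ z ∧ 16 * (M : ℝ) ≤ g ∧ (S' : ℝ) / M ≤ 8 * h0 / L * y ^ 4 := by
  have hL0 : 0 < L := by linarith
  have hh00 : 0 < h0 := by linarith
  have hg4 : (4 : ℝ) ≤ g := by
    have : (8 : ℝ) * 8 ≤ h0 ^ 2 := by nlinarith
    linarith
  have hg0 : (0 : ℝ) < g := by linarith
  have hS1 : (1 : ℝ) ≤ S' := by exact_mod_cast hS'
  have hS0 : (0 : ℝ) < S' := by linarith
  have hy4 : 0 < y ^ 4 := by positivity
  have hy41 : y ^ 4 ≤ 1 := pow_le_one₀ hy0.le hy1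
  have hq0 : h0 ≤ h0 / y ^ 4 := by
    rw [le_div_iff₀ hy4]
    exact mul_le_of_le_one_right hh00.le hy41
  have hgy : 8 * h0 ≤ g * y ^ 4 := by
    have e : ((g : ℝ) * y ^ 4) ^ 2 = g * (S' * L) := by
      have : ((g : ℝ) * y ^ 4) ^ 2 = g ^ 2 * y ^ 8 := by ring
      rw [this, hy8]
      field_simp
    have e2 : (8 * h0) ^ 2 ≤ ((g : ℝ) * y ^ 4) ^ 2 := by
      rw [e]
      have h1 : (1 : ℝ) ≤ S' * L := one_le_mul_of_one_le_of_one_le hS1 hL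
      have h2 : (g : ℝ) * 1 ≤ g * (S' * L) := mul_le_mul_of_nonneg_left h1 hg0.le
      have h3 : (8 * h0) ^ 2 = 64 * h0 ^ 2 := by ring
      rw [h3]
      linarith
    exact (abs_le_of_sq_le_sq' e2 (by positivity)).2
  obtain ⟨h, hh⟩ : ∃ h : ℕ, h = ⌈h0 / y ^ 4⌉₊ := ⟨_, rfl⟩
  have hh1 : h0 / y ^ 4 ≤ h := by rw [hh]; exact Nat.le_ceil _
  have hh2 : (h : ℝ) ≤ 2 * (h0 / y ^ 4) := by
    have := Nat.ceil_lt_add_one (show 0 ≤ h0 / y ^ 4 by positivity)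
    rw [← hh] at this
    linarith
  have hhR : h0 ≤ h := hq0.trans hh1
  have hhR0 : (0 : ℝ) < h := by linarith
  have h4g : 4 * (h : ℝ) ≤ g := by
    have : h0 / y ^ 4 ≤ g / 8 := by
      rw [div_le_iff₀ hy4]
      linarith
    linarith
  have hhN : 0 < h := by exact_mod_cast hhR0
  have h4gN : 4 * h ≤ g := by exact_mod_cast h4g
  obtain ⟨M, hM⟩ : ∃ M : ℕ, M = g / (2 * h) := ⟨_, rfl⟩
  have hMle : M * (2 * h) ≤ g := by rw [hM]; exact Nat.div_mul_le_self g (2 * h)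
  have hM1 : 1 ≤ M := by rw [hM]; exact (Nat.one_le_div_iff (by omega)).2 (by omega)
  have hMlt : g < (M + 1) * (2 * h) := by
    have := Nat.lt_div_mul_add (a := g) (b := 2 * h) (by omega)
    rw [← hM] at this
    calc g < M * (2 * h) + 2 * h := this
      _ = (M + 1) * (2 * h) := by ring
  have hMR1 : (1 : ℝ) ≤ M := by exact_mod_cast hM1
  have hMR0 : (0 : ℝ) < M := by linarith
  have hMR : (M : ℝ) * (2 * h) ≤ g := by exact_mod_cast hMle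
  have hMR2 : (g : ℝ) ≤ 4 * M * h := by
    have h1 : (g : ℝ) < (M + 1) * (2 * h) := by exact_mod_cast hMlt
    have h2 : ((M : ℝ) + 1) * (2 * h) ≤ (2 * M) * (2 * h) :=
      mul_le_mul_of_nonneg_right (by linarith) (by linarith)
    linarith
  have hMh : M * h ≤ g := by
    have : M * h ≤ M * (2 * h) := Nat.mul_le_mul_left _ (by omega)
    omega
  obtain ⟨z, hz⟩ : ∃ z : ℕ, z = g - M * h := ⟨_, rfl⟩
  have hzG : g = M * h + z := by omega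
  have hzR : (g : ℝ) / 2 ≤ z := by
    have : (g : ℝ) = M * h + z := by exact_mod_cast hzG
    linarith
  refine ⟨h, M, z, ?_, hhR, hM1, ?_, hzG, hzR, ?_, ?_⟩
  · have := mul_le_mul_of_nonneg_right hh1 hy4.le
    rwa [div_mul_cancel₀ _ hy4.ne'] at this
  · have : (1 : ℝ) ≤ z := by linarith
    exact_mod_cast this
  · have h1 : (M : ℝ) * 16 ≤ M * (2 * h) := mul_le_mul_of_nonneg_left (by linarith) hMR0.le
    linarith
  · have hS : (S' : ℝ) = y ^ 8 * g / L := by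
      rw [hy8]
      field_simp
    have hMlow : g * y ^ 4 ≤ 8 * h0 * M := by
      have h1 : (h : ℝ) * y ^ 4 ≤ 2 * h0 := by
        calc (h : ℝ) * y ^ 4 ≤ 2 * (h0 / y ^ 4) * y ^ 4 :=
              mul_le_mul_of_nonneg_right hh2 hy4.le
          _ = 2 * h0 := by field_simp
      calc g * y ^ 4 ≤ 4 * M * h * y ^ 4 := mul_le_mul_of_nonneg_right hMR2 hy4.le
        _ = 4 * M * (h * y ^ 4) := by ring
        _ ≤ 4 * M * (2 * h0) := mul_le_mul_of_nonneg_left h1 (by positivity)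
        _ = 8 * h0 * M := by ring
    rw [div_le_iff₀ hMR0, hS]
    calc y ^ 8 * g / L = (g * y ^ 4) * (y ^ 4 / L) := by ring
      _ ≤ (8 * h0 * M) * (y ^ 4 / L) := mul_le_mul_of_nonneg_right hMlow (by positivity)
      _ = 8 * h0 / L * y ^ 4 * M := by ring

theorem tailb {L : ℝ} (g S' M z : ℕ) (hL : 1 ≤ L) (hLg : Real.log g ≤ L) (hg4 : (4 : ℝ) ≤ g)
    (hS' : 1 ≤ S') (hM1 : 1 ≤ M) (hSL : (S' : ℝ) * L ≤ g) (hzR : (g : ℝ) / 2 ≤ z)
    (hM16 : 16 * (M : ℝ) ≤ g) :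
    (S' : ℝ) * (2 * Real.exp (-(z : ℝ) ^ 2 / (2 * (S' * M)))) ≤ 1 / 2 := by
  have hg0 : (0 : ℝ) < g := by linarith
  have hS1 : (1 : ℝ) ≤ S' := by exact_mod_cast hS'
  have hS0 : (0 : ℝ) < S' := by linarith
  have hMR1 : (1 : ℝ) ≤ M := by exact_mod_cast hM1
  have hMR0 : (0 : ℝ) < M := by linarith
  have k1 : 2 * Real.log g ≤ (z : ℝ) ^ 2 / (2 * (S' * M)) := by
    rw [le_div_iff₀ (by positivity)]
    calc 2 * Real.log g * (2 * (S' * M)) ≤ 2 * L * (2 * (S' * M)) := by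
          apply mul_le_mul_of_nonneg_right _ (by positivity)
          linarith
      _ = 4 * M * (S' * L) := by ring
      _ ≤ 4 * M * g := mul_le_mul_of_nonneg_left hSL (by positivity)
      _ = (16 * M) * (g / 4) := by ring
      _ ≤ g * (g / 4) := mul_le_mul_of_nonneg_right hM16 (by positivity)
      _ = ((g : ℝ) / 2) ^ 2 := by ring
      _ ≤ (z : ℝ) ^ 2 := by
          apply pow_le_pow_left₀ (by positivity) hzR
  have k2 : Real.exp (-(z : ℝ) ^ 2 / (2 * (S' * M))) ≤ ((g : ℝ) ^ 2)⁻¹ := by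
    calc Real.exp (-(z : ℝ) ^ 2 / (2 * (S' * M))) ≤ Real.exp (-(2 * Real.log g)) := by
          apply Real.exp_le_exp.2
          rw [neg_div]
          linarith
      _ = ((g : ℝ) ^ 2)⁻¹ := by
          rw [Real.exp_neg]
          congr 1
          rw [two_mul, Real.exp_add, Real.exp_log hg0]
          ring
  have hSg : (S' : ℝ) ≤ g := by
    have : (S' : ℝ) * 1 ≤ S' * L := mul_le_mul_of_nonneg_left hL hS0.le
    linarith
  calc (S' : ℝ) * (2 * Real.exp (-(z : ℝ) ^ 2 / (2 * (S' * M))))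
      ≤ g * (2 * ((g : ℝ) ^ 2)⁻¹) := by
        apply mul_le_mul hSg _ (by positivity) hg0.le
        linarith
    _ = 2 / g := by field_simp
    _ ≤ 1 / 2 := by
        rw [div_le_div_iff₀ hg0 (by norm_num)]
        linarith

theorem scale {A V : Alg} {σ τ h0 L : ℝ} (hA : Prob A) (hV : Prob V) (hs : Smooth σ A)
    (hσ : 0 ≤ σ) (hτ : 0 ≤ τ) (hρ : Bd τ A (V - A)) (g S' : ℕ) (hL : 1 ≤ L)
    (hLg : Real.log g ≤ L) (hh0 : 4 * σ + 1 ≤ h0) (h8 : 8 ≤ h0) (hg : 64 * h0 ^ 2 ≤ (g : ℝ))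
    (hS' : 1 ≤ S') (hSc : (S' : ℝ) ≤ g / L) (hΓ : τ ^ 2 * (3 * √(8 * h0 / L)) ≤ 1 / 2) :
    nrm (((A ^ g * V * A ^ g) ^ S' - (A ^ (2 * g + 1)) ^ S') * (A ^ (2 * g + 1)) ^ S')
      ≤ (2 * √(2 * (τ ^ 2 * (3 * √(8 * h0 / L)))) + 4 * √(σ / h0))
        * ((S' : ℝ) / (g / L)) ^ (1 / 8 : ℝ) := by
  have hL0 : 0 < L := by linarith
  have hh00 : 0 < h0 := by linarith
  have hg4 : (4 : ℝ) ≤ g := by
    have : (8 : ℝ) * 8 ≤ h0 ^ 2 := by nlinarith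
    linarith
  have hg0 : (0 : ℝ) < g := by linarith
  have hS1 : (1 : ℝ) ≤ S' := by exact_mod_cast hS'
  have hS0 : (0 : ℝ) < S' := by linarith
  have hSL : (S' : ℝ) * L ≤ g := (le_div_iff₀ hL0).1 hSc
  obtain ⟨x, hx⟩ : ∃ x : ℝ, x = (S' : ℝ) / (g / L) := ⟨_, rfl⟩
  have hx' : x = S' * L / g := by rw [hx]; field_simp
  have hx0 : 0 < x := by rw [hx']; positivity
  have hx1 : x ≤ 1 := by
    rw [hx', div_le_one hg0]
    exact hSL
  rw [← hx]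
  obtain ⟨y, hy⟩ : ∃ y : ℝ, y = x ^ (1 / 8 : ℝ) := ⟨_, rfl⟩
  rw [← hy]
  have hy0 : 0 < y := by rw [hy]; exact Real.rpow_pos_of_pos hx0 _
  have hy1 : y ≤ 1 := by rw [hy]; exact Real.rpow_le_one hx0.le hx1 (by norm_num)
  have hy8 : y ^ 8 = x := by
    rw [hy, ← Real.rpow_natCast, ← Real.rpow_mul hx0.le]
    norm_num
  obtain ⟨h, M, z, p1, p2, p3, p4, p5, p6, p7, p8⟩ :=
    pick g S' hL h8 hg hS' y hy0 hy1 (hy8.trans hx')
  have htail := tailb g S' M z hL hLg hg4 hS' p3 hSL p6 p7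
  have hsqr : √((S' : ℝ) / M) ≤ √(8 * h0 / L) * y ^ 2 := by
    refine le_trans (Real.sqrt_le_sqrt p8) (le_of_eq ?_)
    rw [Real.sqrt_mul (by positivity), show y ^ 4 = (y ^ 2) ^ 2 by ring,
      Real.sqrt_sq (by positivity)]
  have hy2 : y ^ 2 ≤ 1 := pow_le_one₀ hy0.le hy1
  have hsqr1 : √((S' : ℝ) / M) ≤ √(8 * h0 / L) :=
    hsqr.trans (mul_le_of_le_one_right (Real.sqrt_nonneg _) hy2)
  have hΓ' : τ ^ 2 * (3 * ((1 : ℕ) : ℝ) * √((S' : ℝ) / M)) ≤ 1 / 2 := by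
    refine le_trans ?_ hΓ
    apply mul_le_mul_of_nonneg_left _ (sq_nonneg τ)
    rw [Nat.cast_one]
    linarith
  have hρ' : Bd τ (A ^ 1) (V - A) := by rw [pow_one]; exact hρ
  have hAV : A ^ 1 + (V - A) = V := by rw [pow_one]; abel
  have hW : Prob (A ^ 1 + (V - A)) := by rw [hAV]; exact hV
  have hh2 : 2 ≤ h := by
    have : (2 : ℝ) ≤ h := by linarith
    exact_mod_cast this
  have key := SM hA hs hσ 1 le_rfl hτ hρ' hW h M z g S' p5 (hh0.trans p2) hh2 p3 p4 hS'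
    htail hΓ'
  rw [hAV] at key
  refine key.trans ?_
  have f1 : √(2 * (τ ^ 2 * (3 * ((1 : ℕ) : ℝ) * √((S' : ℝ) / M))))
      ≤ √(2 * (τ ^ 2 * (3 * √(8 * h0 / L)))) * y := by
    have : 2 * (τ ^ 2 * (3 * ((1 : ℕ) : ℝ) * √((S' : ℝ) / M)))
        ≤ (2 * (τ ^ 2 * (3 * √(8 * h0 / L)))) * y ^ 2 := by
      rw [Nat.cast_one]
      have h1 := mul_le_mul_of_nonneg_left hsqr (show 0 ≤ 2 * (τ ^ 2 * 3) by positivity)
      linarith
    refine le_trans (Real.sqrt_le_sqrt this) (le_of_eq ?_)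
    rw [Real.sqrt_mul (by positivity), Real.sqrt_sq hy0.le]
  have f2 : √(σ / h) ≤ √(σ / h0) * y := by
    have h1 : σ / h ≤ σ / h0 * y ^ 4 := by
      have hhR : (0 : ℝ) < h := by linarith
      rw [div_mul_eq_mul_div, div_le_div_iff₀ hhR hh00]
      calc σ * h0 ≤ σ * (h * y ^ 4) := mul_le_mul_of_nonneg_left p1 hσ
        _ = σ * y ^ 4 * h := by ring
    have h2 : √(σ / h0 * y ^ 4) = √(σ / h0) * y ^ 2 := by
      rw [Real.sqrt_mul (by positivity), show y ^ 4 = (y ^ 2) ^ 2 by ring,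
        Real.sqrt_sq (by positivity)]
    have h3 : y ^ 2 ≤ y := by
      rw [pow_two]
      exact mul_le_of_le_one_right hy0.le hy1
    calc √(σ / h) ≤ √(σ / h0 * y ^ 4) := Real.sqrt_le_sqrt h1
      _ = √(σ / h0) * y ^ 2 := h2
      _ ≤ √(σ / h0) * y := mul_le_mul_of_nonneg_left h3 (Real.sqrt_nonneg _)
  calc 2 * √(2 * (τ ^ 2 * (3 * ((1 : ℕ) : ℝ) * √((S' : ℝ) / M)))) + 4 * √(σ / h)
      ≤ 2 * (√(2 * (τ ^ 2 * (3 * √(8 * h0 / L)))) * y) + 4 * (√(σ / h0) * y) := by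
        linarith
    _ = _ := by ring

theorem geo (n : ℕ) : ∑ j ∈ range n, (15 / 16 : ℝ) ^ (j + 1) = 15 - 15 * (15 / 16 : ℝ) ^ n := by
  induction n with
  | zero => simp
  | succ n ih =>
    rw [Finset.sum_range_succ, ih, pow_succ]
    ring

/-- comparison at all scales -/
theorem all_scales {A V : Alg} {σ τ h0 L : ℝ} (hA : Prob A) (hV : Prob V) (hs : Smooth σ A)
    (hσ : 0 ≤ σ) (hτ : 0 ≤ τ) (hρ : Bd τ A (V - A)) (g S : ℕ) (hL : 1 ≤ L)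
    (hLg : Real.log g ≤ L) (hh0 : 4 * σ + 1 ≤ h0) (h8 : 8 ≤ h0) (hg : 64 * h0 ^ 2 ≤ g)
    (hS : 1 ≤ S) (hSc : (S : ℝ) ≤ g / L) (hΓ : τ ^ 2 * (3 * √(8 * h0 / L)) ≤ 1 / 2) :
    nrm ((A ^ g * V * A ^ g) ^ S - (A ^ (2 * g + 1)) ^ S)
      ≤ 15 * (2 * √(2 * (τ ^ 2 * (3 * √(8 * h0 / L)))) + 4 * √(σ / h0))
        + (Nat.log 2 S + 1) * nrm (A ^ g * (V - A) * A ^ g) := by
  have hPa : Prob (A ^ g * V * A ^ g) := prob_mul (prob_mul (prob_pow hA _) hV) (prob_pow hA _)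
  have hL0 : 0 < L := by linarith
  have hg0 : (0 : ℝ) < g := by nlinarith
  set K : ℝ := 2 * √(2 * (τ ^ 2 * (3 * √(8 * h0 / L)))) + 4 * √(σ / h0) with hK
  have hK0 : 0 ≤ K := by positivity
  have key := dyadic hPa (prob_pow hA (2 * g + 1)) S hS
    (fun S' => K * ((S' : ℝ) / (g / L)) ^ (1 / 8 : ℝ)) (fun S' h1 h2 => by
      have h2' : (S' : ℝ) ≤ S := by exact_mod_cast h2
      exact scale hA hV hs hσ hτ hρ g S' hL hLg hh0 h8 hg h1 (h2'.trans hSc) hΓ)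
  refine key.trans ?_
  have e1 : A ^ g * V * A ^ g - A ^ (2 * g + 1) = A ^ g * (V - A) * A ^ g := by
    have : A ^ (2 * g + 1) = A ^ g * A * A ^ g := by
      rw [← pow_succ, ← pow_add]
      congr 1
      omega
    rw [this]
    noncomm_ring
  rw [e1]
  have hsum : ∑ j ∈ range (Nat.log 2 S), K * (((S / 2 ^ (j + 1) : ℕ) : ℝ) / (g / L)) ^ (1 / 8 : ℝ)
      ≤ 15 * K := by
    have hterm : ∀ j ∈ range (Nat.log 2 S),
        K * (((S / 2 ^ (j + 1) : ℕ) : ℝ) / (g / L)) ^ (1 / 8 : ℝ)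
          ≤ K * (15 / 16 : ℝ) ^ (j + 1) := by
      intro j _
      apply mul_le_mul_of_nonneg_left _ hK0
      have hc : ((S / 2 ^ (j + 1) : ℕ) : ℝ) ≤ (S : ℝ) / 2 ^ (j + 1) := by
        have := @Nat.cast_div_le ℝ _ _ _ S (2 ^ (j + 1))
        simpa using this
      have hx : ((S / 2 ^ (j + 1) : ℕ) : ℝ) / (g / L) ≤ ((15 / 16 : ℝ) ^ (j + 1)) ^ 8 := by
        rw [div_le_iff₀ (by positivity)]
        have h1 : (1 / 2 : ℝ) ^ (j + 1) ≤ ((15 / 16 : ℝ) ^ (j + 1)) ^ 8 := by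
          rw [← pow_mul, mul_comm, pow_mul]
          exact pow_le_pow_left₀ (by norm_num) (by norm_num) _
        calc ((S / 2 ^ (j + 1) : ℕ) : ℝ) ≤ (S : ℝ) / 2 ^ (j + 1) := hc
          _ = (1 / 2 : ℝ) ^ (j + 1) * S := by
              rw [one_div, inv_pow]
              field_simp
          _ ≤ ((15 / 16 : ℝ) ^ (j + 1)) ^ 8 * (g / L) :=
              mul_le_mul h1 hSc (Nat.cast_nonneg _) (by positivity)
      calc (((S / 2 ^ (j + 1) : ℕ) : ℝ) / (g / L)) ^ (1 / 8 : ℝ)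
          ≤ (((15 / 16 : ℝ) ^ (j + 1)) ^ 8) ^ (1 / 8 : ℝ) :=
            Real.rpow_le_rpow (by positivity) hx (by norm_num)
        _ = (15 / 16 : ℝ) ^ (j + 1) := by
            rw [← Real.rpow_natCast (((15 / 16 : ℝ)) ^ (j + 1)) 8, ← Real.rpow_mul (by positivity)]
            norm_num
    calc ∑ j ∈ range (Nat.log 2 S), K * (((S / 2 ^ (j + 1) : ℕ) : ℝ) / (g / L)) ^ (1 / 8 : ℝ)
        ≤ ∑ j ∈ range (Nat.log 2 S), K * (15 / 16 : ℝ) ^ (j + 1) := Finset.sum_le_sum hterm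
      _ = K * (15 - 15 * (15 / 16 : ℝ) ^ (Nat.log 2 S)) := by rw [← Finset.mul_sum, geo]
      _ ≤ 15 * K := by
          have : (0 : ℝ) ≤ (15 / 16 : ℝ) ^ (Nat.log 2 S) := by positivity
          nlinarith
  linarith

end Scale

end Vale.Agent.P321
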