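import Vale.Agent.P321.Base
import Vale.Agent.P321.Scale

/-!
# P321: the array of defects is close to the pure background
-/

namespace Vale.Agent.P321

open Finset Filter Topology

namespace Scale

theorem log2_le {S g : ℕ} (hS : 1 ≤ S) (h : S ≤ g) : (Nat.log 2 S : ℝ) ≤ 2 * Real.log g := by
  have h1 : 2 ^ Nat.log 2 S ≤ S := Nat.pow_log_le_self 2 (by omega)
  have h2 : ((2 : ℝ) ^ Nat.log 2 S) ≤ g := by exact_mod_cast h1.trans h
  have h3 : Real.log ((2 : ℝ) ^ Nat.log 2 S) ≤ Real.log g :=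
    Real.log_le_log (by positivity) h2
  rw [Real.log_pow] at h3
  have h4 := Real.log_two_gt_d9
  have h5 : (0 : ℝ) ≤ (Nat.log 2 S : ℝ) := Nat.cast_nonneg _
  nlinarith

theorem tlog : Tendsto (fun g : ℕ => Real.log (g : ℝ)) atTop atTop :=
  Real.tendsto_log_atTop.comp tendsto_natCast_atTop_atTop

theorem t1 (H : ℝ) : Tendsto (fun g : ℕ => √(8 * H / Real.log (g : ℝ))) atTop (𝓝 0) := by
  have h1 : Tendsto (fun g : ℕ => 8 * H / Real.log (g : ℝ)) atTop (𝓝 0) :=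
    tlog.const_div_atTop _
  have h2 := (Real.continuous_sqrt.tendsto 0).comp h1
  rw [Real.sqrt_zero] at h2
  exact h2

theorem t2 (H τ : ℝ) : Tendsto (fun g : ℕ =>
    15 * (2 * √(2 * (τ ^ 2 * (3 * √(8 * H / Real.log (g : ℝ))))))) atTop (𝓝 0) := by
  have h1 : Tendsto (fun g : ℕ => 2 * (τ ^ 2 * (3 * √(8 * H / Real.log (g : ℝ))))) atTop
      (𝓝 (2 * (τ ^ 2 * (3 * 0)))) :=
    (((t1 H).const_mul 3).const_mul (τ ^ 2)).const_mul 2
  have h2 := (Real.continuous_sqrt.tendsto (2 * (τ ^ 2 * (3 * 0)))).comp h1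
  have h3 := (h2.const_mul 2).const_mul 15
  have e : 15 * (2 * √(2 * (τ ^ 2 * (3 * 0)))) = 0 := by simp
  rw [e] at h3
  exact h3

theorem t3 (C0 : ℝ) : Tendsto (fun g : ℕ =>
    (2 * Real.log (g : ℝ) + 1) * (C0 * (g : ℝ) ^ (-(1 / 6 : ℝ)))) atTop (𝓝 0) := by
  have h1 : Tendsto (fun x : ℝ => Real.log x / x ^ (1 / 6 : ℝ)) atTop (𝓝 0) :=
    (isLittleO_log_rpow_atTop (by norm_num : (0 : ℝ) < 1 / 6)).tendsto_div_nhds_zero
  have h2 : Tendsto (fun x : ℝ => x ^ (-(1 / 6 : ℝ))) atTop (𝓝 0) :=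
    tendsto_rpow_neg_atTop (by norm_num)
  have h3 : Tendsto (fun x : ℝ => 2 * C0 * (Real.log x / x ^ (1 / 6 : ℝ))
      + C0 * x ^ (-(1 / 6 : ℝ))) atTop (𝓝 (2 * C0 * 0 + C0 * 0)) :=
    (h1.const_mul _).add (h2.const_mul _)
  rw [mul_zero, mul_zero, add_zero] at h3
  have h4 := h3.comp (tendsto_natCast_atTop_atTop (R := ℝ))
  refine h4.congr (fun g => ?_)
  simp only [Function.comp]
  rw [Real.rpow_neg (Nat.cast_nonneg g)]
  ring

end Scale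

open Scale in
theorem base_array_close {q : ℝ} (h0 : 0 < q) (h1 : q < 1) : ∃ C : ℝ, 1 ≤ C ∧
    ∀ᶠ g : ℕ in Filter.atTop, ∀ S : ℕ, 1 ≤ S → (S : ℝ) ≤ g / (C * Real.log g) →
      nrm ((tr q wU ^ g * tr q wV * tr q wU ^ g) ^ S - (tr q wU ^ (2 * g + 1)) ^ S) ≤ 1 / 8 := by
  refine ⟨1, le_rfl, ?_⟩
  obtain ⟨C0, hC0, hC⟩ := base_single h0 h1
  have hsm := base_smoothU h0 h1
  have hbd := base_bd h0 h1
  have hU : Prob (tr q wU) := tr_prob h0.le h1.le _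
  have hV : Prob (tr q wV) := tr_prob h0.le h1.le _
  obtain ⟨σ, hσ⟩ : ∃ σ : ℝ, σ = 200 / q ^ 2 := ⟨_, rfl⟩
  rw [← hσ] at hsm
  have hσ0 : 0 < σ := by rw [hσ]; positivity
  obtain ⟨H, hH⟩ : ∃ H : ℝ, H = 1920 ^ 2 * σ + 4 * σ + 9 := ⟨_, rfl⟩
  have hH0 : 0 < H := by rw [hH]; positivity
  have hHs : √(σ / H) ≤ 1 / 1920 := by
    rw [Real.sqrt_le_left (by norm_num), div_le_iff₀ hH0, hH]
    nlinarith
  have e1 : ∀ᶠ g : ℕ in atTop, 1 ≤ Real.log (g : ℝ) := tlog.eventually_ge_atTop 1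
  have e2 : ∀ᶠ g : ℕ in atTop, 64 * H ^ 2 ≤ (g : ℝ) :=
    (tendsto_natCast_atTop_atTop (R := ℝ)).eventually_ge_atTop _
  have e3 : ∀ᶠ g : ℕ in atTop,
      15 * (2 * √(2 * ((1 / q) ^ 2 * (3 * √(8 * H / Real.log (g : ℝ)))))) ≤ 1 / 32 :=
    (t2 H (1 / q)).eventually_le_const (by norm_num)
  have e4 : ∀ᶠ g : ℕ in atTop, (1 / q) ^ 2 * (3 * √(8 * H / Real.log (g : ℝ))) ≤ 1 / 2 := by
    have : Tendsto (fun g : ℕ => (1 / q) ^ 2 * (3 * √(8 * H / Real.log (g : ℝ)))) atTop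
        (𝓝 ((1 / q) ^ 2 * (3 * 0))) := ((t1 H).const_mul 3).const_mul _
    rw [mul_zero, mul_zero] at this
    exact this.eventually_le_const (by norm_num)
  have e5 : ∀ᶠ g : ℕ in atTop,
      (2 * Real.log (g : ℝ) + 1) * (C0 * (g : ℝ) ^ (-(1 / 6 : ℝ))) ≤ 1 / 32 :=
    (t3 C0).eventually_le_const (by norm_num)
  have e6 : ∀ᶠ g : ℕ in atTop, 1 ≤ g := eventually_ge_atTop 1
  filter_upwards [e1, e2, e3, e4, e5, e6] with g g1 g2 g3 g4 g5 g6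
  intro S hS hSg
  rw [one_mul] at hSg
  have hg0 : (0 : ℝ) < g := by exact_mod_cast g6
  have hSgN : S ≤ g := by
    have : (S : ℝ) ≤ g := by
      refine hSg.trans ?_
      rw [div_le_iff₀ (by linarith)]
      nlinarith
    exact_mod_cast this
  have key := all_scales hU hV hsm hσ0.le (by positivity) hbd g S g1 le_rfl
    (show 4 * σ + 1 ≤ H by rw [hH]; nlinarith) (show 8 ≤ H by rw [hH]; nlinarith) g2 hS hSg g4
  refine key.trans ?_
  have k1 := hC g g6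
  have k2 := log2_le hS hSgN
  have k3 : ((Nat.log 2 S : ℝ) + 1)
      * nrm (tr q wU ^ g * (tr q wV - tr q wU) * tr q wU ^ g)
      ≤ (2 * Real.log g + 1) * (C0 * (g : ℝ) ^ (-(1 / 6 : ℝ))) :=
    mul_le_mul (by linarith) k1 (nrm_nonneg _) (by linarith)
  linarith

end Vale.Agent.P321
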