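import Vale.Agent.P321.Dom

/-! # P321 E: expansion of the Thue-Morse words -/

namespace Vale.Agent.P321

open Finset

theorem mon_empty (A d : Alg) (M : ℕ) : mon A d M ∅ = A ^ M := by
  simp [mon]

theorem mon_succ (A d : Alg) (M : ℕ) (I : Finset ℕ) :
    mon A d (M + 1) I = mon A d M I * (if M ∈ I then d else A) := by
  simp [mon, List.range_succ]

theorem mon_congr (A d : Alg) (M : ℕ) (I I' : Finset ℕ) (h : ∀ i < M, (i ∈ I ↔ i ∈ I')) :
    mon A d M I = mon A d M I' := by
  unfold mon
  congr 1
  apply List.map_congr_left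
  intro i hi
  rw [List.mem_range] at hi
  simp only [h i hi]

theorem mon_add (A d : Alg) (m n : ℕ) (I I' : Finset ℕ) (hI : I ⊆ range m) :
    mon A d (m + n) (I ∪ I'.image (fun i => m + i)) = mon A d m I * mon A d n I' := by
  induction n with
  | zero =>
    have h0 : mon A d 0 I' = 1 := by simp [mon]
    rw [h0, mul_one, Nat.add_zero]
    apply mon_congr
    intro i hi
    rw [mem_union, mem_image]
    constructor
    · rintro (h | ⟨j, _, h⟩)
      · exact h
      · omega
    · intro h
      exact Or.inl h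
  | succ n ih =>
    rw [← Nat.add_assoc, mon_succ, mon_succ, ih, mul_assoc]
    congr 2
    have h1 : (m + n ∈ I ∪ I'.image (fun i => m + i)) ↔ n ∈ I' := by
      rw [mem_union, mem_image]
      constructor
      · rintro (h | ⟨j, hj, h⟩)
        · have := mem_range.1 (hI h)
          omega
        · have : j = n := by omega
          exact this ▸ hj
      · intro h
        exact Or.inr ⟨n, h, rfl⟩
    simp only [h1]

theorem mon_shift (A d : Alg) (m n : ℕ) (I' : Finset ℕ) :
    mon A d (m + n) (I'.image (fun i => m + i)) = A ^ m * mon A d n I' := by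
  have h := mon_add A d m n ∅ I' (empty_subset _)
  rwa [empty_union, mon_empty] at h

theorem mon_pad (A d : Alg) (m n : ℕ) (I : Finset ℕ) (hI : I ⊆ range m) :
    mon A d (m + n) I = mon A d m I * A ^ n := by
  have h := mon_add A d m n I ∅ hI
  rwa [image_empty, union_empty, mon_empty] at h

theorem mon_expand (A d : Alg) (M : ℕ) : ∀ S : Finset ℕ, S ⊆ range M →
    mon A (A + d) M S = ∑ I ∈ S.powerset, mon A d M I := by
  induction M with
  | zero =>
    intro S hS
    have : S = ∅ := by
      rw [range_zero] at hS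
      exact subset_empty.1 hS
    subst this
    simp [mon]
  | succ M ih =>
    intro S hS
    by_cases hM : M ∈ S
    · have hS' : S.erase M ⊆ range M := by
        intro i hi
        rw [mem_erase] at hi
        have := mem_range.1 (hS hi.2)
        exact mem_range.2 (by omega)
      have hins : insert M (S.erase M) = S := insert_erase hM
      rw [mon_succ, if_pos hM]
      have e1 : mon A (A + d) M S = mon A (A + d) M (S.erase M) := by
        apply mon_congr
        intro i hi
        rw [mem_erase]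
        constructor
        · intro h
          exact ⟨by omega, h⟩
        · intro h
          exact h.2
      rw [e1, ih _ hS', mul_add, sum_mul, sum_mul]
      have e2 : ∑ I ∈ S.powerset, mon A d (M + 1) I
          = ∑ I ∈ (S.erase M).powerset, mon A d (M + 1) I
            + ∑ I ∈ (S.erase M).powerset, mon A d (M + 1) (insert M I) := by
        conv_lhs => rw [← hins]
        exact sum_powerset_insert (notMem_erase M S) _
      rw [e2]
      congr 1
      · apply sum_congr rfl
        intro I hI
        rw [mem_powerset] at hI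
        have : M ∉ I := fun h => notMem_erase M S (hI h)
        rw [mon_succ, if_neg this]
      · apply sum_congr rfl
        intro I hI
        rw [mem_powerset] at hI
        rw [mon_succ, if_pos (mem_insert_self _ _)]
        congr 1
        apply mon_congr
        intro i hi
        rw [mem_insert]
        constructor
        · intro h
          exact Or.inr h
        · rintro (h | h)
          · omega
          · exact h
    · have hS' : S ⊆ range M := by
        intro i hi
        have h1 := mem_range.1 (hS hi)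
        have h2 : i ≠ M := fun h => hM (h ▸ hi)
        exact mem_range.2 (by omega)
      rw [mon_succ, if_neg hM, ih _ hS', sum_mul]
      apply sum_congr rfl
      intro I hI
      rw [mem_powerset] at hI
      rw [mon_succ, if_neg (fun h => hM (hI h))]

theorem tm_sets (J : ℕ) : ∃ SA SB : Finset ℕ, SA ⊆ range (2 ^ J) ∧ SB ⊆ range (2 ^ J) ∧
    (∀ A B : Alg, (tm A B J).1 = mon A B (2 ^ J) SA ∧ (tm A B J).2 = mon A B (2 ^ J) SB) ∧
    ∀ A d : Alg,
      (∑ i ∈ SB, mon A d (2 ^ J) {i}) - (∑ i ∈ SA, mon A d (2 ^ J) {i}) = comm A d J := by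
  induction J with
  | zero =>
    refine ⟨∅, {0}, empty_subset _, by simp, ?_, ?_⟩
    · intro A B
      simp [tm, mon]
    · intro A d
      simp [mon, comm]
  | succ J ih =>
    obtain ⟨SA, SB, hA, hB, hw, hc⟩ := ih
    have hinj : Set.InjOn (fun i => 2 ^ J + i) (Set.univ : Set ℕ) := by
      intro a _ b _ h
      simpa using h
    have e2 : 2 ^ (J + 1) = 2 ^ J + 2 ^ J := by ring
    have sub : ∀ X Y : Finset ℕ, X ⊆ range (2 ^ J) → Y ⊆ range (2 ^ J) →
        X ∪ Y.image (fun i => 2 ^ J + i) ⊆ range (2 ^ (J + 1)) := by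
      intro X Y hX hY i hi
      rw [mem_union, mem_image] at hi
      rw [mem_range, e2]
      rcases hi with h | ⟨j, hj, h⟩
      · have := mem_range.1 (hX h)
        omega
      · have := mem_range.1 (hY hj)
        omega
    have dis : ∀ X Y : Finset ℕ, X ⊆ range (2 ^ J) →
        Disjoint X (Y.image (fun i => 2 ^ J + i)) := by
      intro X Y hX
      rw [Finset.disjoint_left]
      intro i hi hi'
      rw [mem_image] at hi'
      obtain ⟨j, _, h⟩ := hi'
      have := mem_range.1 (hX hi)
      omega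
    have sm : ∀ (X Y : Finset ℕ), X ⊆ range (2 ^ J) → ∀ A d : Alg,
        ∑ i ∈ X ∪ Y.image (fun i => 2 ^ J + i), mon A d (2 ^ (J + 1)) {i}
          = (∑ i ∈ X, mon A d (2 ^ J) {i}) * A ^ (2 ^ J)
            + A ^ (2 ^ J) * ∑ i ∈ Y, mon A d (2 ^ J) {i} := by
      intro X Y hX A d
      rw [sum_union (dis X Y hX), sum_image (by
        intro a _ b _ h
        simpa using h), sum_mul, mul_sum, e2]
      congr 1
      · apply sum_congr rfl
        intro i hi
        exact mon_pad A d _ _ _ (singleton_subset_iff.2 (hX hi))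
      · apply sum_congr rfl
        intro i _
        have := mon_shift A d (2 ^ J) (2 ^ J) {i}
        rwa [image_singleton] at this
    refine ⟨SA ∪ SB.image (fun i => 2 ^ J + i), SB ∪ SA.image (fun i => 2 ^ J + i),
      sub _ _ hA hB, sub _ _ hB hA, ?_, ?_⟩
    · intro A B
      obtain ⟨h1, h2⟩ := hw A B
      constructor
      · show (tm A B J).1 * (tm A B J).2 = _
        rw [e2, mon_add A B _ _ _ _ hA, h1, h2]
      · show (tm A B J).2 * (tm A B J).1 = _
        rw [e2, mon_add A B _ _ _ _ hB, h1, h2]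
    · intro A d
      rw [sm _ _ hB, sm _ _ hA]
      show _ = comm A d J * A ^ (2 ^ J) - A ^ (2 ^ J) * comm A d J
      rw [← hc A d]
      noncomm_ring

theorem tm_expand (J : ℕ) : ∃ SA SB : Finset ℕ, SA ⊆ range (2 ^ J) ∧ SB ⊆ range (2 ^ J) ∧
    ∀ A d : Alg,
      (tm A (A + d) J).1 = ∑ I ∈ SA.powerset, mon A d (2 ^ J) I ∧
      (tm A (A + d) J).2 = ∑ I ∈ SB.powerset, mon A d (2 ^ J) I ∧
      (∑ i ∈ SB, mon A d (2 ^ J) {i}) - (∑ i ∈ SA, mon A d (2 ^ J) {i}) = comm A d J := by
  obtain ⟨SA, SB, hA, hB, hw, hc⟩ := tm_sets J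
  refine ⟨SA, SB, hA, hB, fun A d => ⟨?_, ?_, hc A d⟩⟩
  · rw [(hw A (A + d)).1, mon_expand A d _ _ hA]
  · rw [(hw A (A + d)).2, mon_expand A d _ _ hB]

theorem bd_self {A : Alg} (hA : Nonneg A) : Bd 1 A A := by
  intro z
  rw [one_mul, abs_of_nonneg (hA z)]

theorem mon_bd {A d : Alg} {t : ℝ} (hA : Prob A) (hd : Bd t A d) (ht : 0 ≤ t) (M : ℕ)
    (I : Finset ℕ) (hI : I ⊆ range M) : Bd (t ^ I.card) (A ^ M) (mon A d M I) := by
  induction M generalizing I with
  | zero =>
    have : I = ∅ := by
      rw [range_zero] at hI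
      exact subset_empty.1 hI
    subst this
    rw [mon_empty, card_empty, pow_zero]
    exact bd_self (nonneg_pow hA.1 0)
  | succ M ih =>
    by_cases hM : M ∈ I
    · have hI' : I.erase M ⊆ range M := by
        intro i hi
        rw [mem_erase] at hi
        have := mem_range.1 (hI hi.2)
        exact mem_range.2 (by omega)
      have e1 : mon A d M I = mon A d M (I.erase M) := by
        apply mon_congr
        intro i hi
        rw [mem_erase]
        constructor
        · intro h
          exact ⟨by omega, h⟩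
        · intro h
          exact h.2
      have h := bd_mul (nonneg_pow hA.1 M) hA.1 (pow_nonneg ht _) ht (ih _ hI') hd
      rw [mon_succ, if_pos hM, e1, pow_succ]
      have hc : I.card = (I.erase M).card + 1 := (card_erase_add_one hM).symm
      rw [hc, pow_succ]
      exact h
    · have hI' : I ⊆ range M := by
        intro i hi
        have h1 := mem_range.1 (hI hi)
        have h2 : i ≠ M := fun h => hM (h ▸ hi)
        exact mem_range.2 (by omega)
      have h := bd_mul (nonneg_pow hA.1 M) hA.1 (pow_nonneg ht _) zero_le_one (ih _ hI')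
        (bd_self hA.1)
      rw [mul_one] at h
      rw [mon_succ, if_neg hM, pow_succ]
      exact h

theorem mon_mass {A d : Alg} (hA : Prob A) (hd : mass d = 0) (M : ℕ) (I : Finset ℕ)
    (hI : I ⊆ range M) (hne : I.Nonempty) : mass (mon A d M I) = 0 := by
  induction M with
  | zero =>
    obtain ⟨i, hi⟩ := hne
    have := mem_range.1 (hI hi)
    omega
  | succ M ih =>
    rw [mon_succ, mass_mul]
    by_cases hM : M ∈ I
    · rw [if_pos hM, hd, mul_zero]
    · have hI' : I ⊆ range M := by
        intro i hi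
        have h1 := mem_range.1 (hI hi)
        have h2 : i ≠ M := fun h => hM (h ▸ hi)
        exact mem_range.2 (by omega)
      rw [ih hI', zero_mul]

theorem mon_glue (A d : Alg) (x y z M M' : ℕ) (I I' : Finset ℕ) (hI : I ⊆ range M)
    (hI' : I' ⊆ range M') :
    A ^ x * mon A d M I * A ^ y * mon A d M' I' * A ^ z
      = mon A d (x + M + y + M' + z)
          (I.image (fun i => x + i) ∪ I'.image (fun i => x + M + y + i)) := by
  have s1 : I.image (fun i => x + i) ⊆ range (x + M) := by
    intro i hi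
    rw [mem_image] at hi
    obtain ⟨j, hj, rfl⟩ := hi
    have := mem_range.1 (hI hj)
    exact mem_range.2 (by omega)
  have s2 : I.image (fun i => x + i) ⊆ range (x + M + y) := by
    intro i hi
    have := mem_range.1 (s1 hi)
    exact mem_range.2 (by omega)
  have s3 : I.image (fun i => x + i) ∪ I'.image (fun i => x + M + y + i)
      ⊆ range (x + M + y + M') := by
    intro i hi
    rw [mem_union] at hi
    rcases hi with h | h
    · have := mem_range.1 (s2 h)
      exact mem_range.2 (by omega)
    · rw [mem_image] at h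
      obtain ⟨j, hj, rfl⟩ := h
      have := mem_range.1 (hI' hj)
      exact mem_range.2 (by omega)
  rw [mon_pad A d _ z _ s3, mon_add A d _ _ _ _ s2, mon_pad A d _ y _ s1, mon_shift A d x M I]

theorem tm_prob {A B : Alg} (hA : Prob A) (hB : Prob B) (J : ℕ) :
    Prob (tm A B J).1 ∧ Prob (tm A B J).2 := by
  induction J with
  | zero => exact ⟨hA, hB⟩
  | succ J ih => exact ⟨prob_mul ih.1 ih.2, prob_mul ih.2 ih.1⟩

theorem step_prob {A B : Alg} (hA : Prob A) (hB : Prob B) (J G : ℕ) :
    Prob (stepA J G A B) ∧ Prob (stepB J G A B) := by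
  obtain ⟨h1, h2⟩ := tm_prob hA hB J
  exact ⟨prob_mul (prob_mul (prob_pow hA G) h1) (prob_pow hA G),
    prob_mul (prob_mul (prob_pow hA G) h2) (prob_pow hA G)⟩

theorem nrm_mul_sub {X Y X' Y' : Alg} {e : ℝ} (hX' : Prob X') (hY : Prob Y)
    (h1 : nrm (X - X') ≤ e) (h2 : nrm (Y - Y') ≤ e) : nrm (X * Y - X' * Y') ≤ 2 * e := by
  have e0 : X * Y - X' * Y' = (X - X') * Y + X' * (Y - Y') := by noncomm_ring
  rw [e0]
  have h3 := nrm_add_le ((X - X') * Y) (X' * (Y - Y'))
  have h4 := contr_right hY (X - X')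
  have h5 := contr_left hX' (Y - Y')
  linarith

theorem tm_pert {A B B' : Alg} {e : ℝ} (hA : Prob A) (hB : Prob B) (hB' : Prob B')
    (h : nrm (B - B') ≤ e) (J : ℕ) :
    nrm ((tm A B J).1 - (tm A B' J).1) ≤ 2 ^ J * e ∧
    nrm ((tm A B J).2 - (tm A B' J).2) ≤ 2 ^ J * e := by
  induction J with
  | zero =>
    constructor
    · show nrm (A - A) ≤ _
      rw [sub_self, nrm_zero]
      have := (nrm_nonneg (B - B')).trans h
      simpa using this
    · show nrm (B - B') ≤ _
      simpa using h
  | succ J ih =>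
    obtain ⟨p1, p2⟩ := tm_prob hA hB J
    obtain ⟨q1, q2⟩ := tm_prob hA hB' J
    have e2 : (2 : ℝ) ^ (J + 1) * e = 2 * (2 ^ J * e) := by ring
    rw [e2]
    exact ⟨nrm_mul_sub q1 p2 ih.1 ih.2, nrm_mul_sub q2 p1 ih.2 ih.1⟩

theorem coeff_sum {ι : Type*} (s : Finset ι) (f : ι → Alg) (z : Wd) :
    (∑ i ∈ s, f i).coeff z = ∑ i ∈ s, (f i).coeff z := by
  classical
  induction s using Finset.induction_on with
  | empty => simp [czero]
  | insert a s ha ih => rw [sum_insert ha, sum_insert ha, cadd, ih]

theorem tm_bd {A d : Alg} {t : ℝ} (hA : Prob A) (hd : Bd t A d) (hm : mass d = 0) (ht : 0 ≤ t)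
    (ht1 : t ≤ 1) (J : ℕ) :
    Bd (2 ^ (2 ^ J) * t) (A ^ (2 ^ J)) ((tm A (A + d) J).1 - A ^ (2 ^ J)) ∧
    mass ((tm A (A + d) J).1 - A ^ (2 ^ J)) = 0 := by
  obtain ⟨SA, SB, hSA, _, hw⟩ := tm_expand J
  have e0 : (tm A (A + d) J).1 - A ^ (2 ^ J)
      = ∑ I ∈ SA.powerset.erase ∅, mon A d (2 ^ J) I := by
    rw [(hw A d).1, ← add_sum_erase _ _ (empty_mem_powerset SA), mon_empty]
    abel
  have hsub : ∀ I ∈ SA.powerset.erase ∅, I ⊆ range (2 ^ J) ∧ I.Nonempty := by
    intro I hI
    rw [mem_erase, mem_powerset] at hI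
    exact ⟨hI.2.trans hSA, nonempty_iff_ne_empty.2 hI.1⟩
  constructor
  · intro z
    rw [e0, coeff_sum]
    have h1 : ∀ I ∈ SA.powerset.erase ∅,
        |(mon A d (2 ^ J) I).coeff z| ≤ t * (A ^ (2 ^ J)).coeff z := by
      intro I hI
      obtain ⟨h2, h3⟩ := hsub I hI
      refine (mon_bd hA hd ht (2 ^ J) I h2 z).trans ?_
      have h4 : t ^ I.card ≤ t ^ 1 :=
        pow_le_pow_of_le_one ht ht1 (card_pos.2 h3)
      rw [pow_one] at h4
      exact mul_le_mul_of_nonneg_right h4 (nonneg_pow hA.1 _ z)
    have h2 : |∑ I ∈ SA.powerset.erase ∅, (mon A d (2 ^ J) I).coeff z|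
        ≤ ∑ _I ∈ SA.powerset.erase ∅, t * (A ^ (2 ^ J)).coeff z :=
      (abs_sum_le_sum_abs _ _).trans (sum_le_sum h1)
    rw [sum_const, nsmul_eq_mul] at h2
    have h3 : (SA.powerset.erase ∅).card ≤ 2 ^ (2 ^ J) := by
      have h4 : (SA.powerset.erase ∅).card ≤ SA.powerset.card := card_erase_le
      rw [card_powerset] at h4
      have h5 : SA.card ≤ 2 ^ J := by
        have := card_le_card hSA
        rwa [card_range] at this
      exact h4.trans (Nat.pow_le_pow_right (by norm_num) h5)
    have h4 : ((SA.powerset.erase ∅).card : ℝ) ≤ 2 ^ (2 ^ J) := by exact_mod_cast h3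
    have h5 : 0 ≤ t * (A ^ (2 ^ J)).coeff z := mul_nonneg ht (nonneg_pow hA.1 _ z)
    calc _ ≤ ((SA.powerset.erase ∅).card : ℝ) * (t * (A ^ (2 ^ J)).coeff z) := h2
      _ ≤ 2 ^ (2 ^ J) * (t * (A ^ (2 ^ J)).coeff z) := mul_le_mul_of_nonneg_right h4 h5
      _ = _ := by ring
  · rw [e0, mass_sum]
    apply sum_eq_zero
    intro I hI
    obtain ⟨h2, h3⟩ := hsub I hI
    exact mon_mass hA hm _ I h2 h3

end Vale.Agent.P321
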