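import Mathlib

/-!
# P321: Hoeffding inequality on a finite product space
-/

namespace Vale.Agent.P321.Hoeff

open Finset

variable {α : Type*} [Fintype α]

/-- weight of a sample point -/
noncomputable def wt {M : ℕ} (w : α → ℝ) (ω : Fin M → α) : ℝ := ∏ i, w (ω i)

omit [Fintype α] in
theorem wt_nonneg {M : ℕ} {w : α → ℝ} (h : ∀ a, 0 ≤ w a) (ω : Fin M → α) : 0 ≤ wt w ω :=
  Finset.prod_nonneg (fun _ _ => h _)

theorem sum_prod {M : ℕ} (g : Fin M → α → ℝ) :
    ∑ ω : Fin M → α, ∏ i, g i (ω i) = ∏ i, ∑ a, g i a := by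
  classical
  rw [Finset.prod_univ_sum, Fintype.piFinset_univ]

theorem wt_sum {M : ℕ} {w : α → ℝ} (hw : ∑ a, w a = 1) : ∑ ω : Fin M → α, wt w ω = 1 := by
  unfold wt
  rw [sum_prod (fun _ a => w a)]
  simp [hw]

/-- exchange of the coordinates outside `p` -/
def swp {α : Type*} {M : ℕ} (p : Fin M → Prop) [DecidablePred p] (x : (Fin M → α) × (Fin M → α)) :
    (Fin M → α) × (Fin M → α) :=
  (fun i => if p i then x.1 i else x.2 i, fun i => if p i then x.2 i else x.1 i)

theorem swp_swp {α : Type*} {M : ℕ} (p : Fin M → Prop) [DecidablePred p] :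
    Function.Involutive (swp (α := α) p) := by
  intro x
  unfold swp
  refine Prod.ext ?_ ?_
  · funext i
    by_cases h : p i <;> simp [h]
  · funext i
    by_cases h : p i <;> simp [h]

theorem indep {M : ℕ} (w : α → ℝ) (hw : ∑ a, w a = 1) (p : Fin M → Prop) [DecidablePred p]
    (g h : (Fin M → α) → ℝ) (hg : ∀ ω ω', (∀ i, p i → ω i = ω' i) → g ω = g ω')
    (hh : ∀ ω ω', (∀ i, ¬ p i → ω i = ω' i) → h ω = h ω') :
    ∑ ω, wt w ω * (g ω * h ω) = (∑ ω, wt w ω * g ω) * (∑ ω, wt w ω * h ω) := by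
  have e1 : (∑ ω, wt w ω * g ω) * (∑ ω, wt w ω * h ω)
      = ∑ x : (Fin M → α) × (Fin M → α), (wt w x.1 * g x.1) * (wt w x.2 * h x.2) := by
    rw [Finset.sum_mul_sum, Fintype.sum_prod_type]
  have e2 : ∑ ω, wt w ω * (g ω * h ω)
      = ∑ x : (Fin M → α) × (Fin M → α), (wt w x.1 * (g x.1 * h x.1)) * wt w x.2 := by
    rw [Fintype.sum_prod_type]
    simp only [← Finset.mul_sum]
    rw [wt_sum hw]
    simp
  rw [e1, e2]
  symm
  refine Fintype.sum_equiv (Function.Involutive.toPerm (swp (α := α) p) (swp_swp p)) _ _ ?_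
  intro x
  rw [Function.Involutive.coe_toPerm]
  have k1 : wt w (swp p x).1 * wt w (swp p x).2 = wt w x.1 * wt w x.2 := by
    unfold wt swp
    rw [← Finset.prod_mul_distrib, ← Finset.prod_mul_distrib]
    refine Finset.prod_congr rfl (fun i _ => ?_)
    by_cases h : p i
    · simp [h]
    · simp only [h, if_false]
      ring
  have k2 : g (swp p x).1 = g x.1 := by
    refine hg _ _ (fun i hi => ?_)
    simp [swp, hi]
  have k3 : h (swp p x).1 = h x.2 := by
    refine hh _ _ (fun i hi => ?_)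
    simp [swp, hi]
  rw [k2, k3]
  calc wt w x.1 * g x.1 * (wt w x.2 * h x.2) = (wt w x.1 * wt w x.2) * (g x.1 * h x.2) := by ring
    _ = (wt w (swp p x).1 * wt w (swp p x).2) * (g x.1 * h x.2) := by rw [k1]
    _ = _ := by ring

/-- the chord bound for the exponential -/
theorem exp_chord {b x : ℝ} (hb : 0 < b) (hx : |x| ≤ b) :
    Real.exp x ≤ Real.cosh b + x * (Real.sinh b / b) := by
  have h1 := abs_le.1 hx
  have hc := convexOn_exp.2 (Set.mem_univ (-b)) (Set.mem_univ b)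
    (show 0 ≤ (b - x) / (2 * b) by
      apply div_nonneg <;> linarith) (show 0 ≤ (b + x) / (2 * b) by
      apply div_nonneg <;> linarith) (by field_simp; ring)
  have e : ((b - x) / (2 * b)) • (-b) + ((b + x) / (2 * b)) • b = x := by
    simp only [smul_eq_mul]
    field_simp
    ring
  rw [e] at hc
  refine le_trans hc (le_of_eq ?_)
  rw [Real.cosh_eq, Real.sinh_eq]
  simp only [smul_eq_mul]
  field_simp
  ring

theorem mgf_one {M : ℕ} {w : α → ℝ} (hw0 : ∀ a, 0 ≤ w a) (hw : ∑ a, w a = 1)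
    (X : (Fin M → α) → ℝ) (b : ℝ) (hb : ∀ ω, |X ω| ≤ b) (hb0 : 0 ≤ b)
    (hX : ∑ ω, wt w ω * X ω = 0) :
    ∑ ω, wt w ω * Real.exp (X ω) ≤ Real.exp (b ^ 2 / 2) := by
  rcases hb0.eq_or_lt with h | h
  · have : ∀ ω, X ω = 0 := by
      intro ω
      have := hb ω
      rw [← h] at this
      exact abs_nonpos_iff.1 this
    simp only [this, Real.exp_zero, mul_one, wt_sum hw]
    rw [← h]
    simp
  · calc ∑ ω, wt w ω * Real.exp (X ω)
        ≤ ∑ ω, wt w ω * (Real.cosh b + X ω * (Real.sinh b / b)) :=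
          Finset.sum_le_sum (fun ω _ => mul_le_mul_of_nonneg_left (exp_chord h (hb ω))
            (wt_nonneg hw0 ω))
      _ = (∑ ω, wt w ω) * Real.cosh b + (∑ ω, wt w ω * X ω) * (Real.sinh b / b) := by
          rw [Finset.sum_mul, Finset.sum_mul, ← Finset.sum_add_distrib]
          exact Finset.sum_congr rfl (fun ω _ => by ring)
      _ = Real.cosh b := by rw [wt_sum hw, hX]; ring
      _ ≤ _ := Real.cosh_le_exp_half_sq b

theorem mgf {M : ℕ} {w : α → ℝ} (hw0 : ∀ a, 0 ≤ w a) (hw : ∑ a, w a = 1)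
    (X : ℕ → (Fin M → α) → ℝ) (I : ℕ → Finset ℕ) (b : ℝ) (hb0 : 0 ≤ b) (c : ℕ → ℝ) (l : ℝ)
    (V : Finset ℕ)
    (hb : ∀ v ∈ V, ∀ ω, |X v ω| ≤ b)
    (hX : ∀ v ∈ V, ∑ ω, wt w ω * X v ω = 0)
    (hdep : ∀ v ∈ V, ∀ ω ω' : Fin M → α, (∀ i : Fin M, (i : ℕ) ∈ I v → ω i = ω' i) →
      X v ω = X v ω')
    (hdis : ∀ v ∈ V, ∀ v' ∈ V, v ≠ v' → Disjoint (I v) (I v')) :
    ∑ ω, wt w ω * Real.exp (l * ∑ v ∈ V, c v * X v ω)
      ≤ Real.exp (l ^ 2 * b ^ 2 * (∑ v ∈ V, c v ^ 2) / 2) := by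
  classical
  induction V using Finset.induction_on with
  | empty =>
    simp [wt_sum hw]
  | insert v V hv ih =>
    have ih' := ih (fun u hu => hb u (Finset.mem_insert_of_mem hu))
      (fun u hu => hX u (Finset.mem_insert_of_mem hu))
      (fun u hu => hdep u (Finset.mem_insert_of_mem hu))
      (fun u hu u' hu' => hdis u (Finset.mem_insert_of_mem hu) u' (Finset.mem_insert_of_mem hu'))
    have hvm : v ∈ insert v V := Finset.mem_insert_self v V
    have e1 : ∀ ω : Fin M → α, wt w ω * Real.exp (l * ∑ u ∈ insert v V, c u * X u ω)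
        = wt w ω * (Real.exp (l * c v * X v ω) * Real.exp (l * ∑ u ∈ V, c u * X u ω)) := by
      intro ω
      rw [← Real.exp_add, Finset.sum_insert hv]
      congr 2
      ring
    rw [Finset.sum_congr rfl (fun ω _ => e1 ω)]
    rw [indep w hw (fun i : Fin M => (i : ℕ) ∈ I v)
      (fun ω => Real.exp (l * c v * X v ω)) (fun ω => Real.exp (l * ∑ u ∈ V, c u * X u ω))
      (fun ω ω' h => by
        show Real.exp (l * c v * X v ω) = Real.exp (l * c v * X v ω')
        rw [hdep v hvm ω ω' h])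
      (fun ω ω' h => by
        show Real.exp (l * ∑ u ∈ V, c u * X u ω) = Real.exp (l * ∑ u ∈ V, c u * X u ω')
        congr 2
        refine Finset.sum_congr rfl (fun u hu => ?_)
        rw [hdep u (Finset.mem_insert_of_mem hu) ω ω' (fun i hi => h i (fun hi' => ?_))]
        have hne : v ≠ u := fun h => hv (h ▸ hu)
        exact (Finset.disjoint_left.1 (hdis v hvm u (Finset.mem_insert_of_mem hu) hne)) hi' hi)]
    have g1 : ∑ ω, wt w ω * Real.exp (l * c v * X v ω) ≤ Real.exp ((|l * c v| * b) ^ 2 / 2) := by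
      refine mgf_one hw0 hw (fun ω => l * c v * X v ω) (|l * c v| * b) ?_ (by positivity) ?_
      · intro ω
        rw [abs_mul]
        exact mul_le_mul_of_nonneg_left (hb v hvm ω) (abs_nonneg _)
      · have := hX v hvm
        calc ∑ ω, wt w ω * (l * c v * X v ω) = l * c v * ∑ ω, wt w ω * X v ω := by
              rw [Finset.mul_sum]
              exact Finset.sum_congr rfl (fun ω _ => by ring)
          _ = 0 := by rw [this, mul_zero]
    have g0 : 0 ≤ ∑ ω, wt w ω * Real.exp (l * ∑ u ∈ V, c u * X u ω) :=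
      Finset.sum_nonneg (fun ω _ => mul_nonneg (wt_nonneg hw0 ω) (Real.exp_pos _).le)
    refine le_trans (mul_le_mul g1 ih' g0 (Real.exp_pos _).le) ?_
    rw [← Real.exp_add, Finset.sum_insert hv]
    apply le_of_eq
    congr 1
    rw [mul_pow, sq_abs]
    ring

/-- Hoeffding tail bound -/
theorem tail {M : ℕ} {w : α → ℝ} (hw0 : ∀ a, 0 ≤ w a) (hw : ∑ a, w a = 1)
    (X : ℕ → (Fin M → α) → ℝ) (I : ℕ → Finset ℕ) (b : ℝ) (hb0 : 0 ≤ b) (c : ℕ → ℝ)
    (V : Finset ℕ)
    (hb : ∀ v ∈ V, ∀ ω, |X v ω| ≤ b)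
    (hX : ∀ v ∈ V, ∑ ω, wt w ω * X v ω = 0)
    (hdep : ∀ v ∈ V, ∀ ω ω' : Fin M → α, (∀ i : Fin M, (i : ℕ) ∈ I v → ω i = ω' i) →
      X v ω = X v ω')
    (hdis : ∀ v ∈ V, ∀ v' ∈ V, v ≠ v' → Disjoint (I v) (I v')) (Λ : ℝ) (hΛ : 0 < Λ) :
    ∑ ω, (if Λ * b * √(∑ v ∈ V, c v ^ 2) < |∑ v ∈ V, c v * X v ω| then wt w ω else 0)
      ≤ 2 * Real.exp (-Λ ^ 2 / 2) := by
  set Q : ℝ := ∑ v ∈ V, c v ^ 2 with hQ
  have hQ0 : 0 ≤ Q := Finset.sum_nonneg (fun v _ => sq_nonneg _)
  rcases (mul_nonneg hb0 (Real.sqrt_nonneg Q)).eq_or_lt with h0 | hpos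
  · have hT : ∀ ω : Fin M → α, ∑ v ∈ V, c v * X v ω = 0 := by
      intro ω
      refine Finset.sum_eq_zero (fun v hv => ?_)
      rcases mul_eq_zero.1 h0.symm with h | h
      · have := hb v hv ω
        rw [h] at this
        rw [abs_nonpos_iff.1 this, mul_zero]
      · have hQz : Q = 0 := (Real.sqrt_eq_zero hQ0).1 h
        rw [hQ] at hQz
        have := (Finset.sum_eq_zero_iff_of_nonneg (fun v _ => sq_nonneg (c v))).1 hQz v hv
        rw [pow_eq_zero_iff (by norm_num)] at this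
        rw [this, zero_mul]
    have hz : ∀ ω : Fin M → α,
        (if Λ * b * √Q < |∑ v ∈ V, c v * X v ω| then wt w ω else 0) = 0 := by
      intro ω
      rw [hT ω, abs_zero, if_neg]
      rw [mul_assoc, ← h0, mul_zero]
      exact lt_irrefl _
    rw [Finset.sum_congr rfl (fun ω _ => hz ω)]
    simp only [Finset.sum_const_zero]
    positivity
  · set s : ℝ := Λ * b * √Q with hs
    set l : ℝ := Λ / (b * √Q) with hl
    have hl0 : 0 < l := div_pos hΛ hpos
    have hlL : l * (b * √Q) = Λ := div_mul_cancel₀ Λ hpos.ne'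
    have hls : l * s = Λ ^ 2 := by
      calc l * s = Λ * (l * (b * √Q)) := by rw [hs]; ring
        _ = Λ ^ 2 := by rw [hlL]; ring
    have hlb : l ^ 2 * b ^ 2 * Q / 2 = Λ ^ 2 / 2 := by
      have hsq : √Q ^ 2 = Q := Real.sq_sqrt hQ0
      calc l ^ 2 * b ^ 2 * Q / 2 = l ^ 2 * b ^ 2 * √Q ^ 2 / 2 := by rw [hsq]
        _ = (l * (b * √Q)) ^ 2 / 2 := by ring
        _ = _ := by rw [hlL]
    have m1 := mgf hw0 hw X I b hb0 c l V hb hX hdep hdis
    have m2 := mgf hw0 hw X I b hb0 c (-l) V hb hX hdep hdis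
    rw [← hQ] at m1 m2
    rw [neg_sq] at m2
    rw [hlb] at m1 m2
    have pt : ∀ ω : Fin M → α,
        (if s < |∑ v ∈ V, c v * X v ω| then wt w ω else 0)
        ≤ Real.exp (-Λ ^ 2) * (wt w ω * Real.exp (l * ∑ v ∈ V, c v * X v ω)
            + wt w ω * Real.exp (-l * ∑ v ∈ V, c v * X v ω)) := by
      intro ω
      set T := ∑ v ∈ V, c v * X v ω with hT
      have hw' := wt_nonneg hw0 ω
      split_ifs with h
      · have h1 : Real.exp (l * s) ≤ Real.exp (l * T) + Real.exp (-l * T) := by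
          rcases le_or_gt 0 T with hp | hn
          · rw [abs_of_nonneg hp] at h
            have : Real.exp (l * s) ≤ Real.exp (l * T) :=
              Real.exp_le_exp.2 (mul_le_mul_of_nonneg_left h.le hl0.le)
            have := Real.exp_pos (-l * T)
            linarith
          · rw [abs_of_neg hn] at h
            have : Real.exp (l * s) ≤ Real.exp (-l * T) :=
              Real.exp_le_exp.2 (by nlinarith)
            have := Real.exp_pos (l * T)
            linarith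
        rw [hls] at h1
        have h2 : Real.exp (-Λ ^ 2) * Real.exp (Λ ^ 2) = 1 := by
          rw [← Real.exp_add]
          simp
        calc wt w ω = wt w ω * (Real.exp (-Λ ^ 2) * Real.exp (Λ ^ 2)) := by rw [h2, mul_one]
          _ ≤ wt w ω * (Real.exp (-Λ ^ 2) * (Real.exp (l * T) + Real.exp (-l * T))) := by
              apply mul_le_mul_of_nonneg_left _ hw'
              exact mul_le_mul_of_nonneg_left h1 (Real.exp_pos _).le
          _ = _ := by ring
      · have := Real.exp_pos (-Λ ^ 2)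
        positivity
    calc ∑ ω, (if s < |∑ v ∈ V, c v * X v ω| then wt w ω else 0)
        ≤ ∑ ω, Real.exp (-Λ ^ 2) * (wt w ω * Real.exp (l * ∑ v ∈ V, c v * X v ω)
            + wt w ω * Real.exp (-l * ∑ v ∈ V, c v * X v ω)) :=
          Finset.sum_le_sum (fun ω _ => pt ω)
      _ = Real.exp (-Λ ^ 2) * (∑ ω, wt w ω * Real.exp (l * ∑ v ∈ V, c v * X v ω)
            + ∑ ω, wt w ω * Real.exp (-l * ∑ v ∈ V, c v * X v ω)) := by
          rw [← Finset.mul_sum, Finset.sum_add_distrib]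
      _ ≤ Real.exp (-Λ ^ 2) * (Real.exp (Λ ^ 2 / 2) + Real.exp (Λ ^ 2 / 2)) :=
          mul_le_mul_of_nonneg_left (add_le_add m1 m2) (Real.exp_pos _).le
      _ = 2 * (Real.exp (-Λ ^ 2) * Real.exp (Λ ^ 2 / 2)) := by ring
      _ = 2 * Real.exp (-Λ ^ 2 / 2) := by
          rw [← Real.exp_add]
          congr 2
          ring

end Vale.Agent.P321.Hoeff
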