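import Vale.Agent.P321.Dom
import Vale.Agent.P321.HoeffProb

/-!
# P321: Hoeffding domination for sums of monomials
-/

namespace Vale.Agent.P321

open Finset

namespace Hoeff

/-- push-forward under concatenation, general weights -/
theorem push {α : Type*} [Fintype α] (u : α → Wd) (M : ℕ) : ∀ (W : ℕ → α → ℝ),
    ((List.range M).map (fun i => ∑ a, (MonoidAlgebra.single (u a) (W i a) : Alg))).prod
      = ∑ ω : Fin M → α, (MonoidAlgebra.single ((List.ofFn (fun i => u (ω i))).prod)
          (∏ i : Fin M, W i (ω i)) : Alg) := by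
  induction M with
  | zero =>
    intro W
    simp [MonoidAlgebra.one_def]
  | succ M ih =>
    intro W
    rw [List.range_succ_eq_map, List.map_cons, List.map_map, List.prod_cons]
    have e0 : (fun i => ∑ a, (MonoidAlgebra.single (u a) (W i a) : Alg)) ∘ Nat.succ
        = fun i => ∑ a, (MonoidAlgebra.single (u a) (W (i + 1) a) : Alg) := rfl
    rw [e0, ih (fun i => W (i + 1)), Finset.sum_mul_sum]
    rw [← (Fin.consEquiv (fun _ => α)).sum_comp, Fintype.sum_prod_type]
    refine Finset.sum_congr rfl (fun a _ => Finset.sum_congr rfl (fun ω _ => ?_))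
    rw [MonoidAlgebra.single_mul_single]
    have e1 : (Fin.consEquiv (fun _ : Fin (M + 1) => α)) (a, ω) = Fin.cons a ω := rfl
    rw [e1, List.ofFn_succ, List.prod_cons, Fin.prod_univ_succ]
    simp only [Fin.cons_zero, Fin.cons_succ, Fin.val_zero, Fin.val_succ]

theorem repr (A d : Alg) (h : ∀ z, A.coeff z = 0 → d.coeff z = 0) :
    d = ∑ a : A.coeff.support, (MonoidAlgebra.single (a : Wd) (d.coeff a) : Alg) := by
  rw [Finset.sum_coe_sort A.coeff.support
    (fun z => (MonoidAlgebra.single z (d.coeff z) : Alg))]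
  conv_lhs => rw [← MonoidAlgebra.sum_coeff_single d]
  rw [Finsupp.sum]
  refine Finset.sum_subset ?_ ?_
  · intro z hz
    rw [Finsupp.mem_support_iff] at hz ⊢
    exact fun h' => hz (h z h')
  · intro z _ hz
    rw [Finsupp.notMem_support_iff] at hz
    rw [hz, MonoidAlgebra.single_zero]

open Classical in
theorem coeff_push {Ω : Type*} [Fintype Ω] (cc : Ω → Wd) (G : Ω → ℝ) (z : Wd) :
    (∑ ω, (MonoidAlgebra.single (cc ω) (G ω) : Alg)).coeff z
      = ∑ ω, if cc ω = z then G ω else 0 := by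
  rw [MonoidAlgebra.coeff_sum, Finsupp.finsetSum_apply]
  refine Finset.sum_congr rfl (fun ω _ => ?_)
  rw [MonoidAlgebra.coeff_single, Finsupp.single_apply]

end Hoeff

open Hoeff in
theorem hoeff_gen {A d : Alg} {t b : ℝ} (hA : Prob A) (hd : Bd t A d) (hm : mass d = 0)
    (ht : 0 ≤ t) (hb : 0 ≤ b) (M : ℕ) (V : Finset ℕ) (I : ℕ → Finset ℕ)
    (hI : ∀ v ∈ V, I v ⊆ range M)
    (hdis : ∀ v ∈ V, ∀ v' ∈ V, v ≠ v' → Disjoint (I v) (I v'))
    (hne : ∀ v ∈ V, (I v).Nonempty) (hcard : ∀ v ∈ V, t ^ (I v).card ≤ b)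
    (c : ℕ → ℝ) (Λ : ℝ) (hΛ : 0 < Λ) :
    Dom (Λ * b * √(∑ v ∈ V, c v ^ 2)) (2 * Real.exp (-Λ ^ 2 / 2) * (b * ∑ v ∈ V, |c v|)) (A ^ M)
      (∑ v ∈ V, c v • mon A d M (I v)) := by
  classical
  -- the one-letter space
  set w : A.coeff.support → ℝ := fun a => A.coeff a with hw
  set f : A.coeff.support → ℝ := fun a => d.coeff a / A.coeff a with hf
  have hz : ∀ z, A.coeff z = 0 → d.coeff z = 0 := by
    intro z h
    have := hd z
    rw [h, mul_zero] at this
    exact abs_nonpos_iff.1 this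
  have hA0 : ∀ a : A.coeff.support, A.coeff a ≠ 0 := fun a => Finsupp.mem_support_iff.1 a.2
  have hwpos : ∀ a, 0 < w a := fun a => lt_of_le_of_ne (hA.1 a) (Ne.symm (hA0 a))
  have hw0 : ∀ a, 0 ≤ w a := fun a => (hwpos a).le
  have hw1 : ∑ a, w a = 1 := by
    have : mass A = ∑ a, w a := (Finset.sum_coe_sort A.coeff.support (fun z => A.coeff z)).symm
    rw [← this, hA.2]
  have hwf : ∀ a, w a * f a = d.coeff a := fun a => mul_div_cancel₀ _ (hA0 a)
  have hft : ∀ a, |f a| ≤ t := by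
    intro a
    have h1 : |d.coeff a| ≤ t * A.coeff a := hd a
    show |d.coeff a / A.coeff a| ≤ t
    rw [abs_div, abs_of_pos (hwpos a)]
    exact (div_le_iff₀ (hwpos a)).2 h1
  have hmean : ∑ a, w a * f a = 0 := by
    have e : mass d = ∑ a, w a * f a := by
      conv_lhs => rw [repr A d hz]
      rw [mass_sum]
      refine Finset.sum_congr rfl (fun a _ => ?_)
      rw [mass_single, hwf]
    rw [← e, hm]
  -- the sample space
  set cc : (Fin M → A.coeff.support) → Wd := fun ω => (List.ofFn (fun i => (ω i : Wd))).prod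
    with hcc
  set X : ℕ → (Fin M → A.coeff.support) → ℝ := fun v ω =>
    ∏ i : Fin M, if (i : ℕ) ∈ I v then f (ω i) else 1 with hX
  have hmon : ∀ v, mon A d M (I v)
      = ∑ ω, (MonoidAlgebra.single (cc ω) (wt w ω * X v ω) : Alg) := by
    intro v
    unfold mon
    have e1 : (fun i => if i ∈ I v then d else A)
        = fun i => ∑ a : A.coeff.support, (MonoidAlgebra.single (a : Wd)
            (w a * (if i ∈ I v then f a else 1)) : Alg) := by
      funext i
      by_cases hi : i ∈ I v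
      · simp only [hi, if_true]
        rw [← Finset.sum_congr rfl (fun a _ => by rw [hwf a])]
        exact repr A d hz
      · simp only [hi, if_false, mul_one]
        exact repr A A (fun z h => h)
    rw [e1, push (fun a : A.coeff.support => (a : Wd)) M
      (fun i a => w a * (if i ∈ I v then f a else 1))]
    refine Finset.sum_congr rfl (fun ω _ => ?_)
    rw [Finset.prod_mul_distrib]
    rfl
  have hpow : A ^ M = ∑ ω, (MonoidAlgebra.single (cc ω) (wt w ω) : Alg) := by
    have e1 : (fun _ : ℕ => A)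
        = fun _ : ℕ => ∑ a : A.coeff.support, (MonoidAlgebra.single (a : Wd) (w a) : Alg) := by
      funext i
      exact repr A A (fun z h => h)
    have e2 : A ^ M = ((List.range M).map (fun _ : ℕ => A)).prod := by
      rw [List.map_const', List.prod_replicate, List.length_range]
    rw [e2, e1, push (fun a : A.coeff.support => (a : Wd)) M (fun _ a => w a)]
    rfl
  set T : (Fin M → A.coeff.support) → ℝ := fun ω => ∑ v ∈ V, c v * X v ω with hT
  have hF : ∑ v ∈ V, c v • mon A d M (I v)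
      = ∑ ω, (MonoidAlgebra.single (cc ω) (wt w ω * T ω) : Alg) := by
    have e1 : ∀ v ∈ V, c v • mon A d M (I v)
        = ∑ ω, (MonoidAlgebra.single (cc ω) (c v * (wt w ω * X v ω)) : Alg) := by
      intro v _
      rw [hmon v, Finset.smul_sum]
      refine Finset.sum_congr rfl (fun ω _ => ?_)
      rw [MonoidAlgebra.smul_single']
    rw [Finset.sum_congr rfl e1, Finset.sum_comm]
    refine Finset.sum_congr rfl (fun ω _ => ?_)
    have e2 : ∀ (s : Finset ℕ) (g : ℕ → ℝ), ∑ v ∈ s, (MonoidAlgebra.single (cc ω) (g v) : Alg)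
        = MonoidAlgebra.single (cc ω) (∑ v ∈ s, g v) := by
      intro s g
      exact (map_sum (MonoidAlgebra.singleAddHom (R := ℝ) (cc ω)) g s).symm
    rw [e2]
    congr 1
    rw [hT, Finset.mul_sum]
    exact Finset.sum_congr rfl (fun v _ => by ring)
  -- facts about X
  have hXb : ∀ v ∈ V, ∀ ω, |X v ω| ≤ b := by
    intro v hv ω
    rw [hX]
    simp only
    rw [Finset.abs_prod]
    have h1 : ∏ i : Fin M, |(if (i : ℕ) ∈ I v then f (ω i) else 1)|
        ≤ ∏ i : Fin M, (if (i : ℕ) ∈ I v then t else 1) := by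
      refine Finset.prod_le_prod (fun i _ => abs_nonneg _) (fun i _ => ?_)
      by_cases hi : (i : ℕ) ∈ I v
      · simp only [hi, if_true]
        exact hft _
      · simp only [hi, if_false, abs_one, le_refl]
    have h2 : ∏ i : Fin M, (if (i : ℕ) ∈ I v then t else 1) = t ^ (I v).card := by
      rw [Fin.prod_univ_eq_prod_range (fun i => if i ∈ I v then t else 1) M]
      rw [Finset.prod_ite, Finset.prod_const_one, mul_one, Finset.prod_const]
      congr 2
      ext i
      rw [Finset.mem_filter]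
      exact ⟨fun h => h.2, fun h => ⟨hI v hv h, h⟩⟩
    rw [h2] at h1
    exact le_trans h1 (hcard v hv)
  have hXm : ∀ v ∈ V, ∑ ω, wt w ω * X v ω = 0 := by
    intro v hv
    have e1 : ∀ ω : Fin M → A.coeff.support, wt w ω * X v ω
        = ∏ i : Fin M, (w (ω i) * (if (i : ℕ) ∈ I v then f (ω i) else 1)) := by
      intro ω
      rw [Finset.prod_mul_distrib]
      rfl
    rw [Finset.sum_congr rfl (fun ω _ => e1 ω),
      sum_prod (fun i a => w a * (if (i : ℕ) ∈ I v then f a else 1))]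
    obtain ⟨i0, hi0⟩ := hne v hv
    have hi1 : i0 < M := Finset.mem_range.1 (hI v hv hi0)
    refine Finset.prod_eq_zero (Finset.mem_univ (⟨i0, hi1⟩ : Fin M)) ?_
    simp only [hi0, if_true]
    exact hmean
  have hXd : ∀ v ∈ V, ∀ ω ω' : Fin M → A.coeff.support,
      (∀ i : Fin M, (i : ℕ) ∈ I v → ω i = ω' i) → X v ω = X v ω' := by
    intro v _ ω ω' h
    refine Finset.prod_congr rfl (fun i _ => ?_)
    by_cases hi : (i : ℕ) ∈ I v
    · simp only [hi, if_true]
      rw [h i hi]
    · simp only [hi, if_false]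
  have htail := tail hw0 hw1 X I b hb c V hXb hXm hXd hdis Λ hΛ
  set s : ℝ := Λ * b * √(∑ v ∈ V, c v ^ 2) with hs
  have hs0 : 0 ≤ s := by positivity
  have hTb : ∀ ω, |T ω| ≤ b * ∑ v ∈ V, |c v| := by
    intro ω
    rw [Finset.mul_sum]
    refine le_trans (Finset.abs_sum_le_sum_abs _ _) (Finset.sum_le_sum (fun v hv => ?_))
    rw [abs_mul, mul_comm]
    exact mul_le_mul_of_nonneg_right (hXb v hv ω) (abs_nonneg _)
  have hC0 : 0 ≤ b * ∑ v ∈ V, |c v| :=
    mul_nonneg hb (Finset.sum_nonneg (fun v _ => abs_nonneg _))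
  set r : (Fin M → A.coeff.support) → ℝ := fun ω =>
    (if s < |T ω| then wt w ω else 0) * (b * ∑ v ∈ V, |c v|) with hr
  have hr0 : ∀ ω, 0 ≤ r ω := by
    intro ω
    refine mul_nonneg ?_ hC0
    split_ifs
    · exact wt_nonneg hw0 ω
    · exact le_refl _
  refine ⟨∑ ω, (MonoidAlgebra.single (cc ω) (r ω) : Alg), ?_, ?_, ?_⟩
  · intro z
    rw [coeff_push]
    refine Finset.sum_nonneg (fun ω _ => ?_)
    split_ifs
    · exact hr0 ω
    · exact le_refl _
  · rw [mass_sum]
    have e1 : ∀ ω, mass (MonoidAlgebra.single (cc ω) (r ω) : Alg)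
        = (if s < |T ω| then wt w ω else 0) * (b * ∑ v ∈ V, |c v|) := fun ω => mass_single _ _
    rw [Finset.sum_congr rfl (fun ω _ => e1 ω), ← Finset.sum_mul]
    exact mul_le_mul_of_nonneg_right htail hC0
  · intro z
    rw [hF, hpow, coeff_push, coeff_push, coeff_push, Finset.mul_sum, ← Finset.sum_add_distrib]
    refine le_trans (Finset.abs_sum_le_sum_abs _ _) (Finset.sum_le_sum (fun ω _ => ?_))
    by_cases hzω : cc ω = z
    · simp only [hzω, if_true]
      rw [abs_mul, abs_of_nonneg (wt_nonneg hw0 ω)]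
      have hw' := wt_nonneg hw0 ω
      show wt w ω * |T ω| ≤ s * wt w ω + (if s < |T ω| then wt w ω else 0) * (b * ∑ v ∈ V, |c v|)
      by_cases hsT : s < |T ω|
      · rw [if_pos hsT]
        have h1 : wt w ω * |T ω| ≤ wt w ω * (b * ∑ v ∈ V, |c v|) :=
          mul_le_mul_of_nonneg_left (hTb ω) hw'
        have h2 : 0 ≤ s * wt w ω := mul_nonneg hs0 hw'
        linarith
      · rw [if_neg hsT, zero_mul, add_zero, mul_comm]
        exact mul_le_mul_of_nonneg_right (not_lt.1 hsT) hw'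
    · simp only [hzω, if_false, abs_zero, mul_zero, add_zero, le_refl]

theorem hoeff {A d : Alg} {t : ℝ} (hA : Prob A) (hd : Bd t A d) (hm : mass d = 0)
    (ht : 0 ≤ t) (ht1 : t ≤ 1) (M : ℕ) (V : Finset ℕ) (I : ℕ → Finset ℕ)
    (hI : ∀ v ∈ V, I v ⊆ range M)
    (hdis : ∀ v ∈ V, ∀ v' ∈ V, v ≠ v' → Disjoint (I v) (I v'))
    (k : ℕ) (hk : 1 ≤ k) (hcard : ∀ v ∈ V, k ≤ (I v).card) (c : ℕ → ℝ) (Λ : ℝ) (hΛ : 0 < Λ) :
    Dom (Λ * t ^ k * √(∑ v ∈ V, c v ^ 2)) (2 * Real.exp (-Λ ^ 2 / 2) * ∑ v ∈ V, |c v|) (A ^ M)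
      (∑ v ∈ V, c v • mon A d M (I v)) := by
  refine dom_mono (nonneg_pow hA.1 M) (hoeff_gen hA hd hm ht (pow_nonneg ht k) M V I hI hdis
    (fun v hv => ?_) (fun v hv => ?_) c Λ hΛ) (le_refl _) ?_
  · rw [← Finset.card_pos]
    exact lt_of_lt_of_le hk (hcard v hv)
  · exact pow_le_pow_of_le_one ht ht1 (hcard v hv)
  · refine mul_le_mul_of_nonneg_left ?_ (by positivity)
    have h0 : 0 ≤ ∑ v ∈ V, |c v| := Finset.sum_nonneg (fun v _ => abs_nonneg _)
    have h1 : t ^ k ≤ 1 := pow_le_one₀ ht ht1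
    nlinarith

end Vale.Agent.P321
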