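import Vale.Agent.P321.Basic

/-!
# P321, module H: the second moment in the revealed space

We lift everything to the monoid algebra over sequences of revealed letters (`Alg2`), where the
inner product `ip Ω F G = ∑ F G / Ω` is multiplicative on homogeneous elements.
-/

namespace Vale.Agent.P321

open Finset

namespace H

/-- signed measures on sequences of words -/
abbrev Alg2 := MonoidAlgebra ℝ (FreeMonoid Wd)

/-- homogeneous of degree `n` -/
def Hom (n : ℕ) (F : Alg2) : Prop := ∀ l : FreeMonoid Wd, F.coeff l ≠ 0 → l.length = n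

def Nn (F : Alg2) : Prop := ∀ l : FreeMonoid Wd, 0 ≤ F.coeff l

/-- support inclusion -/
def Sp (Ω F : Alg2) : Prop := ∀ l : FreeMonoid Wd, Ω.coeff l = 0 → F.coeff l = 0

/-- inner product -/
noncomputable def ip (Ω F G : Alg2) : ℝ :=
  ∑ l ∈ Ω.coeff.support, F.coeff l * G.coeff l / Ω.coeff l

/-- forget the revealed structure -/
noncomputable def fg : Alg2 →+* Alg :=
  MonoidAlgebra.mapDomainRingHom ℝ (FreeMonoid.lift (id : Wd → Wd))

/-! ### products of homogeneous elements -/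

theorem coeff_mul_hom {n : ℕ} {F : Alg2} (hF : Hom n F) (G : Alg2) {x y : FreeMonoid Wd}
    (hx : x.length = n) : (F * G).coeff (x * y) = F.coeff x * G.coeff y := by
  classical
  rw [MonoidAlgebra.coeff_mul]
  unfold Finsupp.sum
  have h1 : ∀ a ∈ F.coeff.support, ∀ b : FreeMonoid Wd,
      (a * b = x * y) ↔ (a = x ∧ b = y) := by
    intro a ha b
    constructor
    · intro h
      have hl : a.length = x.length := by
        rw [hx]
        exact hF a (Finsupp.mem_support_iff.1 ha)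
      exact List.append_inj h hl
    · rintro ⟨rfl, rfl⟩
      rfl
  have h2 : ∀ a ∈ F.coeff.support,
      (∑ b ∈ G.coeff.support, if a * b = x * y then F.coeff a * G.coeff b else 0) =
        if a = x then F.coeff a * G.coeff y else 0 := by
    intro a ha
    by_cases hax : a = x
    · rw [if_pos hax]
      have h3 : ∀ b ∈ G.coeff.support, (if a * b = x * y then F.coeff a * G.coeff b else 0) =
          if b = y then F.coeff a * G.coeff b else 0 := by
        intro b _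
        by_cases hb : b = y
        · rw [if_pos ((h1 a ha b).2 ⟨hax, hb⟩), if_pos hb]
        · rw [if_neg (fun h => hb ((h1 a ha b).1 h).2), if_neg hb]
      rw [Finset.sum_congr rfl h3, Finset.sum_ite_eq']
      by_cases hy : y ∈ G.coeff.support
      · rw [if_pos hy]
      · rw [if_neg hy, Finsupp.notMem_support_iff.1 hy, mul_zero]
    · rw [if_neg hax]
      refine Finset.sum_eq_zero fun b _ => ?_
      rw [if_neg (fun h => hax ((h1 a ha b).1 h).1)]
  rw [Finset.sum_congr rfl h2, Finset.sum_ite_eq']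
  by_cases hxs : x ∈ F.coeff.support
  · rw [if_pos hxs]
  · rw [if_neg hxs, Finsupp.notMem_support_iff.1 hxs, zero_mul]

theorem exists_of_ne {F G : Alg2} {z : FreeMonoid Wd} (h : (F * G).coeff z ≠ 0) :
    ∃ x y, F.coeff x ≠ 0 ∧ G.coeff y ≠ 0 ∧ x * y = z := by
  classical
  rw [MonoidAlgebra.coeff_mul] at h
  unfold Finsupp.sum at h
  obtain ⟨x, hx, h1⟩ := Finset.exists_ne_zero_of_sum_ne_zero h
  obtain ⟨y, hy, h2⟩ := Finset.exists_ne_zero_of_sum_ne_zero h1
  refine ⟨x, y, Finsupp.mem_support_iff.1 hx, Finsupp.mem_support_iff.1 hy, ?_⟩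
  by_contra hne
  exact h2 (if_neg hne)

theorem Hom.mul {n m : ℕ} {F G : Alg2} (hF : Hom n F) (hG : Hom m G) : Hom (n + m) (F * G) := by
  intro l hl
  obtain ⟨x, y, hx, hy, rfl⟩ := exists_of_ne hl
  rw [FreeMonoid.length_mul, hF x hx, hG y hy]

theorem Hom.one : Hom 0 (1 : Alg2) := by
  classical
  intro l hl
  rw [MonoidAlgebra.one_def, MonoidAlgebra.coeff_single, Finsupp.single_apply] at hl
  by_cases h : 1 = l
  · rw [← h, FreeMonoid.length_one]
  · rw [if_neg h] at hl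
    exact absurd rfl hl

theorem Hom.pow {F : Alg2} (hF : Hom 1 F) (k : ℕ) : Hom k (F ^ k) := by
  induction k with
  | zero => rw [pow_zero]; exact Hom.one
  | succ k ih => rw [pow_succ]; exact ih.mul hF

theorem Hom.add {n : ℕ} {F G : Alg2} (hF : Hom n F) (hG : Hom n G) : Hom n (F + G) := by
  intro l hl
  rw [MonoidAlgebra.coeff_add, Finsupp.add_apply] at hl
  by_cases h : F.coeff l = 0
  · rw [h, zero_add] at hl
    exact hG l hl
  · exact hF l h

theorem Nn.mul {n : ℕ} {F G : Alg2} (hn : Hom n F) (hF : Nn F) (hG : Nn G) : Nn (F * G) := by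
  intro l
  by_cases h : (F * G).coeff l = 0
  · rw [h]
  · obtain ⟨x, y, hx, hy, rfl⟩ := exists_of_ne h
    rw [coeff_mul_hom hn G (hn x hx)]
    exact mul_nonneg (hF x) (hG y)

theorem Nn.one : Nn (1 : Alg2) := by
  classical
  intro l
  rw [MonoidAlgebra.one_def, MonoidAlgebra.coeff_single, Finsupp.single_apply]
  split_ifs
  · exact zero_le_one
  · exact le_refl _

theorem Nn.pow {F : Alg2} (hF : Hom 1 F) (h : Nn F) (k : ℕ) : Nn (F ^ k) := by
  induction k with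
  | zero => rw [pow_zero]; exact Nn.one
  | succ k ih => rw [pow_succ]; exact Nn.mul (hF.pow k) ih h

theorem Sp.mul {n : ℕ} {Ω Ω' F F' : Alg2} (hn : Hom n Ω) (h : Sp Ω F) (h' : Sp Ω' F') :
    Sp (Ω * Ω') (F * F') := by
  intro l hl
  by_contra hne
  obtain ⟨x, y, hx, hy, rfl⟩ := exists_of_ne hne
  have h1 : Ω.coeff x ≠ 0 := fun h0 => hx (h x h0)
  have h2 : Ω'.coeff y ≠ 0 := fun h0 => hy (h' y h0)
  rw [coeff_mul_hom hn Ω' (hn x h1)] at hl
  exact mul_ne_zero h1 h2 hl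

theorem Sp.refl (Ω : Alg2) : Sp Ω Ω := fun _ h => h

theorem Sp.add {Ω F G : Alg2} (h : Sp Ω F) (h' : Sp Ω G) : Sp Ω (F + G) := by
  intro l hl
  rw [MonoidAlgebra.coeff_add, Finsupp.add_apply, h l hl, h' l hl, add_zero]

theorem Sp.sub {Ω F G : Alg2} (h : Sp Ω F) (h' : Sp Ω G) : Sp Ω (F - G) := by
  intro l hl
  rw [MonoidAlgebra.coeff_sub, Finsupp.sub_apply, h l hl, h' l hl, sub_zero]

theorem Sp.smul {Ω F : Alg2} (c : ℝ) (h : Sp Ω F) : Sp Ω (c • F) := by
  intro l hl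
  rw [MonoidAlgebra.coeff_smul, Finsupp.smul_apply, h l hl, smul_zero]

theorem Sp.zero (Ω : Alg2) : Sp Ω 0 := by
  intro l _
  rw [MonoidAlgebra.coeff_zero, Finsupp.zero_apply]

theorem Sp.sum {ι : Type*} (s : Finset ι) {Ω : Alg2} {F : ι → Alg2} (h : ∀ i, Sp Ω (F i)) :
    Sp Ω (∑ i ∈ s, F i) := by
  classical
  induction s using Finset.induction_on with
  | empty => rw [Finset.sum_empty]; exact Sp.zero Ω
  | insert a s ha ih => rw [Finset.sum_insert ha]; exact (h a).add ih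

/-! ### the inner product -/

theorem ip_mul {n : ℕ} {Ω Ω' F F' G G' : Alg2} (hΩ : Hom n Ω) (hF : Hom n F) (hG : Hom n G) :
    ip (Ω * Ω') (F * F') (G * G') = ip Ω F G * ip Ω' F' G' := by
  classical
  unfold ip
  rw [Finset.sum_mul_sum, ← Finset.sum_product']
  symm
  refine Finset.sum_bij (fun p _ => p.1 * p.2) ?_ ?_ ?_ ?_
  · rintro ⟨x, y⟩ hp
    rw [Finset.mem_product, Finsupp.mem_support_iff, Finsupp.mem_support_iff] at hp
    rw [Finsupp.mem_support_iff]
    show (Ω * Ω').coeff (x * y) ≠ 0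
    rw [coeff_mul_hom hΩ Ω' (hΩ x hp.1)]
    exact mul_ne_zero hp.1 hp.2
  · rintro ⟨x, y⟩ hp ⟨x', y'⟩ hp' h
    rw [Finset.mem_product, Finsupp.mem_support_iff, Finsupp.mem_support_iff] at hp hp'
    have hl : x.length = x'.length := (hΩ x hp.1).trans (hΩ x' hp'.1).symm
    obtain ⟨h1, h2⟩ := List.append_inj h hl
    exact Prod.ext h1 h2
  · intro l hl
    rw [Finsupp.mem_support_iff] at hl
    obtain ⟨x, y, hx, hy, hxy⟩ := exists_of_ne hl
    refine ⟨(x, y), ?_, hxy⟩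
    rw [Finset.mem_product, Finsupp.mem_support_iff, Finsupp.mem_support_iff]
    exact ⟨hx, hy⟩
  · rintro ⟨x, y⟩ hp
    rw [Finset.mem_product, Finsupp.mem_support_iff, Finsupp.mem_support_iff] at hp
    have hl := hΩ x hp.1
    show F.coeff x * G.coeff x / Ω.coeff x * (F'.coeff y * G'.coeff y / Ω'.coeff y) =
      (F * F').coeff (x * y) * (G * G').coeff (x * y) / (Ω * Ω').coeff (x * y)
    rw [coeff_mul_hom hΩ Ω' hl, coeff_mul_hom hF F' hl, coeff_mul_hom hG G' hl]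
    rw [div_mul_div_comm]
    ring

theorem ip_add_left (Ω F F' G : Alg2) : ip Ω (F + F') G = ip Ω F G + ip Ω F' G := by
  unfold ip
  rw [← Finset.sum_add_distrib]
  refine Finset.sum_congr rfl fun l _ => ?_
  rw [MonoidAlgebra.coeff_add, Finsupp.add_apply]
  ring

theorem ip_comm (Ω F G : Alg2) : ip Ω F G = ip Ω G F := by
  unfold ip
  refine Finset.sum_congr rfl fun l _ => ?_
  rw [mul_comm]

theorem ip_add_right (Ω F G G' : Alg2) : ip Ω F (G + G') = ip Ω F G + ip Ω F G' := by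
  rw [ip_comm, ip_add_left, ip_comm Ω G, ip_comm Ω G']

theorem ip_sub_left (Ω F F' G : Alg2) : ip Ω (F - F') G = ip Ω F G - ip Ω F' G := by
  unfold ip
  rw [← Finset.sum_sub_distrib]
  refine Finset.sum_congr rfl fun l _ => ?_
  rw [MonoidAlgebra.coeff_sub, Finsupp.sub_apply]
  ring

theorem ip_sub_right (Ω F G G' : Alg2) : ip Ω F (G - G') = ip Ω F G - ip Ω F G' := by
  rw [ip_comm, ip_sub_left, ip_comm Ω G, ip_comm Ω G']

theorem ip_smul_left (Ω : Alg2) (c : ℝ) (F G : Alg2) : ip Ω (c • F) G = c * ip Ω F G := by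
  unfold ip
  rw [Finset.mul_sum]
  refine Finset.sum_congr rfl fun l _ => ?_
  rw [MonoidAlgebra.coeff_smul, Finsupp.smul_apply, smul_eq_mul]
  ring

theorem ip_smul_right (Ω : Alg2) (c : ℝ) (F G : Alg2) : ip Ω F (c • G) = c * ip Ω F G := by
  rw [ip_comm, ip_smul_left, ip_comm Ω G]

theorem ip_zero_left (Ω G : Alg2) : ip Ω 0 G = 0 := by
  unfold ip
  refine Finset.sum_eq_zero fun l _ => ?_
  rw [MonoidAlgebra.coeff_zero, Finsupp.zero_apply]
  ring

theorem ip_sum_left {ι : Type*} (s : Finset ι) (Ω : Alg2) (F : ι → Alg2) (G : Alg2) :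
    ip Ω (∑ i ∈ s, F i) G = ∑ i ∈ s, ip Ω (F i) G := by
  classical
  induction s using Finset.induction_on with
  | empty => rw [Finset.sum_empty, Finset.sum_empty, ip_zero_left]
  | insert a s ha ih => rw [Finset.sum_insert ha, Finset.sum_insert ha, ip_add_left, ih]

theorem ip_sum_right {ι : Type*} (s : Finset ι) (Ω F : Alg2) (G : ι → Alg2) :
    ip Ω F (∑ i ∈ s, G i) = ∑ i ∈ s, ip Ω F (G i) := by
  rw [ip_comm, ip_sum_left]
  exact Finset.sum_congr rfl fun i _ => ip_comm _ _ _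

theorem ip_self_nonneg {Ω : Alg2} (hΩ : Nn Ω) (F : Alg2) : 0 ≤ ip Ω F F := by
  unfold ip
  exact Finset.sum_nonneg fun l _ => div_nonneg (mul_self_nonneg _) (hΩ l)

theorem ip_abs_le {Ω : Alg2} (hΩ : Nn Ω) {F G : Alg2} {t : ℝ} (hF : ip Ω F F ≤ t)
    (hG : ip Ω G G ≤ t) : |ip Ω F G| ≤ t := by
  have h1 := ip_self_nonneg hΩ (F - G)
  have h2 := ip_self_nonneg hΩ (F + G)
  rw [ip_sub_left, ip_sub_right, ip_sub_right, ip_comm Ω G F] at h1
  rw [ip_add_left, ip_add_right, ip_add_right, ip_comm Ω G F] at h2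
  rw [abs_le]
  constructor <;> linarith

/-! ### forgetting -/

theorem fg_single (l : FreeMonoid Wd) (c : ℝ) :
    fg (MonoidAlgebra.single l c) = MonoidAlgebra.single (FreeMonoid.lift (id : Wd → Wd) l) c := by
  unfold fg
  exact MonoidAlgebra.mapDomain_single

theorem eq_sum_single {F : Alg2} (s : Finset (FreeMonoid Wd)) (hs : F.coeff.support ⊆ s) :
    F = ∑ l ∈ s, MonoidAlgebra.single l (F.coeff l) := by
  classical
  ext z
  rw [MonoidAlgebra.coeff_sum, Finsupp.finsetSum_apply]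
  have h : ∀ l ∈ s, (MonoidAlgebra.single l (F.coeff l)).coeff z =
      if l = z then F.coeff l else 0 := by
    intro l _
    rw [MonoidAlgebra.coeff_single, Finsupp.single_apply]
  rw [Finset.sum_congr rfl h, Finset.sum_ite_eq']
  by_cases hz : z ∈ s
  · rw [if_pos hz]
  · rw [if_neg hz]
    exact Finsupp.notMem_support_iff.1 fun h' => hz (hs h')

theorem supp_of_sp {Ω F : Alg2} (h : Sp Ω F) : F.coeff.support ⊆ Ω.coeff.support := by
  intro l hl
  rw [Finsupp.mem_support_iff] at hl ⊢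
  exact fun h0 => hl (h l h0)

theorem fg_eq {Ω F : Alg2} (h : Sp Ω F) :
    fg F = ∑ l ∈ Ω.coeff.support,
      MonoidAlgebra.single (FreeMonoid.lift (id : Wd → Wd) l) (F.coeff l) := by
  conv_lhs => rw [eq_sum_single Ω.coeff.support (supp_of_sp h)]
  rw [map_sum]
  exact Finset.sum_congr rfl fun l _ => fg_single _ _

theorem mass_fg {Ω F : Alg2} (h : Sp Ω F) : mass (fg F) = ip Ω Ω F := by
  rw [fg_eq h, mass_sum]
  unfold ip
  refine Finset.sum_congr rfl fun l hl => ?_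
  rw [mass_single, mul_div_assoc, mul_div_cancel₀]
  exact Finsupp.mem_support_iff.1 hl

theorem nrm_single_le (w : Wd) (c : ℝ) : nrm (MonoidAlgebra.single w c) = |c| := by
  rw [nrm_eq_sum _ {w}]
  · simp
  · simp only [MonoidAlgebra.coeff_single]
    exact Finsupp.support_single_subset

/-- Cauchy-Schwarz -/
theorem nrm_fg_le {Ω F : Alg2} (hΩ : Nn Ω) (h : Sp Ω F) :
    nrm (fg F) ≤ √(mass (fg Ω) * ip Ω F F) := by
  refine Real.le_sqrt_of_sq_le ?_
  have h1 : nrm (fg F) ≤ ∑ l ∈ Ω.coeff.support, |F.coeff l| := by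
    rw [fg_eq h]
    refine (nrm_sum_le _ _).trans (le_of_eq ?_)
    exact Finset.sum_congr rfl fun l _ => nrm_single_le _ _
  have h2 : mass (fg Ω) = ∑ l ∈ Ω.coeff.support, Ω.coeff l := by
    rw [fg_eq (Sp.refl Ω), mass_sum]
    exact Finset.sum_congr rfl fun l _ => mass_single _ _
  have h3 : (∑ l ∈ Ω.coeff.support, |F.coeff l|) ^ 2 ≤
      (∑ l ∈ Ω.coeff.support, Ω.coeff l) *
        ∑ l ∈ Ω.coeff.support, F.coeff l * F.coeff l / Ω.coeff l := by
    refine Finset.sum_sq_le_sum_mul_sum_of_sq_le_mul _ (fun l _ => hΩ l)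
      (fun l _ => div_nonneg (mul_self_nonneg _) (hΩ l)) fun l hl => ?_
    rw [mul_div_cancel₀ _ (Finsupp.mem_support_iff.1 hl), sq_abs, pow_two]
  rw [h2]
  refine le_trans ?_ h3
  exact pow_le_pow_left₀ (nrm_nonneg _) h1 2

/-! ### lifting the laws -/

/-- one revealed letter with law `F` -/
noncomputable def hat (F : Alg) : Alg2 :=
  ∑ w ∈ F.coeff.support, MonoidAlgebra.single (FreeMonoid.of w) (F.coeff w)

theorem alg_eq_sum_single (F : Alg) :
    F = ∑ w ∈ F.coeff.support, MonoidAlgebra.single w (F.coeff w) := by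
  classical
  ext z
  rw [MonoidAlgebra.coeff_sum, Finsupp.finsetSum_apply]
  have h : ∀ l ∈ F.coeff.support, (MonoidAlgebra.single l (F.coeff l)).coeff z =
      if l = z then F.coeff l else 0 := by
    intro l _
    rw [MonoidAlgebra.coeff_single, Finsupp.single_apply]
  rw [Finset.sum_congr rfl h, Finset.sum_ite_eq']
  by_cases hz : z ∈ F.coeff.support
  · rw [if_pos hz]
  · rw [if_neg hz]
    exact Finsupp.notMem_support_iff.1 hz

theorem fg_hat (F : Alg) : fg (hat F) = F := by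
  unfold hat
  rw [map_sum]
  conv_rhs => rw [alg_eq_sum_single F]
  refine Finset.sum_congr rfl fun w _ => ?_
  rw [fg_single, FreeMonoid.lift_eval_of]
  rfl

theorem hat_coeff (F : Alg) (l : FreeMonoid Wd) [DecidableEq (FreeMonoid Wd)] :
    (hat F).coeff l = ∑ w ∈ F.coeff.support, if FreeMonoid.of w = l then F.coeff w else 0 := by
  unfold hat
  rw [MonoidAlgebra.coeff_sum, Finsupp.finsetSum_apply]
  refine Finset.sum_congr rfl fun w _ => ?_
  rw [MonoidAlgebra.coeff_single, Finsupp.single_apply]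

theorem hat_hom (F : Alg) : Hom 1 (hat F) := by
  classical
  intro l hl
  rw [hat_coeff] at hl
  obtain ⟨w, _, hw⟩ := Finset.exists_ne_zero_of_sum_ne_zero hl
  by_cases h : FreeMonoid.of w = l
  · rw [← h, FreeMonoid.length_of]
  · rw [if_neg h] at hw
    exact absurd rfl hw

theorem hat_nn {F : Alg} (hF : Nonneg F) : Nn (hat F) := by
  classical
  intro l
  rw [hat_coeff]
  refine Finset.sum_nonneg fun w _ => ?_
  split_ifs
  · exact hF w
  · exact le_refl _

/-- the lift of `ρ` relative to `Ω` -/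
noncomputable def rhat (Ω : Alg2) (ρ : Alg) : Alg2 :=
  ∑ l ∈ Ω.coeff.support, MonoidAlgebra.single l
    (Ω.coeff l * (ρ.coeff (FreeMonoid.lift (id : Wd → Wd) l) /
      (fg Ω).coeff (FreeMonoid.lift (id : Wd → Wd) l)))

theorem rhat_coeff (Ω : Alg2) (ρ : Alg) (l : FreeMonoid Wd) :
    (rhat Ω ρ).coeff l = Ω.coeff l * (ρ.coeff (FreeMonoid.lift (id : Wd → Wd) l) /
      (fg Ω).coeff (FreeMonoid.lift (id : Wd → Wd) l)) := by
  classical
  unfold rhat
  rw [MonoidAlgebra.coeff_sum, Finsupp.finsetSum_apply]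
  simp only [MonoidAlgebra.coeff_single, Finsupp.single_apply]
  rw [Finset.sum_ite_eq']
  by_cases hl : l ∈ Ω.coeff.support
  · rw [if_pos hl]
  · rw [if_neg hl, Finsupp.notMem_support_iff.1 hl, zero_mul]

theorem rhat_sp (Ω : Alg2) (ρ : Alg) : Sp Ω (rhat Ω ρ) := by
  intro l hl
  rw [rhat_coeff, hl, zero_mul]

theorem rhat_hom {n : ℕ} {Ω : Alg2} (h : Hom n Ω) (ρ : Alg) : Hom n (rhat Ω ρ) := by
  intro l hl
  exact h l fun h0 => hl (rhat_sp Ω ρ l h0)

theorem fg_coeff {Ω F : Alg2} (h : Sp Ω F) (z : Wd) [DecidableEq Wd] :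
    (fg F).coeff z = ∑ l ∈ Ω.coeff.support,
      if FreeMonoid.lift (id : Wd → Wd) l = z then F.coeff l else 0 := by
  rw [fg_eq h, MonoidAlgebra.coeff_sum, Finsupp.finsetSum_apply]
  refine Finset.sum_congr rfl fun l _ => ?_
  rw [MonoidAlgebra.coeff_single, Finsupp.single_apply]

theorem fg_rhat {Ω : Alg2} {ρ : Alg} {τ : ℝ} (hρ : Bd τ (fg Ω) ρ) : fg (rhat Ω ρ) = ρ := by
  classical
  ext z
  rw [fg_coeff (rhat_sp Ω ρ) z]
  have h1 : ∀ l ∈ Ω.coeff.support,
      (if FreeMonoid.lift (id : Wd → Wd) l = z then (rhat Ω ρ).coeff l else 0) =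
        (if FreeMonoid.lift (id : Wd → Wd) l = z then Ω.coeff l else 0) *
          (ρ.coeff z / (fg Ω).coeff z) := by
    intro l _
    by_cases h : FreeMonoid.lift (id : Wd → Wd) l = z
    · rw [if_pos h, if_pos h, rhat_coeff, h]
    · rw [if_neg h, if_neg h, zero_mul]
  rw [Finset.sum_congr rfl h1, ← Finset.sum_mul, ← fg_coeff (Sp.refl Ω) z]
  by_cases h0 : (fg Ω).coeff z = 0
  · rw [h0, zero_mul]
    have h2 := hρ z
    rw [h0, mul_zero] at h2
    exact (abs_eq_zero.1 (le_antisymm h2 (abs_nonneg _))).symm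
  · rw [mul_div_cancel₀ _ h0]

theorem rhat_ip {Ω : Alg2} {ρ : Alg} {τ : ℝ} (hΩ : Nn Ω) (hρ : Bd τ (fg Ω) ρ)
    (hfg : Nonneg (fg Ω)) (hτ : 0 ≤ τ) :
    ip Ω (rhat Ω ρ) (rhat Ω ρ) ≤ τ ^ 2 * mass (fg Ω) := by
  rw [fg_eq (Sp.refl Ω), mass_sum, Finset.mul_sum]
  unfold ip
  refine Finset.sum_le_sum fun l hl => ?_
  rw [mass_single, rhat_coeff]
  have h0 : Ω.coeff l ≠ 0 := Finsupp.mem_support_iff.1 hl
  set z := FreeMonoid.lift (id : Wd → Wd) l
  have h1 : |ρ.coeff z / (fg Ω).coeff z| ≤ τ := by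
    rw [abs_div, abs_of_nonneg (hfg z)]
    exact div_le_of_le_mul₀ (hfg z) hτ (hρ z)
  have h2 : (ρ.coeff z / (fg Ω).coeff z) ^ 2 ≤ τ ^ 2 := by
    rw [← sq_abs]
    exact pow_le_pow_left₀ (abs_nonneg _) h1 2
  have h3 : Ω.coeff l * (ρ.coeff z / (fg Ω).coeff z) *
      (Ω.coeff l * (ρ.coeff z / (fg Ω).coeff z)) / Ω.coeff l =
      (ρ.coeff z / (fg Ω).coeff z) ^ 2 * Ω.coeff l := by
    field_simp
  rw [h3]
  exact mul_le_mul_of_nonneg_right h2 (hΩ l)

/-! ### the periods -/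

/-- the perturbation at offset `y` -/
noncomputable def per (a ρ' : Alg2) (z y : ℕ) : Alg2 := a ^ y * ρ' * a ^ (2 * z - y)

section Period

variable {a ρ' : Alg2} {r z : ℕ} {τ : ℝ}

theorem per_hom (ha : Hom 1 a) (hρ : Hom r ρ') {y : ℕ} (hy : y ≤ 2 * z) :
    Hom (2 * z + r) (per a ρ' z y) := by
  have h := ((ha.pow y).mul hρ).mul (ha.pow (2 * z - y))
  have h2 : y + r + (2 * z - y) = 2 * z + r := by omega
  rw [h2] at h
  exact h

theorem pow_split {y : ℕ} (a : Alg2) (r : ℕ) (hy : y ≤ 2 * z) :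
    a ^ (2 * z + r) = a ^ y * a ^ r * a ^ (2 * z - y) := by
  rw [← pow_add, ← pow_add]
  have h2 : y + r + (2 * z - y) = 2 * z + r := by omega
  rw [h2]

theorem ip_pow_self (ha : Hom 1 a) (h1 : ip a a a = 1) (k : ℕ) :
    ip (a ^ k) (a ^ k) (a ^ k) = 1 := by
  induction k with
  | zero =>
    rw [pow_zero, ← mass_fg (Sp.refl 1), map_one, mass_one]
  | succ k ih =>
    rw [pow_succ, ip_mul (ha.pow k) (ha.pow k) (ha.pow k), ih, h1, one_mul]

theorem per_sp (ha : Hom 1 a) (hsp : Sp (a ^ r) ρ') {y : ℕ} (hy : y ≤ 2 * z) :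
    Sp (a ^ (2 * z + r)) (per a ρ' z y) := by
  rw [pow_split a r hy]
  exact Sp.mul ((ha.pow y).mul (ha.pow r)) (Sp.mul (ha.pow y) (Sp.refl _) hsp) (Sp.refl _)

theorem per_mean (ha : Hom 1 a) (hρ : Hom r ρ') (h0 : ip (a ^ r) ρ' (a ^ r) = 0)
    {y : ℕ} (hy : y ≤ 2 * z) :
    ip (a ^ (2 * z + r)) (per a ρ' z y) (a ^ (2 * z + r)) = 0 := by
  rw [pow_split a r hy]
  unfold per
  rw [ip_mul ((ha.pow y).mul (ha.pow r)) ((ha.pow y).mul hρ) ((ha.pow y).mul (ha.pow r)),
    ip_mul (ha.pow y) (ha.pow y) (ha.pow y), h0, mul_zero, zero_mul]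

theorem per_self (ha : Hom 1 a) (h1 : ip a a a = 1) (hρ : Hom r ρ')
    {y : ℕ} (hy : y ≤ 2 * z) :
    ip (a ^ (2 * z + r)) (per a ρ' z y) (per a ρ' z y) = ip (a ^ r) ρ' ρ' := by
  rw [pow_split a r hy]
  unfold per
  rw [ip_mul ((ha.pow y).mul (ha.pow r)) ((ha.pow y).mul hρ) ((ha.pow y).mul hρ),
    ip_mul (ha.pow y) (ha.pow y) (ha.pow y), ip_pow_self ha h1, ip_pow_self ha h1, one_mul, mul_one]

theorem per_far (ha : Hom 1 a) (hρ : Hom r ρ') (h0 : ip (a ^ r) ρ' (a ^ r) = 0)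
    {y y' : ℕ} (hy : y + r ≤ y') (hy' : y' ≤ 2 * z) :
    ip (a ^ (2 * z + r)) (per a ρ' z y) (per a ρ' z y') = 0 := by
  have e1 : a ^ (2 * z + r) = a ^ y * (a ^ r * (a ^ (y' - y - r) * a ^ r * a ^ (2 * z - y'))) := by
    rw [← pow_add, ← pow_add, ← pow_add, ← pow_add]
    have h2 : y + (r + (y' - y - r + r + (2 * z - y'))) = 2 * z + r := by omega
    rw [h2]
  have e2 : per a ρ' z y = a ^ y * (ρ' * (a ^ (y' - y - r) * a ^ r * a ^ (2 * z - y'))) := by
    unfold per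
    rw [← pow_add, ← pow_add, mul_assoc]
    have h2 : y' - y - r + r + (2 * z - y') = 2 * z - y := by omega
    rw [h2]
  have e3 : per a ρ' z y' = a ^ y * (a ^ r * (a ^ (y' - y - r) * ρ' * a ^ (2 * z - y'))) := by
    unfold per
    have h2 : a ^ y' = a ^ y * (a ^ r * a ^ (y' - y - r)) := by
      rw [← pow_add, ← pow_add]
      have h3 : y + (r + (y' - y - r)) = y' := by omega
      rw [h3]
    rw [h2]
    simp only [mul_assoc]
  rw [e1, e2, e3, ip_mul (ha.pow y) (ha.pow y) (ha.pow y), ip_mul (ha.pow r) hρ (ha.pow r), h0,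
    zero_mul, mul_zero]

/-- the correlation of two periods -/
theorem period_ip (ha : Hom 1 a) (hn : Nn a) (h1 : ip a a a = 1) (hρ : Hom r ρ')
    (h0 : ip (a ^ r) ρ' (a ^ r) = 0) (h2 : ip (a ^ r) ρ' ρ' ≤ τ ^ 2)
    {y y' : ℕ} (hy : y ≤ 2 * z) (hy' : y' ≤ 2 * z) :
    |ip (a ^ (2 * z + r)) (a ^ (2 * z + r) + per a ρ' z y) (a ^ (2 * z + r) + per a ρ' z y')| ≤
      if |(y : ℤ) - (y' : ℤ)| < (r : ℤ) then 1 + τ ^ 2 else 1 := by
  rw [ip_add_left, ip_add_right, ip_add_right, ip_pow_self ha h1, per_mean ha hρ h0 hy,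
    ip_comm _ (a ^ (2 * z + r)) (per a ρ' z y'), per_mean ha hρ h0 hy', add_zero, zero_add]
  split_ifs with h
  · have h3 : |ip (a ^ (2 * z + r)) (per a ρ' z y) (per a ρ' z y')| ≤ τ ^ 2 := by
      refine ip_abs_le (hn.pow ha _) ?_ ?_
      · rw [per_self ha h1 hρ hy]; exact h2
      · rw [per_self ha h1 hρ hy']; exact h2
    refine (abs_add_le _ _).trans ?_
    rw [abs_one]
    linarith
  · have h4 : ip (a ^ (2 * z + r)) (per a ρ' z y) (per a ρ' z y') = 0 := by
      rcases le_total y y' with hle | hle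
      · refine per_far ha hρ h0 ?_ hy'
        rw [abs_of_nonpos (by omega)] at h
        omega
      · rw [ip_comm]
        refine per_far ha hρ h0 ?_ hy
        rw [abs_of_nonneg (by omega)] at h
        omega
    rw [h4, add_zero, abs_one]

end Period

/-! ### the product over the periods -/

noncomputable def zp (K O : ℕ → Alg2) (S : ℕ) : Alg2 :=
  ((List.range S).map (fun k => K k * O k)).prod

theorem zp_zero (K O : ℕ → Alg2) : zp K O 0 = 1 := by
  unfold zp
  simp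

theorem zp_succ (K O : ℕ → Alg2) (S : ℕ) : zp K O (S + 1) = zp K O S * (K S * O S) := by
  unfold zp
  rw [List.range_succ, List.map_append, List.prod_append]
  simp

theorem zp_hom {n : ℕ} {K O : ℕ → Alg2} (hK : ∀ k, Hom 1 (K k)) (hO : ∀ k, Hom n (O k)) (S : ℕ) :
    Hom (S * (1 + n)) (zp K O S) := by
  induction S with
  | zero => rw [zp_zero, zero_mul]; exact Hom.one
  | succ S ih =>
    rw [zp_succ, add_mul, one_mul]
    exact ih.mul ((hK S).mul (hO S))

theorem zp_nn {n : ℕ} {K O : ℕ → Alg2} (hK : ∀ k, Hom 1 (K k)) (hO : ∀ k, Hom n (O k))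
    (nK : ∀ k, Nn (K k)) (nO : ∀ k, Nn (O k)) (S : ℕ) : Nn (zp K O S) := by
  induction S with
  | zero => rw [zp_zero]; exact Nn.one
  | succ S ih =>
    rw [zp_succ]
    exact Nn.mul (zp_hom hK hO S) ih (Nn.mul (hK S) (nK S) (nO S))

theorem zp_sp {n : ℕ} {K Ω O : ℕ → Alg2} (hK : ∀ k, Hom 1 (K k)) (hΩ : ∀ k, Hom n (Ω k))
    (h : ∀ k, Sp (Ω k) (O k)) (S : ℕ) : Sp (zp K Ω S) (zp K O S) := by
  induction S with
  | zero => rw [zp_zero, zp_zero]; exact Sp.refl 1
  | succ S ih =>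
    rw [zp_succ, zp_succ]
    exact Sp.mul (zp_hom hK hΩ S) ih (Sp.mul (hK S) (Sp.refl _) (h S))

theorem zp_ip {n : ℕ} {K Ω O O' : ℕ → Alg2} (hK : ∀ k, Hom 1 (K k)) (hΩ : ∀ k, Hom n (Ω k))
    (hO : ∀ k, Hom n (O k)) (hO' : ∀ k, Hom n (O' k)) (S : ℕ) :
    ip (zp K Ω S) (zp K O S) (zp K O' S) =
      ∏ k ∈ range S, (mass (fg (K k)) * ip (Ω k) (O k) (O' k)) := by
  induction S with
  | zero =>
    rw [zp_zero, zp_zero, zp_zero, ← mass_fg (Sp.refl 1), map_one, mass_one]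
    simp
  | succ S ih =>
    rw [zp_succ, zp_succ, zp_succ, ip_mul (zp_hom hK hΩ S) (zp_hom hK hO S) (zp_hom hK hO' S), ih,
      Finset.prod_range_succ, ip_mul (hK S) (hK S) (hK S), mass_fg (Sp.refl (K S))]

theorem fg_zp (K O : ℕ → Alg2) (S : ℕ) :
    fg (zp K O S) = zprod (fun k => fg (K k)) (fun k => fg (O k)) S := by
  unfold zp zprod
  rw [map_list_prod, List.map_map]
  congr 1
  refine List.map_congr_left fun k _ => ?_
  simp only [Function.comp, map_mul]

end H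

open H in
theorem second_moment {A ρ : Alg} (hA : Prob A) (r z S : ℕ) {τ : ℝ} (hτ : 0 ≤ τ)
    (hρ : Bd τ (A ^ r) ρ) (hm : mass ρ = 0) (K : ℕ → Alg) (hK : ∀ k, Nonneg (K k))
    {ι : Type} [Fintype ι] (p : ι → ℝ) (hp : ∀ j, 0 ≤ p j) (y : ι → ℕ → ℕ)
    (hy : ∀ j k, y j k ≤ 2 * z) :
    nrm (∑ j, p j • (zprod K (fun k => A ^ (y j k) * (A ^ r + ρ) * A ^ (2 * z - y j k)) S
        - zprod K (fun _ => A ^ (2 * z + r)) S))
      ≤ (∏ k ∈ range S, mass (K k)) *
        √(∑ j, ∑ j', p j * p j' *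
          ((1 + τ ^ 2) ^ ((range S).filter
            (fun k => |(y j k : ℤ) - (y j' k : ℤ)| < (r : ℤ))).card - 1)) := by
  classical
  -- the lifted objects
  set a : Alg2 := hat A with ha_def
  have ha : Hom 1 a := hat_hom A
  have hn : Nn a := hat_nn hA.1
  have hfa : fg a = A := fg_hat A
  have hfr : fg (a ^ r) = A ^ r := by rw [map_pow, hfa]
  have h1 : ip a a a = 1 := by rw [← mass_fg (Sp.refl a), hfa, hA.2]
  set ρ' : Alg2 := rhat (a ^ r) ρ with hρ'_def
  have hρ' : Bd τ (fg (a ^ r)) ρ := by rw [hfr]; exact hρ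
  have hfρ : fg ρ' = ρ := fg_rhat hρ'
  have hρh : Hom r ρ' := rhat_hom (ha.pow r) ρ
  have hρs : Sp (a ^ r) ρ' := rhat_sp _ ρ
  have h0 : ip (a ^ r) ρ' (a ^ r) = 0 := by rw [ip_comm, ← mass_fg hρs, hfρ, hm]
  have h2 : ip (a ^ r) ρ' ρ' ≤ τ ^ 2 := by
    have h := rhat_ip (hn.pow ha r) hρ' (by rw [hfr]; exact nonneg_pow hA.1 r) hτ
    rw [hfr, mass_pow, hA.2, one_pow, mul_one] at h
    exact h
  set K' : ℕ → Alg2 := fun k => hat (K k) with hK'_def
  have hK1 : ∀ k, Hom 1 (K' k) := fun k => hat_hom _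
  have hKn : ∀ k, Nn (K' k) := fun k => hat_nn (hK k)
  have hKf : ∀ k, fg (K' k) = K k := fun k => fg_hat _
  set Ω : ℕ → Alg2 := fun _ => a ^ (2 * z + r) with hΩ_def
  have hΩh : ∀ k, Hom (2 * z + r) (Ω k) := fun k => ha.pow _
  have hΩn : ∀ k, Nn (Ω k) := fun k => hn.pow ha _
  set O : ι → ℕ → Alg2 := fun j k => a ^ (2 * z + r) + per a ρ' z (y j k) with hO_def
  have hOh : ∀ j k, Hom (2 * z + r) (O j k) := fun j k =>
    (ha.pow _).add (per_hom ha hρh (hy j k))
  have hOs : ∀ j k, Sp (Ω k) (O j k) := fun j k =>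
    (Sp.refl _).add (per_sp ha hρs (hy j k))
  have hOf : ∀ j k, fg (O j k) = A ^ (y j k) * (A ^ r + ρ) * A ^ (2 * z - y j k) := by
    intro j k
    simp only [hO_def]
    rw [map_add]
    unfold per
    rw [map_mul, map_mul, map_pow, map_pow, map_pow, hfa, hfρ, mul_add, add_mul]
    congr 1
    rw [← pow_add, ← pow_add]
    have h3 : y j k + r + (2 * z - y j k) = 2 * z + r := by
      have := hy j k
      omega
    rw [h3]
  set W : Alg2 := zp K' Ω S with hW_def
  have hWn : Nn W := zp_nn hK1 hΩh hKn hΩn S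
  have hWf : fg W = zprod K (fun _ => A ^ (2 * z + r)) S := by
    rw [hW_def, fg_zp]
    simp only [hKf, hΩ_def, map_pow, hfa]
  set Q : ι → Alg2 := fun j => zp K' (O j) S with hQ_def
  have hQf : ∀ j, fg (Q j) =
      zprod K (fun k => A ^ (y j k) * (A ^ r + ρ) * A ^ (2 * z - y j k)) S := by
    intro j
    simp only [hQ_def]
    rw [fg_zp]
    simp only [hKf, hOf]
  have hQs : ∀ j, Sp W (Q j) := fun j => zp_sp hK1 hΩh (hOs j) S
  set m : ℝ := ∏ k ∈ range S, mass (K k) with hm_def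
  have hm0 : 0 ≤ m := Finset.prod_nonneg fun k _ => mass_nonneg (hK k)
  have hΩ1 : ∀ k, ip (Ω k) (Ω k) (Ω k) = 1 := fun k => ip_pow_self ha h1 _
  have hWW : ip W W W = m := by
    rw [hW_def, zp_ip hK1 hΩh hΩh hΩh]
    refine Finset.prod_congr rfl fun k _ => ?_
    rw [hKf, hΩ1 k, mul_one]
  have hΩO : ∀ j k, ip (Ω k) (O j k) (Ω k) = 1 := by
    intro j k
    simp only [hO_def, hΩ_def]
    rw [ip_add_left, ip_pow_self ha h1, per_mean ha hρh h0 (hy j k), add_zero]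
  have hQW : ∀ j, ip W (Q j) W = m := by
    intro j
    rw [hW_def]
    simp only [hQ_def]
    rw [zp_ip hK1 hΩh (hOh j) hΩh]
    refine Finset.prod_congr rfl fun k _ => ?_
    rw [hKf, hΩO, mul_one]
  have hQQ : ∀ j j', ip W (Q j) (Q j') ≤ m * (1 + τ ^ 2) ^ ((range S).filter
      (fun k => |(y j k : ℤ) - (y j' k : ℤ)| < (r : ℤ))).card := by
    intro j j'
    rw [hW_def]
    simp only [hQ_def]
    rw [zp_ip hK1 hΩh (hOh j) (hOh j'), Finset.prod_mul_distrib]
    have h3 : ∏ k ∈ range S, mass (fg (K' k)) = m :=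
      Finset.prod_congr rfl fun k _ => by rw [hKf]
    rw [h3]
    refine mul_le_mul_of_nonneg_left ?_ hm0
    refine (le_abs_self _).trans ?_
    rw [Finset.abs_prod]
    have h4 : ∏ k ∈ range S, |ip (Ω k) (O j k) (O j' k)| ≤
        ∏ k ∈ range S, (if |(y j k : ℤ) - (y j' k : ℤ)| < (r : ℤ) then 1 + τ ^ 2 else 1) := by
      refine Finset.prod_le_prod (fun k _ => abs_nonneg _) fun k _ => ?_
      exact period_ip ha hn h1 hρh h0 h2 (hy j k) (hy j' k)
    refine h4.trans (le_of_eq ?_)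
    rw [Finset.prod_ite, Finset.prod_const, Finset.prod_const_one, mul_one]
  -- the sum
  have hG : nrm (fg (∑ j, p j • (Q j - W))) ≤
      √(mass (fg W) * ip W (∑ j, p j • (Q j - W)) (∑ j, p j • (Q j - W))) :=
    nrm_fg_le hWn (Sp.sum _ fun j => Sp.smul _ ((hQs j).sub (Sp.refl W)))
  have hfG : fg (∑ j, p j • (Q j - W)) =
      ∑ j, p j • (zprod K (fun k => A ^ (y j k) * (A ^ r + ρ) * A ^ (2 * z - y j k)) S
        - zprod K (fun _ => A ^ (2 * z + r)) S) := by
    rw [map_sum]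
    refine Finset.sum_congr rfl fun j _ => ?_
    have h5 : fg (p j • (Q j - W)) = p j • fg (Q j - W) := by
      unfold fg
      exact MonoidAlgebra.mapDomain_smul _ _ _
    rw [h5, map_sub, hQf, hWf]
  rw [hfG] at hG
  refine hG.trans ?_
  have hmW : mass (fg W) = m := by rw [mass_fg (Sp.refl W), hWW]
  rw [hmW]
  have hip : ip W (∑ j, p j • (Q j - W)) (∑ j, p j • (Q j - W)) ≤
      m * ∑ j, ∑ j', p j * p j' *
          ((1 + τ ^ 2) ^ ((range S).filter
            (fun k => |(y j k : ℤ) - (y j' k : ℤ)| < (r : ℤ))).card - 1) := by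
    rw [ip_sum_left, Finset.mul_sum]
    refine Finset.sum_le_sum fun j _ => ?_
    rw [ip_sum_right, Finset.mul_sum]
    refine Finset.sum_le_sum fun j' _ => ?_
    rw [ip_smul_left, ip_smul_right, ip_sub_left, ip_sub_right, ip_sub_right, hWW, hQW,
      ip_comm W W (Q j'), hQW]
    have h6 := mul_le_mul_of_nonneg_left (hQQ j j') (mul_nonneg (hp j) (hp j'))
    nlinarith [h6]
  have h7 : m * ip W (∑ j, p j • (Q j - W)) (∑ j, p j • (Q j - W)) ≤
      m ^ 2 * ∑ j, ∑ j', p j * p j' *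
          ((1 + τ ^ 2) ^ ((range S).filter
            (fun k => |(y j k : ℤ) - (y j' k : ℤ)| < (r : ℤ))).card - 1) := by
    rw [pow_two, mul_assoc]
    exact mul_le_mul_of_nonneg_left hip hm0
  refine (Real.sqrt_le_sqrt h7).trans (le_of_eq ?_)
  rw [Real.sqrt_mul (sq_nonneg m), Real.sqrt_sq hm0]

end Vale.Agent.P321
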