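import Vale.Agent.P321.Overlap
import Vale.Agent.P321.Expand
import Vale.Agent.P321.Hoeff
import Vale.Agent.P321.Smooth
import Vale.Agent.P321.Second

/-! The base system. -/

namespace Vale.Agent.P321

open Finset

theorem single_one_smul (c : ℝ) : (MonoidAlgebra.single 1 c : Alg) = c • (1 : Alg) := by
  rw [MonoidAlgebra.one_def, MonoidAlgebra.smul_single, smul_eq_mul, mul_one]

theorem ltr_eq (q : ℝ) (b : Bool) :
    ltr q b = q • (1 : Alg) + MonoidAlgebra.single (FreeMonoid.of b) (1 - q) := by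
  unfold ltr
  rw [single_one_smul]

theorem base_V {q : ℝ} (h0 : 0 < q) (h1 : q < 1) : Le (q • (1 : Alg)) (tr q wV) := by
  intro z
  unfold wV
  rw [tr_of, ltr_eq, cadd]
  have _ := h0
  have := nonneg_single (FreeMonoid.of false) (c := 1 - q) (by linarith) z
  linarith

theorem base_UV {q : ℝ} (h0 : 0 < q) (h1 : q < 1) : Le (q • tr q wV) (tr q wU) := by
  intro z
  have e : tr q wU = q • tr q wV + tr q wV * MonoidAlgebra.single (FreeMonoid.of true) (1 - q) := by
    unfold wU
    rw [tr_mul, tr_of q true, ltr_eq q true, mul_add, mul_smul_comm, mul_one]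
    rfl
  rw [e, cadd]
  have := nonneg_mul (tr_prob h0.le h1.le wV).1
    (nonneg_single (FreeMonoid.of true) (c := 1 - q) (by linarith)) z
  linarith

theorem base_bd {q : ℝ} (h0 : 0 < q) (h1 : q < 1) :
    Bd (1 / q) (tr q wU) (tr q wV - tr q wU) := by
  intro z
  have a := base_UV h0 h1 z
  rw [csmul] at a
  have nU := (tr_prob h0.le h1.le wU).1 z
  have nV := (tr_prob h0.le h1.le wV).1 z
  rw [csub]
  have k : (tr q wV).coeff z ≤ 1 / q * (tr q wU).coeff z := by
    rw [one_div, ← div_eq_inv_mul, le_div_iff₀ h0]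
    linarith
  have q1 : 1 ≤ 1 / q := by rw [le_div_iff₀ h0]; linarith
  have k2 : (tr q wU).coeff z ≤ 1 / q * (tr q wU).coeff z := le_mul_of_one_le_left nU q1
  rw [abs_le]
  constructor <;> linarith

theorem base_smoothU {q : ℝ} (h0 : 0 < q) (h1 : q < 1) : Smooth (200 / q ^ 2) (tr q wU) := by
  have hq2 : 0 < q ^ 2 := by positivity
  have hZ : Nonneg (q ^ 2 • (1 : Alg)) := nonneg_smul hq2.le nonneg_one
  have L0 : Le (q ^ 2 • (1 : Alg)) (tr q wU ^ 0) := by
    intro z
    rw [pow_zero, csmul]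
    have := nonneg_one z
    have : q ^ 2 ≤ 1 := pow_le_one₀ h0.le h1.le
    nlinarith
  have L1 : Le (q ^ 2 • (1 : Alg)) (tr q wU ^ (0 + 1)) := by
    intro z
    rw [zero_add, pow_one, csmul]
    have a := base_UV h0 h1 z
    have b := base_V h0 h1 z
    rw [csmul] at a b
    have := mul_le_mul_of_nonneg_left b h0.le
    calc q ^ 2 * (1 : Alg).coeff z = q * (q * (1 : Alg).coeff z) := by ring
      _ ≤ q * (tr q wV).coeff z := this
      _ ≤ _ := a
  have := overlap_smooth (tr_prob h0.le h1.le wU) 0 (q ^ 2) hq2 hZ L0 L1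
    (by rw [mass_smul, mass_one, mul_one])
  have e : 200 * (((0 : ℕ) : ℝ) + 1) / q ^ 2 = 200 / q ^ 2 := by norm_num
  rw [e] at this
  exact this

theorem base_mass {q : ℝ} (h0 : 0 < q) (h1 : q < 1) : mass (tr q wV - tr q wU) = 0 := by
  rw [mass_sub, (tr_prob h0.le h1.le wV).2, (tr_prob h0.le h1.le wU).2, sub_self]

theorem nrm_two {P Q : Alg} (hP : Prob P) (hQ : Prob Q) : nrm (P - Q) ≤ 2 := by
  have := nrm_sub_le P Q
  rw [prob_nrm hP, prob_nrm hQ] at this
  linarith

/-- one letter version of the second moment bound, nonnegative weights -/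
theorem one_moment_nn {A ρ : Alg} (hA : Prob A) {τ : ℝ} (hτ : 0 ≤ τ) (hρ : Bd τ A ρ)
    (hm : mass ρ = 0) (z n : ℕ) (p : Fin n → ℝ) (hp : ∀ j, 0 ≤ p j) (y : Fin n → ℕ)
    (hy : ∀ j, y j ≤ 2 * z) (hinj : Function.Injective y) :
    nrm (∑ j, p j • (A ^ (y j) * ρ * A ^ (2 * z - y j))) ≤ τ * √(∑ j, p j ^ 2) := by
  have h := second_moment (A := A) (ρ := ρ) hA 1 z 1 hτ (by rw [pow_one]; exact hρ) hm
    (fun _ => 1) (fun _ => nonneg_one) p hp (fun j _ => y j) (fun j _ => hy j)
  have e1 : ∀ j, zprod (fun _ => (1 : Alg)) (fun _ => A ^ (y j) * (A ^ 1 + ρ) * A ^ (2 * z - y j)) 1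
      - zprod (fun _ => 1) (fun _ => A ^ (2 * z + 1)) 1 = A ^ (y j) * ρ * A ^ (2 * z - y j) := by
    intro j
    unfold zprod
    simp only [List.range_one, List.map_cons, List.map_nil, List.prod_cons, List.prod_nil,
      mul_one, one_mul, pow_one]
    rw [mul_add, add_mul]
    have e : A ^ (y j) * A * A ^ (2 * z - y j) = A ^ (2 * z + 1) := by
      rw [← pow_succ, ← pow_add]
      congr 1
      have := hy j
      omega
    rw [e]
    abel
  simp only [e1] at h
  refine le_trans h ?_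
  simp only [range_one, prod_singleton, mass_one, one_mul]
  have e2 : ∑ j, ∑ j', p j * p j' * ((1 + τ ^ 2) ^ (({0} : Finset ℕ).filter
      (fun _ => |(y j : ℤ) - (y j' : ℤ)| < ((1 : ℕ) : ℤ))).card - 1) = τ ^ 2 * ∑ j, p j ^ 2 := by
    rw [mul_sum]
    refine sum_congr rfl fun j _ => ?_
    rw [sum_eq_single j]
    · simp
      ring
    · intro j' _ hne
      have hne' : (y j : ℤ) ≠ (y j' : ℤ) := by
        intro h
        exact hne (hinj (by exact_mod_cast h)).symm
      have : ¬ |(y j : ℤ) - (y j' : ℤ)| < ((1 : ℕ) : ℤ) := by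
        intro h
        have h' : |(y j : ℤ) - (y j' : ℤ)| < 1 := by exact_mod_cast h
        have := Int.abs_lt_one_iff.1 h'
        omega
      rw [filter_false_of_mem (fun _ _ => this)]
      simp
    · intro h
      exact absurd (mem_univ j) h
  rw [e2, Real.sqrt_mul (sq_nonneg τ), Real.sqrt_sq hτ]

/-- one letter version of the second moment bound -/
theorem one_moment {A ρ : Alg} (hA : Prob A) {τ : ℝ} (hτ : 0 ≤ τ) (hρ : Bd τ A ρ)
    (hm : mass ρ = 0) (p n : ℕ) (hn : n ≤ p + 1) (c : ℕ → ℝ) :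
    nrm (∑ v ∈ range n, c v • (A ^ (p + v) * ρ * A ^ (p - v)))
      ≤ 2 * (τ * √(∑ v ∈ range n, c v ^ 2)) := by
  have nn : ∀ c : ℕ → ℝ, (∀ v, 0 ≤ c v) →
      nrm (∑ v ∈ range n, c v • (A ^ (p + v) * ρ * A ^ (p - v)))
        ≤ τ * √(∑ v ∈ range n, c v ^ 2) := by
    intro c hc
    have h := one_moment_nn hA hτ hρ hm p n (fun j => c j) (fun j => hc j) (fun j => p + j)
      (fun j => by have := j.2; omega) (fun i j hij => by
        simp only at hij
        exact Fin.ext (by omega))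
    rw [Fin.sum_univ_eq_sum_range (fun v => c v ^ 2)] at h
    have e : ∑ j : Fin n, c j • (A ^ (p + (j : ℕ)) * ρ * A ^ (2 * p - (p + (j : ℕ))))
        = ∑ v ∈ range n, c v • (A ^ (p + v) * ρ * A ^ (p - v)) := by
      rw [← Fin.sum_univ_eq_sum_range (fun v => c v • (A ^ (p + v) * ρ * A ^ (p - v)))]
      refine sum_congr rfl fun j _ => ?_
      have : 2 * p - (p + (j : ℕ)) = p - j := by omega
      rw [this]
    rw [e] at h
    exact h
  have h1 := nn (fun v => max (c v) 0) (fun v => le_max_right _ _)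
  have h2 := nn (fun v => max (-c v) 0) (fun v => le_max_right _ _)
  have e : ∑ v ∈ range n, c v • (A ^ (p + v) * ρ * A ^ (p - v))
      = ∑ v ∈ range n, max (c v) 0 • (A ^ (p + v) * ρ * A ^ (p - v))
        - ∑ v ∈ range n, max (-c v) 0 • (A ^ (p + v) * ρ * A ^ (p - v)) := by
    rw [← sum_sub_distrib]
    refine sum_congr rfl fun v _ => ?_
    rw [← sub_smul]
    congr 1
    rcases le_total 0 (c v) with h | h
    · rw [max_eq_left h, max_eq_right (by linarith)]; ring
    · rw [max_eq_right h, max_eq_left (by linarith)]; ring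
  rw [e]
  refine le_trans (nrm_sub_le _ _) ?_
  have m1 : ∑ v ∈ range n, (max (c v) 0) ^ 2 ≤ ∑ v ∈ range n, c v ^ 2 := by
    refine sum_le_sum fun v _ => ?_
    rcases le_total 0 (c v) with h | h
    · rw [max_eq_left h]
    · rw [max_eq_right h]; nlinarith
  have m2 : ∑ v ∈ range n, (max (-c v) 0) ^ 2 ≤ ∑ v ∈ range n, c v ^ 2 := by
    refine sum_le_sum fun v _ => ?_
    rcases le_total 0 (c v) with h | h
    · rw [max_eq_right (by linarith)]; nlinarith
    · rw [max_eq_left (by linarith)]; nlinarith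
  have k1 := mul_le_mul_of_nonneg_left (Real.sqrt_le_sqrt m1) hτ
  have k2 := mul_le_mul_of_nonneg_left (Real.sqrt_le_sqrt m2) hτ
  linarith

/-- a defect with margins `p` -/
theorem base_single {q : ℝ} (h0 : 0 < q) (h1 : q < 1) : ∃ C : ℝ, 0 < C ∧ ∀ p : ℕ, 1 ≤ p →
    nrm (tr q wU ^ p * (tr q wV - tr q wU) * tr q wU ^ p) ≤ C * (p : ℝ) ^ (-(1 / 6 : ℝ)) := by
  have hU := tr_prob h0.le h1.le wU
  have hV := tr_prob h0.le h1.le wV
  set A := tr q wU with hA
  set ρ := tr q wV - A with hρ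
  have hs := base_smoothU h0 h1
  have hbd := base_bd h0 h1
  have hm := base_mass h0 h1
  rw [← hA] at hs hbd hm
  rw [← hρ] at hbd hm
  set σ := 200 / q ^ 2 with hσ
  have σ0 : 0 < σ := by positivity
  have n2 : nrm ρ ≤ 2 := nrm_two hV hU
  refine ⟨16 * √σ + 8 / q + 4, by positivity, fun p hp => ?_⟩
  have hp0 : (0 : ℝ) < p := by exact_mod_cast hp
  have pp : 0 < (p : ℝ) ^ (-(1 / 6 : ℝ)) := Real.rpow_pos_of_pos hp0 _
  rcases Nat.lt_or_ge p 8 with hsmall | hbig
  · have k1 : nrm (A ^ p * ρ * A ^ p) ≤ 2 :=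
      le_trans (contr_right (prob_pow hU p) _) (le_trans (contr_left (prob_pow hU p) _) n2)
    have k2 : 1 / 2 ≤ (p : ℝ) ^ (-(1 / 6 : ℝ)) := by
      have hp8 : (p : ℝ) ≤ 64 := by
        have : p ≤ 64 := by omega
        exact_mod_cast this
      have e : (64 : ℝ) ^ (-(1 / 6 : ℝ)) = 1 / 2 := by
        rw [show (64 : ℝ) = 2 ^ (6 : ℝ) by norm_num, ← Real.rpow_mul (by norm_num)]
        norm_num
      rw [← e]
      exact Real.rpow_le_rpow_of_nonpos hp0 hp8 (by norm_num)
    have k3 : 0 ≤ 16 * √σ + 8 / q := by positivity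
    nlinarith
  · -- large margins
    set N := ⌊(p : ℝ) ^ (1 / 3 : ℝ)⌋₊ with hN
    set G := p / 2 with hG
    set y := (p : ℝ) ^ (1 / 3 : ℝ) with hy
    have y3 : y ^ 3 = p := by
      rw [hy, ← Real.rpow_natCast, ← Real.rpow_mul hp0.le]
      norm_num
    have y0 : 0 < y := Real.rpow_pos_of_pos hp0 _
    have hp8 : (8 : ℝ) ≤ p := by exact_mod_cast hbig
    have y2 : 2 ≤ y := by
      by_contra hcon
      push Not at hcon
      have : y ^ 3 < 2 ^ 3 := pow_lt_pow_left₀ hcon y0.le (by norm_num)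
      rw [y3] at this
      norm_num at this
      linarith
    have N1 : 1 ≤ N := by
      rw [hN]
      refine Nat.le_floor ?_
      push_cast
      linarith
    have Nle : (N : ℝ) ≤ y := Nat.floor_le y0.le
    have Nge : y / 2 ≤ N := by
      have := Nat.lt_floor_add_one y
      rw [← hN] at this
      linarith
    have G1 : 1 ≤ G := by omega
    have Gge : (p : ℝ) / 4 ≤ G := by
      have : p ≤ 4 * G := by omega
      have : (p : ℝ) ≤ 4 * G := by exact_mod_cast this
      linarith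
    have hNG : N + G ≤ p := by
      have a : (N : ℝ) ≤ (p : ℝ) / 2 := by
        have : y * 2 ≤ y ^ 3 := by nlinarith [mul_nonneg y0.le y0.le]
        rw [y3] at this
        linarith
      have b : ((2 * N : ℕ) : ℝ) ≤ (p : ℕ) := by push_cast; linarith
      have : 2 * N ≤ p := by exact_mod_cast b
      omega
    obtain ⟨w, _, _, w2, _, wk⟩ := kernel hU hs N G 1 N1 G1
    have kk := wk p p ρ (by omega) (by omega)
    have mm := one_moment hU (by positivity) hbd hm p (N * 1 + 1) (by omega) w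
    have tri : nrm (A ^ p * ρ * A ^ p)
        ≤ nrm (A ^ p * ρ * A ^ p - ∑ v ∈ range (N * 1 + 1), w v • (A ^ (p + v) * ρ * A ^ (p - v)))
          + nrm (∑ v ∈ range (N * 1 + 1), w v • (A ^ (p + v) * ρ * A ^ (p - v))) := by
      have := nrm_add_le (A ^ p * ρ * A ^ p
        - ∑ v ∈ range (N * 1 + 1), w v • (A ^ (p + v) * ρ * A ^ (p - v)))
        (∑ v ∈ range (N * 1 + 1), w v • (A ^ (p + v) * ρ * A ^ (p - v)))
      rwa [sub_add_cancel] at this
    -- numerical estimates
    set x := (p : ℝ) ^ (-(1 / 6 : ℝ)) with hx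
    have hxy : x ^ 2 = 1 / y := by
      have e : (1 : ℝ) / (p : ℝ) ^ (1 / 3 : ℝ) = (p : ℝ) ^ (-(1 / 3 : ℝ)) := by
        rw [Real.rpow_neg hp0.le]
        exact one_div _
      rw [hx, hy, e, ← Real.rpow_natCast, ← Real.rpow_mul hp0.le]
      norm_num
    have hsq : √(1 / y) = x := by rw [← hxy, Real.sqrt_sq pp.le]
    have b1 : √(∑ v ∈ range (N * 1 + 1), w v ^ 2) ≤ 4 * x := by
      rw [← hsq]
      have : (4 : ℝ) * √(1 / y) = √(16 * (1 / y)) := by
        rw [Real.sqrt_mul (by norm_num), show (16 : ℝ) = 4 ^ 2 by norm_num, Real.sqrt_sq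
          (by norm_num)]
      rw [this]
      refine Real.sqrt_le_sqrt (le_trans w2 ?_)
      have hN0 : (0 : ℝ) < N := by exact_mod_cast N1
      rw [pow_one, div_le_iff₀ hN0]
      have : (1 : ℝ) / y * y = 1 := by field_simp
      have : 16 * (1 / y) * (y / 2) ≤ 16 * (1 / y) * N := mul_le_mul_of_nonneg_left Nge
        (by positivity)
      have : 16 * (1 / y) * (y / 2) = 8 := by field_simp; norm_num
      linarith
    have b2 : (2 * N * √(σ / G)) ^ 1 ≤ 4 * √σ * x := by
      rw [pow_one]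
      have hG0 : (0 : ℝ) < G := by exact_mod_cast G1
      have s1 : √(σ / G) ≤ √(4 * σ / p) := by
        refine Real.sqrt_le_sqrt ?_
        rw [div_le_div_iff₀ hG0 hp0]
        have := mul_le_mul_of_nonneg_left Gge σ0.le
        linarith
      have s2 : √(4 * σ / p) = 2 * √σ * √(1 / p) := by
        rw [mul_div_assoc, mul_comm, ← mul_one_div, Real.sqrt_mul (by positivity),
          Real.sqrt_mul σ0.le]
        rw [show (4 : ℝ) = 2 ^ 2 by norm_num, Real.sqrt_sq (by norm_num)]
        ring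
      have s3 : y * √(1 / p) = x := by
        rw [← y3, ← hsq]
        have : (1 : ℝ) / y ^ 3 = (1 / y) * (1 / y) ^ 2 := by field_simp
        rw [this, Real.sqrt_mul (by positivity), Real.sqrt_sq (by positivity)]
        field_simp
      calc 2 * (N : ℝ) * √(σ / G) ≤ 2 * y * (2 * √σ * √(1 / p)) := by
            rw [← s2]
            exact mul_le_mul (by linarith) s1 (by positivity) (by positivity)
        _ = 4 * √σ * (y * √(1 / p)) := by ring
        _ = _ := by rw [s3]
    have b3 := mul_le_mul b2 n2 (nrm_nonneg ρ) (by positivity : 0 ≤ 4 * √σ * x)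
    have b4 : 2 * (1 / q * √(∑ v ∈ range (N * 1 + 1), w v ^ 2)) ≤ 2 * (1 / q * (4 * x)) := by
      have : 0 ≤ 1 / q := by positivity
      have := mul_le_mul_of_nonneg_left b1 this
      linarith
    have fin : 4 * √σ * x * 2 + 2 * (1 / q * (4 * x)) ≤ (16 * √σ + 8 / q + 4) * x := by
      have : 0 ≤ (8 * √σ + 4) * x := by positivity
      have e : (16 * √σ + 8 / q + 4) * x = (4 * √σ * x * 2 + 2 * (1 / q * (4 * x)))
        + (8 * √σ + 4) * x := by ring
      linarith
    linarith

end Vale.Agent.P321
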