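import Vale.Agent.P321.Base

/-! Moving one defect by one position. -/

namespace Vale.Agent.P321

open Finset

theorem mon_sing (A d : Alg) (m n : ℕ) : mon A d (m + 1 + n) {m} = A ^ m * d * A ^ n := by
  rw [mon_pad A d (m + 1) n {m} (by simp), mon_succ]
  have e : mon A d m {m} = A ^ m := by
    rw [mon_congr A d m {m} ∅ (fun i hi => by simp; omega), mon_empty]
  rw [e]
  simp

/-- deterministic part -/
theorem base_det {A ρ : Alg} {σ b : ℝ} (hA : Prob A) (hs : Smooth σ A) (hb : 0 ≤ b)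
    (hρ : Bd b A ρ) (hm : mass ρ = 0) (h2 : nrm ρ ≤ 2) (J N G0 g : ℕ) (hN : 1 ≤ N)
    (hG0 : 1 ≤ G0) (hc1 : J * G0 ≤ g) (hc2 : J * (N + G0) + (N * J + 1) ≤ g) (Λ : ℝ)
    (hΛ : 0 < Λ) :
    (∀ a, a ≤ N * J + 1 → Dom (Λ * b * (2 ^ J / √(N : ℝ)))
      (2 * Real.exp (-Λ ^ 2 / 2) * (b * 2 ^ J) + (2 * N * √(σ / G0)) ^ J * 2) (A ^ (2 * g + 1))
      (A ^ (g + a) * ρ * A ^ (g - a))) ∧
    Dom ((2 ^ (J + 1) / N) * (Λ * b * (2 ^ J / √(N : ℝ))))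
      ((2 ^ (J + 1) / N) * (2 * Real.exp (-Λ ^ 2 / 2) * (b * 2 ^ J)
        + (2 * N * √(σ / G0)) ^ J * 2) + 4 * (2 * N * √(σ / G0)) ^ J) (A ^ (2 * g + 1))
      (A ^ (g + 1) * ρ * A ^ (g - 1) - A ^ g * ρ * A ^ g) := by
  obtain ⟨w, w0, w1, w2, wt, wk⟩ := kernel hA hs N G0 J hN hG0
  have hN0 : (0 : ℝ) < N := by exact_mod_cast hN
  have hP : Nonneg (A ^ (2 * g + 1)) := nonneg_pow hA.1 _
  set E := (2 * N * √(σ / G0)) ^ J with hE
  have E0 : 0 ≤ E := by positivity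
  set x : ℕ → Alg := fun a => A ^ (g + a) * ρ * A ^ (g - a) with hx
  set Y : ℕ → Alg := fun a => ∑ v ∈ range (N * J + 1), w v • x (a + v) with hY
  have hclose : ∀ a, a ≤ N * J + 1 → nrm (x a - Y a) ≤ E * 2 := by
    intro a ha
    have k := wk (g + a) (g - a) ρ (by omega) (by omega)
    have e : Y a = ∑ v ∈ range (N * J + 1), w v • (A ^ (g + a + v) * ρ * A ^ (g - a - v)) := by
      rw [hY]
      refine sum_congr rfl fun v _ => ?_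
      simp only [hx]
      rw [show g + (a + v) = g + a + v by ring, show g - (a + v) = g - a - v by omega]
    rw [e]
    refine le_trans k ?_
    exact mul_le_mul_of_nonneg_left h2 E0
  have sq : √(∑ v ∈ range (N * J + 1), w v ^ 2) ≤ 2 ^ J / √(N : ℝ) := by
    refine le_trans (Real.sqrt_le_sqrt w2) (le_of_eq ?_)
    rw [Real.sqrt_div (by positivity)]
    congr 1
    rw [show (4 : ℝ) ^ J = (2 ^ J) ^ 2 by rw [← pow_mul, mul_comm, pow_mul]; norm_num,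
      Real.sqrt_sq (by positivity)]
  have hYd : ∀ a, a ≤ N * J + 1 → Dom (Λ * b * (2 ^ J / √(N : ℝ)))
      (2 * Real.exp (-Λ ^ 2 / 2) * (b * 2 ^ J)) (A ^ (2 * g + 1)) (Y a) := by
    intro a ha
    have hle : ∀ v ∈ range (N * J + 1), g + a + v ≤ 2 * g := by
      intro v hv
      have := mem_range.1 hv
      have : J * (N + G0) = N * J + J * G0 := by ring
      omega
    have h := hoeff_gen (b := b) hA hρ hm hb hb (2 * g + 1) (range (N * J + 1))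
      (fun v => {g + a + v})
      (fun v hv => by
        intro i hi
        rw [mem_singleton] at hi
        have := hle v hv
        rw [mem_range]
        omega)
      (fun v _ v' _ hne => by
        rw [disjoint_singleton]
        omega)
      (fun v _ => singleton_nonempty _) (fun v _ => by simp) w Λ hΛ
    have e : ∑ v ∈ range (N * J + 1), w v • mon A ρ (2 * g + 1) {g + a + v} = Y a := by
      rw [hY]
      refine sum_congr rfl fun v hv => ?_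
      have := hle v hv
      have e1 : 2 * g + 1 = (g + a + v) + 1 + (g - (a + v)) := by omega
      rw [e1, mon_sing]
      simp only [hx]
      rw [show g + (a + v) = g + a + v by ring]
    rw [e] at h
    refine dom_mono hP h ?_ ?_
    · exact mul_le_mul_of_nonneg_left sq (by positivity)
    · refine mul_le_mul_of_nonneg_left ?_ (by positivity)
      exact mul_le_mul_of_nonneg_left w1 hb
  have hxd : ∀ a, a ≤ N * J + 1 → Dom (Λ * b * (2 ^ J / √(N : ℝ)))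
      (2 * Real.exp (-Λ ^ 2 / 2) * (b * 2 ^ J) + E * 2) (A ^ (2 * g + 1)) (x a) := by
    intro a ha
    have h := dom_add (hYd a ha) (dom_of_nrm (E := A ^ (2 * g + 1)) (hclose a ha))
    rw [add_zero] at h
    have e : Y a + (x a - Y a) = x a := by abel
    rwa [e] at h
  refine ⟨hxd, ?_⟩
  have w00 : w 0 = 0 := by
    by_contra h
    have := (w0 0 h).1
    omega
  have wend : w (N * J + 1) = 0 := by
    by_contra h
    have := (w0 _ h).2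
    omega
  have hdiff : Y 1 - Y 0 = ∑ v ∈ range (N * J + 1), (w v - w (v + 1)) • x (v + 1) := by
    have e0 : Y 0 = ∑ v ∈ range (N * J + 1), w (v + 1) • x (v + 1) := by
      simp only [hY, zero_add]
      rw [sum_range_succ', w00, zero_smul, add_zero, sum_range_succ, wend, zero_smul, add_zero]
    have e1 : Y 1 = ∑ v ∈ range (N * J + 1), w v • x (v + 1) := by
      simp only [hY]
      exact sum_congr rfl fun v _ => by rw [add_comm 1 v]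
    rw [e0, e1, ← sum_sub_distrib]
    exact sum_congr rfl fun v _ => by rw [sub_smul]
  have hD : Dom ((2 ^ (J + 1) / N) * (Λ * b * (2 ^ J / √(N : ℝ))))
      ((2 ^ (J + 1) / N) * (2 * Real.exp (-Λ ^ 2 / 2) * (b * 2 ^ J) + E * 2))
      (A ^ (2 * g + 1)) (Y 1 - Y 0) := by
    rw [hdiff]
    have h := dom_sum (range (N * J + 1)) (E := A ^ (2 * g + 1))
      (F := fun v => (w v - w (v + 1)) • x (v + 1)) (fun v hv => dom_smul (w v - w (v + 1))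
        (hxd (v + 1) (by have := mem_range.1 hv; omega)))
    rw [← sum_mul, ← sum_mul] at h
    have wt' : ∑ v ∈ range (N * J + 1), |w v - w (v + 1)| ≤ 2 ^ (J + 1) / N := by
      refine le_trans (le_of_eq ?_) wt
      exact sum_congr rfl fun v _ => abs_sub_comm _ _
    refine dom_mono hP h ?_ ?_
    · exact mul_le_mul_of_nonneg_right wt' (by positivity)
    · exact mul_le_mul_of_nonneg_right wt' (by positivity)
  have c1 := dom_of_nrm (E := A ^ (2 * g + 1)) (hclose 1 (by omega))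
  have c0 := dom_of_nrm (E := A ^ (2 * g + 1)) (hclose 0 (by omega))
  have h := dom_add hD (dom_sub c1 c0)
  have e : Y 1 - Y 0 + (x 1 - Y 1 - (x 0 - Y 0)) = x 1 - x 0 := by abel
  rw [e] at h
  have e2 : x 1 - x 0 = A ^ (g + 1) * ρ * A ^ (g - 1) - A ^ g * ρ * A ^ g := by
    simp only [hx, add_zero, Nat.sub_zero]
  rw [e2] at h
  refine dom_mono hP h (by linarith) (by linarith)

/-- combination with the flip -/
theorem base_comb {A V : Alg} {σ b : ℝ} (hA : Prob A) (hV : Prob V) (hs : Smooth σ A)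
    (hb : 0 ≤ b) (hρ : Bd b A (V - A)) (J N G0 g : ℕ) (hN : 1 ≤ N) (hg : 1 ≤ g)
    (hG0 : 1 ≤ G0) (hc1 : J * G0 ≤ g) (hc2 : J * (N + G0) + (N * J + 1) ≤ g) (Λ : ℝ)
    (hΛ : 0 < Λ) (hhalf : Λ * b * (2 ^ J / √(N : ℝ)) ≤ 1 / 2) :
    Dom (2 * ((2 ^ (J + 1) / N) * (Λ * b * (2 ^ J / √(N : ℝ)))))
      ((2 ^ (J + 2) / N + 2) * (2 * Real.exp (-Λ ^ 2 / 2) * (b * 2 ^ J)
        + (2 * N * √(σ / G0)) ^ J * 2) * 2 + 4 * (2 * N * √(σ / G0)) ^ J)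
      (A ^ g * V * A ^ g) (A ^ (g + 1) * V * A ^ (g - 1) - A ^ g * V * A ^ g) := by
  have hm : mass (V - A) = 0 := by rw [mass_sub, hV.2, hA.2, sub_self]
  have h2 : nrm (V - A) ≤ 2 := nrm_two hV hA
  have hN0 : (0 : ℝ) < N := by exact_mod_cast hN
  obtain ⟨d1, d2⟩ := base_det hA hs hb hρ hm h2 J N G0 g hN hG0 hc1 hc2 Λ hΛ
  have d0 := d1 0 (Nat.zero_le _)
  rw [add_zero, Nat.sub_zero] at d0
  set t0 := Λ * b * (2 ^ J / √(N : ℝ)) with ht0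
  set ξ1 := 2 * Real.exp (-Λ ^ 2 / 2) * (b * 2 ^ J) + (2 * N * √(σ / G0)) ^ J * 2 with hξ1
  have ξ10 : 0 ≤ ξ1 := by positivity
  have t00 : 0 ≤ t0 := by positivity
  have hP : Nonneg (A ^ (2 * g + 1)) := nonneg_pow hA.1 _
  have eP : A ^ g * A * A ^ g = A ^ (2 * g + 1) := by
    rw [← pow_succ, ← pow_add]
    congr 1
    omega
  have e0 : A ^ g * (V - A) * A ^ g = A ^ g * V * A ^ g - A ^ (2 * g + 1) := by
    rw [← eP]; noncomm_ring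
  have e1 : A ^ (g + 1) * (V - A) * A ^ (g - 1) - A ^ g * (V - A) * A ^ g
      = A ^ (g + 1) * V * A ^ (g - 1) - A ^ g * V * A ^ g := by
    have eP' : A ^ (g + 1) * A * A ^ (g - 1) = A ^ (2 * g + 1) := by
      rw [← pow_succ, ← pow_add]
      congr 1
      omega
    have : A ^ (g + 1) * (V - A) * A ^ (g - 1)
        = A ^ (g + 1) * V * A ^ (g - 1) - A ^ (g + 1) * A * A ^ (g - 1) := by noncomm_ring
    rw [this, e0, eP']
    abel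
  rw [e0] at d0
  rw [e1] at d2
  have hE : Nonneg (A ^ g * V * A ^ g) :=
    nonneg_mul (nonneg_mul (nonneg_pow hA.1 _) hV.1) (nonneg_pow hA.1 _)
  have fl := dom_flip hE hP (dom_mono hP d0 hhalf le_rfl)
  have tr := dom_trans (by positivity) fl d2
  refine dom_mono hE tr (by linarith) ?_
  have k1 : (2 : ℝ) ^ (J + 1) / N * t0 ≤ 2 ^ (J + 1) / N := by
    have : 0 ≤ (2 : ℝ) ^ (J + 1) / N := by positivity
    nlinarith
  have k2 := mul_le_mul_of_nonneg_right k1 (by positivity : 0 ≤ 2 * ξ1)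
  have e3 : (2 : ℝ) ^ (J + 2) / N = 2 * (2 ^ (J + 1) / N) := by rw [pow_succ]; ring
  rw [e3]
  have : 0 ≤ (2 : ℝ) ^ (J + 1) / N * ξ1 := by positivity
  nlinarith

theorem ev_pow (δ K : ℝ) (hδ : 0 < δ) : ∀ᶠ g : ℕ in Filter.atTop, K ≤ (g : ℝ) ^ δ :=
  ((tendsto_rpow_atTop hδ).comp tendsto_natCast_atTop_atTop).eventually_ge_atTop K

theorem ev_exp (η s : ℝ) (hη : 0 < η) :
    ∀ᶠ g : ℕ in Filter.atTop, Real.exp (-((g : ℝ) ^ η) ^ 2 / 2) ≤ (g : ℝ) ^ (-s) := by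
  have h1 := tendsto_rpow_mul_exp_neg_mul_atTop_nhds_zero (s / (2 * η)) (1 / 2) (by norm_num)
  have h2 : Filter.Tendsto (fun g : ℕ => (g : ℝ) ^ (2 * η)) Filter.atTop Filter.atTop :=
    (tendsto_rpow_atTop (by positivity)).comp tendsto_natCast_atTop_atTop
  have h3 := (h1.comp h2).eventually (gt_mem_nhds (show (0 : ℝ) < 1 by norm_num))
  filter_upwards [h3, Filter.eventually_ge_atTop 1] with g hg hg1
  have hg0 : (0 : ℝ) < g := by exact_mod_cast hg1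
  simp only [Function.comp] at hg
  rw [← Real.rpow_mul hg0.le] at hg
  have e1 : 2 * η * (s / (2 * η)) = s := by field_simp
  rw [e1] at hg
  have e2 : ((g : ℝ) ^ η) ^ 2 = (g : ℝ) ^ (2 * η) := by
    rw [← Real.rpow_natCast, ← Real.rpow_mul hg0.le]
    congr 1
    push_cast
    ring
  rw [e2, Real.rpow_neg hg0.le]
  have hp : 0 < (g : ℝ) ^ s := Real.rpow_pos_of_pos hg0 _
  rw [← one_div, le_div_iff₀ hp]
  have e3 : Real.exp (-(g : ℝ) ^ (2 * η) / 2) = Real.exp (-(1 / 2) * (g : ℝ) ^ (2 * η)) := by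
    congr 1
    ring
  rw [e3]
  linarith

theorem bd_params (J g : ℕ) (η : ℝ) (hJ : 1 ≤ J) (h0 : 0 < η) (h1 : η ≤ 1 / 20)
    (hg : 64 * J ^ 2 + 8 * J + 8 ≤ g) :
    ∃ N G0 : ℕ, 1 ≤ N ∧ 1 ≤ G0 ∧ J * G0 ≤ g ∧ J * (N + G0) + (N * J + 1) ≤ g ∧
      (N : ℝ) ≤ (g : ℝ) ^ (1 / 2 - η) ∧ (g : ℝ) ^ (1 / 2 - η) / 2 ≤ N ∧
      (g : ℝ) ≤ 8 * J * G0 := by
  have g8 : 8 * J ≤ g := by nlinarith
  have gg : 64 * J ^ 2 ≤ g := by nlinarith
  have g1 : 8 ≤ g := by nlinarith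
  have G8 : (8 : ℝ) ≤ g := by exact_mod_cast g1
  have G0' : (0 : ℝ) < g := by linarith
  have G1' : (1 : ℝ) ≤ g := by linarith
  have y0 : 0 < (g : ℝ) ^ (1 / 2 - η) := Real.rpow_pos_of_pos G0' _
  have y1 : 1 ≤ (g : ℝ) ^ (1 / 2 - η) := Real.one_le_rpow G1' (by linarith)
  have hy2 : ((g : ℝ) ^ (1 / 2 - η)) ^ 2 ≤ g := by
    rw [← Real.rpow_natCast, ← Real.rpow_mul G0'.le]
    calc (g : ℝ) ^ ((1 / 2 - η) * ((2 : ℕ) : ℝ)) ≤ (g : ℝ) ^ (1 : ℝ) :=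
          Real.rpow_le_rpow_of_exponent_le G1' (by push_cast; linarith)
      _ = g := Real.rpow_one _
  generalize (g : ℝ) ^ (1 / 2 - η) = y at y0 y1 hy2 ⊢
  have N1 : 1 ≤ ⌊y⌋₊ := Nat.le_floor (by push_cast; exact y1)
  have Nle : (⌊y⌋₊ : ℝ) ≤ y := Nat.floor_le y0.le
  have Nge : y / 2 ≤ ⌊y⌋₊ := by
    have h1 := Nat.lt_floor_add_one y
    have h2 : (1 : ℝ) ≤ ⌊y⌋₊ := by exact_mod_cast N1
    linarith
  generalize ⌊y⌋₊ = N at N1 Nle Nge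
  have N0 : (0 : ℝ) < N := by exact_mod_cast N1
  have hG01 : 1 ≤ g / (4 * J) := by
    rw [Nat.le_div_iff_mul_le (by omega)]
    omega
  have hJG : 4 * (J * (g / (4 * J))) ≤ g := by
    have h := Nat.div_mul_le_self g (4 * J)
    calc 4 * (J * (g / (4 * J))) = g / (4 * J) * (4 * J) := by ring
      _ ≤ g := h
  have hG0R : (g : ℝ) ≤ 8 * J * ((g / (4 * J) : ℕ) : ℝ) := by
    have h := Nat.lt_div_mul_add (a := g) (b := 4 * J) (by omega)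
    have hr : (g : ℝ) < ((g / (4 * J) : ℕ) : ℝ) * (4 * J) + 4 * J := by exact_mod_cast h
    have g8' : (8 : ℝ) * J ≤ g := by exact_mod_cast g8
    linarith
  generalize g / (4 * J) = G0 at hG01 hJG hG0R
  have hN2 : N ^ 2 ≤ g := by
    have : (N : ℝ) ^ 2 ≤ g := le_trans (pow_le_pow_left₀ N0.le Nle 2) hy2
    exact_mod_cast this
  have hNJ : 8 * J * N ≤ g := by
    have : (8 * J * N) ^ 2 ≤ g ^ 2 := by
      calc (8 * J * N) ^ 2 = (64 * J ^ 2) * N ^ 2 := by ring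
        _ ≤ g * g := Nat.mul_le_mul gg hN2
        _ = g ^ 2 := by ring
    exact (Nat.pow_le_pow_iff_left (by norm_num)).1 this
  refine ⟨N, G0, N1, hG01, by omega, ?_, Nle, Nge, hG0R⟩
  have e : J * (N + G0) + (N * J + 1) = 2 * (J * N) + J * G0 + 1 := by ring
  rw [e]
  have : 8 * (J * N) ≤ g := by rw [← mul_assoc]; exact hNJ
  omega

theorem bd_inv (g N : ℕ) (η : ℝ) (hg : 1 ≤ g) (hN : 1 ≤ N)
    (Nge : (g : ℝ) ^ (1 / 2 - η) / 2 ≤ N) :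
    1 / (N : ℝ) ≤ 2 * ((g : ℝ) ^ (-(1 / 4) + η / 2)) ^ 2 ∧
      1 / √(N : ℝ) ≤ 2 * (g : ℝ) ^ (-(1 / 4) + η / 2) := by
  have N0 : (0 : ℝ) < N := by exact_mod_cast hN
  have G0' : (0 : ℝ) < g := by exact_mod_cast hg
  have y0 : 0 < (g : ℝ) ^ (1 / 2 - η) := Real.rpow_pos_of_pos G0' _
  have u0 : 0 < (g : ℝ) ^ (-(1 / 4) + η / 2) := Real.rpow_pos_of_pos G0' _
  have u2 : ((g : ℝ) ^ (-(1 / 4) + η / 2)) ^ 2 * (g : ℝ) ^ (1 / 2 - η) = 1 := by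
    rw [← Real.rpow_natCast, ← Real.rpow_mul G0'.le, ← Real.rpow_add G0']
    have : (-(1 / 4) + η / 2) * ((2 : ℕ) : ℝ) + (1 / 2 - η) = 0 := by push_cast; ring
    rw [this, Real.rpow_zero]
  generalize (g : ℝ) ^ (-(1 / 4) + η / 2) = u at u0 u2 ⊢
  generalize (g : ℝ) ^ (1 / 2 - η) = y at y0 u2 Nge
  have iN : 1 / (N : ℝ) ≤ 2 * u ^ 2 := by
    rw [div_le_iff₀ N0]
    have : 2 * u ^ 2 * (y / 2) ≤ 2 * u ^ 2 * N := mul_le_mul_of_nonneg_left Nge (by positivity)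
    linarith
  refine ⟨iN, ?_⟩
  have h : 1 / √(N : ℝ) = √(1 / N) := by rw [Real.sqrt_div zero_le_one, Real.sqrt_one]
  rw [h]
  calc √(1 / (N : ℝ)) ≤ √((2 * u) ^ 2) := Real.sqrt_le_sqrt (by nlinarith)
    _ = 2 * u := Real.sqrt_sq (by positivity)

theorem bd_half {J N : ℕ} {Λ b u K3 r : ℝ} (hΛ : 0 < Λ) (hb : 0 < b) (hu : 0 < u)
    (hN : 1 / √(N : ℝ) ≤ 2 * u) (hK : K3 = 4 * 2 ^ J * b) (hr : K3 ≤ r) (e : Λ * u * r = 1) :
    Λ * b * (2 ^ J / √(N : ℝ)) ≤ Λ * b * (2 ^ J * (2 * u)) ∧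
      Λ * b * (2 ^ J / √(N : ℝ)) ≤ 1 / 2 := by
  have t0le : Λ * b * (2 ^ J / √(N : ℝ)) ≤ Λ * b * (2 ^ J * (2 * u)) := by
    refine mul_le_mul_of_nonneg_left ?_ (by positivity)
    rw [div_eq_mul_one_div]
    exact mul_le_mul_of_nonneg_left hN (by positivity)
  refine ⟨t0le, le_trans t0le ?_⟩
  have k := mul_le_mul_of_nonneg_left hr (by positivity : 0 ≤ Λ * u)
  rw [e] at k
  calc Λ * b * (2 ^ J * (2 * u)) = (Λ * u * K3) / 2 := by rw [hK]; ring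
    _ ≤ 1 / 2 := by linarith

theorem bd_main {J N : ℕ} {Λ b u K1 r z : ℝ} (hΛ : 0 < Λ) (hb : 0 < b) (hu : 0 < u)
    (hN1 : 1 / (N : ℝ) ≤ 2 * u ^ 2)
    (t0le : Λ * b * (2 ^ J / √(N : ℝ)) ≤ Λ * b * (2 ^ J * (2 * u)))
    (hK : K1 = 2 ^ (2 * J + 4) * b) (hr : K1 ≤ r) (e' : r * (Λ * u ^ 3) = z) :
    2 * (2 ^ (J + 1) / (N : ℝ) * (Λ * b * (2 ^ J / √(N : ℝ)))) ≤ z := by
  have k1 : (2 : ℝ) ^ (J + 1) / N ≤ 2 ^ (J + 1) * (2 * u ^ 2) := by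
    rw [div_eq_mul_one_div]
    exact mul_le_mul_of_nonneg_left hN1 (by positivity)
  have k2 : 2 * (2 ^ (J + 1) / (N : ℝ) * (Λ * b * (2 ^ J / √(N : ℝ))))
      ≤ 2 * (2 ^ (J + 1) * (2 * u ^ 2) * (Λ * b * (2 ^ J * (2 * u)))) := by
    refine mul_le_mul_of_nonneg_left ?_ (by norm_num)
    exact mul_le_mul k1 t0le (by positivity) (by positivity)
  refine le_trans k2 ?_
  have e : 2 * (2 ^ (J + 1) * (2 * u ^ 2) * (Λ * b * (2 ^ J * (2 * u)))) = K1 * (Λ * u ^ 3) := by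
    rw [hK, show 2 * J + 4 = (J + 1) + J + 3 by ring, pow_add, pow_add]
    ring
  rw [e, ← e']
  exact mul_le_mul_of_nonneg_right hr (by positivity)

theorem bd_sq {J N G0 g : ℕ} {η σ : ℝ} (hg : 1 ≤ g) (hG : 1 ≤ G0) (hσ : 0 < σ)
    (Nle : (N : ℝ) ≤ (g : ℝ) ^ (1 / 2 - η)) (hG0R : (g : ℝ) ≤ 8 * J * G0) :
    2 * N * √(σ / G0) ≤ 2 * √(8 * J * σ) * (g : ℝ) ^ (-η) := by
  have G00 : (0 : ℝ) < G0 := by exact_mod_cast hG
  have G0' : (0 : ℝ) < g := by exact_mod_cast hg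
  have s1 : √(σ / G0) ≤ √(8 * J * σ) / √(g : ℝ) := by
    rw [← Real.sqrt_div (by positivity)]
    refine Real.sqrt_le_sqrt ?_
    rw [div_le_div_iff₀ G00 G0']
    have := mul_le_mul_of_nonneg_left hG0R hσ.le
    linarith
  have s2 : (g : ℝ) ^ (1 / 2 - η) / √(g : ℝ) = (g : ℝ) ^ (-η) := by
    rw [Real.sqrt_eq_rpow, ← Real.rpow_sub G0']
    congr 1
    ring
  calc 2 * (N : ℝ) * √(σ / G0) ≤ 2 * (g : ℝ) ^ (1 / 2 - η) * (√(8 * J * σ) / √(g : ℝ)) :=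
        mul_le_mul (by linarith) s1 (by positivity) (by positivity)
    _ = 2 * √(8 * J * σ) * ((g : ℝ) ^ (1 / 2 - η) / √(g : ℝ)) := by ring
    _ = _ := by rw [s2]

theorem bd_err {J N : ℕ} {b X w z K4 K5 K6 z' x1 x2 g1 g2 : ℝ} (hN : 1 ≤ N) (hb : 0 < b)
    (hX : 0 ≤ X) (hK4 : K4 = (2 ^ (J + 2) + 2) * 2 * (2 ^ (J + 1) * b))
    (hK5 : K5 = (2 ^ (J + 2) + 2) * 4 + 4) (hw : 0 ≤ w) (hwz : w ≤ K6 * z)
    (hz' : (K6 * z) ^ J ≤ K6 ^ J * x2) (hX1 : X ≤ x1) (h4 : 2 * K4 ≤ g1)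
    (h5 : 2 * (K5 * K6 ^ J) ≤ g2) (hx1 : 0 ≤ x1) (hx2 : 0 ≤ x2) (e1 : x1 * g1 = z')
    (e2 : x2 * g2 = z') :
    (2 ^ (J + 2) / (N : ℝ) + 2) * (2 * X * (b * 2 ^ J) + w ^ J * 2) * 2 + 4 * w ^ J ≤ z' := by
  have hN1' : (1 : ℝ) ≤ N := by exact_mod_cast hN
  have hE : w ^ J ≤ K6 ^ J * x2 := le_trans (pow_le_pow_left₀ hw hwz J) hz'
  have hE0 : 0 ≤ w ^ J := by positivity
  generalize w ^ J = E at hE hE0
  have q1 : (2 : ℝ) ^ (J + 2) / N ≤ 2 ^ (J + 2) := div_le_self (by positivity) hN1'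
  have m1 : (2 ^ (J + 2) / (N : ℝ) + 2) * (2 * X * (b * 2 ^ J) + E * 2) * 2 + 4 * E
      ≤ (2 ^ (J + 2) + 2) * (2 * X * (b * 2 ^ J) + E * 2) * 2 + 4 * E := by
    have h0 : 0 ≤ 2 * X * (b * 2 ^ J) + E * 2 := by positivity
    have h1 : (2 : ℝ) ^ (J + 2) / N + 2 ≤ 2 ^ (J + 2) + 2 := by linarith
    have := mul_le_mul_of_nonneg_right h1 h0
    linarith
  refine le_trans m1 ?_
  have e7 : (2 ^ (J + 2) + 2) * (2 * X * (b * 2 ^ J) + E * 2) * 2 + 4 * E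
      = K4 * X + K5 * E := by
    rw [hK4, hK5, pow_succ 2 J]
    ring
  rw [e7]
  have K40 : 0 ≤ K4 := by rw [hK4]; positivity
  have K50 : 0 ≤ K5 := by rw [hK5]; positivity
  have a1 : K4 * X ≤ z' / 2 := by
    have k1 := mul_le_mul_of_nonneg_left hX1 K40
    have k2 := mul_le_mul_of_nonneg_left h4 hx1
    rw [e1] at k2
    linarith
  have a2 : K5 * E ≤ z' / 2 := by
    have k1 := mul_le_mul_of_nonneg_left hE K50
    have k2 := mul_le_mul_of_nonneg_left h5 hx2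
    rw [e2] at k2
    linarith
  linarith

/-- for one `g` -/
theorem base_one {A V : Alg} {σ b ε c η : ℝ} (hA : Prob A) (hV : Prob V) (hs : Smooth σ A)
    (hσ : 0 < σ) (hb : 0 < b) (hρ : Bd b A (V - A)) (η0 : 0 < η) (η2 : η ≤ 1 / 20)
    (J : ℕ) (J1 : 1 ≤ J) (ηJ : c + 2 ≤ η * J) (g : ℕ)
    (e1 : 2 ^ (2 * J + 4) * b ≤ (g : ℝ) ^ (ε - 5 / 2 * η))
    (e2 : 4 * 2 ^ J * b ≤ (g : ℝ) ^ (1 / 4 - 3 / 2 * η))
    (e3 : Real.exp (-((g : ℝ) ^ η) ^ 2 / 2) ≤ (g : ℝ) ^ (-(c + 1)))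
    (e4 : 2 * ((2 ^ (J + 2) + 2) * 2 * (2 ^ (J + 1) * b)) ≤ (g : ℝ) ^ (1 : ℝ))
    (e5 : 2 * (((2 ^ (J + 2) + 2) * 4 + 4) * (2 * √(8 * J * σ)) ^ J) ≤ (g : ℝ) ^ (2 : ℝ))
    (e6 : 64 * J ^ 2 + 8 * J + 8 ≤ g) :
    Dom ((g : ℝ) ^ (-(3 / 4 : ℝ) + ε)) ((g : ℝ) ^ (-c)) (A ^ g * V * A ^ g)
      (A ^ (g + 1) * V * A ^ (g - 1) - A ^ g * V * A ^ g) := by
  obtain ⟨N, G0, N1, hG01, hc1, hc2, Nle, Nge, hG0R⟩ := bd_params J g η J1 η0 η2 e6
  have g1 : 1 ≤ g := by nlinarith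
  have G0' : (0 : ℝ) < g := by exact_mod_cast g1
  have G1' : (1 : ℝ) ≤ g := by exact_mod_cast g1
  obtain ⟨iN, isN⟩ := bd_inv g N η g1 N1 Nge
  have Λ0 : 0 < (g : ℝ) ^ η := Real.rpow_pos_of_pos G0' _
  have u0 : 0 < (g : ℝ) ^ (-(1 / 4) + η / 2) := Real.rpow_pos_of_pos G0' _
  have eh : (g : ℝ) ^ η * (g : ℝ) ^ (-(1 / 4) + η / 2) * (g : ℝ) ^ (1 / 4 - 3 / 2 * η) = 1 := by
    rw [← Real.rpow_add G0', ← Real.rpow_add G0']
    have : η + (-(1 / 4) + η / 2) + (1 / 4 - 3 / 2 * η) = 0 := by ring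
    rw [this, Real.rpow_zero]
  obtain ⟨t0le, hhalf⟩ := bd_half (J := J) Λ0 hb u0 isN rfl e2 eh
  have main := base_comb hA hV hs hb.le hρ J N G0 g N1 g1 hG01 hc1 hc2 _ Λ0 hhalf
  have hE : Nonneg (A ^ g * V * A ^ g) :=
    nonneg_mul (nonneg_mul (nonneg_pow hA.1 _) hV.1) (nonneg_pow hA.1 _)
  have em : (g : ℝ) ^ (ε - 5 / 2 * η) * ((g : ℝ) ^ η * ((g : ℝ) ^ (-(1 / 4) + η / 2)) ^ 3)
      = (g : ℝ) ^ (-(3 / 4 : ℝ) + ε) := by
    rw [← Real.rpow_natCast ((g : ℝ) ^ (-(1 / 4) + η / 2)), ← Real.rpow_mul G0'.le,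
      ← Real.rpow_add G0', ← Real.rpow_add G0']
    congr 1
    push_cast
    ring
  have c1 := bd_main (J := J) Λ0 hb u0 iN t0le rfl e1 em
  have hsq := bd_sq g1 hG01 hσ Nle hG0R
  have hz : (2 * √(8 * J * σ) * (g : ℝ) ^ (-η)) ^ J
      ≤ (2 * √(8 * J * σ)) ^ J * (g : ℝ) ^ (-(c + 2)) := by
    rw [mul_pow (2 * √(8 * J * σ)) ((g : ℝ) ^ (-η)) J, ← Real.rpow_natCast ((g : ℝ) ^ (-η)),
      ← Real.rpow_mul G0'.le]
    refine mul_le_mul_of_nonneg_left ?_ (by positivity)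
    exact Real.rpow_le_rpow_of_exponent_le G1' (by linarith)
  have x1 : (g : ℝ) ^ (-(c + 1)) * (g : ℝ) ^ (1 : ℝ) = (g : ℝ) ^ (-c) := by
    rw [← Real.rpow_add G0']; congr 1; ring
  have x2 : (g : ℝ) ^ (-(c + 2)) * (g : ℝ) ^ (2 : ℝ) = (g : ℝ) ^ (-c) := by
    rw [← Real.rpow_add G0']; congr 1; ring
  have c2 := bd_err N1 hb (Real.exp_pos _).le rfl rfl (by positivity) hsq hz e3 e4 e5
    (Real.rpow_pos_of_pos G0' (-(c + 1))).le (Real.rpow_pos_of_pos G0' (-(c + 2))).le x1 x2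
  exact dom_mono hE main c1 c2

theorem base_dom {q : ℝ} (h0 : 0 < q) (h1 : q < 1) (ε : ℝ) (hε : 0 < ε) (c : ℝ) :
    ∀ᶠ g : ℕ in Filter.atTop, Dom ((g : ℝ) ^ (-(3 / 4 : ℝ) + ε)) ((g : ℝ) ^ (-c))
      (tr q wU ^ g * tr q wV * tr q wU ^ g)
      (tr q wU ^ (g + 1) * tr q wV * tr q wU ^ (g - 1) - tr q wU ^ g * tr q wV * tr q wU ^ g) := by
  have hA := tr_prob h0.le h1.le wU
  have hV := tr_prob h0.le h1.le wV
  have hs := base_smoothU h0 h1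
  have hρ := base_bd h0 h1
  have σ0 : 0 < 200 / q ^ 2 := by positivity
  have b0 : 0 < 1 / q := by positivity
  obtain ⟨η, η0, η1, η2⟩ : ∃ η : ℝ, 0 < η ∧ η ≤ ε / 5 ∧ η ≤ 1 / 20 :=
    ⟨min (ε / 5) (1 / 20), lt_min (by positivity) (by norm_num), min_le_left _ _,
      min_le_right _ _⟩
  obtain ⟨J, J1, ηJ⟩ : ∃ J : ℕ, 1 ≤ J ∧ c + 2 ≤ η * J := by
    refine ⟨⌈(|c| + 2) / η⌉₊ + 1, by omega, ?_⟩
    have h := Nat.le_ceil ((|c| + 2) / η)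
    rw [div_le_iff₀ η0] at h
    have h2 := le_abs_self c
    push_cast
    nlinarith
  have hd1 : 0 < ε - 5 / 2 * η := by linarith
  have hd2 : 0 < 1 / 4 - 3 / 2 * η := by linarith
  filter_upwards [ev_pow _ (2 ^ (2 * J + 4) * (1 / q)) hd1, ev_pow _ (4 * 2 ^ J * (1 / q)) hd2,
    ev_exp η (c + 1) η0,
    ev_pow 1 (2 * ((2 ^ (J + 2) + 2) * 2 * (2 ^ (J + 1) * (1 / q)))) one_pos,
    ev_pow 2 (2 * (((2 ^ (J + 2) + 2) * 4 + 4) * (2 * √(8 * J * (200 / q ^ 2))) ^ J)) two_pos,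
    Filter.eventually_ge_atTop (64 * J ^ 2 + 8 * J + 8)] with g e1 e2 e3 e4 e5 e6
  exact base_one hA hV hs σ0 b0 hρ η0 η2 J J1 ηJ g e1 e2 e3 e4 e5 e6

end Vale.Agent.P321
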