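import Vale.Agent.P321.BaseDom

/-! Moving one defect by one position, with a superpolynomially small error. -/

namespace Vale.Agent.P321

open Finset

theorem bd_err2 {J N : ℕ} {b X w W K4 K5 z' x1 x2 : ℝ} (hN : 1 ≤ N) (hb : 0 < b)
    (hX : 0 ≤ X) (hK4 : K4 = (2 ^ (J + 2) + 2) * 2 * (2 ^ (J + 1) * b))
    (hK5 : K5 = (2 ^ (J + 2) + 2) * 4 + 4) (hw : 0 ≤ w) (hwz : w ≤ W)
    (hz' : W ^ J ≤ x2) (hX1 : X ≤ x1) (h4 : K4 * x1 + K5 * x2 ≤ z') :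
    (2 ^ (J + 2) / (N : ℝ) + 2) * (2 * X * (b * 2 ^ J) + w ^ J * 2) * 2 + 4 * w ^ J ≤ z' := by
  have hN1' : (1 : ℝ) ≤ N := by exact_mod_cast hN
  have hE : w ^ J ≤ x2 := le_trans (pow_le_pow_left₀ hw hwz J) hz'
  have hE0 : 0 ≤ w ^ J := by positivity
  generalize w ^ J = E at hE hE0
  have q1 : (2 : ℝ) ^ (J + 2) / N ≤ 2 ^ (J + 2) := div_le_self (by positivity) hN1'
  have m1 : (2 ^ (J + 2) / (N : ℝ) + 2) * (2 * X * (b * 2 ^ J) + E * 2) * 2 + 4 * E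
      ≤ (2 ^ (J + 2) + 2) * (2 * X * (b * 2 ^ J) + E * 2) * 2 + 4 * E := by
    have h0 : 0 ≤ 2 * X * (b * 2 ^ J) + E * 2 := by positivity
    have h1 : (2 : ℝ) ^ (J + 2) / N + 2 ≤ 2 ^ (J + 2) + 2 := by linarith
    have := mul_le_mul_of_nonneg_right h1 h0
    linarith
  refine le_trans m1 ?_
  have e7 : (2 ^ (J + 2) + 2) * (2 * X * (b * 2 ^ J) + E * 2) * 2 + 4 * E
      = K4 * X + K5 * E := by
    rw [hK4, hK5, pow_succ 2 J]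
    ring
  rw [e7]
  have K40 : 0 ≤ K4 := by rw [hK4]; positivity
  have K50 : 0 ≤ K5 := by rw [hK5]; positivity
  have k1 := mul_le_mul_of_nonneg_left hX1 K40
  have k2 := mul_le_mul_of_nonneg_left hE K50
  linarith

/-- for one `g`, general error -/
theorem base_two {A V : Alg} {σ b ε η z' x1 x2 : ℝ} (hA : Prob A) (hV : Prob V)
    (hs : Smooth σ A) (hσ : 0 < σ) (hb : 0 < b) (hρ : Bd b A (V - A)) (η0 : 0 < η)
    (η2 : η ≤ 1 / 20) (J : ℕ) (J1 : 1 ≤ J) (g : ℕ)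
    (e1 : 2 ^ (2 * J + 4) * b ≤ (g : ℝ) ^ (ε - 5 / 2 * η))
    (e2 : 4 * 2 ^ J * b ≤ (g : ℝ) ^ (1 / 4 - 3 / 2 * η))
    (e3 : Real.exp (-((g : ℝ) ^ η) ^ 2 / 2) ≤ x1)
    (e4 : (2 * √(8 * J * σ) * (g : ℝ) ^ (-η)) ^ J ≤ x2)
    (e5 : (2 ^ (J + 2) + 2) * 2 * (2 ^ (J + 1) * b) * x1 + ((2 ^ (J + 2) + 2) * 4 + 4) * x2 ≤ z')
    (e6 : 64 * J ^ 2 + 8 * J + 8 ≤ g) :
    Dom ((g : ℝ) ^ (-(3 / 4 : ℝ) + ε)) z' (A ^ g * V * A ^ g)
      (A ^ (g + 1) * V * A ^ (g - 1) - A ^ g * V * A ^ g) := by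
  obtain ⟨N, G0, N1, hG01, hc1, hc2, Nle, Nge, hG0R⟩ := bd_params J g η J1 η0 η2 e6
  have g1 : 1 ≤ g := by nlinarith
  have G0' : (0 : ℝ) < g := by exact_mod_cast g1
  obtain ⟨iN, isN⟩ := bd_inv g N η g1 N1 Nge
  have Λ0 : 0 < (g : ℝ) ^ η := Real.rpow_pos_of_pos G0' _
  have u0 : 0 < (g : ℝ) ^ (-(1 / 4) + η / 2) := Real.rpow_pos_of_pos G0' _
  have eh : (g : ℝ) ^ η * (g : ℝ) ^ (-(1 / 4) + η / 2) * (g : ℝ) ^ (1 / 4 - 3 / 2 * η) = 1 := by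
    rw [← Real.rpow_add G0', ← Real.rpow_add G0']
    have : η + (-(1 / 4) + η / 2) + (1 / 4 - 3 / 2 * η) = 0 := by ring
    rw [this, Real.rpow_zero]
  obtain ⟨t0le, hhalf⟩ := bd_half (J := J) Λ0 hb u0 isN rfl e2 eh
  have main := base_comb hA hV hs hb.le hρ J N G0 g N1 g1 hG01 hc1 hc2 _ Λ0 hhalf
  have hE : Nonneg (A ^ g * V * A ^ g) :=
    nonneg_mul (nonneg_mul (nonneg_pow hA.1 _) hV.1) (nonneg_pow hA.1 _)
  have em : (g : ℝ) ^ (ε - 5 / 2 * η) * ((g : ℝ) ^ η * ((g : ℝ) ^ (-(1 / 4) + η / 2)) ^ 3)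
      = (g : ℝ) ^ (-(3 / 4 : ℝ) + ε) := by
    rw [← Real.rpow_natCast ((g : ℝ) ^ (-(1 / 4) + η / 2)), ← Real.rpow_mul G0'.le,
      ← Real.rpow_add G0', ← Real.rpow_add G0']
    congr 1
    push_cast
    ring
  have c1 := bd_main (J := J) Λ0 hb u0 iN t0le rfl e1 em
  have hsq := bd_sq g1 hG01 hσ Nle hG0R
  have c2 := bd_err2 N1 hb (Real.exp_pos _).le rfl rfl (by positivity) hsq e4 e3 e5
  exact dom_mono hE main c1 c2

theorem ev_log_le (C δ : ℝ) (hδ : 0 < δ) :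
    ∀ᶠ g : ℕ in Filter.atTop, C * Real.log g ≤ (g : ℝ) ^ δ := by
  have h := (isLittleO_log_rpow_atTop hδ).bound (c := 1 / (|C| + 1)) (by positivity)
  have h' := tendsto_natCast_atTop_atTop.eventually h
  filter_upwards [h', Filter.eventually_ge_atTop 1] with g hg hg1
  have hg0 : (1 : ℝ) ≤ g := by exact_mod_cast hg1
  have hl : 0 ≤ Real.log g := Real.log_nonneg hg0
  have hp : 0 ≤ (g : ℝ) ^ δ := by positivity
  rw [Real.norm_of_nonneg hl, Real.norm_of_nonneg hp] at hg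
  have h1 : C * Real.log g ≤ (|C| + 1) * Real.log g := by
    have := le_abs_self C
    nlinarith
  have h2 : (|C| + 1) * Real.log g ≤ (|C| + 1) * (1 / (|C| + 1) * (g : ℝ) ^ δ) :=
    mul_le_mul_of_nonneg_left hg (by positivity)
  have h3 : (|C| + 1) * (1 / (|C| + 1) * (g : ℝ) ^ δ) = (g : ℝ) ^ δ := by
    field_simp
  linarith

theorem ev_log_ge (C : ℝ) : ∀ᶠ g : ℕ in Filter.atTop, C ≤ Real.log g :=
  (Real.tendsto_log_atTop.comp tendsto_natCast_atTop_atTop).eventually_ge_atTop C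

theorem two_pow_le {κ : ℝ} (hκ : 0 ≤ κ) (g : ℕ) (hg : 1 ≤ g) :
    (2 : ℝ) ^ (⌊κ * Real.log g⌋₊ + 1) ≤ 2 * (g : ℝ) ^ κ := by
  have hg0 : (1 : ℝ) ≤ g := by exact_mod_cast hg
  have hl : 0 ≤ Real.log g := Real.log_nonneg hg0
  have h1 : (⌊κ * Real.log g⌋₊ : ℝ) ≤ κ * Real.log g := Nat.floor_le (by positivity)
  rw [pow_succ, mul_comm]
  refine mul_le_mul_of_nonneg_left ?_ (by norm_num)
  rw [← Real.rpow_natCast, Real.rpow_def_of_pos (by norm_num : (0 : ℝ) < 2),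
    Real.rpow_def_of_pos (by linarith : (0 : ℝ) < g)]
  refine Real.exp_le_exp.2 ?_
  have h2 : Real.log 2 ≤ 1 := by
    have := Real.log_two_lt_d9
    linarith
  have h3 : 0 ≤ (⌊κ * Real.log g⌋₊ : ℝ) := by positivity
  nlinarith

theorem bd2_err {b κ η l : ℝ} (J : ℕ) {G : ℝ} (b0 : 0 < b) (κ0 : 0 < κ) (η0 : 0 < η)
    (hl : 1 ≤ l) (hG : G = Real.exp (l * (2 * κ))) (sq : ((2 : ℝ) ^ J) ^ 2 ≤ 4 * G)
    (e7 : 4 / (η * κ) * (Real.log (96 * b + 112) + 2 * κ) ≤ l) :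
    (2 ^ (J + 2) + 2) * 2 * (2 ^ (J + 1) * b) * Real.exp (-(η * κ / 2) * l ^ 2)
      + ((2 ^ (J + 2) + 2) * 4 + 4) * Real.exp (-(η * κ / 2) * l ^ 2)
      ≤ Real.exp (-(η * κ / 4) * l ^ 2) := by
  have t0 : (1 : ℝ) ≤ 2 ^ J := one_le_pow₀ (by norm_num)
  have hK : (2 ^ (J + 2) + 2) * 2 * (2 ^ (J + 1) * b) + ((2 ^ (J + 2) + 2) * 4 + 4)
      ≤ (96 * b + 112) * G := by
    have h1 : (2 ^ (J + 2) + 2) * 2 * (2 ^ (J + 1) * b) + ((2 ^ (J + 2) + 2) * 4 + 4)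
        ≤ (24 * b + 28) * ((2 : ℝ) ^ J) ^ 2 := by
      rw [pow_add, pow_add]
      generalize (2 : ℝ) ^ J = t at t0
      have h2 : 0 ≤ b * (t * (t - 1)) := by
        have : 0 ≤ t - 1 := by linarith
        positivity
      have h3 : t ≤ t ^ 2 := by nlinarith
      nlinarith
    refine le_trans h1 ?_
    calc (24 * b + 28) * ((2 : ℝ) ^ J) ^ 2 ≤ (24 * b + 28) * (4 * G) :=
          mul_le_mul_of_nonneg_left sq (by positivity)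
      _ = _ := by ring
  rw [← add_mul]
  refine le_trans (mul_le_mul_of_nonneg_right hK (Real.exp_pos _).le) ?_
  have C0 : (0 : ℝ) < 96 * b + 112 := by positivity
  have hC : Real.exp (Real.log (96 * b + 112)) = 96 * b + 112 := Real.exp_log C0
  have hC1 : 0 ≤ Real.log (96 * b + 112) := Real.log_nonneg (by linarith)
  rw [hG, ← hC]
  generalize Real.log (96 * b + 112) = m at e7 hC1
  rw [← Real.exp_add, ← Real.exp_add]
  refine Real.exp_le_exp.2 ?_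
  have e7' : m + 2 * κ ≤ η * κ / 4 * l := by
    have h := mul_le_mul_of_nonneg_left e7 (show 0 ≤ η * κ / 4 by positivity)
    have e : η * κ / 4 * (4 / (η * κ) * (m + 2 * κ)) = m + 2 * κ := by field_simp
    rwa [e] at h
  have h2 := mul_le_mul_of_nonneg_right e7' (show 0 ≤ l by linarith)
  nlinarith

theorem bd2_pow {κ η σ : ℝ} (J g : ℕ) (g1 : 1 ≤ g) (κ0 : 0 < κ) (η0 : 0 < η) (σ0 : 0 < σ)
    (e6 : 1 ≤ Real.log g) (Jl : κ * Real.log g ≤ J) (Ju : (J : ℝ) ≤ (κ + 1) * Real.log g)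
    (e4 : 32 * σ * (κ + 1) * Real.log g ≤ (g : ℝ) ^ η) :
    (2 * √(8 * J * σ) * (g : ℝ) ^ (-η)) ^ J ≤ Real.exp (-(η * κ / 2) * Real.log g ^ 2) := by
  have G0' : (0 : ℝ) < g := by exact_mod_cast g1
  have hb' : 2 * √(8 * J * σ) ≤ (g : ℝ) ^ (η / 2) := by
    have h1 : (g : ℝ) ^ η = ((g : ℝ) ^ (η / 2)) ^ 2 := by
      rw [← Real.rpow_natCast, ← Real.rpow_mul G0'.le]
      congr 1
      push_cast
      ring
    have h2 : (2 * √(8 * J * σ)) ^ 2 ≤ ((g : ℝ) ^ (η / 2)) ^ 2 := by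
      rw [← h1, mul_pow, Real.sq_sqrt (by positivity)]
      have : 32 * σ * J ≤ 32 * σ * ((κ + 1) * Real.log g) :=
        mul_le_mul_of_nonneg_left Ju (by positivity)
      linarith
    exact (pow_le_pow_iff_left₀ (by positivity) (by positivity) (by norm_num)).1 h2
  have hb2 : 2 * √(8 * J * σ) * (g : ℝ) ^ (-η) ≤ (g : ℝ) ^ (-(η / 2)) := by
    have e : (g : ℝ) ^ (-(η / 2)) = (g : ℝ) ^ (η / 2) * (g : ℝ) ^ (-η) := by
      rw [← Real.rpow_add G0']; congr 1; ring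
    rw [e]
    exact mul_le_mul_of_nonneg_right hb' (by positivity)
  refine le_trans (pow_le_pow_left₀ (by positivity) hb2 J) ?_
  rw [Real.rpow_def_of_pos G0', ← Real.exp_nat_mul]
  refine Real.exp_le_exp.2 ?_
  have h3 : κ * Real.log g * (η / 2 * Real.log g) ≤ J * (η / 2 * Real.log g) :=
    mul_le_mul_of_nonneg_right Jl (by positivity)
  nlinarith

theorem bd2_size {κ : ℝ} (J g : ℕ) (g1 : 1 ≤ g) (κ0 : 0 < κ) (J1 : 1 ≤ J)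
    (e6 : 1 ≤ Real.log g) (Ju : (J : ℝ) ≤ (κ + 1) * Real.log g)
    (e5 : 9 * (κ + 1) * Real.log g ≤ (g : ℝ) ^ ((1 : ℝ) / 2)) :
    64 * J ^ 2 + 8 * J + 8 ≤ g := by
  have G0' : (0 : ℝ) < g := by exact_mod_cast g1
  have JR : (1 : ℝ) ≤ J := by exact_mod_cast J1
  have h1 : (9 * (κ + 1) * Real.log g) ^ 2 ≤ g := by
    have h := pow_le_pow_left₀ (by positivity) e5 2
    have e : ((g : ℝ) ^ ((1 : ℝ) / 2)) ^ 2 = g := by
      rw [← Real.rpow_natCast, ← Real.rpow_mul G0'.le]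
      norm_num
    rwa [e] at h
  have h2 : (J : ℝ) ^ 2 ≤ ((κ + 1) * Real.log g) ^ 2 := pow_le_pow_left₀ (by positivity) Ju 2
  have h3 : (64 * J ^ 2 + 8 * J + 8 : ℝ) ≤ g := by nlinarith
  exact_mod_cast h3

theorem bd2_coef {b r1 r2 s1 s2 G H : ℝ} (J : ℕ) (b0 : 0 < b) (G0 : 0 < G) (H0 : 0 < H)
    (sq : ((2 : ℝ) ^ J) ^ 2 ≤ 4 * G) (t1 : (2 : ℝ) ^ J ≤ 2 * H) (h1 : 64 * b ≤ r1)
    (h2 : 8 * b ≤ r2) (E1 : s1 = r1 * G) (E2 : s2 = r2 * H) :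
    2 ^ (2 * J + 4) * b ≤ s1 ∧ 4 * 2 ^ J * b ≤ s2 := by
  constructor
  · rw [E1]
    calc (2 : ℝ) ^ (2 * J + 4) * b = 16 * b * ((2 : ℝ) ^ J) ^ 2 := by
          rw [pow_add, ← pow_mul, mul_comm J 2]; ring
      _ ≤ 16 * b * (4 * G) := mul_le_mul_of_nonneg_left sq (by positivity)
      _ = 64 * b * G := by ring
      _ ≤ _ := mul_le_mul_of_nonneg_right h1 G0.le
  · rw [E2]
    calc 4 * 2 ^ J * b = 4 * b * 2 ^ J := by ring
      _ ≤ 4 * b * (2 * H) := mul_le_mul_of_nonneg_left t1 (by positivity)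
      _ = 8 * b * H := by ring
      _ ≤ _ := mul_le_mul_of_nonneg_right h2 H0.le

theorem base_three {A V : Alg} {σ b ε η κ : ℝ} (hA : Prob A) (hV : Prob V)
    (hs : Smooth σ A) (σ0 : 0 < σ) (b0 : 0 < b) (hρ : Bd b A (V - A)) (η0 : 0 < η)
    (η2 : η ≤ 1 / 20) (κ0 : 0 < κ) (g : ℕ) (g1 : 1 ≤ g)
    (e1 : 64 * b ≤ (g : ℝ) ^ (ε - 5 / 2 * η - 2 * κ))
    (e2 : 8 * b ≤ (g : ℝ) ^ (1 / 4 - 3 / 2 * η - κ))
    (e3 : η * κ * Real.log g ≤ (g : ℝ) ^ η) (e3' : 1 * Real.log g ≤ (g : ℝ) ^ η)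
    (e4 : 32 * σ * (κ + 1) * Real.log g ≤ (g : ℝ) ^ η)
    (e5 : 9 * (κ + 1) * Real.log g ≤ (g : ℝ) ^ ((1 : ℝ) / 2))
    (e6 : 1 ≤ Real.log g)
    (e7 : 4 / (η * κ) * (Real.log (96 * b + 112) + 2 * κ) ≤ Real.log g) :
    Dom ((g : ℝ) ^ (-(3 / 4 : ℝ) + ε)) (Real.exp (-(η * κ / 4) * Real.log g ^ 2))
      (A ^ g * V * A ^ g) (A ^ (g + 1) * V * A ^ (g - 1) - A ^ g * V * A ^ g) := by
  have G0' : (0 : ℝ) < g := by exact_mod_cast g1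
  have t1 := two_pow_le κ0.le g g1
  have J1 : 1 ≤ ⌊κ * Real.log g⌋₊ + 1 := by omega
  have Jl : κ * Real.log g ≤ ((⌊κ * Real.log g⌋₊ + 1 : ℕ) : ℝ) := by
    push_cast
    exact (Nat.lt_floor_add_one _).le
  have Ju : ((⌊κ * Real.log g⌋₊ + 1 : ℕ) : ℝ) ≤ (κ + 1) * Real.log g := by
    push_cast
    have := Nat.floor_le (show 0 ≤ κ * Real.log g by nlinarith)
    linarith
  generalize ⌊κ * Real.log g⌋₊ + 1 = J at t1 J1 Jl Ju
  have gk : 0 < (g : ℝ) ^ κ := Real.rpow_pos_of_pos G0' _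
  have gk2 : 0 < (g : ℝ) ^ (2 * κ) := Real.rpow_pos_of_pos G0' _
  have sq : ((2 : ℝ) ^ J) ^ 2 ≤ 4 * (g : ℝ) ^ (2 * κ) := by
    have : (g : ℝ) ^ (2 * κ) = ((g : ℝ) ^ κ) ^ 2 := by
      rw [← Real.rpow_natCast, ← Real.rpow_mul G0'.le]
      congr 1
      push_cast
      ring
    rw [this]
    have := pow_le_pow_left₀ (by positivity) t1 2
    linarith
  have E1 : (g : ℝ) ^ (ε - 5 / 2 * η)
      = (g : ℝ) ^ (ε - 5 / 2 * η - 2 * κ) * (g : ℝ) ^ (2 * κ) := by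
    rw [← Real.rpow_add G0']; congr 1; ring
  have E2 : (g : ℝ) ^ (1 / 4 - 3 / 2 * η)
      = (g : ℝ) ^ (1 / 4 - 3 / 2 * η - κ) * (g : ℝ) ^ κ := by
    rw [← Real.rpow_add G0']; congr 1; ring
  obtain ⟨c1, c2⟩ := bd2_coef J b0 gk2 gk sq t1 e1 e2 E1 E2
  have c3 : Real.exp (-((g : ℝ) ^ η) ^ 2 / 2) ≤ Real.exp (-(η * κ / 2) * Real.log g ^ 2) := by
    refine Real.exp_le_exp.2 ?_
    have h : η * κ * Real.log g * (1 * Real.log g) ≤ (g : ℝ) ^ η * (g : ℝ) ^ η :=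
      mul_le_mul e3 e3' (by linarith) (by positivity)
    linarith
  have c4 := bd2_pow J g g1 κ0 η0 σ0 e6 Jl Ju e4
  have c5 := bd2_err J b0 κ0 η0 e6 (Real.rpow_def_of_pos G0' _) sq e7
  exact base_two hA hV hs σ0 b0 hρ η0 η2 J J1 g c1 c2 c3 c4 c5
    (bd2_size J g g1 κ0 J1 e6 Ju e5)

theorem base_dom2 {q : ℝ} (h0 : 0 < q) (h1 : q < 1) (ε : ℝ) (hε : 0 < ε) :
    ∃ c : ℝ, 0 < c ∧ ∀ᶠ g : ℕ in Filter.atTop,
      Dom ((g : ℝ) ^ (-(3 / 4 : ℝ) + ε)) (Real.exp (-c * Real.log g ^ 2))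
      (tr q wU ^ g * tr q wV * tr q wU ^ g)
      (tr q wU ^ (g + 1) * tr q wV * tr q wU ^ (g - 1) - tr q wU ^ g * tr q wV * tr q wU ^ g) := by
  have hA := tr_prob h0.le h1.le wU
  have hV := tr_prob h0.le h1.le wV
  have hs := base_smoothU h0 h1
  have hρ := base_bd h0 h1
  have σ0 : 0 < 200 / q ^ 2 := by positivity
  have b0 : 0 < 1 / q := by positivity
  generalize 200 / q ^ 2 = σ at hs σ0
  generalize 1 / q = b at hρ b0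
  obtain ⟨η, η0, η1, η2⟩ : ∃ η : ℝ, 0 < η ∧ η ≤ ε / 5 ∧ η ≤ 1 / 20 :=
    ⟨min (ε / 5) (1 / 20), lt_min (by positivity) (by norm_num), min_le_left _ _,
      min_le_right _ _⟩
  obtain ⟨κ, κ0, κ1, κ2⟩ : ∃ κ : ℝ, 0 < κ ∧ κ ≤ ε / 8 ∧ κ ≤ 1 / 20 :=
    ⟨min (ε / 8) (1 / 20), lt_min (by positivity) (by norm_num), min_le_left _ _,
      min_le_right _ _⟩
  refine ⟨η * κ / 4, by positivity, ?_⟩
  have hd1 : 0 < ε - 5 / 2 * η - 2 * κ := by linarith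
  have hd2 : 0 < 1 / 4 - 3 / 2 * η - κ := by linarith
  filter_upwards [ev_pow _ (64 * b) hd1, ev_pow _ (8 * b) hd2,
    ev_log_le (η * κ) η η0, ev_log_le 1 η η0, ev_log_le (32 * σ * (κ + 1)) η η0,
    ev_log_le (9 * (κ + 1)) (1 / 2) (by norm_num),
    ev_log_ge 1, ev_log_ge (4 / (η * κ) * (Real.log (96 * b + 112) + 2 * κ)),
    Filter.eventually_ge_atTop 1] with g e1 e2 e3 e3' e4 e5 e6 e7 g1
  exact base_three hA hV hs σ0 b0 hρ η0 η2 κ0 g g1 e1 e2 e3 e3' e4 e5 e6 e7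

end Vale.Agent.P321
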