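import Vale.Agent.P321.Defs

/-!
# P321, module A: the algebra of finitely supported signed measures on words
-/

namespace Vale.Agent.P321

open Finset

/-- sum of the values over any finite set containing the support -/
theorem mass_eq_sum (F : Alg) (s : Finset Wd) (hs : F.coeff.support ⊆ s) :
    mass F = ∑ z ∈ s, F.coeff z := by
  unfold mass
  refine Finset.sum_subset hs fun z _ hz => ?_
  exact Finsupp.notMem_support_iff.1 hz

theorem nrm_eq_sum (F : Alg) (s : Finset Wd) (hs : F.coeff.support ⊆ s) :
    nrm F = ∑ z ∈ s, |F.coeff z| := by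
  unfold nrm
  refine Finset.sum_subset hs fun z _ hz => ?_
  rw [Finsupp.notMem_support_iff.1 hz, abs_zero]

/-- the total mass as an algebra homomorphism -/
noncomputable def massHom : Alg →ₐ[ℝ] ℝ := MonoidAlgebra.lift ℝ ℝ (FreeMonoid Bool) 1

theorem mass_eq_hom (F : Alg) : mass F = massHom F := by
  unfold massHom
  rw [MonoidAlgebra.lift_apply]
  unfold mass Finsupp.sum
  refine Finset.sum_congr rfl fun z _ => ?_
  simp

theorem mass_zero : mass 0 = 0 := by rw [mass_eq_hom, map_zero]
theorem mass_one : mass 1 = 1 := by rw [mass_eq_hom, map_one]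
theorem mass_add (F G : Alg) : mass (F + G) = mass F + mass G := by
  simp only [mass_eq_hom, map_add]
theorem mass_sub (F G : Alg) : mass (F - G) = mass F - mass G := by
  simp only [mass_eq_hom, map_sub]
theorem mass_smul (c : ℝ) (F : Alg) : mass (c • F) = c * mass F := by
  simp only [mass_eq_hom, map_smul, smul_eq_mul]
theorem mass_sum {ι : Type*} (s : Finset ι) (f : ι → Alg) :
    mass (∑ i ∈ s, f i) = ∑ i ∈ s, mass (f i) := by
  simp only [mass_eq_hom, map_sum]
theorem mass_mul (F G : Alg) : mass (F * G) = mass F * mass G := by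
  simp only [mass_eq_hom, map_mul]
theorem mass_pow (F : Alg) (n : ℕ) : mass (F ^ n) = mass F ^ n := by
  simp only [mass_eq_hom, map_pow]
theorem mass_single (w : Wd) (c : ℝ) : mass (MonoidAlgebra.single w c) = c := by
  rw [mass_eq_sum _ {w}]
  · simp
  · simp only [MonoidAlgebra.coeff_single]
    exact Finsupp.support_single_subset

theorem nrm_nonneg (F : Alg) : 0 ≤ nrm F := by
  unfold nrm
  exact Finset.sum_nonneg fun _ _ => abs_nonneg _

theorem nrm_zero : nrm 0 = 0 := by
  unfold nrm
  simp

theorem nrm_neg (F : Alg) : nrm (-F) = nrm F := by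
  classical
  rw [nrm_eq_sum (-F) (F.coeff.support ∪ (-F).coeff.support) Finset.subset_union_right,
    nrm_eq_sum F (F.coeff.support ∪ (-F).coeff.support) Finset.subset_union_left]
  refine Finset.sum_congr rfl fun z _ => ?_
  rw [MonoidAlgebra.coeff_neg, Finsupp.neg_apply, abs_neg]

theorem nrm_add_le (F G : Alg) : nrm (F + G) ≤ nrm F + nrm G := by
  classical
  set s := F.coeff.support ∪ G.coeff.support ∪ (F + G).coeff.support with hs
  rw [nrm_eq_sum F s (by intro z hz; simp [hs, hz]),
    nrm_eq_sum G s (by intro z hz; rw [hs]; simp only [Finset.mem_union]; tauto),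
    nrm_eq_sum (F + G) s Finset.subset_union_right, ← Finset.sum_add_distrib]
  refine Finset.sum_le_sum fun z _ => ?_
  rw [MonoidAlgebra.coeff_add, Finsupp.add_apply]
  exact abs_add_le _ _

theorem nrm_sub_le (F G : Alg) : nrm (F - G) ≤ nrm F + nrm G := by
  rw [sub_eq_add_neg]
  refine (nrm_add_le _ _).trans ?_
  rw [nrm_neg]

theorem nrm_smul (c : ℝ) (F : Alg) : nrm (c • F) = |c| * nrm F := by
  classical
  set s := F.coeff.support ∪ (c • F).coeff.support with hs
  rw [nrm_eq_sum F s Finset.subset_union_left, nrm_eq_sum (c • F) s Finset.subset_union_right,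
    Finset.mul_sum]
  refine Finset.sum_congr rfl fun z _ => ?_
  rw [MonoidAlgebra.coeff_smul, Finsupp.smul_apply, smul_eq_mul, abs_mul]

theorem nrm_sum_le {ι : Type*} (s : Finset ι) (f : ι → Alg) :
    nrm (∑ i ∈ s, f i) ≤ ∑ i ∈ s, nrm (f i) := by
  classical
  induction s using Finset.induction_on with
  | empty => simp [nrm_zero]
  | insert a s ha ih =>
    rw [Finset.sum_insert ha, Finset.sum_insert ha]
    exact (nrm_add_le _ _).trans (by linarith)

theorem abs_mass_le (F : Alg) : |mass F| ≤ nrm F := by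
  unfold mass nrm
  exact Finset.abs_sum_le_sum_abs _ _

theorem nrm_of_nonneg {F : Alg} (h : Nonneg F) : nrm F = mass F := by
  unfold mass nrm
  exact Finset.sum_congr rfl fun z _ => abs_of_nonneg (h z)

theorem nrm_le_of_abs_le {F R : Alg} (h : ∀ z, |F.coeff z| ≤ R.coeff z) : nrm F ≤ mass R := by
  classical
  rw [nrm_eq_sum F (F.coeff.support ∪ R.coeff.support) Finset.subset_union_left,
    mass_eq_sum R (F.coeff.support ∪ R.coeff.support) Finset.subset_union_right]
  exact Finset.sum_le_sum fun z _ => h z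

theorem nonneg_zero : Nonneg 0 := by
  intro z
  simp

theorem nonneg_single (w : Wd) {c : ℝ} (hc : 0 ≤ c) : Nonneg (MonoidAlgebra.single w c) := by
  classical
  intro z
  rw [MonoidAlgebra.coeff_single, Finsupp.single_apply]
  split_ifs
  · exact hc
  · exact le_refl _

theorem nonneg_one : Nonneg 1 := by
  rw [MonoidAlgebra.one_def]
  exact nonneg_single 1 zero_le_one

theorem nrm_one : nrm 1 = 1 := by
  rw [nrm_of_nonneg nonneg_one, mass_one]

theorem nonneg_add {F G : Alg} (hF : Nonneg F) (hG : Nonneg G) : Nonneg (F + G) := by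
  intro z
  rw [MonoidAlgebra.coeff_add, Finsupp.add_apply]
  exact add_nonneg (hF z) (hG z)

/-- the product, summed over arbitrary finite sets containing the supports -/
theorem coeff_mul_sets (F G : Alg) (s t : Finset Wd) (hs : F.coeff.support ⊆ s)
    (ht : G.coeff.support ⊆ t) (z : Wd) [DecidableEq Wd] :
    (F * G).coeff z = ∑ x ∈ s, ∑ y ∈ t, if x * y = z then F.coeff x * G.coeff y else 0 := by
  rw [MonoidAlgebra.coeff_mul]
  unfold Finsupp.sum
  have h1 : ∀ x ∈ F.coeff.support,
      (∑ y ∈ G.coeff.support, if x * y = z then F.coeff x * G.coeff y else 0) =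
        ∑ y ∈ t, if x * y = z then F.coeff x * G.coeff y else 0 := by
    intro x _
    refine Finset.sum_subset ht fun y _ hy => ?_
    rw [Finsupp.notMem_support_iff.1 hy, mul_zero, ite_self]
  have h2 : (∑ x ∈ F.coeff.support, ∑ y ∈ t, if x * y = z then F.coeff x * G.coeff y else 0) =
      ∑ x ∈ s, ∑ y ∈ t, if x * y = z then F.coeff x * G.coeff y else 0 := by
    refine Finset.sum_subset hs fun x _ hx => ?_
    refine Finset.sum_eq_zero fun y _ => ?_
    rw [Finsupp.notMem_support_iff.1 hx, zero_mul, ite_self]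
  rw [← h2]
  refine Finset.sum_congr rfl fun x hx => ?_
  rw [← h1 x hx]

theorem nonneg_mul {F G : Alg} (hF : Nonneg F) (hG : Nonneg G) : Nonneg (F * G) := by
  classical
  intro z
  rw [coeff_mul_sets F G _ _ (Finset.Subset.refl _) (Finset.Subset.refl _) z]
  refine Finset.sum_nonneg fun x _ => Finset.sum_nonneg fun y _ => ?_
  split_ifs
  · exact mul_nonneg (hF x) (hG y)
  · exact le_refl _

theorem nonneg_pow {F : Alg} (hF : Nonneg F) (n : ℕ) : Nonneg (F ^ n) := by
  induction n with
  | zero => rw [pow_zero]; exact nonneg_one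
  | succ n ih => rw [pow_succ]; exact nonneg_mul ih hF

theorem nonneg_smul {F : Alg} {c : ℝ} (hc : 0 ≤ c) (hF : Nonneg F) : Nonneg (c • F) := by
  intro z
  rw [MonoidAlgebra.coeff_smul, Finsupp.smul_apply, smul_eq_mul]
  exact mul_nonneg hc (hF z)

theorem nonneg_sum {ι : Type*} (s : Finset ι) (f : ι → Alg) (h : ∀ i ∈ s, Nonneg (f i)) :
    Nonneg (∑ i ∈ s, f i) := by
  classical
  induction s using Finset.induction_on with
  | empty => rw [Finset.sum_empty]; exact nonneg_zero
  | insert a s ha ih =>
    rw [Finset.sum_insert ha]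
    exact nonneg_add (h a (Finset.mem_insert_self a s))
      (ih fun i hi => h i (Finset.mem_insert_of_mem hi))

theorem mass_nonneg {F : Alg} (hF : Nonneg F) : 0 ≤ mass F := by
  unfold mass
  exact Finset.sum_nonneg fun z _ => hF z

theorem prob_one : Prob 1 := ⟨nonneg_one, mass_one⟩

theorem prob_mul {F G : Alg} (hF : Prob F) (hG : Prob G) : Prob (F * G) :=
  ⟨nonneg_mul hF.1 hG.1, by rw [mass_mul, hF.2, hG.2, mul_one]⟩

theorem prob_pow {F : Alg} (hF : Prob F) (n : ℕ) : Prob (F ^ n) :=
  ⟨nonneg_pow hF.1 n, by rw [mass_pow, hF.2, one_pow]⟩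

theorem prob_nrm {F : Alg} (hF : Prob F) : nrm F = 1 := by
  rw [nrm_of_nonneg hF.1, hF.2]

theorem absA_coeff (F : Alg) (z : Wd) : (absA F).coeff z = |F.coeff z| := by
  unfold absA
  rw [MonoidAlgebra.coeff_ofCoeff, Finsupp.mapRange_apply]

theorem absA_support (F : Alg) : (absA F).coeff.support ⊆ F.coeff.support := by
  intro z hz
  rw [Finsupp.mem_support_iff] at hz ⊢
  intro h
  apply hz
  rw [absA_coeff, h, abs_zero]

theorem mass_absA (F : Alg) : mass (absA F) = nrm F := by
  rw [mass_eq_sum (absA F) F.coeff.support (absA_support F)]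
  unfold nrm
  exact Finset.sum_congr rfl fun z _ => absA_coeff F z

theorem abs_mul_le (F G : Alg) (z : Wd) :
    |(F * G).coeff z| ≤ (absA F * absA G).coeff z := by
  classical
  rw [coeff_mul_sets F G F.coeff.support G.coeff.support (Finset.Subset.refl _)
      (Finset.Subset.refl _) z,
    coeff_mul_sets (absA F) (absA G) F.coeff.support G.coeff.support (absA_support F)
      (absA_support G) z]
  refine (Finset.abs_sum_le_sum_abs _ _).trans (Finset.sum_le_sum fun x _ => ?_)
  refine (Finset.abs_sum_le_sum_abs _ _).trans (Finset.sum_le_sum fun y _ => ?_)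
  split_ifs
  · rw [abs_mul, absA_coeff, absA_coeff]
  · rw [abs_zero]

theorem nrm_mul_le (F G : Alg) : nrm (F * G) ≤ nrm F * nrm G := by
  rw [← mass_absA F, ← mass_absA G, ← mass_mul]
  exact nrm_le_of_abs_le (abs_mul_le F G)

theorem contr_left {P : Alg} (hP : Prob P) (F : Alg) : nrm (P * F) ≤ nrm F := by
  have h := nrm_mul_le P F
  rwa [prob_nrm hP, one_mul] at h

theorem contr_right {P : Alg} (hP : Prob P) (F : Alg) : nrm (F * P) ≤ nrm F := by
  have h := nrm_mul_le F P
  rwa [prob_nrm hP, mul_one] at h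

theorem le_mul {F F' G G' : Alg} (hF : Nonneg F) (hG' : Nonneg G') (h : Le F F') (h' : Le G G') :
    Le (F * G) (F' * G') := by
  classical
  intro z
  rw [coeff_mul_sets F G (F.coeff.support ∪ F'.coeff.support)
      (G.coeff.support ∪ G'.coeff.support) Finset.subset_union_left Finset.subset_union_left z,
    coeff_mul_sets F' G' (F.coeff.support ∪ F'.coeff.support)
      (G.coeff.support ∪ G'.coeff.support) Finset.subset_union_right
      Finset.subset_union_right z]
  refine Finset.sum_le_sum fun x _ => Finset.sum_le_sum fun y _ => ?_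
  split_ifs
  · exact (mul_le_mul_of_nonneg_left (h' y) (hF x)).trans
      (mul_le_mul_of_nonneg_right (h x) (hG' y))
  · exact le_refl _

theorem mass_mono {F G : Alg} (h : Le F G) : mass F ≤ mass G := by
  classical
  rw [mass_eq_sum F (F.coeff.support ∪ G.coeff.support) Finset.subset_union_left,
    mass_eq_sum G (F.coeff.support ∪ G.coeff.support) Finset.subset_union_right]
  exact Finset.sum_le_sum fun z _ => h z

theorem minA_coeff (F G : Alg) (z : Wd) :
    (minA F G).coeff z = min (F.coeff z) (G.coeff z) := by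
  unfold minA
  rw [MonoidAlgebra.coeff_ofCoeff, Finsupp.zipWith_apply]

theorem mass_minA {F G : Alg} (hF : Prob F) (hG : Prob G) :
    mass (minA F G) = 1 - nrm (F - G) / 2 := by
  classical
  set s := F.coeff.support ∪ G.coeff.support ∪ (minA F G).coeff.support ∪
    (F - G).coeff.support with hs
  have h1 : mass F = ∑ z ∈ s, F.coeff z :=
    mass_eq_sum F s (by intro z hz; rw [hs]; simp only [Finset.mem_union]; tauto)
  have h2 : mass G = ∑ z ∈ s, G.coeff z :=
    mass_eq_sum G s (by intro z hz; rw [hs]; simp only [Finset.mem_union]; tauto)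
  have h3 : mass (minA F G) = ∑ z ∈ s, (minA F G).coeff z :=
    mass_eq_sum _ s (by intro z hz; rw [hs]; simp only [Finset.mem_union]; tauto)
  have h4 : nrm (F - G) = ∑ z ∈ s, |(F - G).coeff z| :=
    nrm_eq_sum _ s (by intro z hz; rw [hs]; simp only [Finset.mem_union]; tauto)
  have h5 : mass (minA F G) = (mass F + mass G - nrm (F - G)) / 2 := by
    rw [h1, h2, h3, h4, ← Finset.sum_add_distrib, ← Finset.sum_sub_distrib, Finset.sum_div]
    refine Finset.sum_congr rfl fun z _ => ?_
    rw [minA_coeff, MonoidAlgebra.coeff_sub, Finsupp.sub_apply]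
    rcases le_total (F.coeff z) (G.coeff z) with h | h
    · rw [min_eq_left h, abs_of_nonpos (by linarith)]
      ring
    · rw [min_eq_right h, abs_of_nonneg (by linarith)]
      ring
  rw [h5, hF.2, hG.2]
  ring

theorem tr_mul (q : ℝ) (v w : Wd) : tr q (v * w) = tr q v * tr q w := by
  unfold tr
  exact map_mul _ _ _

theorem tr_one (q : ℝ) : tr q 1 = 1 := by
  unfold tr
  exact map_one _

theorem tr_pow (q : ℝ) (v : Wd) (n : ℕ) : tr q (v ^ n) = tr q v ^ n := by
  unfold tr
  exact map_pow _ _ _

theorem ltr_prob {q : ℝ} (h0 : 0 ≤ q) (h1 : q ≤ 1) (b : Bool) : Prob (ltr q b) := by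
  unfold ltr
  refine ⟨nonneg_add (nonneg_single _ h0) (nonneg_single _ (by linarith)), ?_⟩
  rw [mass_add, mass_single, mass_single]
  ring

theorem tr_of (q : ℝ) (b : Bool) : tr q (FreeMonoid.of b) = ltr q b := by
  unfold tr
  exact FreeMonoid.lift_eval_of _ _

theorem tr_prob {q : ℝ} (h0 : 0 ≤ q) (h1 : q ≤ 1) (w : Wd) : Prob (tr q w) := by
  induction w using FreeMonoid.inductionOn' with
  | one => rw [tr_one]; exact prob_one
  | of_mul b w ih =>
    rw [tr_mul, tr_of]
    exact prob_mul (ltr_prob h0 h1 b) ih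

end Vale.Agent.P321
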