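import Vale.Agent.P321.Basic

/-! Calculus of domination. -/

namespace Vale.Agent.P321

open Finset

theorem cadd (F G : Alg) (z : Wd) : (F + G).coeff z = F.coeff z + G.coeff z := rfl

theorem csmul (c : ℝ) (F : Alg) (z : Wd) : (c • F).coeff z = c * F.coeff z := rfl

theorem cneg (F : Alg) (z : Wd) : (-F).coeff z = -F.coeff z := rfl

theorem csub (F G : Alg) (z : Wd) : (F - G).coeff z = F.coeff z - G.coeff z := rfl

theorem czero (z : Wd) : (0 : Alg).coeff z = 0 := rfl

theorem alg_ext {F G : Alg} (h : ∀ z, F.coeff z = G.coeff z) : F = G := by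
  ext z
  exact h z

theorem absA_nonneg (F : Alg) : Nonneg (absA F) := fun z => by
  rw [absA_coeff]; exact abs_nonneg _

theorem absA_eq {P : Alg} (hP : Nonneg P) : absA P = P :=
  alg_ext fun z => by rw [absA_coeff, abs_of_nonneg (hP z)]

theorem dom_mono {t t' ξ ξ' : ℝ} {E F : Alg} (hE : Nonneg E) (h : Dom t ξ E F) (ht : t ≤ t')
    (hξ : ξ ≤ ξ') : Dom t' ξ' E F := by
  obtain ⟨R, h1, h2, h3⟩ := h
  refine ⟨R, h1, h2.trans hξ, fun z => ?_⟩
  have := mul_le_mul_of_nonneg_right ht (hE z)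
  linarith [h3 z]

theorem dom_of_nrm {ξ : ℝ} {E F : Alg} (h : nrm F ≤ ξ) : Dom 0 ξ E F := by
  refine ⟨absA F, absA_nonneg F, by rw [mass_absA]; exact h, fun z => ?_⟩
  rw [absA_coeff]
  linarith

theorem dom_of_bd {t : ℝ} {E F : Alg} (h : Bd t E F) : Dom t 0 E F := by
  refine ⟨0, nonneg_zero, by rw [mass_zero], fun z => ?_⟩
  rw [czero]
  linarith [h z]

theorem dom_add {t t' ξ ξ' : ℝ} {E F F' : Alg} (h : Dom t ξ E F) (h' : Dom t' ξ' E F') :
    Dom (t + t') (ξ + ξ') E (F + F') := by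
  obtain ⟨R, h1, h2, h3⟩ := h
  obtain ⟨R', k1, k2, k3⟩ := h'
  refine ⟨R + R', nonneg_add h1 k1, by rw [mass_add]; linarith, fun z => ?_⟩
  rw [cadd, cadd]
  have := abs_add_le (F.coeff z) (F'.coeff z)
  linarith [h3 z, k3 z]

theorem dom_neg {t ξ : ℝ} {E F : Alg} (h : Dom t ξ E F) : Dom t ξ E (-F) := by
  obtain ⟨R, h1, h2, h3⟩ := h
  refine ⟨R, h1, h2, fun z => ?_⟩
  rw [cneg, abs_neg]
  exact h3 z

theorem dom_sub {t t' ξ ξ' : ℝ} {E F F' : Alg} (h : Dom t ξ E F) (h' : Dom t' ξ' E F') :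
    Dom (t + t') (ξ + ξ') E (F - F') := by
  rw [sub_eq_add_neg]
  exact dom_add h (dom_neg h')

theorem dom_smul {t ξ : ℝ} {E F : Alg} (c : ℝ) (h : Dom t ξ E F) :
    Dom (|c| * t) (|c| * ξ) E (c • F) := by
  obtain ⟨R, h1, h2, h3⟩ := h
  refine ⟨|c| • R, nonneg_smul (abs_nonneg c) h1, ?_, fun z => ?_⟩
  · rw [mass_smul]
    exact mul_le_mul_of_nonneg_left h2 (abs_nonneg c)
  · rw [csmul, csmul, abs_mul]
    have := mul_le_mul_of_nonneg_left (h3 z) (abs_nonneg c)
    linarith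

theorem dom_zero (E : Alg) : Dom 0 0 E 0 :=
  ⟨0, nonneg_zero, by rw [mass_zero], fun z => by rw [czero]; simp⟩

theorem dom_sum {ι : Type*} (s : Finset ι) {t ξ : ι → ℝ} {E : Alg} {F : ι → Alg}
    (h : ∀ i ∈ s, Dom (t i) (ξ i) E (F i)) : Dom (∑ i ∈ s, t i) (∑ i ∈ s, ξ i) E (∑ i ∈ s, F i) := by
  classical
  induction s using Finset.induction_on with
  | empty => simpa using dom_zero E
  | insert a s ha ih =>
    rw [sum_insert ha, sum_insert ha, sum_insert ha]
    exact dom_add (h a (mem_insert_self a s)) (ih fun i hi => h i (mem_insert_of_mem hi))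

theorem up_nonneg {t : ℝ} {E F R : Alg} (h : ∀ z, |F.coeff z| ≤ t * E.coeff z + R.coeff z) :
    Nonneg (t • E + R) := fun z => by
  rw [cadd, csmul]
  exact le_trans (abs_nonneg _) (h z)

theorem up_le {t : ℝ} {E F R : Alg} (h : ∀ z, |F.coeff z| ≤ t * E.coeff z + R.coeff z) :
    Le (absA F) (t • E + R) := fun z => by
  rw [cadd, csmul, absA_coeff]
  exact h z

theorem dom_left {t ξ : ℝ} {P E F : Alg} (hP : Prob P) (h : Dom t ξ E F) :
    Dom t ξ (P * E) (P * F) := by
  obtain ⟨R, h1, h2, h3⟩ := h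
  refine ⟨P * R, nonneg_mul hP.1 h1, by rw [mass_mul, hP.2, one_mul]; exact h2, fun z => ?_⟩
  refine le_trans (abs_mul_le P F z) ?_
  rw [absA_eq hP.1]
  have := le_mul (F := P) (F' := P) hP.1 (up_nonneg h3) (fun z => le_rfl) (up_le h3) z
  rw [mul_add, cadd, mul_smul_comm, csmul] at this
  exact this

theorem dom_right {t ξ : ℝ} {P E F : Alg} (hP : Prob P) (h : Dom t ξ E F) :
    Dom t ξ (E * P) (F * P) := by
  obtain ⟨R, h1, h2, h3⟩ := h
  refine ⟨R * P, nonneg_mul h1 hP.1, by rw [mass_mul, hP.2, mul_one]; exact h2, fun z => ?_⟩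
  refine le_trans (abs_mul_le F P z) ?_
  rw [absA_eq hP.1]
  have := le_mul (G := P) (G' := P) (absA_nonneg F) hP.1 (up_le h3) (fun z => le_rfl) z
  rw [add_mul, cadd, smul_mul_assoc, csmul] at this
  exact this

theorem dom_mul {t t' ξ ξ' : ℝ} {E E' F F' : Alg} (hE : Prob E) (hE' : Prob E')
    (ht : 0 ≤ t) (ht' : 0 ≤ t') (h : Dom t ξ E F) (h' : Dom t' ξ' E' F') :
    Dom (t * t') (t * ξ' + t' * ξ + ξ * ξ') (E * E') (F * F') := by
  obtain ⟨R, h1, h2, h3⟩ := h
  obtain ⟨R', k1, k2, k3⟩ := h'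
  refine ⟨t • (E * R') + (t' • (R * E') + R * R'), ?_, ?_, fun z => ?_⟩
  · exact nonneg_add (nonneg_smul ht (nonneg_mul hE.1 k1))
      (nonneg_add (nonneg_smul ht' (nonneg_mul h1 hE'.1)) (nonneg_mul h1 k1))
  · rw [mass_add, mass_add, mass_smul, mass_smul, mass_mul, mass_mul, mass_mul, hE.2, hE'.2]
    have m1 := mass_nonneg h1
    have m2 := mass_nonneg k1
    have e1 := mul_le_mul_of_nonneg_left k2 ht
    have e2 := mul_le_mul_of_nonneg_left h2 ht'
    have e3 := mul_le_mul h2 k2 m2 (le_trans m1 h2)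
    linarith
  · refine le_trans (abs_mul_le F F' z) ?_
    have := le_mul (absA_nonneg F) (up_nonneg k3) (up_le h3) (up_le k3) z
    refine le_trans this (le_of_eq ?_)
    have e : (t • E + R) * (t' • E' + R')
        = (t * t') • (E * E') + (t • (E * R') + (t' • (R * E') + R * R')) := by
      rw [add_mul, mul_add, mul_add, smul_mul_assoc, mul_smul_comm, smul_smul, smul_mul_assoc,
        mul_smul_comm]
      abel
    rw [e, cadd, csmul]

theorem bd_mul {t t' : ℝ} {E E' F F' : Alg} (hE : Nonneg E) (hE' : Nonneg E')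
    (ht : 0 ≤ t) (ht' : 0 ≤ t') (h : Bd t E F) (h' : Bd t' E' F') :
    Bd (t * t') (E * E') (F * F') := by
  have _ := hE
  have _ := ht
  intro z
  refine le_trans (abs_mul_le F F' z) ?_
  have a1 : Le (absA F) (t • E) := fun z => by rw [absA_coeff, csmul]; exact h z
  have a2 : Le (absA F') (t' • E') := fun z => by rw [absA_coeff, csmul]; exact h' z
  have := le_mul (absA_nonneg F) (nonneg_smul ht' hE') a1 a2 z
  rw [smul_mul_assoc, mul_smul_comm, smul_smul, csmul] at this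
  exact this

theorem dom_trans {s ζ t ξ : ℝ} {E' E F : Alg} (ht : 0 ≤ t) (hEE : Dom s ζ E' E)
    (h : Dom t ξ E F) : Dom (t * s) (ξ + t * ζ) E' F := by
  obtain ⟨R, h1, h2, h3⟩ := h
  obtain ⟨R', k1, k2, k3⟩ := hEE
  refine ⟨R + t • R', nonneg_add h1 (nonneg_smul ht k1), ?_, fun z => ?_⟩
  · rw [mass_add, mass_smul]
    have := mul_le_mul_of_nonneg_left k2 ht
    linarith
  · rw [cadd, csmul]
    have := mul_le_mul_of_nonneg_left (le_trans (le_abs_self _) (k3 z)) ht
    linarith [h3 z]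

theorem dom_nrm {t ξ : ℝ} {E F : Alg} (hE : Prob E) (h : Dom t ξ E F) : nrm F ≤ t + ξ := by
  obtain ⟨R, h1, h2, h3⟩ := h
  have := nrm_le_of_abs_le (F := F) (R := t • E + R) (fun z => by
    rw [cadd, csmul]; exact h3 z)
  rw [mass_add, mass_smul, hE.2, mul_one] at this
  linarith

theorem dom_flip {ξ : ℝ} {E P : Alg} (hE : Nonneg E) (hP : Nonneg P)
    (h : Dom (1 / 2) ξ P (E - P)) : Dom 2 (2 * ξ) E P := by
  have _ := hE
  obtain ⟨R, h1, h2, h3⟩ := h
  refine ⟨(2 : ℝ) • R, nonneg_smul (by norm_num) h1, ?_, fun z => ?_⟩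
  · rw [mass_smul]; linarith
  · rw [csmul, abs_of_nonneg (hP z)]
    have a := (abs_le.1 (h3 z)).1
    rw [csub] at a
    linarith

/-- clamp `d` to `[-tA, tA]` -/
noncomputable def clampA (t : ℝ) (d A : Alg) : Alg :=
  MonoidAlgebra.ofCoeff (Finsupp.zipWith (fun x a : ℝ => max (-(t * a)) (min (t * a) x))
    (by simp) d.coeff A.coeff)

theorem clampA_coeff (t : ℝ) (d A : Alg) (z : Wd) : (clampA t d A).coeff z
    = max (-(t * A.coeff z)) (min (t * A.coeff z) (d.coeff z)) := rfl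

theorem dom_clean {t ξ : ℝ} {A d : Alg} (hA : Prob A) (hm : mass d = 0) (ht : 0 ≤ t)
    (hξ : ξ ≤ t) (h : Dom t ξ A d) :
    ∃ d' : Alg, mass d' = 0 ∧ Bd (2 * t) A d' ∧ nrm (d - d') ≤ 2 * ξ := by
  obtain ⟨R, h1, h2, h3⟩ := h
  set d1 := clampA t d A with hd1
  have b1 : ∀ z, |d1.coeff z| ≤ t * A.coeff z := by
    intro z
    rw [hd1, clampA_coeff]
    have p := mul_nonneg ht (hA.1 z)
    rw [abs_le]
    constructor
    · exact le_max_left _ _
    · exact max_le (by linarith) (min_le_left _ _)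
  have b2 : ∀ z, |(d - d1).coeff z| ≤ R.coeff z := by
    intro z
    rw [csub, hd1, clampA_coeff]
    have p := mul_nonneg ht (hA.1 z)
    have q := abs_le.1 (h3 z)
    have r := h1 z
    set x := d.coeff z
    set y := t * A.coeff z
    rw [abs_le]
    rcases le_total y x with c | c
    · rw [min_eq_left c, max_eq_right (by linarith)]
      constructor <;> linarith [q.1, q.2]
    · rw [min_eq_right c]
      rcases le_total (-y) x with c' | c'
      · rw [max_eq_right c']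
        constructor <;> linarith
      · rw [max_eq_left c']
        constructor <;> linarith [q.1, q.2]
  have n1 : nrm (d - d1) ≤ ξ := le_trans (nrm_le_of_abs_le b2) h2
  have m1 : |mass d1| ≤ ξ := by
    have := abs_mass_le (d - d1)
    rw [mass_sub, hm, zero_sub, abs_neg] at this
    linarith
  refine ⟨d1 - mass d1 • A, ?_, fun z => ?_, ?_⟩
  · rw [mass_sub, mass_smul, hA.2]; ring
  · rw [csub, csmul]
    have k1 := abs_sub (d1.coeff z) (mass d1 * A.coeff z)
    rw [abs_mul, abs_of_nonneg (hA.1 z)] at k1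
    have k2 := mul_le_mul_of_nonneg_right (le_trans m1 hξ) (hA.1 z)
    have k3 := b1 z
    linarith
  · have e : d - (d1 - mass d1 • A) = (d - d1) + mass d1 • A := by abel
    rw [e]
    refine le_trans (nrm_add_le _ _) ?_
    rw [nrm_smul, prob_nrm hA, mul_one]
    linarith

end Vale.Agent.P321
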