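import Vale.Agent.P321.ProdPert
import Vale.Agent.P321.Dom
import Vale.Agent.P321.Basic

/-!
# P321, module O, part 1: general lemmas
-/

namespace Vale.Agent.P321

open Finset

namespace Fine

theorem self_bd {P : Alg} (hP : Nonneg P) : Bd 1 P P := fun z => by
  rw [one_mul, abs_of_nonneg (hP z)]

theorem bd_left {t : ℝ} {P E F : Alg} (hP : Nonneg P) (hE : Nonneg E) (ht : 0 ≤ t)
    (h : Bd t E F) : Bd t (P * E) (P * F) := by
  have := bd_mul hP hE zero_le_one ht (self_bd hP) h
  simpa using this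

theorem bd_right {t : ℝ} {P E F : Alg} (hP : Nonneg P) (hE : Nonneg E) (ht : 0 ≤ t)
    (h : Bd t E F) : Bd t (E * P) (F * P) := by
  have := bd_mul hE hP ht zero_le_one h (self_bd hP)
  simpa using this

theorem bd_mono {t t' : ℝ} {E F : Alg} (hE : Nonneg E) (h : Bd t E F) (htt : t ≤ t') :
    Bd t' E F := fun z => (h z).trans (mul_le_mul_of_nonneg_right htt (hE z))

theorem bd_add {t t' : ℝ} {E F F' : Alg} (h : Bd t E F) (h' : Bd t' E F') :
    Bd (t + t') E (F + F') := fun z => by
  rw [cadd, add_mul]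
  exact (abs_add_le _ _).trans (add_le_add (h z) (h' z))

theorem bd_smul {t : ℝ} {E F : Alg} (c : ℝ) (h : Bd t E F) : Bd (|c| * t) E (c • F) := fun z => by
  rw [csmul, abs_mul, mul_assoc]
  exact mul_le_mul_of_nonneg_left (h z) (abs_nonneg c)

theorem bd_sum {ι : Type*} (s : Finset ι) {t : ι → ℝ} {E : Alg} {F : ι → Alg}
    (h : ∀ i ∈ s, Bd (t i) E (F i)) : Bd (∑ i ∈ s, t i) E (∑ i ∈ s, F i) := by
  classical
  induction s using Finset.induction_on with
  | empty =>
    intro z
    simp only [Finset.sum_empty, zero_mul]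
    rw [czero, abs_zero]
  | insert i s hi ih =>
    rw [Finset.sum_insert hi, Finset.sum_insert hi]
    exact bd_add (h i (Finset.mem_insert_self i s))
      (ih fun j hj => h j (Finset.mem_insert_of_mem hj))

theorem nrm_bd {t : ℝ} {E F : Alg} (hE : Prob E) (h : Bd t E F) : nrm F ≤ t := by
  have := dom_nrm hE (dom_of_bd h)
  linarith

/-! ### monomials -/

theorem mon_succ (A d : Alg) (M : ℕ) (I : Finset ℕ) :
    mon A d (M + 1) I = mon A d M I * (if M ∈ I then d else A) := by
  unfold mon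
  rw [List.range_succ, List.map_append, List.prod_append]
  simp

theorem mon_zero (A d : Alg) (I : Finset ℕ) : mon A d 0 I = 1 := by
  unfold mon; simp

theorem nrm_mon_le {A d : Alg} (hA : nrm A ≤ 2) (hd : nrm d ≤ 2) (M : ℕ) (I : Finset ℕ) :
    nrm (mon A d M I) ≤ 2 ^ M := by
  induction M with
  | zero => rw [mon_zero, nrm_one, pow_zero]
  | succ M ih =>
    rw [mon_succ, pow_succ]
    refine (nrm_mul_le _ _).trans (mul_le_mul ih ?_ (nrm_nonneg _) (by positivity))
    split_ifs
    · exact hd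
    · exact hA

theorem mon_diff {A d A' d' : Alg} {e : ℝ} (hA : nrm A ≤ 2) (hd : nrm d ≤ 2) (hA' : nrm A' ≤ 2)
    (hd' : nrm d' ≤ 2) (he : nrm (A - A') ≤ e) (he' : nrm (d - d') ≤ e) (M : ℕ) (I : Finset ℕ) :
    nrm (mon A d M I - mon A' d' M I) ≤ M * 2 ^ M * e := by
  have he0 : 0 ≤ e := (nrm_nonneg _).trans he
  induction M with
  | zero => rw [mon_zero, mon_zero, sub_self, nrm_zero]; simp
  | succ M ih =>
    rw [mon_succ, mon_succ]
    set x := (if M ∈ I then d else A) with hx
    set x' := (if M ∈ I then d' else A') with hx'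
    have h1 : mon A d M I * x - mon A' d' M I * x' =
        (mon A d M I - mon A' d' M I) * x + mon A' d' M I * (x - x') := by
      rw [sub_mul, mul_sub]; abel
    have hxn : nrm x ≤ 2 := by rw [hx]; split_ifs; exacts [hd, hA]
    have hxd : nrm (x - x') ≤ e := by rw [hx, hx']; split_ifs; exacts [he', he]
    rw [h1]
    refine (nrm_add_le _ _).trans ?_
    have a1 := (nrm_mul_le (mon A d M I - mon A' d' M I) x).trans
      (mul_le_mul ih hxn (nrm_nonneg _) (by positivity))
    have a2 := (nrm_mul_le (mon A' d' M I) (x - x')).trans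
      (mul_le_mul (nrm_mon_le hA' hd' M I) hxd (nrm_nonneg _) (by positivity))
    have : (0 : ℝ) ≤ 2 ^ M * e := by positivity
    push_cast
    rw [pow_succ]
    nlinarith

theorem mon_of_disj (A d : Alg) (M : ℕ) (I : Finset ℕ) (h : ∀ k < M, k ∉ I) :
    mon A d M I = A ^ M := by
  induction M with
  | zero => rw [mon_zero, pow_zero]
  | succ M ih =>
    rw [mon_succ, ih fun k hk => h k (hk.trans (Nat.lt_succ_self M)),
      if_neg (h M (Nat.lt_succ_self M)), pow_succ]

theorem mon_single (A d : Alg) (M : ℕ) (I : Finset ℕ) (i : ℕ) (hi : i < M) (hiI : i ∈ I)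
    (h : ∀ k < M, k ≠ i → k ∉ I) : mon A d M I = A ^ i * d * A ^ (M - 1 - i) := by
  induction M with
  | zero => omega
  | succ M ih =>
    rw [mon_succ]
    rcases Nat.lt_succ_iff_lt_or_eq.1 hi with h1 | h1
    · rw [ih h1 fun k hk => h k (hk.trans (Nat.lt_succ_self M)),
        if_neg (h M (Nat.lt_succ_self M) (by omega))]
      have e : M + 1 - 1 - i = (M - 1 - i) + 1 := by omega
      rw [e, pow_succ, mul_assoc (A ^ i * d)]
    · subst h1
      rw [mon_of_disj A d i I (fun k hk => h k (by omega) (by omega)), if_pos hiI]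
      have e : i + 1 - 1 - i = 0 := by omega
      rw [e, pow_zero, mul_one]

theorem mon_pair (A d : Alg) (M : ℕ) (I : Finset ℕ) (i j : ℕ) (hij : i < j) (hj : j < M)
    (hiI : i ∈ I) (hjI : j ∈ I) (h : ∀ k < M, k ≠ i → k ≠ j → k ∉ I) :
    mon A d M I = A ^ i * d * A ^ (j - 1 - i) * d * A ^ (M - 1 - j) := by
  induction M with
  | zero => omega
  | succ M ih =>
    rw [mon_succ]
    rcases Nat.lt_succ_iff_lt_or_eq.1 hj with h1 | h1
    · rw [ih h1 fun k hk => h k (hk.trans (Nat.lt_succ_self M)),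
        if_neg (h M (Nat.lt_succ_self M) (by omega) (by omega))]
      have e : M + 1 - 1 - j = (M - 1 - j) + 1 := by omega
      rw [e, pow_succ, mul_assoc (A ^ i * d * A ^ (j - 1 - i) * d)]
    · subst h1
      rw [mon_single A d j I i hij hiI (fun k hk hki => h k (by omega) hki (by omega)),
        if_pos hjI]
      have e : j + 1 - 1 - j = 0 := by omega
      rw [e, pow_zero, mul_one]

/-! ### changing letters -/

theorem pow_diff {a a' : Alg} {e : ℝ} (ha : Prob a) (ha' : Prob a') (h : nrm (a - a') ≤ e)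
    (g : ℕ) : nrm (a ^ g - a' ^ g) ≤ g * e := by
  induction g with
  | zero => rw [pow_zero, pow_zero, sub_self, nrm_zero]; simp
  | succ g ih =>
    have e1 : a ^ (g + 1) - a' ^ (g + 1) = (a ^ g - a' ^ g) * a + a' ^ g * (a - a') := by
      rw [pow_succ, pow_succ, sub_mul, mul_sub]; abel
    rw [e1]
    refine (nrm_add_le _ _).trans ?_
    have h1 := (contr_right ha (a ^ g - a' ^ g)).trans ih
    have h2 := (contr_left (prob_pow ha' g) (a - a')).trans h
    push_cast
    linarith

theorem mul_diff {X Y X' Y' : Alg} {e e' : ℝ} (hY : Prob Y) (hX' : Prob X')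
    (h : nrm (X - X') ≤ e) (h' : nrm (Y - Y') ≤ e') : nrm (X * Y - X' * Y') ≤ e + e' := by
  have e1 : X * Y - X' * Y' = (X - X') * Y + X' * (Y - Y') := by
    rw [sub_mul, mul_sub]; abel
  rw [e1]
  exact (nrm_add_le _ _).trans (add_le_add ((contr_right hY _).trans h)
    ((contr_left hX' _).trans h'))

theorem tm_prob' {A B : Alg} (hA : Prob A) (hB : Prob B) (J : ℕ) :
    Prob (tm A B J).1 ∧ Prob (tm A B J).2 := by
  induction J with
  | zero => exact ⟨hA, hB⟩
  | succ J ih => exact ⟨prob_mul ih.1 ih.2, prob_mul ih.2 ih.1⟩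

theorem tm_diff {A B A' B' : Alg} {e : ℝ} (hA : Prob A) (hB : Prob B) (hA' : Prob A')
    (hB' : Prob B') (h : nrm (A - A') ≤ e) (h' : nrm (B - B') ≤ e) (J : ℕ) :
    nrm ((tm A B J).1 - (tm A' B' J).1) ≤ 2 ^ J * e ∧
    nrm ((tm A B J).2 - (tm A' B' J).2) ≤ 2 ^ J * e := by
  induction J with
  | zero => simp only [tm, pow_zero, one_mul]; exact ⟨h, h'⟩
  | succ J ih =>
    have p := tm_prob' hA hB J
    have p' := tm_prob' hA' hB' J
    have e1 : (2 : ℝ) ^ (J + 1) * e = 2 ^ J * e + 2 ^ J * e := by ring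
    rw [e1]
    exact ⟨mul_diff p.2 p'.1 ih.1 ih.2, mul_diff p.1 p'.2 ih.2 ih.1⟩

/-- sandwich: `P^g X P^g` against `P'^g X' P'^g` -/
theorem sand_diff {a a' X X' : Alg} {e B : ℝ} (ha : Prob a) (ha' : Prob a')
    (h : nrm (a - a') ≤ e) (hX : nrm X ≤ B) (g : ℕ) :
    nrm (a ^ g * X * a ^ g - a' ^ g * X' * a' ^ g) ≤ 2 * (g * e * B) + nrm (X - X') := by
  have hge : 0 ≤ (g : ℝ) * e := (nrm_nonneg _).trans (pow_diff ha ha' h g)
  have e1 : a ^ g * X * a ^ g - a' ^ g * X' * a' ^ g =
      (a ^ g - a' ^ g) * X * a ^ g + a' ^ g * (X * (a ^ g - a' ^ g)) +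
        a' ^ g * (X - X') * a' ^ g := by
    rw [sub_mul, sub_mul, mul_sub, mul_sub, mul_sub, sub_mul, ← mul_assoc, ← mul_assoc]
    abel
  rw [e1]
  refine (nrm_add_le _ _).trans (add_le_add ((nrm_add_le _ _).trans ?_) ?_)
  · have h1 : nrm ((a ^ g - a' ^ g) * X * a ^ g) ≤ g * e * B :=
      (contr_right (prob_pow ha g) _).trans ((nrm_mul_le _ _).trans
        (mul_le_mul (pow_diff ha ha' h g) hX (nrm_nonneg _) hge))
    have h2 : nrm (a' ^ g * (X * (a ^ g - a' ^ g))) ≤ g * e * B := by
      refine (contr_left (prob_pow ha' g) _).trans ((nrm_mul_le _ _).trans ?_)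
      rw [mul_comm (g * e) B]
      exact mul_le_mul hX (pow_diff ha ha' h g) (nrm_nonneg _) ((nrm_nonneg _).trans hX)
    linarith
  · exact (contr_right (prob_pow ha' g) _).trans (contr_left (prob_pow ha' g) _)

/-- the reference can be changed at the cost of the distance -/
theorem dom_of_close {E E' : Alg} (hE' : Nonneg E') : Dom 1 (nrm (E - E')) E' E := by
  refine ⟨absA (E - E'), absA_nonneg _, by rw [mass_absA], fun z => ?_⟩
  rw [absA_coeff, csub, one_mul]
  have h1 : |E.coeff z| ≤ |E'.coeff z| + |E.coeff z - E'.coeff z| := by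
    have := abs_add_le (E'.coeff z) (E.coeff z - E'.coeff z)
    rwa [add_sub_cancel] at this
  rwa [abs_of_nonneg (hE' z)] at h1

/-- powerset sums: sizes `0`, `1` and at least `2` -/
theorem powerset_split {M : Type*} [AddCommMonoid M] (S : Finset ℕ) (f : Finset ℕ → M) :
    ∑ I ∈ S.powerset, f I = f ∅ + ∑ i ∈ S, f {i} +
      ∑ I ∈ S.powerset.filter (fun I => 2 ≤ I.card), f I := by
  classical
  rw [← Finset.sum_filter_add_sum_filter_not S.powerset (fun I => 2 ≤ I.card), add_comm]
  congr 1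
  have e : S.powerset.filter (fun I => ¬ 2 ≤ I.card) =
      insert ∅ (S.image (fun i => ({i} : Finset ℕ))) := by
    ext I
    rw [Finset.mem_filter, Finset.mem_powerset, Finset.mem_insert, Finset.mem_image]
    constructor
    · rintro ⟨h1, h2⟩
      have : I.card = 0 ∨ I.card = 1 := by omega
      rcases this with h | h
      · left; exact Finset.card_eq_zero.1 h
      · right
        obtain ⟨i, rfl⟩ := Finset.card_eq_one.1 h
        exact ⟨i, h1 (Finset.mem_singleton_self i), rfl⟩
    · rintro (rfl | ⟨i, hi, rfl⟩)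
      · simp
      · refine ⟨Finset.singleton_subset_iff.2 hi, ?_⟩
        rw [Finset.card_singleton]; omega
  rw [e, Finset.sum_insert, Finset.sum_image]
  · intro i _ j _ h
    exact Finset.singleton_injective h
  · rw [Finset.mem_image]
    rintro ⟨i, _, hi⟩
    exact Finset.singleton_ne_empty i hi

end Fine

end Vale.Agent.P321
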