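import Vale.Agent.P321.Expand
import Vale.Agent.P321.Smooth
import Vale.Agent.P321.Dom
import Vale.Agent.P321.FineAux

namespace Vale.Agent.P321

open Finset

/-- the cleaned letter -/
theorem clean_letter {A B : Alg} {t ξ : ℝ} (hA : Prob A) (hB : Prob B)
    (hD : Dom t ξ A (B - A)) (ht : 0 ≤ t) (hξ : ξ ≤ t) (ht1 : 2 * t ≤ 1) :
    ∃ d' : Alg, mass d' = 0 ∧ Bd (2 * t) A d' ∧ Prob (A + d') ∧ nrm (B - (A + d')) ≤ 2 * ξ := by
  have hmd : mass (B - A) = 0 := by rw [mass_sub, hA.2, hB.2, sub_self]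
  obtain ⟨d', hd0, hdb, hdn⟩ := dom_clean hA hmd ht hξ hD
  refine ⟨d', hd0, hdb, ⟨?_, ?_⟩, ?_⟩
  · intro z
    have h1 := hdb z
    have h2 := hA.1 z
    rw [cadd]
    have h4 := (abs_le.1 h1).1
    nlinarith
  · rw [mass_add, hd0, hA.2, add_zero]
  · have : B - (A + d') = (B - A) - d' := by abel
    rw [this]; exact hdn

theorem ulen_pow (A : Alg) (J G : ℕ) : A ^ ulen J G = A ^ G * A ^ (2 ^ J) * A ^ G := by
  rw [← pow_add, ← pow_add]; congr 1; unfold ulen; ring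

theorem crude_step {A B : Alg} {σ t ξ : ℝ} (hA : Prob A) (hB : Prob B) (hs : Smooth σ A)
    (hD : Dom t ξ A (B - A)) (ht : 0 ≤ t) (hξ : ξ ≤ t) (J G G1 : ℕ) (ht1 : 2 * t ≤ 1)
    (hG1 : 1 ≤ G1) (hJG : J * G1 ≤ G) :
    Dom (2 ^ (2 ^ J + 3) * t ^ 2) (2 * (2 ^ J * √(σ / G1)) ^ J + 2 ^ (J + 2) * ξ)
      (A ^ ulen J G) (stepB J G A B - stepA J G A B) := by
  obtain ⟨d', hd0, hdb, hBp, hBn⟩ := clean_letter hA hB hD ht hξ ht1
  obtain ⟨SA, SB, hSA, hSB, hex⟩ := tm_expand J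
  obtain ⟨e1, e2, e3⟩ := hex A d'
  have hpert := tm_pert hA hB hBp hBn J
  have h2t0 : (0 : ℝ) ≤ 2 * t := by positivity
  -- the quadratic part
  set QA : Alg := ∑ I ∈ SA.powerset.filter (fun I => 2 ≤ I.card), mon A d' (2 ^ J) I with hQA
  set QB : Alg := ∑ I ∈ SB.powerset.filter (fun I => 2 ≤ I.card), mon A d' (2 ^ J) I with hQB
  have hdiff : (tm A (A + d') J).2 - (tm A (A + d') J).1 = comm A d' J + (QB - QA) := by
    rw [e1, e2, Fine.powerset_split SA, Fine.powerset_split SB, ← e3]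
    abel
  have hQbd : ∀ S : Finset ℕ, S ⊆ range (2 ^ J) →
      Bd (2 ^ (2 ^ J) * (2 * t) ^ 2) (A ^ (2 ^ J))
        (∑ I ∈ S.powerset.filter (fun I => 2 ≤ I.card), mon A d' (2 ^ J) I) := by
    intro S hS
    have h1 := Fine.bd_sum (S.powerset.filter (fun I => 2 ≤ I.card))
      (t := fun _ => (2 * t) ^ 2) (E := A ^ (2 ^ J)) (F := fun I => mon A d' (2 ^ J) I) ?_
    · refine Fine.bd_mono (nonneg_pow hA.1 _) h1 ?_
      rw [Finset.sum_const, nsmul_eq_mul]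
      refine mul_le_mul_of_nonneg_right ?_ (sq_nonneg _)
      have h2 : (S.powerset.filter (fun I => 2 ≤ I.card)).card ≤ 2 ^ (2 ^ J) := by
        calc _ ≤ S.powerset.card := Finset.card_filter_le _ _
          _ = 2 ^ S.card := Finset.card_powerset S
          _ ≤ 2 ^ (2 ^ J) := by
              refine Nat.pow_le_pow_right (by norm_num) ?_
              simpa using Finset.card_le_card hS
      exact_mod_cast h2
    · intro I hI
      rw [Finset.mem_filter, Finset.mem_powerset] at hI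
      refine Fine.bd_mono (nonneg_pow hA.1 _)
        (mon_bd hA hdb h2t0 (2 ^ J) I (hI.1.trans hS)) ?_
      exact pow_le_pow_of_le_one h2t0 ht1 hI.2
  have hQ : Bd (2 ^ (2 ^ J + 3) * t ^ 2) (A ^ (2 ^ J)) (QB - QA) := by
    have h1 := Fine.bd_add (hQbd SB hSB) (Fine.bd_smul (-1) (hQbd SA hSA))
    have h2 : QB + (-1 : ℝ) • QA = QB - QA := by rw [neg_one_smul]; abel
    rw [← hQA, ← hQB, h2] at h1
    refine Fine.bd_mono (nonneg_pow hA.1 _) h1 (le_of_eq ?_)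
    rw [abs_neg, abs_one]
    ring
  have hQ' : Bd (2 ^ (2 ^ J + 3) * t ^ 2) (A ^ ulen J G) (A ^ G * (QB - QA) * A ^ G) := by
    rw [ulen_pow]
    have hc : (0 : ℝ) ≤ 2 ^ (2 ^ J + 3) * t ^ 2 := by positivity
    exact Fine.bd_right (nonneg_pow hA.1 _) (nonneg_mul (nonneg_pow hA.1 _) (nonneg_pow hA.1 _)) hc
      (Fine.bd_left (nonneg_pow hA.1 _) (nonneg_pow hA.1 _) hc hQ)
  -- the commutator
  have hnd : nrm d' ≤ 1 := (Fine.nrm_bd hA hdb).trans ht1
  have hcomm : nrm (A ^ G * comm A d' J * A ^ G) ≤ 2 * (2 ^ J * √(σ / G1)) ^ J := by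
    have h1 : A ^ G * comm A d' J * A ^ G
        = A ^ (G - J * G1) * (A ^ (J * G1) * comm A d' J * A ^ (J * G1)) * A ^ (G - J * G1) := by
      have h2 : (A : Alg) ^ G = A ^ (G - J * G1) * A ^ (J * G1) := by
        rw [← pow_add]; congr 1; omega
      have h3 : (A : Alg) ^ G = A ^ (J * G1) * A ^ (G - J * G1) := by
        rw [← pow_add]; congr 1; omega
      calc A ^ G * comm A d' J * A ^ G
          = (A ^ (G - J * G1) * A ^ (J * G1)) * comm A d' J * (A ^ (J * G1) * A ^ (G - J * G1)) := by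
            rw [← h2, ← h3]
        _ = _ := by noncomm_ring
    rw [h1]
    refine (contr_right (prob_pow hA _) _).trans ((contr_left (prob_pow hA _) _).trans ?_)
    refine (smooth_comm hA hs G1 hG1 J d').trans ?_
    have h4 : 0 ≤ (2 ^ J * √(σ / G1)) ^ J := by positivity
    have h5 := nrm_nonneg d'
    nlinarith
  -- assembly
  have hF : stepB J G A B - stepA J G A B
      = A ^ G * (QB - QA) * A ^ G + (A ^ G * comm A d' J * A ^ G
        + (A ^ G * ((tm A B J).2 - (tm A (A + d') J).2) * A ^ G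
          - A ^ G * ((tm A B J).1 - (tm A (A + d') J).1) * A ^ G)) := by
    have h1 : stepB J G A B - stepA J G A B = A ^ G * ((tm A B J).2 - (tm A B J).1) * A ^ G := by
      rw [stepA, stepB]; noncomm_ring
    have h2 : (tm A B J).2 - (tm A B J).1 = (comm A d' J + (QB - QA))
        + (((tm A B J).2 - (tm A (A + d') J).2) - ((tm A B J).1 - (tm A (A + d') J).1)) := by
      rw [← hdiff]; abel
    rw [h1, h2]; noncomm_ring
  have hr1 : nrm (A ^ G * ((tm A B J).2 - (tm A (A + d') J).2) * A ^ G) ≤ 2 ^ J * (2 * ξ) :=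
    (contr_right (prob_pow hA _) _).trans ((contr_left (prob_pow hA _) _).trans hpert.2)
  have hr2 : nrm (A ^ G * ((tm A B J).1 - (tm A (A + d') J).1) * A ^ G) ≤ 2 ^ J * (2 * ξ) :=
    (contr_right (prob_pow hA _) _).trans ((contr_left (prob_pow hA _) _).trans hpert.1)
  rw [hF]
  have hrest : nrm (A ^ G * comm A d' J * A ^ G
        + (A ^ G * ((tm A B J).2 - (tm A (A + d') J).2) * A ^ G
          - A ^ G * ((tm A B J).1 - (tm A (A + d') J).1) * A ^ G))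
      ≤ 2 * (2 ^ J * √(σ / G1)) ^ J + 2 ^ (J + 2) * ξ := by
    refine (nrm_add_le _ _).trans ?_
    have h3 := nrm_sub_le (A ^ G * ((tm A B J).2 - (tm A (A + d') J).2) * A ^ G)
      (A ^ G * ((tm A B J).1 - (tm A (A + d') J).1) * A ^ G)
    have h4 : (2 : ℝ) ^ (J + 2) * ξ = 2 ^ J * (2 * ξ) + 2 ^ J * (2 * ξ) := by ring
    rw [h4]
    linarith
  have := dom_add (dom_of_bd hQ') (dom_of_nrm (E := A ^ ulen J G) hrest)
  simpa using this

theorem ref_step {A B : Alg} {t ξ : ℝ} (hA : Prob A) (hB : Prob B)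
    (hD : Dom t ξ A (B - A)) (ht : 0 ≤ t) (hξ : ξ ≤ t) (J G : ℕ)
    (ht1 : 2 ^ (2 ^ J) * (2 * t) ≤ 1 / 2) :
    Dom 2 (2 ^ (J + 2) * ξ) (stepA J G A B) (A ^ ulen J G) := by
  have hp2 : (1 : ℝ) ≤ 2 ^ (2 ^ J) := one_le_pow₀ (by norm_num)
  have h2t : 2 * t ≤ 1 := by nlinarith
  have h2t0 : (0 : ℝ) ≤ 2 * t := by positivity
  obtain ⟨d', hd0, hdb, hBp, hBn⟩ := clean_letter hA hB hD ht hξ h2t
  have hpert := tm_pert hA hB hBp hBn J
  obtain ⟨hb, _⟩ := tm_bd (J := J) hA hdb hd0 h2t0 h2t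
  have hb1 : Bd (1 / 2) (A ^ (2 ^ J)) ((tm A (A + d') J).1 - A ^ (2 ^ J)) :=
    Fine.bd_mono (nonneg_pow hA.1 _) hb ht1
  have hb2 : Bd (1 / 2) (A ^ ulen J G)
      (A ^ G * ((tm A (A + d') J).1 - A ^ (2 ^ J)) * A ^ G) := by
    rw [ulen_pow]
    exact Fine.bd_right (nonneg_pow hA.1 _) (nonneg_mul (nonneg_pow hA.1 _) (nonneg_pow hA.1 _))
      (by norm_num) (Fine.bd_left (nonneg_pow hA.1 _) (nonneg_pow hA.1 _) (by norm_num) hb1)
  have hr2 : nrm (A ^ G * ((tm A B J).1 - (tm A (A + d') J).1) * A ^ G) ≤ 2 ^ J * (2 * ξ) :=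
    (contr_right (prob_pow hA _) _).trans ((contr_left (prob_pow hA _) _).trans hpert.1)
  have hF : stepA J G A B - A ^ ulen J G
      = A ^ G * ((tm A (A + d') J).1 - A ^ (2 ^ J)) * A ^ G
        + A ^ G * ((tm A B J).1 - (tm A (A + d') J).1) * A ^ G := by
    rw [ulen_pow, stepA]; noncomm_ring
  have h1 : Dom (1 / 2) (2 ^ (J + 1) * ξ) (A ^ ulen J G) (stepA J G A B - A ^ ulen J G) := by
    rw [hF]
    have := dom_add (dom_of_bd hb2) (dom_of_nrm (E := A ^ ulen J G) hr2)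
    have e : (2 : ℝ) ^ J * (2 * ξ) = 2 ^ (J + 1) * ξ := by ring
    rw [e] at this
    simpa using this
  have hap : Prob (stepA J G A B) :=
    prob_mul (prob_mul (prob_pow hA _) (Fine.tm_prob' hA hB J).1) (prob_pow hA _)
  have := dom_flip hap.1 (nonneg_pow hA.1 _) h1
  have e : 2 * ((2 : ℝ) ^ (J + 1) * ξ) = 2 ^ (J + 2) * ξ := by ring
  rw [e] at this
  exact this

end Vale.Agent.P321
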