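import Mathlib

/-!
# P321: definitions

`Alg` : finitely supported real functions on binary words, with convolution (= concatenation of
independent words).  `tr q w` is the law of the trace of the word `w`.
-/

namespace Vale.Agent.P321

open Finset

/-- words -/
abbrev Wd := FreeMonoid Bool

/-- finitely supported signed measures on words, product = concatenation -/
abbrev Alg := MonoidAlgebra ℝ (FreeMonoid Bool)

/-- the `l^1` norm -/
noncomputable def nrm (F : Alg) : ℝ := ∑ z ∈ F.coeff.support, |F.coeff z|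

/-- total mass -/
noncomputable def mass (F : Alg) : ℝ := ∑ z ∈ F.coeff.support, F.coeff z

def Nonneg (F : Alg) : Prop := ∀ z, 0 ≤ F.coeff z

def Prob (F : Alg) : Prop := Nonneg F ∧ mass F = 1

/-- pointwise order -/
def Le (F G : Alg) : Prop := ∀ z, F.coeff z ≤ G.coeff z

/-- exact domination `|F| ≤ t E` -/
def Bd (t : ℝ) (E F : Alg) : Prop := ∀ z, |F.coeff z| ≤ t * E.coeff z

/-- domination up to an exceptional mass: `|F| ≤ t E + R`, `R ≥ 0`, `mass R ≤ ξ` -/
def Dom (t ξ : ℝ) (E F : Alg) : Prop :=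
  ∃ R : Alg, Nonneg R ∧ mass R ≤ ξ ∧ ∀ z, |F.coeff z| ≤ t * E.coeff z + R.coeff z

/-- smoothness of the powers of `A` -/
def Smooth (σ : ℝ) (A : Alg) : Prop :=
  ∀ N : ℕ, 1 ≤ N → nrm (A ^ N * (A - 1)) ≤ √(σ / N)

/-- the product `∏_{i < M} (d if i ∈ I else A)` (ordered) -/
noncomputable def mon (A d : Alg) (M : ℕ) (I : Finset ℕ) : Alg :=
  ((List.range M).map (fun i => if i ∈ I then d else A)).prod

/-- Thue-Morse words in two letters: the pair (word starting with `A`, word starting with `B`) -/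
def tm {M : Type*} [Mul M] (A B : M) : ℕ → M × M
  | 0 => (A, B)
  | (J + 1) => ((tm A B J).1 * (tm A B J).2, (tm A B J).2 * (tm A B J).1)

/-- iterated commutator `[...[[d, A], A^2], A^4]..., A^(2^(J-1))]` -/
noncomputable def comm (A d : Alg) : ℕ → Alg
  | 0 => d
  | (J + 1) => comm A d J * A ^ (2 ^ J) - A ^ (2 ^ J) * comm A d J

/-- the window step: `a = A^G * tmA * A^G`, `b = A^G * tmB * A^G` (in any monoid) -/
def stepA {M : Type*} [Monoid M] (J G : ℕ) (A B : M) : M := A ^ G * (tm A B J).1 * A ^ G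
def stepB {M : Type*} [Monoid M] (J G : ℕ) (A B : M) : M := A ^ G * (tm A B J).2 * A ^ G

/-- the number of letters of `stepA J G A B` -/
def ulen (J G : ℕ) : ℕ := 2 * G + 2 ^ J

/-- one letter of the deletion channel -/
noncomputable def ltr (q : ℝ) (b : Bool) : Alg :=
  MonoidAlgebra.single 1 q + MonoidAlgebra.single (FreeMonoid.of b) (1 - q)

/-- the law of the trace of a word -/
noncomputable def tr (q : ℝ) (w : Wd) : Alg := FreeMonoid.lift (ltr q) w

/-- A system with exponents `x` (smoothness), `y` (closeness), `l` (length). -/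
def Sys (q x y l : ℝ) : Prop :=
  ∀ c : ℝ, ∀ᶠ n : ℕ in Filter.atTop, ∃ wA wB : Wd,
    wA.length = wB.length ∧ wA ≠ wB ∧ (1 ≤ wA.length) ∧ (wA.length : ℝ) ≤ (n : ℝ) ^ l ∧
    Smooth ((n : ℝ) ^ x) (tr q wA) ∧
    Dom ((n : ℝ) ^ (-y)) ((n : ℝ) ^ (-c)) (tr q wA) (tr q wB - tr q wA)

/-- absolute value -/
noncomputable def absA (F : Alg) : Alg :=
  MonoidAlgebra.ofCoeff (F.coeff.mapRange (fun x : ℝ => |x|) (by simp))

/-- pointwise minimum -/
noncomputable def minA (F G : Alg) : Alg :=
  MonoidAlgebra.ofCoeff (Finsupp.zipWith (fun x y : ℝ => min x y) (by simp) F.coeff G.coeff)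

/-- ordered product `∏_{k<S} K k * O k` -/
noncomputable def zprod (K O : ℕ → Alg) (S : ℕ) : Alg :=
  ((List.range S).map (fun k => K k * O k)).prod


/-- position after the `k`-th period -/
def pos {S M : ℕ} (s : Fin S × Fin M → Bool) (k : ℕ) : ℤ :=
  ∑ l : Fin S × Fin M, if (l.1 : ℕ) ≤ k then (if s l then 1 else -1) else 0


/-- the two base words: background letter `01`, defect letter `0` -/
def wU : Wd := FreeMonoid.of false * FreeMonoid.of true
def wV : Wd := FreeMonoid.of false

/-- the subword of `x` at the kept positions `s` -/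
def subword {n : ℕ} (x : Fin n → Bool) (s : Finset (Fin n)) : List Bool :=
  (s.sort (· ≤ ·)).map x

/-- success probability of a (randomized) estimator `est` on `m` independent traces of `x`
(sum over the `m` sets of surviving positions) -/
noncomputable def succProb (q : ℝ) {n m : ℕ}
    (est : (Fin m → List Bool) → (Fin n → Bool) → ℝ) (x : Fin n → Bool) : ℝ :=
  ∑ s : Fin m → Finset (Fin n),
    (∏ i, (1 - q) ^ (s i).card * q ^ (n - (s i).card)) * est (fun i => subword x (s i)) x

/-- `m` traces suffice to reconstruct every `x ∈ {0,1}^n` with probability at least `2/3` -/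
def Reconstructs (q : ℝ) (n m : ℕ) : Prop :=
  ∃ est : (Fin m → List Bool) → (Fin n → Bool) → ℝ,
    (∀ z x, 0 ≤ est z x) ∧ (∀ z, ∑ x, est z x = 1) ∧ ∀ x, 2 / 3 ≤ succProb q est x

/-- closed systems -/
def SysC (q x y l : ℝ) : Prop := ∀ ε : ℝ, 0 < ε → Sys q (x + ε) (y - ε) (l + ε)


end Vale.Agent.P321
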