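import Vale.Agent.P321.Basic
import Vale.Agent.P321.Array
import Vale.Agent.P321.BaseDom

/-! Words: the window step on words, and the base system. -/

namespace Vale.Agent.P321

open Finset

theorem tm_map {M N : Type*} [Monoid M] [Monoid N] (f : M →* N) (A B : M) :
    ∀ J, f (tm A B J).1 = (tm (f A) (f B) J).1 ∧ f (tm A B J).2 = (tm (f A) (f B) J).2
  | 0 => ⟨rfl, rfl⟩
  | J + 1 => by
      obtain ⟨h1, h2⟩ := tm_map f A B J
      constructor
      · change f ((tm A B J).1 * (tm A B J).2) = (tm (f A) (f B) J).1 * (tm (f A) (f B) J).2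
        rw [map_mul, h1, h2]
      · change f ((tm A B J).2 * (tm A B J).1) = (tm (f A) (f B) J).2 * (tm (f A) (f B) J).1
        rw [map_mul, h1, h2]

theorem tr_step (q : ℝ) (J G : ℕ) (v w : Wd) :
    tr q (stepA J G v w) = stepA J G (tr q v) (tr q w) ∧
    tr q (stepB J G v w) = stepB J G (tr q v) (tr q w) := by
  have h := tm_map (FreeMonoid.lift (ltr q)) v w J
  constructor
  · unfold stepA
    rw [tr_mul, tr_mul, tr_pow]
    have : tr q (tm v w J).1 = (tm (tr q v) (tr q w) J).1 := h.1
    rw [this]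
  · unfold stepB
    rw [tr_mul, tr_mul, tr_pow]
    have : tr q (tm v w J).2 = (tm (tr q v) (tr q w) J).2 := h.2
    rw [this]

theorem len_pow (v : Wd) : ∀ n : ℕ, (v ^ n).length = n * v.length
  | 0 => by simp
  | n + 1 => by rw [pow_succ, FreeMonoid.length_mul, len_pow v n]; ring

theorem tm_length (v w : Wd) (h : v.length = w.length) :
    ∀ J, (tm v w J).1.length = 2 ^ J * v.length ∧ (tm v w J).2.length = 2 ^ J * v.length
  | 0 => ⟨by simp [tm], by simp [tm, h]⟩
  | J + 1 => by
      obtain ⟨h1, h2⟩ := tm_length v w h J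
      constructor
      · change ((tm v w J).1 * (tm v w J).2).length = _
        rw [FreeMonoid.length_mul, h1, h2]; ring
      · change ((tm v w J).2 * (tm v w J).1).length = _
        rw [FreeMonoid.length_mul, h1, h2]; ring

theorem step_length (J G : ℕ) (v w : Wd) (h : v.length = w.length) :
    (stepA J G v w).length = ulen J G * v.length ∧
    (stepB J G v w).length = ulen J G * v.length := by
  obtain ⟨h1, h2⟩ := tm_length v w h J
  constructor
  · unfold stepA ulen
    rw [FreeMonoid.length_mul, FreeMonoid.length_mul, len_pow, h1]; ring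
  · unfold stepB ulen
    rw [FreeMonoid.length_mul, FreeMonoid.length_mul, len_pow, h2]; ring

theorem mul_inj_len (a b c e : Wd) (hl : a.length = c.length) (h : a * b = c * e) :
    a = c ∧ b = e := by
  have h' : a.toList ++ b.toList = c.toList ++ e.toList := by
    rw [← FreeMonoid.toList_mul, ← FreeMonoid.toList_mul, h]
  have := List.append_inj h' hl
  exact ⟨FreeMonoid.toList.injective this.1, FreeMonoid.toList.injective this.2⟩

theorem tm_ne (v w : Wd) (h : v.length = w.length) (hne : v ≠ w) :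
    ∀ J, (tm v w J).1 ≠ (tm v w J).2
  | 0 => hne
  | J + 1 => by
      have ih := tm_ne v w h hne J
      obtain ⟨h1, h2⟩ := tm_length v w h J
      intro he
      have he : (tm v w J).1 * (tm v w J).2 = (tm v w J).2 * (tm v w J).1 := he
      exact ih (mul_inj_len _ _ _ _ (by rw [h1, h2]) he).1

theorem step_ne (J G : ℕ) (v w : Wd) (h : v.length = w.length) (hne : v ≠ w) :
    stepA J G v w ≠ stepB J G v w := by
  obtain ⟨h1, h2⟩ := tm_length v w h J
  intro he
  unfold stepA stepB at he
  have k1 := mul_inj_len _ _ _ _ (by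
    rw [FreeMonoid.length_mul, FreeMonoid.length_mul, h1, h2]) he
  have k2 := mul_inj_len _ _ _ _ rfl k1.1
  exact tm_ne v w h hne J k2.2

theorem UV_ne : wV * wU ≠ wU * wV := by
  intro h
  have h' : (wV * wU).toList = (wU * wV).toList := by rw [h]
  have e1 : (wV * wU).toList = [false, false, true] := rfl
  have e2 : (wU * wV).toList = [false, true, false] := rfl
  rw [e1, e2] at h'
  exact absurd h' (by decide)

theorem len_U : wU.length = 2 := rfl
theorem len_V : wV.length = 1 := rfl

theorem base_sys {q : ℝ} (h0 : 0 < q) (h1 : q < 1) : SysC q 1 (3 / 4) 1 := by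
  intro ε hε c
  have e1 := base_array h0 h1 ε hε
  have e2 := base_dom h0 h1 ε hε c
  have e3 : ∀ᶠ n : ℕ in Filter.atTop, (5 : ℝ) ≤ (n : ℝ) ^ ε :=
    ((tendsto_rpow_atTop hε).comp tendsto_natCast_atTop_atTop).eventually_ge_atTop 5
  filter_upwards [e1, e2, e3, Filter.eventually_ge_atTop 1] with n k1 k2 k3 k4
  have hn : (1 : ℝ) ≤ n := by exact_mod_cast k4
  have hlA : (wU ^ n * wV * wU ^ n).length = 4 * n + 1 := by
    rw [FreeMonoid.length_mul, FreeMonoid.length_mul, len_pow, len_U, len_V]; ring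
  have hlB : (wU ^ (n + 1) * wV * wU ^ (n - 1)).length = 4 * n + 1 := by
    rw [FreeMonoid.length_mul, FreeMonoid.length_mul, len_pow, len_pow, len_U, len_V]; omega
  refine ⟨wU ^ n * wV * wU ^ n, wU ^ (n + 1) * wV * wU ^ (n - 1), by rw [hlA, hlB], ?_, ?_, ?_,
    ?_, ?_⟩
  · intro he
    obtain ⟨m, rfl⟩ : ∃ m, n = m + 1 := ⟨n - 1, by omega⟩
    have r1 : wU ^ (m + 1) * wV * wU ^ (m + 1) = wU ^ (m + 1) * (wV * wU * wU ^ m) := by
      rw [pow_succ' wU m]; simp only [mul_assoc]
    have r2 : wU ^ (m + 1 + 1) * wV * wU ^ (m + 1 - 1) = wU ^ (m + 1) * (wU * wV * wU ^ m) := by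
      rw [pow_succ wU (m + 1), Nat.add_sub_cancel]; simp only [mul_assoc]
    rw [r1, r2] at he
    have k := (mul_inj_len _ _ _ _ rfl he).2
    exact UV_ne (mul_inj_len _ _ _ _ (by
      rw [FreeMonoid.length_mul, FreeMonoid.length_mul, len_U, len_V]) k).1
  · rw [hlA]; omega
  · rw [hlA, Real.rpow_add (by linarith), Real.rpow_one]
    push_cast
    nlinarith
  · have : tr q (wU ^ n * wV * wU ^ n) = tr q wU ^ n * tr q wV * tr q wU ^ n := by
      rw [tr_mul, tr_mul, tr_pow]
    rw [this]
    exact k1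
  · have a1 : tr q (wU ^ n * wV * wU ^ n) = tr q wU ^ n * tr q wV * tr q wU ^ n := by
      rw [tr_mul, tr_mul, tr_pow]
    have a2 : tr q (wU ^ (n + 1) * wV * wU ^ (n - 1))
        = tr q wU ^ (n + 1) * tr q wV * tr q wU ^ (n - 1) := by
      rw [tr_mul, tr_mul, tr_pow, tr_pow]
    rw [a1, a2]
    have e : -(3 / 4 - ε) = -(3 / 4 : ℝ) + ε := by ring
    rw [e]
    exact k2

end Vale.Agent.P321
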