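import Vale.Agent.P321.Super
import Vale.Agent.P321.Words
import Vale.Agent.P321.Dom

/-! Traces of words, success probabilities, and the conclusion. -/

namespace Vale.Agent.P321

open Finset

/-- adding a first position -/
def cons0 {n : ℕ} (b : Bool) (t : Finset (Fin n)) : Finset (Fin (n + 1)) :=
  if b then insert 0 (t.map (Fin.succEmb n)) else t.map (Fin.succEmb n)

theorem mem0 {n : ℕ} (b : Bool) (t : Finset (Fin n)) : (0 : Fin (n + 1)) ∈ cons0 b t ↔ b = true := by
  unfold cons0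
  cases b
  · simp [Fin.succ_ne_zero]
  · simp

theorem mem_succ {n : ℕ} (b : Bool) (t : Finset (Fin n)) (i : Fin n) :
    i.succ ∈ cons0 b t ↔ i ∈ t := by
  unfold cons0
  cases b
  · simp
  · simp [Fin.succ_ne_zero]

/-- subsets of `Fin (n + 1)` -/
def consE (n : ℕ) : Bool × Finset (Fin n) ≃ Finset (Fin (n + 1)) where
  toFun p := cons0 p.1 p.2
  invFun s := (decide ((0 : Fin (n + 1)) ∈ s), Finset.univ.filter fun i => i.succ ∈ s)
  left_inv := by
    rintro ⟨b, t⟩
    ext1
    · simp only [mem0]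
      cases b <;> simp
    · ext i
      simp [mem_succ]
  right_inv := by
    intro s
    ext i
    refine Fin.cases ?_ (fun i => ?_) i
    · rw [mem0]; simp
    · rw [mem_succ]; simp

theorem card_cons0 {n : ℕ} (b : Bool) (t : Finset (Fin n)) :
    (cons0 b t).card = t.card + if b then 1 else 0 := by
  unfold cons0
  cases b
  · simp
  · simp only [if_true]
    rw [Finset.card_insert_of_notMem (by simp [Fin.succ_ne_zero]), Finset.card_map]

theorem sort_cons0 {n : ℕ} (b : Bool) (t : Finset (Fin n)) :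
    (cons0 b t).sort (· ≤ ·) = (if b then [0] else []) ++ (t.sort (· ≤ ·)).map Fin.succ := by
  have e : (t.map (Fin.succEmb n)).sort (· ≤ ·) = (t.sort (· ≤ ·)).map Fin.succ := by
    have := Finset.map_sort (Fin.succEmb n) t (fun a b : Fin n => a ≤ b)
      (fun a b : Fin (n + 1) => a ≤ b) (fun a _ b _ => Fin.succ_le_succ_iff.symm)
    exact this.symm
  unfold cons0
  cases b
  · simpa using e
  · simp only [if_true]
    rw [Finset.sort_insert (· ≤ ·) (fun b _ => Fin.zero_le b) (by simp [Fin.succ_ne_zero]), e]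
    rfl

theorem subword_cons0 {n : ℕ} (x : Fin (n + 1) → Bool) (b : Bool) (t : Finset (Fin n)) :
    subword x (cons0 b t) = (if b then [x 0] else []) ++ subword (fun i => x i.succ) t := by
  unfold subword
  rw [sort_cons0]
  cases b <;> simp [Function.comp_def]

/-- weight of a set of surviving positions -/
noncomputable def wt (q : ℝ) (n : ℕ) (s : Finset (Fin n)) : ℝ := (1 - q) ^ s.card * q ^ (n - s.card)

theorem wt_cons0 (q : ℝ) {n : ℕ} (b : Bool) (t : Finset (Fin n)) :
    wt q (n + 1) (cons0 b t) = (if b then 1 - q else q) * wt q n t := by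
  have hc : t.card ≤ n := by simpa using Finset.card_le_univ t
  unfold wt
  rw [card_cons0]
  cases b
  · simp only [Bool.false_eq_true, if_false, add_zero]
    rw [Nat.succ_sub hc, pow_succ]; ring
  · simp only [if_true]
    rw [Nat.add_sub_add_right, pow_succ]; ring

theorem tr_sum (q : ℝ) : ∀ (n : ℕ) (x : Fin n → Bool),
    tr q (FreeMonoid.ofList (List.ofFn x))
      = ∑ s : Finset (Fin n), MonoidAlgebra.single (FreeMonoid.ofList (subword x s)) (wt q n s)
  | 0, x => by
      rw [Fintype.sum_unique]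
      have e1 : FreeMonoid.ofList (List.ofFn x) = 1 := by simp
      have e2 : subword x default = [] := by
        unfold subword
        have : (default : Finset (Fin 0)) = ∅ := rfl
        rw [this]; simp
      have e3 : wt q 0 default = 1 := by
        unfold wt
        have : (default : Finset (Fin 0)) = ∅ := rfl
        rw [this]; simp
      rw [e1, e2, e3, tr_one]
      rfl
  | n + 1, x => by
      rw [← (consE n).sum_comp, Fintype.sum_prod_type, Fintype.sum_bool]
      have e0 : FreeMonoid.ofList (List.ofFn x)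
          = FreeMonoid.of (x 0) * FreeMonoid.ofList (List.ofFn fun i => x i.succ) := by
        rw [List.ofFn_succ]; rfl
      rw [e0, tr_mul, tr_of, tr_sum q n fun i => x i.succ]
      unfold ltr
      rw [add_mul, Finset.mul_sum, Finset.mul_sum, add_comm]
      congr 1
      · refine Finset.sum_congr rfl fun t _ => ?_
        change _ = MonoidAlgebra.single (FreeMonoid.ofList (subword x (cons0 true t)))
          (wt q (n + 1) (cons0 true t))
        rw [subword_cons0, wt_cons0, MonoidAlgebra.single_mul_single]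
        rfl
      · refine Finset.sum_congr rfl fun t _ => ?_
        change _ = MonoidAlgebra.single (FreeMonoid.ofList (subword x (cons0 false t)))
          (wt q (n + 1) (cons0 false t))
        rw [subword_cons0, wt_cons0, MonoidAlgebra.single_mul_single]
        simp


/-- pairing with a bounded function -/
noncomputable def pr (g : Wd → ℝ) (F : Alg) : ℝ := ∑ z ∈ F.coeff.support, F.coeff z * g z

theorem pr_eq (g : Wd → ℝ) (F : Alg) (s : Finset Wd) (hs : F.coeff.support ⊆ s) :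
    pr g F = ∑ z ∈ s, F.coeff z * g z := by
  unfold pr
  refine Finset.sum_subset hs fun z _ hz => ?_
  rw [Finsupp.notMem_support_iff.1 hz, zero_mul]

theorem pr_add (g : Wd → ℝ) (F G : Alg) : pr g (F + G) = pr g F + pr g G := by
  classical
  set s := F.coeff.support ∪ G.coeff.support ∪ (F + G).coeff.support with hs
  rw [pr_eq g F s (by intro z hz; simp [hs, hz]),
    pr_eq g G s (by intro z hz; rw [hs]; simp only [Finset.mem_union]; tauto),
    pr_eq g (F + G) s Finset.subset_union_right, ← Finset.sum_add_distrib]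
  refine Finset.sum_congr rfl fun z _ => ?_
  rw [MonoidAlgebra.coeff_add, Finsupp.add_apply, add_mul]

theorem pr_neg (g : Wd → ℝ) (F : Alg) : pr g (-F) = -pr g F := by
  classical
  rw [pr_eq g (-F) (F.coeff.support ∪ (-F).coeff.support) Finset.subset_union_right,
    pr_eq g F (F.coeff.support ∪ (-F).coeff.support) Finset.subset_union_left,
    ← Finset.sum_neg_distrib]
  refine Finset.sum_congr rfl fun z _ => ?_
  rw [MonoidAlgebra.coeff_neg, Finsupp.neg_apply, neg_mul]

theorem pr_sub (g : Wd → ℝ) (F G : Alg) : pr g (F - G) = pr g F - pr g G := by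
  rw [sub_eq_add_neg, pr_add, pr_neg]; ring

theorem pr_zero (g : Wd → ℝ) : pr g 0 = 0 := by
  unfold pr; simp

theorem pr_sum {ι : Type*} (g : Wd → ℝ) (s : Finset ι) (f : ι → Alg) :
    pr g (∑ i ∈ s, f i) = ∑ i ∈ s, pr g (f i) := by
  classical
  induction s using Finset.induction_on with
  | empty => simp [pr_zero]
  | insert a s ha ih => rw [Finset.sum_insert ha, Finset.sum_insert ha, pr_add, ih]

theorem pr_single (g : Wd → ℝ) (w : Wd) (c : ℝ) : pr g (MonoidAlgebra.single w c) = c * g w := by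
  rw [pr_eq g _ {w}]
  · simp
  · simp only [MonoidAlgebra.coeff_single]
    exact Finsupp.support_single_subset

theorem pr_le (g : Wd → ℝ) (hg : ∀ z, |g z| ≤ 1) (F : Alg) : |pr g F| ≤ nrm F := by
  unfold pr nrm
  refine le_trans (Finset.abs_sum_le_sum_abs _ _) (Finset.sum_le_sum fun z _ => ?_)
  rw [abs_mul]
  calc |F.coeff z| * |g z| ≤ |F.coeff z| * 1 := mul_le_mul_of_nonneg_left (hg z) (abs_nonneg _)
    _ = |F.coeff z| := mul_one _

theorem pr_tr (q : ℝ) (n : ℕ) (x : Fin n → Bool) (g : List Bool → ℝ) :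
    pr (fun z => g z.toList) (tr q (FreeMonoid.ofList (List.ofFn x)))
      = ∑ s : Finset (Fin n), wt q n s * g (subword x s) := by
  rw [tr_sum, pr_sum]
  exact Finset.sum_congr rfl fun s _ => by rw [pr_single]; rfl

theorem wt_nonneg {q : ℝ} (h0 : 0 < q) (h1 : q < 1) (n : ℕ) (s : Finset (Fin n)) :
    0 ≤ wt q n s := by
  unfold wt
  have : 0 ≤ 1 - q := by linarith
  positivity

theorem wt_sum {q : ℝ} (n : ℕ) : ∑ s : Finset (Fin n), wt q n s = 1 := by
  have h : ∑ s : Finset (Fin n), wt q n s = (q + (1 - q)) ^ n := by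
    have := Finset.prod_add (fun _ : Fin n => 1 - q) (fun _ : Fin n => q) Finset.univ
    simp only [Finset.prod_const, Finset.card_univ, Fintype.card_fin, Finset.powerset_univ] at this
    rw [add_comm q, this]
    refine Finset.sum_congr rfl fun s _ => ?_
    unfold wt
    rw [← Finset.compl_eq_univ_sdiff, Finset.card_compl, Fintype.card_fin]
  rw [h]; ring

/-- expectation over `m` independent traces -/
noncomputable def Ex (q : ℝ) {n : ℕ} (x : Fin n → Bool) (m : ℕ) (f : (Fin m → List Bool) → ℝ) : ℝ :=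
  ∑ s : Fin m → Finset (Fin n), (∏ i, wt q n (s i)) * f (fun i => subword x (s i))

theorem Ex_succ (q : ℝ) {n : ℕ} (x : Fin n → Bool) (m : ℕ) (f : (Fin (m + 1) → List Bool) → ℝ) :
    Ex q x (m + 1) f = ∑ s : Finset (Fin n), wt q n s
      * Ex q x m (fun z => f (Fin.cons (subword x s) z)) := by
  unfold Ex
  rw [← (Fin.consEquiv fun _ : Fin (m + 1) => Finset (Fin n)).sum_comp, Fintype.sum_prod_type]
  refine Finset.sum_congr rfl fun s _ => ?_
  rw [Finset.mul_sum]
  refine Finset.sum_congr rfl fun t _ => ?_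
  rw [Fin.prod_univ_succ]
  simp only [Fin.consEquiv_apply, Fin.cons_zero, Fin.cons_succ]
  have e : (fun i : Fin (m + 1) => subword x ((Fin.cons s t : Fin (m + 1) → Finset (Fin n)) i))
      = Fin.cons (subword x s) (fun i => subword x (t i)) := by
    funext i
    refine Fin.cases ?_ (fun i => ?_) i <;> simp
  rw [e]
  ring

theorem Ex_range {q : ℝ} (h0 : 0 < q) (h1 : q < 1) {n : ℕ} (x : Fin n → Bool) (m : ℕ)
    (f : (Fin m → List Bool) → ℝ) (hf : ∀ z, |f z| ≤ 1) : |Ex q x m f| ≤ 1 := by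
  induction m with
  | zero =>
    unfold Ex
    rw [Fintype.sum_unique]
    simpa using hf _
  | succ m ih =>
    rw [Ex_succ]
    refine le_trans (Finset.abs_sum_le_sum_abs _ _) ?_
    calc ∑ s, |wt q n s * Ex q x m fun z => f (Fin.cons (subword x s) z)|
        ≤ ∑ s, wt q n s * 1 := by
          refine Finset.sum_le_sum fun s _ => ?_
          rw [abs_mul, abs_of_nonneg (wt_nonneg h0 h1 n s)]
          exact mul_le_mul_of_nonneg_left (ih _ fun z => hf _) (wt_nonneg h0 h1 n s)
      _ = 1 := by rw [← Finset.sum_mul, wt_sum, one_mul]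

theorem Ex_close {q : ℝ} (h0 : 0 < q) (h1 : q < 1) {n : ℕ} (x y : Fin n → Bool) (m : ℕ)
    (f : (Fin m → List Bool) → ℝ) (hf : ∀ z, |f z| ≤ 1) :
    |Ex q x m f - Ex q y m f| ≤ m * nrm (tr q (FreeMonoid.ofList (List.ofFn x))
      - tr q (FreeMonoid.ofList (List.ofFn y))) := by
  set N := nrm (tr q (FreeMonoid.ofList (List.ofFn x))
      - tr q (FreeMonoid.ofList (List.ofFn y))) with hN
  induction m with
  | zero =>
    have : Ex q x 0 f = Ex q y 0 f := by
      unfold Ex
      rw [Fintype.sum_unique, Fintype.sum_unique]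
      congr 2
      funext i
      exact i.elim0
    rw [this]; simp
  | succ m ih =>
    rw [Ex_succ, Ex_succ]
    set g : List Bool → ℝ := fun u => Ex q y m (fun z => f (Fin.cons u z)) with hg
    have gb : ∀ u, |g u| ≤ 1 := fun u => Ex_range h0 h1 y m _ fun z => hf _
    have k1 : |∑ s : Finset (Fin n), wt q n s * Ex q x m (fun z => f (Fin.cons (subword x s) z))
        - ∑ s : Finset (Fin n), wt q n s * g (subword x s)| ≤ m * N := by
      rw [← Finset.sum_sub_distrib]
      refine le_trans (Finset.abs_sum_le_sum_abs _ _) ?_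
      calc ∑ s, |wt q n s * (Ex q x m fun z => f (Fin.cons (subword x s) z))
            - wt q n s * g (subword x s)| ≤ ∑ s, wt q n s * (m * N) := by
            refine Finset.sum_le_sum fun s _ => ?_
            rw [← mul_sub, abs_mul, abs_of_nonneg (wt_nonneg h0 h1 n s)]
            exact mul_le_mul_of_nonneg_left (ih _ fun z => hf _) (wt_nonneg h0 h1 n s)
        _ = m * N := by rw [← Finset.sum_mul, wt_sum, one_mul]
    have k2 : |∑ s : Finset (Fin n), wt q n s * g (subword x s)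
        - ∑ s : Finset (Fin n), wt q n s * g (subword y s)| ≤ N := by
      rw [← pr_tr, ← pr_tr, ← pr_sub]
      exact pr_le _ (fun z => gb _) _
    have e : ∑ s : Finset (Fin n), wt q n s * Ex q y m (fun z => f (Fin.cons (subword y s) z))
        = ∑ s : Finset (Fin n), wt q n s * g (subword y s) := rfl
    rw [e]
    have k3 := abs_sub_le (∑ s : Finset (Fin n), wt q n s
      * Ex q x m (fun z => f (Fin.cons (subword x s) z)))
      (∑ s : Finset (Fin n), wt q n s * g (subword x s))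
      (∑ s : Finset (Fin n), wt q n s * g (subword y s))
    push_cast
    linarith

theorem Ex_add (q : ℝ) {n : ℕ} (x : Fin n → Bool) (m : ℕ) (f g : (Fin m → List Bool) → ℝ) :
    Ex q x m (fun z => f z + g z) = Ex q x m f + Ex q x m g := by
  unfold Ex
  rw [← Finset.sum_add_distrib]
  exact Finset.sum_congr rfl fun s _ => by ring

theorem Ex_one {q : ℝ} {n : ℕ} (x : Fin n → Bool) (m : ℕ) : Ex q x m (fun _ => 1) = 1 := by
  induction m with
  | zero => unfold Ex; rw [Fintype.sum_unique]; simp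
  | succ m ih => rw [Ex_succ]; simp only [ih, mul_one]; exact wt_sum n

theorem Ex_mono {q : ℝ} (h0 : 0 < q) (h1 : q < 1) {n : ℕ} (x : Fin n → Bool) (m : ℕ)
    (f g : (Fin m → List Bool) → ℝ) (h : ∀ z, f z ≤ g z) : Ex q x m f ≤ Ex q x m g :=
  Finset.sum_le_sum fun s _ => mul_le_mul_of_nonneg_left (h _)
    (Finset.prod_nonneg fun i _ => wt_nonneg h0 h1 n (s i))

theorem succ_eq (q : ℝ) {n m : ℕ} (est : (Fin m → List Bool) → (Fin n → Bool) → ℝ)
    (x : Fin n → Bool) : succProb q est x = Ex q x m (fun z => est z x) := rfl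

theorem reconstruct_tv {q : ℝ} (h0 : 0 < q) (h1 : q < 1) {n m : ℕ} (x y : Fin n → Bool)
    (hxy : x ≠ y) (h : Reconstructs q n m) :
    1 / 3 ≤ m * nrm (tr q (FreeMonoid.ofList (List.ofFn x))
      - tr q (FreeMonoid.ofList (List.ofFn y))) := by
  obtain ⟨est, e1, e2, e3⟩ := h
  have hle : ∀ z, est z x + est z y ≤ 1 := by
    intro z
    rw [← e2 z]
    have := Finset.sum_le_sum_of_subset_of_nonneg (f := fun w => est z w)
      (Finset.subset_univ ({x, y} : Finset (Fin n → Bool))) (fun w _ _ => e1 z w)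
    rwa [Finset.sum_pair hxy] at this
  have hb : ∀ z, |est z x| ≤ 1 := by
    intro z
    rw [abs_of_nonneg (e1 z x)]
    linarith [hle z, e1 z y]
  have k := Ex_close h0 h1 x y m (fun z => est z x) hb
  have a1 := e3 x
  have a2 := e3 y
  rw [succ_eq] at a1 a2
  have a3 : Ex q y m (fun z => est z x) + Ex q y m (fun z => est z y) ≤ 1 := by
    rw [← Ex_add, ← Ex_one (q := q) y m]
    exact Ex_mono h0 h1 y m _ _ fun z => hle z
  have := (abs_le.1 k).2
  linarith

theorem all_sys {q : ℝ} (h0 : 0 < q) (h1 : q < 1) (k : ℕ) :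
    SysC q (4 ^ k) (4 ^ k * (3 / 4 + k / 24)) (4 ^ k) := by
  induction k with
  | zero =>
    have := base_sys h0 h1
    have e : (4 : ℝ) ^ 0 * (3 / 4 + ((0 : ℕ) : ℝ) / 24) = 3 / 4 := by norm_num
    rw [e, pow_zero]
    exact this
  | succ k ih =>
    have hx : (0 : ℝ) < 4 ^ k := by positivity
    have hk : (0 : ℝ) ≤ (k : ℝ) / 24 := by positivity
    have := super_step h0 h1 hx (by nlinarith) hx.le ih
    have e1 : (4 : ℝ) * 4 ^ k = 4 ^ (k + 1) := by ring
    have e2 : (4 : ℝ) * (4 ^ k * (3 / 4 + k / 24)) + 4 ^ k / 6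
        = 4 ^ (k + 1) * (3 / 4 + ((k + 1 : ℕ) : ℝ) / 24) := by push_cast; ring
    have e3 : (4 : ℝ) ^ k + 3 * 4 ^ k = 4 ^ (k + 1) := by ring
    rw [e1, e2, e3] at this
    exact this

theorem ofFn_exists (l : List Bool) (n : ℕ) (h : l.length = n) :
    ∃ x : Fin n → Bool, List.ofFn x = l := by
  subst h
  exact ⟨l.get, List.ofFn_get l⟩

/-- two close words of length `n` from a pair of close words of length at most `n` -/
theorem pad {q : ℝ} (h0 : 0 < q) (h1 : q < 1) (wA wB : Wd) (hl : wA.length = wB.length)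
    (hne : wA ≠ wB) (n : ℕ) (hn : wA.length ≤ n) (e : ℝ) (he : nrm (tr q wB - tr q wA) ≤ e) :
    ∃ x y : Fin n → Bool, x ≠ y ∧
      nrm (tr q (FreeMonoid.ofList (List.ofFn x)) - tr q (FreeMonoid.ofList (List.ofFn y)))
        ≤ e := by
  set z : Wd := FreeMonoid.of false ^ (n - wA.length) with hz
  have lz : z.length = n - wA.length := by
    rw [hz, len_pow]
    have : (FreeMonoid.of false : Wd).length = 1 := rfl
    rw [this, mul_one]
  have l1 : (wA * z).toList.length = n := by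
    change (wA * z).length = n
    rw [FreeMonoid.length_mul, lz]; omega
  have l2 : (wB * z).toList.length = n := by
    change (wB * z).length = n
    rw [FreeMonoid.length_mul, lz]; omega
  obtain ⟨x, hx⟩ := ofFn_exists _ n l1
  obtain ⟨y, hy⟩ := ofFn_exists _ n l2
  refine ⟨y, x, ?_, ?_⟩
  · intro hxy
    rw [← hxy, hy] at hx
    have : wB * z = wA * z := FreeMonoid.toList.injective hx
    exact hne (mul_inj_len _ _ _ _ hl.symm this).1.symm
  · rw [hx, hy]
    have ex : FreeMonoid.ofList (wA * z).toList = wA * z := rfl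
    have ey : FreeMonoid.ofList (wB * z).toList = wB * z := rfl
    rw [ex, ey, tr_mul, tr_mul, ← sub_mul]
    exact le_trans (contr_right (tr_prob h0.le h1.le z) _) he

theorem close_words {q : ℝ} (h0 : 0 < q) (h1 : q < 1) (a : ℝ) :
    ∀ᶠ n : ℕ in Filter.atTop, ∃ x y : Fin n → Bool, x ≠ y ∧
      nrm (tr q (FreeMonoid.ofList (List.ofFn x)) - tr q (FreeMonoid.ofList (List.ofFn y)))
        ≤ (n : ℝ) ^ (-a) := by
  obtain ⟨k, hk⟩ := exists_nat_gt (24 * (2 * (|a| + 1) + 1))
  set X : ℝ := 4 ^ k with hX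
  have hX1 : 1 ≤ X := one_le_pow₀ (by norm_num)
  set Y : ℝ := X * (3 / 4 + k / 24) with hY
  have hA := all_sys h0 h1 k 1 one_pos
  rw [← hX, ← hY] at hA
  have ha0 : 0 ≤ |a| := abs_nonneg a
  have hYa : (|a| + 1) * (X + 1) ≤ Y - 1 := by
    have h24 : 2 * (|a| + 1) + 1 < (k : ℝ) / 24 := by linarith
    have : X * (2 * (|a| + 1) + 1) ≤ X * (k / 24) := by nlinarith
    rw [hY]
    nlinarith
  have hY0 : 0 < Y - 1 := by nlinarith
  set b : ℝ := 1 / (X + 1) with hb
  have hb0 : 0 < b := by positivity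
  have hXb : b * (X + 1) = 1 := by rw [hb]; field_simp
  have t1 : Filter.Tendsto (fun n : ℕ => (n : ℝ) ^ b) Filter.atTop Filter.atTop :=
    (tendsto_rpow_atTop hb0).comp tendsto_natCast_atTop_atTop
  have t2 : Filter.Tendsto (fun n : ℕ => ⌊(n : ℝ) ^ b⌋₊) Filter.atTop Filter.atTop :=
    tendsto_nat_floor_atTop.comp t1
  have ev := t2.eventually (hA (Y - 1))
  have ev2 := t1.eventually_ge_atTop 2
  have ev3 : ∀ᶠ n : ℕ in Filter.atTop, (2 : ℝ) ^ Y ≤ n :=
    tendsto_natCast_atTop_atTop.eventually_ge_atTop _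
  filter_upwards [ev, ev2, ev3, Filter.eventually_ge_atTop 1] with n hn h2 h3 h4
  obtain ⟨wA, wB, w1, w2, _, w4, _, w6⟩ := hn
  have hn1 : (1 : ℝ) ≤ n := by exact_mod_cast h4
  have hn0 : (0 : ℝ) < n := by linarith
  set s : ℕ := ⌊(n : ℝ) ^ b⌋₊ with hs
  have hsle : (s : ℝ) ≤ (n : ℝ) ^ b := Nat.floor_le (by positivity)
  have hslt : (n : ℝ) ^ b < s + 1 := Nat.lt_floor_add_one _
  have hs2 : (n : ℝ) ^ b / 2 ≤ s := by linarith
  have hs0 : (0 : ℝ) < (n : ℝ) ^ b / 2 := by positivity
  have hlen : wA.length ≤ n := by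
    have e1 : (s : ℝ) ^ (X + 1) ≤ ((n : ℝ) ^ b) ^ (X + 1) :=
      Real.rpow_le_rpow (by positivity) hsle (by linarith)
    rw [← Real.rpow_mul hn0.le, hXb, Real.rpow_one] at e1
    exact_mod_cast le_trans w4 e1
  have hnr := dom_nrm (tr_prob h0.le h1.le wA) w6
  refine pad h0 h1 wA wB w1 w2 n hlen _ (le_trans hnr ?_)
  have p1 : (s : ℝ) ^ (-(Y - 1)) ≤ ((n : ℝ) ^ b / 2) ^ (-(Y - 1)) :=
    Real.rpow_le_rpow_of_nonpos hs0 hs2 (by linarith)
  have p2 : ((n : ℝ) ^ b / 2) ^ (-(Y - 1)) = 2 ^ (Y - 1) * (n : ℝ) ^ (-(b * (Y - 1))) := by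
    rw [Real.div_rpow (by positivity) (by norm_num), ← Real.rpow_mul hn0.le, mul_neg,
      Real.rpow_neg (by norm_num : (0 : ℝ) ≤ 2)]
    field_simp
  have p3 : |a| + 1 ≤ b * (Y - 1) := by
    have := mul_le_mul_of_nonneg_left hYa hb0.le
    calc |a| + 1 = (|a| + 1) * (b * (X + 1)) := by rw [hXb, mul_one]
      _ = b * ((|a| + 1) * (X + 1)) := by ring
      _ ≤ b * (Y - 1) := this
  have p4 : (n : ℝ) ^ (-(b * (Y - 1))) ≤ (n : ℝ) ^ (-(|a| + 1)) :=
    Real.rpow_le_rpow_of_exponent_le hn1 (by linarith)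
  have p5 : (n : ℝ) ^ (-(|a| + 1)) = (n : ℝ) ^ (-|a|) * (n : ℝ)⁻¹ := by
    rw [neg_add, Real.rpow_add hn0, Real.rpow_neg_one]
  have p6 : (n : ℝ) ^ (-|a|) ≤ (n : ℝ) ^ (-a) :=
    Real.rpow_le_rpow_of_exponent_le hn1 (by linarith [le_abs_self a])
  have p7 : (2 : ℝ) ^ (Y - 1) * 2 = 2 ^ Y := by
    rw [Real.rpow_sub (by norm_num), Real.rpow_one]; ring
  have hna : 0 < (n : ℝ) ^ (-|a|) := by positivity
  have hda : (s : ℝ) ^ (-(Y - 1)) ≤ 2 ^ (Y - 1) * ((n : ℝ) ^ (-|a|) * (n : ℝ)⁻¹) := by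
    refine le_trans p1 ?_
    rw [p2]
    refine mul_le_mul_of_nonneg_left ?_ (by positivity)
    rw [← p5]; exact p4
  have p8 : 2 ^ Y * ((n : ℝ) ^ (-|a|) * (n : ℝ)⁻¹) ≤ (n : ℝ) ^ (-|a|) := by
    have : (2 : ℝ) ^ Y * (n : ℝ)⁻¹ ≤ 1 := by
      rw [← div_eq_mul_inv, div_le_one hn0]; exact h3
    nlinarith
  have p9 : (s : ℝ) ^ (-(Y - 1)) + (s : ℝ) ^ (-(Y - 1)) ≤ 2 ^ Y * ((n : ℝ) ^ (-|a|) * (n : ℝ)⁻¹) := by
    rw [← p7]
    nlinarith
  linarith

theorem main {q : ℝ} (h0 : 0 < q) (h1 : q < 1) (a : ℝ) :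
    ∀ᶠ n : ℕ in Filter.atTop, ∀ m : ℕ, (m : ℝ) ≤ (n : ℝ) ^ a → ¬ Reconstructs q n m := by
  filter_upwards [close_words h0 h1 (a + 1), Filter.eventually_ge_atTop 4] with n hn h4 m hm hR
  obtain ⟨x, y, hxy, hc⟩ := hn
  have hn0 : (0 : ℝ) < n := by
    have : (4 : ℝ) ≤ n := by exact_mod_cast h4
    linarith
  have h4' : (4 : ℝ) ≤ n := by exact_mod_cast h4
  have k := reconstruct_tv h0 h1 x y hxy hR
  set N := nrm (tr q (FreeMonoid.ofList (List.ofFn x))
    - tr q (FreeMonoid.ofList (List.ofFn y))) with hN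
  have hNn : 0 ≤ N := nrm_nonneg _
  have e1 : (m : ℝ) * N ≤ (n : ℝ) ^ a * (n : ℝ) ^ (-(a + 1)) :=
    mul_le_mul hm hc hNn (by positivity)
  have e2 : (n : ℝ) ^ a * (n : ℝ) ^ (-(a + 1)) = (n : ℝ)⁻¹ := by
    rw [← Real.rpow_add hn0, show a + -(a + 1) = -1 by ring, Real.rpow_neg_one]
  rw [e2] at e1
  have e3 : (n : ℝ)⁻¹ ≤ 1 / 4 := by
    rw [inv_eq_one_div]
    exact one_div_le_one_div_of_le (by norm_num) h4'
  linarith

end Vale.Agent.P321
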