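import Mathlib

/-!
# P321, module O, part 3: the numerical bounds of the fine step
-/

namespace Vale.Agent.P321

namespace Fine

theorem num_main {C r t Λ sN sM S : ℝ} (hC : 4 ≤ C) (hr0 : 0 ≤ r) (hr : r ≤ C) (ht : 0 < t)
    (ht1 : t ≤ 1) (hΛ : 1 ≤ Λ) (hsN : 0 < sN) (hsM : 1 ≤ sM) (hS : S ≤ (r + 4) * sM) :
    2 * (C * (2 * (C * (C * (r * r * Λ * (2 * t) ^ 4 / sN)) +
        5 * (4 * (C * (2 * t) * Λ * S)) * (C * (2 * t) ^ 2) ^ 2) +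
        (2 * (C * (2 * t) ^ 2)) ^ 3)) ≤ C ^ 20 * (t ^ 4 * Λ / sN + t ^ 5 * Λ * sM) := by
  have hx0 : 0 ≤ t ^ 4 * Λ / sN := by positivity
  have hy0 : 0 ≤ t ^ 5 * Λ * sM := by positivity
  have C1 : 1 ≤ C := by linarith
  have C0 : 0 ≤ C := by linarith
  have p2 : 16 ≤ C ^ 2 := by
    calc (16 : ℝ) = 4 ^ 2 := by norm_num
      _ ≤ C ^ 2 := pow_le_pow_left₀ (by norm_num) hC 2
  have p3 : 64 ≤ C ^ 3 := by
    calc (64 : ℝ) = 4 ^ 3 := by norm_num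
      _ ≤ C ^ 3 := pow_le_pow_left₀ (by norm_num) hC 3
  have p4 : 256 ≤ C ^ 4 := by
    calc (256 : ℝ) = 4 ^ 4 := by norm_num
      _ ≤ C ^ 4 := pow_le_pow_left₀ (by norm_num) hC 4
  have p5 : 1024 ≤ C ^ 5 := by
    calc (1024 : ℝ) = 4 ^ 5 := by norm_num
      _ ≤ C ^ 5 := pow_le_pow_left₀ (by norm_num) hC 5
  have k1 : C * (C * (r * r * Λ * (2 * t) ^ 4 / sN)) ≤ C ^ 6 * (t ^ 4 * Λ / sN) := by
    have e : C * (C * (r * r * Λ * (2 * t) ^ 4 / sN)) =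
        C ^ 2 * (r ^ 2 * 16) * (t ^ 4 * Λ / sN) := by ring
    rw [e]
    have h1 : r ^ 2 ≤ C ^ 2 := pow_le_pow_left₀ hr0 hr 2
    have h2 : r ^ 2 * 16 ≤ C ^ 2 * C ^ 2 := mul_le_mul h1 p2 (by norm_num) (by positivity)
    calc C ^ 2 * (r ^ 2 * 16) * (t ^ 4 * Λ / sN)
        ≤ C ^ 2 * (C ^ 2 * C ^ 2) * (t ^ 4 * Λ / sN) :=
          mul_le_mul_of_nonneg_right (mul_le_mul_of_nonneg_left h2 (by positivity)) hx0
      _ = C ^ 6 * (t ^ 4 * Λ / sN) := by ring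
  have k2 : (4 * (C * (2 * t) * Λ * S)) * (C * (2 * t) ^ 2) ^ 2 ≤ C ^ 8 * (t ^ 5 * Λ * sM) := by
    have e : (4 * (C * (2 * t) * Λ * S)) * (C * (2 * t) ^ 2) ^ 2 =
        128 * C ^ 3 * t ^ 5 * Λ * S := by ring
    rw [e]
    have h1 : 128 * C ^ 3 * t ^ 5 * Λ * S ≤ 128 * C ^ 3 * t ^ 5 * Λ * ((r + 4) * sM) :=
      mul_le_mul_of_nonneg_left hS (by positivity)
    have h2 : r + 4 ≤ 2 * C := by linarith
    have h3 : (128 * C ^ 3 * (r + 4)) ≤ C ^ 8 := by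
      calc 128 * C ^ 3 * (r + 4) ≤ 128 * C ^ 3 * (2 * C) :=
            mul_le_mul_of_nonneg_left h2 (by positivity)
        _ = 256 * C ^ 4 := by ring
        _ ≤ C ^ 4 * C ^ 4 := mul_le_mul_of_nonneg_right p4 (by positivity)
        _ = C ^ 8 := by ring
    calc _ ≤ 128 * C ^ 3 * t ^ 5 * Λ * ((r + 4) * sM) := h1
      _ = (128 * C ^ 3 * (r + 4)) * (t ^ 5 * Λ * sM) := by ring
      _ ≤ C ^ 8 * (t ^ 5 * Λ * sM) := mul_le_mul_of_nonneg_right h3 hy0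
  have k3 : (2 * (C * (2 * t) ^ 2)) ^ 3 ≤ C ^ 8 * (t ^ 5 * Λ * sM) := by
    have e : (2 * (C * (2 * t) ^ 2)) ^ 3 = 512 * C ^ 3 * t ^ 6 := by ring
    rw [e]
    have h1 : t ^ 6 ≤ t ^ 5 * Λ * sM := by
      have a1 : 1 ≤ Λ * sM := one_le_mul_of_one_le_of_one_le hΛ hsM
      calc t ^ 6 = t ^ 5 * t := by ring
        _ ≤ t ^ 5 * 1 := mul_le_mul_of_nonneg_left ht1 (by positivity)
        _ ≤ t ^ 5 * (Λ * sM) := mul_le_mul_of_nonneg_left a1 (by positivity)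
        _ = _ := by ring
    have h2 : 512 * C ^ 3 ≤ C ^ 8 := by
      calc 512 * C ^ 3 ≤ C ^ 5 * C ^ 3 := mul_le_mul_of_nonneg_right (by linarith) (by positivity)
        _ = C ^ 8 := by ring
    exact mul_le_mul h2 h1 (by positivity) (by positivity)
  generalize t ^ 4 * Λ / sN = x at *
  generalize t ^ 5 * Λ * sM = y at *
  have f1 : 2 * (C * (2 * (C * (C * (r * r * Λ * (2 * t) ^ 4 / sN)) +
        5 * (4 * (C * (2 * t) * Λ * S)) * (C * (2 * t) ^ 2) ^ 2) +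
        (2 * (C * (2 * t) ^ 2)) ^ 3)) ≤
      2 * (C * (2 * (C ^ 6 * x + 5 * (C ^ 8 * y)) + C ^ 8 * y)) := by
    have : 2 * (C * (C * (r * r * Λ * (2 * t) ^ 4 / sN)) +
        5 * (4 * (C * (2 * t) * Λ * S)) * (C * (2 * t) ^ 2) ^ 2) +
        (2 * (C * (2 * t) ^ 2)) ^ 3 ≤ 2 * (C ^ 6 * x + 5 * (C ^ 8 * y)) + C ^ 8 * y := by
      linarith
    have h := mul_le_mul_of_nonneg_left this C0
    linarith
  refine f1.trans ?_
  have e : 2 * (C * (2 * (C ^ 6 * x + 5 * (C ^ 8 * y)) + C ^ 8 * y)) =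
      4 * C ^ 7 * x + 22 * C ^ 9 * y := by ring
  rw [e]
  have g1 : 4 * C ^ 7 ≤ C ^ 20 := by
    calc 4 * C ^ 7 ≤ C * C ^ 7 := mul_le_mul_of_nonneg_right hC (by positivity)
      _ = C ^ 8 := by ring
      _ ≤ C ^ 20 := pow_le_pow_right₀ C1 (by norm_num)
  have g2 : 22 * C ^ 9 ≤ C ^ 20 := by
    calc 22 * C ^ 9 ≤ C ^ 3 * C ^ 9 := mul_le_mul_of_nonneg_right (by linarith) (by positivity)
      _ = C ^ 12 := by ring
      _ ≤ C ^ 20 := pow_le_pow_right₀ C1 (by norm_num)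
  have g3 := mul_le_mul_of_nonneg_right g1 hx0
  have g4 := mul_le_mul_of_nonneg_right g2 hy0
  linarith

theorem num_err {C r ξ W q3 ex ex2 E0 E1 E2 g : ℝ} (hC : 4 ≤ C) (hr0 : 0 ≤ r) (hr : r ≤ C)
    (hξ : 0 ≤ ξ) (hW0 : 0 ≤ W) (hW : W ≤ C ^ 6 + 2) (hq0 : 0 ≤ q3) (hq : q3 ≤ 1)
    (hex2 : 0 ≤ ex2) (hex : ex2 ≤ ex) (hE0 : 0 ≤ E0) (hE1 : 0 ≤ E1) (hE2 : 0 ≤ E2) (hg : 0 ≤ g) :
    2 * E2 + C * (2 * (g * (r * (2 * ξ)) * C) + r * C * (r * (2 * ξ) + (r * (2 * ξ) + E1)))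
      + (C * (C * (C * (2 * r * r * ex2 + E0)) + 120 * (8 * ex) + W * (2 * (8 * ex)))
        + 2 * (C * (2 * W + q3)) * (2 * (g * (r * (2 * ξ))) + r * (r * (2 * ξ) + E1)))
    ≤ C ^ 20 * ((g + 1) * ξ + ex + E0 + E1 + E2) := by
  have C1 : 1 ≤ C := by linarith
  have C0 : 0 ≤ C := by linarith
  have hex0 : 0 ≤ ex := hex2.trans hex
  have p2 : 16 ≤ C ^ 2 := by
    calc (16 : ℝ) = 4 ^ 2 := by norm_num
      _ ≤ C ^ 2 := pow_le_pow_left₀ (by norm_num) hC 2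
  have p5 : 1024 ≤ C ^ 5 := by
    calc (1024 : ℝ) = 4 ^ 5 := by norm_num
      _ ≤ C ^ 5 := pow_le_pow_left₀ (by norm_num) hC 5
  have p6 : 4096 ≤ C ^ 6 := by
    calc (4096 : ℝ) = 4 ^ 6 := by norm_num
      _ ≤ C ^ 6 := pow_le_pow_left₀ (by norm_num) hC 6
  have p7 : 4 * C ^ 6 ≤ C ^ 7 := by
    calc 4 * C ^ 6 ≤ C * C ^ 6 := mul_le_mul_of_nonneg_right hC (by positivity)
      _ = C ^ 7 := by ring
  have hW7 : 2 * W + q3 ≤ C ^ 7 := by linarith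
  have hW7' : W ≤ C ^ 7 := by linarith
  have hgξ : 0 ≤ g * ξ := by positivity
  have r2 : r ^ 2 ≤ C ^ 2 := pow_le_pow_left₀ hr0 hr 2
  -- second part
  have a2 : C * (2 * (g * (r * (2 * ξ)) * C) + r * C * (r * (2 * ξ) + (r * (2 * ξ) + E1))) ≤
      4 * C ^ 4 * (g * ξ) + 4 * C ^ 4 * ξ + C ^ 4 * E1 := by
    have e : C * (2 * (g * (r * (2 * ξ)) * C) + r * C * (r * (2 * ξ) + (r * (2 * ξ) + E1))) =
        4 * (C ^ 2 * r) * (g * ξ) + 4 * (C ^ 2 * r ^ 2) * ξ + (C ^ 2 * r) * E1 := by ring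
    rw [e]
    have h1 : C ^ 2 * r ≤ C ^ 4 := by
      calc C ^ 2 * r ≤ C ^ 2 * C := mul_le_mul_of_nonneg_left hr (by positivity)
        _ = C ^ 3 := by ring
        _ ≤ C ^ 4 := pow_le_pow_right₀ C1 (by norm_num)
    have h2 : C ^ 2 * r ^ 2 ≤ C ^ 4 := by
      calc C ^ 2 * r ^ 2 ≤ C ^ 2 * C ^ 2 := mul_le_mul_of_nonneg_left r2 (by positivity)
        _ = C ^ 4 := by ring
    have b1 := mul_le_mul_of_nonneg_right h1 hgξ
    have b2 := mul_le_mul_of_nonneg_right h2 hξ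
    have b3 := mul_le_mul_of_nonneg_right h1 hE1
    linarith
  -- third part
  have a3 : C * (C * (C * (2 * r * r * ex2 + E0)) + 120 * (8 * ex) + W * (2 * (8 * ex))) ≤
      C ^ 11 * ex + C ^ 3 * E0 := by
    have h1 : r * r * ex2 ≤ C ^ 2 * ex := by
      calc r * r * ex2 = r ^ 2 * ex2 := by ring
        _ ≤ C ^ 2 * ex := mul_le_mul r2 hex hex2 (by positivity)
    have h2 : C * (C * (C * (2 * r * r * ex2 + E0)) + 120 * (8 * ex) + W * (2 * (8 * ex))) =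
        C ^ 3 * (2 * (r * r * ex2) + E0) + 960 * C * ex + 16 * C * (W * ex) := by ring
    rw [h2]
    have h3 : C ^ 3 * (2 * (r * r * ex2) + E0) ≤ C ^ 3 * (2 * (C ^ 2 * ex) + E0) :=
      mul_le_mul_of_nonneg_left (by linarith) (by positivity)
    have h4 : 16 * C * (W * ex) ≤ 16 * C * (C ^ 7 * ex) :=
      mul_le_mul_of_nonneg_left (mul_le_mul_of_nonneg_right hW7' hex0) (by positivity)
    have h5 : 2 * C ^ 5 + 960 * C + 16 * C ^ 8 ≤ C ^ 11 := by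
      have c1 : 2 * C ^ 5 ≤ C ^ 10 := by
        calc 2 * C ^ 5 ≤ C ^ 5 * C ^ 5 := mul_le_mul_of_nonneg_right (by linarith) (by positivity)
          _ = C ^ 10 := by ring
      have c2 : 960 * C ≤ C ^ 10 := by
        calc 960 * C ≤ C ^ 5 * C := mul_le_mul_of_nonneg_right (by linarith) C0
          _ = C ^ 6 := by ring
          _ ≤ C ^ 10 := pow_le_pow_right₀ C1 (by norm_num)
      have c3 : 16 * C ^ 8 ≤ C ^ 10 := by
        calc 16 * C ^ 8 ≤ C ^ 2 * C ^ 8 := mul_le_mul_of_nonneg_right p2 (by positivity)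
          _ = C ^ 10 := by ring
      have c4 : 4 * C ^ 10 ≤ C ^ 11 := by
        calc 4 * C ^ 10 ≤ C * C ^ 10 := mul_le_mul_of_nonneg_right hC (by positivity)
          _ = C ^ 11 := by ring
      have c5 : 0 ≤ C ^ 10 := by positivity
      linarith
    have h6 := mul_le_mul_of_nonneg_right h5 hex0
    linarith
  -- fourth part
  have a4 : 2 * (C * (2 * W + q3)) * (2 * (g * (r * (2 * ξ))) + r * (r * (2 * ξ) + E1)) ≤
      8 * C ^ 10 * (g * ξ) + 8 * C ^ 10 * ξ + 2 * C ^ 9 * E1 := by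
    have h1 : 2 * (g * (r * (2 * ξ))) + r * (r * (2 * ξ) + E1) ≤
        4 * C ^ 2 * (g * ξ) + 4 * C ^ 2 * ξ + C * E1 := by
      have e : 2 * (g * (r * (2 * ξ))) + r * (r * (2 * ξ) + E1) =
          4 * r * (g * ξ) + 2 * r ^ 2 * ξ + r * E1 := by ring
      rw [e]
      have h2 : r ≤ C ^ 2 := by
        calc r ≤ C := hr
          _ = C ^ 1 := (pow_one C).symm
          _ ≤ C ^ 2 := pow_le_pow_right₀ C1 (by norm_num)
      have b1 := mul_le_mul_of_nonneg_right h2 hgξ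
      have b2 := mul_le_mul_of_nonneg_right r2 hξ
      have b3 := mul_le_mul_of_nonneg_right hr hE1
      have b4 : 0 ≤ C ^ 2 * ξ := by positivity
      linarith
    have h3 : 2 * (C * (2 * W + q3)) ≤ 2 * C ^ 8 := by
      have := mul_le_mul_of_nonneg_left hW7 C0
      have e : C * C ^ 7 = C ^ 8 := by ring
      linarith
    have h4 : 0 ≤ 2 * (g * (r * (2 * ξ))) + r * (r * (2 * ξ) + E1) := by positivity
    calc _ ≤ 2 * C ^ 8 * (4 * C ^ 2 * (g * ξ) + 4 * C ^ 2 * ξ + C * E1) :=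
          mul_le_mul h3 h1 h4 (by positivity)
      _ = _ := by ring
  -- assembly
  have z1 : 4 * C ^ 4 + 8 * C ^ 10 ≤ C ^ 20 := by
    have c1 : 4 * C ^ 4 ≤ C ^ 10 := by
      calc 4 * C ^ 4 ≤ C ^ 2 * C ^ 4 := mul_le_mul_of_nonneg_right (by linarith) (by positivity)
        _ = C ^ 6 := by ring
        _ ≤ C ^ 10 := pow_le_pow_right₀ C1 (by norm_num)
    have c2 : 16 * C ^ 10 ≤ C ^ 12 := by
      calc 16 * C ^ 10 ≤ C ^ 2 * C ^ 10 := mul_le_mul_of_nonneg_right p2 (by positivity)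
        _ = C ^ 12 := by ring
    have c3 : C ^ 12 ≤ C ^ 20 := pow_le_pow_right₀ C1 (by norm_num)
    have c5 : 0 ≤ C ^ 10 := by positivity
    linarith
  have z2 : C ^ 11 ≤ C ^ 20 := pow_le_pow_right₀ C1 (by norm_num)
  have z3 : C ^ 3 ≤ C ^ 20 := pow_le_pow_right₀ C1 (by norm_num)
  have z4 : C ^ 4 + 2 * C ^ 9 ≤ C ^ 20 := by
    have c1 : C ^ 4 ≤ C ^ 9 := pow_le_pow_right₀ C1 (by norm_num)
    have c2 : 16 * C ^ 9 ≤ C ^ 11 := by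
      calc 16 * C ^ 9 ≤ C ^ 2 * C ^ 9 := mul_le_mul_of_nonneg_right p2 (by positivity)
        _ = C ^ 11 := by ring
    have c5 : 0 ≤ C ^ 9 := by positivity
    linarith
  have z5 : 2 ≤ C ^ 20 := by
    calc (2 : ℝ) ≤ C ^ 2 := by linarith
      _ ≤ C ^ 20 := pow_le_pow_right₀ C1 (by norm_num)
  have w1 := mul_le_mul_of_nonneg_right z1 hgξ
  have w2 := mul_le_mul_of_nonneg_right z1 hξ
  have w3 := mul_le_mul_of_nonneg_right z2 hex0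
  have w4 := mul_le_mul_of_nonneg_right z3 hE0
  have w5 := mul_le_mul_of_nonneg_right z4 hE1
  have w6 := mul_le_mul_of_nonneg_right z5 hE2
  have fin : C ^ 20 * ((g + 1) * ξ + ex + E0 + E1 + E2) = C ^ 20 * (g * ξ) + C ^ 20 * ξ +
      C ^ 20 * ex + C ^ 20 * E0 + C ^ 20 * E1 + C ^ 20 * E2 := by ring
  rw [fin]
  linarith

theorem num_W {C r t Λ sN S : ℝ} (hC : 4 ≤ C) (hr0 : 0 ≤ r) (hr : r ≤ C) (ht : 0 < t)
    (ht1 : t ≤ 1) (hΛ : 1 ≤ Λ) (hsN : 1 ≤ sN) (htΛ : t * Λ ≤ 1) (hS : 0 ≤ S)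
    (hη : C * (2 * t) * Λ * S ≤ 1 / 8) (hq : 2 * (C * (2 * t) ^ 2) ≤ 1) :
    C * (C * (r * r * Λ * (2 * t) ^ 4 / sN)) +
      5 * (4 * (C * (2 * t) * Λ * S)) * (C * (2 * t) ^ 2) ^ 2 ≤ C ^ 6 + 2 := by
  have w1 : C * (C * (r * r * Λ * (2 * t) ^ 4 / sN)) ≤ C ^ 6 := by
    have x1 : t ^ 4 * Λ / sN ≤ 1 := by
      rw [div_le_one (by linarith)]
      have : t ^ 4 * Λ ≤ 1 := by
        have t3 : t ^ 3 ≤ 1 := pow_le_one₀ ht.le ht1
        calc t ^ 4 * Λ = t ^ 3 * (t * Λ) := by ring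
          _ ≤ 1 * 1 := mul_le_mul t3 htΛ (by positivity) (by norm_num)
          _ = 1 := one_mul 1
      linarith
    have x0 : 0 ≤ t ^ 4 * Λ / sN := by positivity
    have e : C * (C * (r * r * Λ * (2 * t) ^ 4 / sN)) =
        C ^ 2 * (r ^ 2 * 16) * (t ^ 4 * Λ / sN) := by ring
    rw [e]
    have r2 : r ^ 2 ≤ C ^ 2 := pow_le_pow_left₀ hr0 hr 2
    have c2 : (16 : ℝ) ≤ C ^ 2 := by
      calc (16 : ℝ) = 4 ^ 2 := by norm_num
        _ ≤ _ := pow_le_pow_left₀ (by norm_num) hC 2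
    calc C ^ 2 * (r ^ 2 * 16) * (t ^ 4 * Λ / sN)
        ≤ C ^ 2 * (C ^ 2 * C ^ 2) * 1 := by
          refine mul_le_mul (mul_le_mul_of_nonneg_left ?_ (by positivity)) x1 x0 (by positivity)
          exact mul_le_mul r2 c2 (by norm_num) (by positivity)
      _ = _ := by ring
  have w2 : 5 * (4 * (C * (2 * t) * Λ * S)) * (C * (2 * t) ^ 2) ^ 2 ≤ 2 := by
    have y3 : (C * (2 * t) ^ 2) ^ 2 ≤ 1 / 4 := by
      have := pow_le_pow_left₀ (by positivity) (by linarith : C * (2 * t) ^ 2 ≤ 1 / 2) 2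
      linarith
    calc _ ≤ 5 * (1 / 2) * (1 / 4 : ℝ) := by
          refine mul_le_mul (by linarith) y3 (by positivity) (by norm_num)
      _ ≤ 2 := by norm_num
  linarith

theorem num_pre {C t Λ S : ℝ} (h4 : 4 ≤ C) (ht : 0 < t) (hΛ : 1 ≤ Λ) (hS1 : 1 ≤ S)
    (h5 : C * (2 * t) * Λ * S ≤ 1 / 8) (h6 : 32 * C ^ 2 * t ^ 2 ≤ 1) :
    2 * t ≤ 1 ∧ 2 * (C * (2 * t) ^ 2) ≤ 1 ∧ C * (2 * (C * (2 * t) ^ 2)) ≤ 1 / 2 ∧
      t * Λ ≤ 1 := by
  have C1 : 1 ≤ C := by linarith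
  have C2 : 1 ≤ C ^ 2 := one_le_pow₀ C1
  have h7 : t ^ 2 * 1 ≤ t ^ 2 * C ^ 2 := mul_le_mul_of_nonneg_left C2 (by positivity)
  have h8 : t ^ 2 * C ≤ t ^ 2 * C ^ 2 := by
    refine mul_le_mul_of_nonneg_left ?_ (by positivity)
    nlinarith
  refine ⟨?_, ?_, ?_, ?_⟩
  · by_contra hcon
    push Not at hcon
    nlinarith
  · nlinarith
  · nlinarith
  · have h9 : t * Λ * 1 ≤ t * Λ * S := mul_le_mul_of_nonneg_left hS1 (by positivity)
    have h10 : 1 * (t * Λ * S) ≤ (2 * C) * (t * Λ * S) :=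
      mul_le_mul_of_nonneg_right (by linarith) (by positivity)
    nlinarith

theorem num_sqrt {r m : ℝ} (hr : 2 ≤ r) (hm : 1 ≤ m) : √(2 * m + r + 2) ≤ (r + 4) * √m := by
  rw [Real.sqrt_le_iff]
  refine ⟨by positivity, ?_⟩
  rw [mul_pow, Real.sq_sqrt (by linarith)]
  have h1 : 16 + 8 * r ≤ (r + 4) ^ 2 := by nlinarith
  have h2 : (16 + 8 * r) * m ≤ (r + 4) ^ 2 * m := mul_le_mul_of_nonneg_right h1 (by linarith)
  have h3 : r * 1 ≤ r * m := mul_le_mul_of_nonneg_left hm (by positivity)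
  linarith

end Fine

end Vale.Agent.P321
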