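import Vale.Agent.P321.FineAux
import Vale.Agent.P321.Expand

/-!
# P321, module O, part 2: pairs of windows
-/

namespace Vale.Agent.P321

open Finset

namespace Fine

/-- coefficient form of the expansion of the Thue-Morse words -/
theorem expand2 (J : ℕ) : ∃ c : Finset ℕ → ℝ, (∀ I, |c I| ≤ 1) ∧
    (∀ I, c I ≠ 0 → I ⊆ range (2 ^ J) ∧ 2 ≤ I.card) ∧
    ∀ A d : Alg, (tm A (A + d) J).2 - (tm A (A + d) J).1 =
      comm A d J + ∑ I ∈ (range (2 ^ J)).powerset, c I • mon A d (2 ^ J) I := by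
  classical
  obtain ⟨SA, SB, hSA, hSB, h⟩ := tm_expand J
  refine ⟨fun I => (if I ⊆ SB ∧ 2 ≤ I.card then (1 : ℝ) else 0) -
    (if I ⊆ SA ∧ 2 ≤ I.card then (1 : ℝ) else 0), ?_, ?_, ?_⟩
  · intro I
    simp only
    split_ifs <;> norm_num
  · intro I hI
    simp only at hI
    by_cases h1 : I ⊆ SB ∧ 2 ≤ I.card
    · exact ⟨h1.1.trans hSB, h1.2⟩
    · by_cases h2 : I ⊆ SA ∧ 2 ≤ I.card
      · exact ⟨h2.1.trans hSA, h2.2⟩
      · rw [if_neg h1, if_neg h2] at hI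
        exact absurd (sub_self _) hI
  · intro A d
    obtain ⟨h1, h2, h3⟩ := h A d
    have key : ∀ S : Finset ℕ, S ⊆ range (2 ^ J) →
        ∑ I ∈ S.powerset, mon A d (2 ^ J) I = mon A d (2 ^ J) ∅ +
          ∑ i ∈ S, mon A d (2 ^ J) {i} + ∑ I ∈ (range (2 ^ J)).powerset,
            (if I ⊆ S ∧ 2 ≤ I.card then (1 : ℝ) else 0) • mon A d (2 ^ J) I := by
      intro S hS
      rw [powerset_split]
      congr 1
      have e : S.powerset.filter (fun I => 2 ≤ I.card) =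
          (range (2 ^ J)).powerset.filter (fun I => I ⊆ S ∧ 2 ≤ I.card) := by
        ext I
        simp only [Finset.mem_filter, Finset.mem_powerset]
        constructor
        · rintro ⟨a, b⟩; exact ⟨a.trans hS, a, b⟩
        · rintro ⟨_, a, b⟩; exact ⟨a, b⟩
      rw [e, Finset.sum_filter]
      refine Finset.sum_congr rfl fun I _ => ?_
      split_ifs
      · rw [one_smul]
      · rw [zero_smul]
    rw [h1, h2, key SA hSA, key SB hSB, ← h3]
    simp only [sub_smul, Finset.sum_sub_distrib]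
    abel

theorem dom_pow_self {a P : Alg} (hP : Prob P) {η e : ℝ} (hη : η ≤ 1 / 2) (m : ℕ)
    (hm : Dom η e (P ^ m) (a ^ m - P ^ m)) : Dom (3 / 2) e (P ^ m) (a ^ m) := by
  have h1 := dom_add (dom_of_bd (self_bd (prob_pow hP m).1)) hm
  rw [add_sub_cancel] at h1
  exact dom_mono (prob_pow hP m).1 h1 (by linarith) (by linarith)

theorem pair_diff {a P δ : Alg} (hP : Prob P) {η e q : ℝ} (m h : ℕ)
    (hη0 : 0 ≤ η) (hη : η ≤ 1 / 2) (he0 : 0 ≤ e) (he : e ≤ 8) (hq0 : 0 ≤ q) (hq : q ≤ 1)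
    (hm : Dom η e (P ^ m) (a ^ m - P ^ m)) (hh : Dom η e (P ^ h) (a ^ h - P ^ h))
    (hδ : Bd q P δ) :
    Dom (5 * η * q ^ 2) (120 * e) (P ^ m * P * P ^ h * P * P ^ m)
      (a ^ m * δ * a ^ h * δ * a ^ m - P ^ m * δ * P ^ h * δ * P ^ m) := by
  have pm := prob_pow hP m
  have ph := prob_pow hP h
  have p2 := prob_mul pm hP
  have p3 := prob_mul p2 ph
  have p4 := prob_mul p3 hP
  have p5 := prob_mul p4 pm
  have am := dom_pow_self hP hη m hm
  have ah := dom_pow_self hP hη h hh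
  have dδ := dom_of_bd hδ
  have hq2 : q ^ 2 ≤ 1 := pow_le_one₀ hq0 hq
  have hηq : η * q ≤ 1 / 2 := by nlinarith
  have hηq0 : 0 ≤ η * q := by positivity
  have hqe : q * e ≤ e := by nlinarith
  have hee : e * e ≤ 8 * e := by nlinarith
  have hηqe : η * q * e ≤ 1 / 2 * e := by nlinarith
  have hηq2e : η * q ^ 2 * e ≤ 1 / 2 * e := by
    have : η * q ^ 2 ≤ 1 / 2 := by nlinarith [sq_nonneg q]
    nlinarith
  -- first term
  have x1 := dom_mono p2.1 (dom_mul pm hP hη0 hq0 hm dδ) (le_refl (η * q))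
    (by linarith : η * 0 + q * e + e * 0 ≤ e)
  have x2 := dom_mono p3.1 (dom_mul p2 ph hηq0 (by norm_num) x1 ah)
    (le_refl (η * q * (3 / 2))) (by linarith : η * q * e + 3 / 2 * e + e * e ≤ 10 * e)
  have x3 := dom_mono p4.1 (dom_mul p3 hP (by positivity) hq0 x2 dδ)
    (by ring_nf; exact le_refl _ : η * q * (3 / 2) * q ≤ 3 / 2 * (η * q ^ 2))
    (by nlinarith : η * q * (3 / 2) * 0 + q * (10 * e) + 10 * e * 0 ≤ 10 * e)
  have x4 := dom_mono p5.1 (dom_mul p4 pm (by positivity) (by norm_num) x3 am)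
    (by ring_nf; exact le_refl _ : 3 / 2 * (η * q ^ 2) * (3 / 2) ≤ 9 / 4 * (η * q ^ 2))
    (by nlinarith : 3 / 2 * (η * q ^ 2) * e + 3 / 2 * (10 * e) + 10 * e * e ≤ 100 * e)
  -- second term
  have y1 := dom_left pm dδ
  have y2 := dom_mono p3.1 (dom_mul p2 ph hq0 hη0 y1 hh)
    (le_refl (q * η)) (by linarith : q * e + η * 0 + 0 * e ≤ e)
  have y3 := dom_mono p4.1 (dom_mul p3 hP (by positivity) hq0 y2 dδ)
    (by ring_nf; exact le_refl _ : q * η * q ≤ η * q ^ 2)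
    (by linarith : q * η * 0 + q * e + e * 0 ≤ e)
  have y4 := dom_mono p5.1 (dom_mul p4 pm (by positivity) (by norm_num) y3 am)
    (by ring_nf; exact le_refl _ : η * q ^ 2 * (3 / 2) ≤ 3 / 2 * (η * q ^ 2))
    (by linarith : η * q ^ 2 * e + 3 / 2 * e + e * e ≤ 10 * e)
  -- third term
  have z2 := dom_right ph y1
  have z3 := dom_mono p4.1 (dom_mul p3 hP hq0 hq0 z2 dδ)
    (by ring_nf; exact le_refl _ : q * q ≤ q ^ 2)
    (by linarith : q * 0 + q * 0 + 0 * 0 ≤ (0 : ℝ))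
  have z4 := dom_mono p5.1 (dom_mul p4 pm (by positivity) hη0 z3 hm)
    (by ring_nf; exact le_refl _ : q ^ 2 * η ≤ η * q ^ 2)
    (by nlinarith : q ^ 2 * e + η * 0 + 0 * e ≤ e)
  have hs := dom_add (dom_add x4 y4) z4
  have e1 : a ^ m * δ * a ^ h * δ * a ^ m - P ^ m * δ * P ^ h * δ * P ^ m =
      (a ^ m - P ^ m) * δ * a ^ h * δ * a ^ m + P ^ m * δ * (a ^ h - P ^ h) * δ * a ^ m +
        P ^ m * δ * P ^ h * δ * (a ^ m - P ^ m) := by
    simp only [sub_mul, mul_sub]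
    abel
  rw [e1]
  have hηq2 : 0 ≤ η * q ^ 2 := by positivity
  exact dom_mono p5.1 hs (by linarith) (by linarith)

theorem pair_dom {a P δ : Alg} (ha : Prob a) (hP : Prob P) {η e q κ ζ : ℝ} (m h : ℕ)
    (hη0 : 0 ≤ η) (hη : η ≤ 1 / 2) (he0 : 0 ≤ e) (he : e ≤ 8) (hq0 : 0 ≤ q) (hq : q ≤ 1)
    (hκ : 0 ≤ κ) (hm : Dom η e (P ^ m) (a ^ m - P ^ m)) (hh : Dom η e (P ^ h) (a ^ h - P ^ h))
    (hk : Dom η e (P ^ (2 * m + h + 2)) (a ^ (2 * m + h + 2) - P ^ (2 * m + h + 2)))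
    (hδ : Bd q P δ)
    (hT0 : Dom κ ζ (P ^ (2 * m + h + 2)) (P ^ m * δ * P ^ h * δ * P ^ m)) :
    Dom (2 * (κ + 5 * η * q ^ 2)) (ζ + 120 * e + (κ + 5 * η * q ^ 2) * (2 * e))
      (a ^ (2 * m + h + 2)) (a ^ m * δ * a ^ h * δ * a ^ m) := by
  have h1 := pair_diff hP m h hη0 hη he0 he hq0 hq hm hh hδ
  have e1 : P ^ m * P * P ^ h * P * P ^ m = P ^ (2 * m + h + 2) := by
    rw [← pow_succ, ← pow_add, ← pow_succ, ← pow_add]
    congr 1
    omega
  rw [e1] at h1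
  have h2 := dom_add hT0 h1
  rw [add_sub_cancel] at h2
  have hflip := dom_flip (prob_pow ha (2 * m + h + 2)).1 (prob_pow hP (2 * m + h + 2)).1
    (dom_mono (prob_pow hP _).1 hk hη (le_refl e))
  have h3 := dom_trans (by positivity : 0 ≤ κ + 5 * η * q ^ 2) hflip h2
  exact dom_mono (prob_pow ha _).1 h3 (by linarith) (by linarith)

/-- every term with at least two windows -/
theorem K_dom {a P δ : Alg} (ha : Prob a) (hP : Prob P) {η e q κ ζ : ℝ} (r g m : ℕ)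
    (hη0 : 0 ≤ η) (hη : η ≤ 1 / 2) (he0 : 0 ≤ e) (he : e ≤ 8) (hq0 : 0 ≤ q) (hq : 2 * q ≤ 1)
    (hκ : 0 ≤ κ) (hζ : 0 ≤ ζ) (hmg : m ≤ g)
    (hp : ∀ k, k ≤ 2 * m + r + 2 → Dom η e (P ^ k) (a ^ k - P ^ k))
    (hδ : Bd q P δ) (hδa : Bd (2 * q) a δ)
    (hT0 : ∀ h, h ≤ r → Dom κ ζ (P ^ (2 * m + h + 2)) (P ^ m * δ * P ^ h * δ * P ^ m))
    (K : Finset ℕ) (hK : K ⊆ range r) (hK2 : 2 ≤ K.card) :
    Dom (2 * (κ + 5 * η * q ^ 2) + (2 * q) ^ 3)
      (ζ + 120 * e + (κ + 5 * η * q ^ 2) * (2 * e)) (a ^ (2 * g + r))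
      (a ^ g * mon a δ r K * a ^ g) := by
  classical
  have hηq2 : 0 ≤ 5 * η * q ^ 2 := by positivity
  have hz : 0 ≤ ζ + 120 * e + (κ + 5 * η * q ^ 2) * (2 * e) := by positivity
  have pref : a ^ g * a ^ r * a ^ g = a ^ (2 * g + r) := by
    rw [← pow_add, ← pow_add]; congr 1; omega
  rcases Nat.lt_or_ge 2 K.card with h3 | h3
  · -- at least three windows
    have h1 := mon_bd ha hδa (by positivity) r K hK
    have h2 : (2 * q) ^ K.card ≤ (2 * q) ^ 3 :=
      pow_le_pow_of_le_one (by positivity) hq h3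
    have h4 := bd_mono (prob_pow ha r).1 h1 h2
    have h5 := bd_right (prob_pow ha g).1 (nonneg_mul (prob_pow ha g).1 (prob_pow ha r).1)
      (by positivity) (bd_left (prob_pow ha g).1 (prob_pow ha r).1 (by positivity) h4)
    rw [pref] at h5
    exact dom_mono (prob_pow ha _).1 (dom_of_bd h5) (by linarith) hz
  · -- exactly two windows
    have hc : K.card = 2 := le_antisymm h3 hK2
    obtain ⟨x, y, hxy, hKxy⟩ := Finset.card_eq_two.1 hc
    have hex : ∃ i j, i < j ∧ j < r ∧ K = {i, j} := by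
      have hx : x < r := Finset.mem_range.1 (hK (by rw [hKxy]; simp))
      have hy : y < r := Finset.mem_range.1 (hK (by rw [hKxy]; simp))
      rcases Nat.lt_or_gt_of_ne hxy with h | h
      · exact ⟨x, y, h, hy, hKxy⟩
      · exact ⟨y, x, h, hx, by rw [hKxy, Finset.pair_comm]⟩
    obtain ⟨i, j, hij, hjr, hKe⟩ := hex
    have hmon : mon a δ r K = a ^ i * δ * a ^ (j - 1 - i) * δ * a ^ (r - 1 - j) := by
      refine mon_pair a δ r K i j hij hjr (by rw [hKe]; simp) (by rw [hKe]; simp) ?_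
      intro k _ h1 h2 h3
      rw [hKe] at h3
      simp only [Finset.mem_insert, Finset.mem_singleton] at h3
      omega
    rw [hmon]
    set h := j - 1 - i with hh
    have hpair := pair_dom ha hP m h hη0 hη he0 he hq0 (by linarith) hκ
      (hp m (by omega)) (hp h (by omega)) (hp _ (by omega)) hδ (hT0 h (by omega))
    have hl := dom_left (prob_pow ha (g + i - m)) (dom_right (prob_pow ha (r - 1 - j + g - m))
      hpair)
    have e1 : a ^ (g + i - m) * (a ^ (2 * m + h + 2) * a ^ (r - 1 - j + g - m)) =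
        a ^ (2 * g + r) := by
      rw [← pow_add, ← pow_add]; congr 1; omega
    have e2 : a ^ (g + i - m) * (a ^ m * δ * a ^ h * δ * a ^ m * a ^ (r - 1 - j + g - m)) =
        a ^ g * (a ^ i * δ * a ^ h * δ * a ^ (r - 1 - j)) * a ^ g := by
      have f1 : a ^ (g + i - m) * a ^ m = a ^ g * a ^ i := by
        rw [← pow_add, ← pow_add]; congr 1; omega
      have f2 : a ^ m * a ^ (r - 1 - j + g - m) = a ^ (r - 1 - j) * a ^ g := by
        rw [← pow_add, ← pow_add]; congr 1; omega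
      calc a ^ (g + i - m) * (a ^ m * δ * a ^ h * δ * a ^ m * a ^ (r - 1 - j + g - m))
          = (a ^ (g + i - m) * a ^ m) * (δ * a ^ h * δ) * (a ^ m * a ^ (r - 1 - j + g - m)) := by
            simp only [mul_assoc]
        _ = (a ^ g * a ^ i) * (δ * a ^ h * δ) * (a ^ (r - 1 - j) * a ^ g) := by rw [f1, f2]
        _ = _ := by simp only [mul_assoc]
    rw [e1, e2] at hl
    refine dom_mono (prob_pow ha _).1 hl ?_ (le_refl _)
    have : 0 ≤ (2 * q) ^ 3 := by positivity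
    linarith

/-- summing with bounded coefficients -/
theorem dom_csum {E : Alg} (hE : Nonneg E) (U : Finset (Finset ℕ)) (c : Finset ℕ → ℝ)
    (F : Finset ℕ → Alg) {κ ζ : ℝ} (hκ : 0 ≤ κ) (hζ : 0 ≤ ζ) (hc : ∀ I, |c I| ≤ 1)
    (h : ∀ I ∈ U, c I ≠ 0 → Dom κ ζ E (F I)) :
    Dom (U.card * κ) (U.card * ζ) E (∑ I ∈ U, c I • F I) := by
  have h1 : ∀ I ∈ U, Dom κ ζ E (c I • F I) := by
    intro I hI
    by_cases h0 : c I = 0
    · rw [h0, zero_smul]
      exact dom_mono hE (dom_zero E) hκ hζ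
    · exact dom_mono hE (dom_smul (c I) (h I hI h0))
        (mul_le_of_le_one_left hκ (hc I)) (mul_le_of_le_one_left hζ (hc I))
  have h2 := dom_sum U h1
  simpa [Finset.sum_const, nsmul_eq_mul] using h2

end Fine

end Vale.Agent.P321
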