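import Vale.Agent.P321.Expand
import Vale.Agent.P321.Smooth
import Vale.Agent.P321.Hoeff
import Vale.Agent.P321.Dom
import Vale.Agent.P321.FineAux

namespace Vale.Agent.P321

open Finset

theorem quad {A d : Alg} {σ t : ℝ} (hA : Prob A) (hs : Smooth σ A) (hd : Bd t A d)
    (hm : mass d = 0) (ht : 0 ≤ t) (ht1 : t ≤ 1) (r N G0 J M H : ℕ) (hr : 1 ≤ r) (hN : 1 ≤ N)
    (hG0 : 1 ≤ G0) (hNH : N * J ≤ H) (hM : J * (N + G0) ≤ M) (I I' : Finset ℕ)
    (hI : I ⊆ range r) (hI' : I' ⊆ range r) (hc : 2 ≤ I.card) (hc' : 2 ≤ I'.card)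
    (Λ : ℝ) (hΛ : 0 < Λ) :
    Dom (r * 2 ^ J * Λ * t ^ 4 / √(N : ℝ))
      (2 * r * 2 ^ J * Real.exp (-Λ ^ 2 / 2) + (2 * N * √(σ / G0)) ^ J)
      (A ^ (M + r + H + r + M)) (A ^ M * mon A d r I * A ^ H * mon A d r I' * A ^ M) := by
  have hN0 : (0 : ℝ) < N := by exact_mod_cast hN
  have hr0 : (0 : ℝ) < r := by exact_mod_cast hr
  have hr1 : (1 : ℝ) ≤ r := by exact_mod_cast hr
  have hNM : N * J ≤ M := by
    have : J * (N + G0) = N * J + J * G0 := by ring
    omega
  have hJG : J * G0 ≤ M := by
    have : J * (N + G0) = N * J + J * G0 := by ring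
    omega
  obtain ⟨w, wsup, wl1, wl2, _, wid⟩ := kernel hA hs N G0 J hN hG0
  set X : Alg := mon A d r I * A ^ H * mon A d r I' with hX
  have hnX : nrm X ≤ 1 := by
    have hmon : ∀ K : Finset ℕ, K ⊆ range r → nrm (mon A d r K) ≤ 1 := by
      intro K hK
      refine (Fine.nrm_bd (prob_pow hA r) (mon_bd hA hd ht r K hK)).trans ?_
      exact pow_le_one₀ ht ht1
    rw [hX]
    refine (nrm_mul_le _ _).trans ?_
    have h1 := (contr_right (prob_pow hA H) (mon A d r I)).trans (hmon I hI)
    have h2 := hmon I' hI'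
    exact mul_le_one₀ h1 (nrm_nonneg _) h2
  have hker := wid M M X hJG hM
  set Mt : ℕ := M + r + H + r + M with hMt
  set S : ℕ → Finset ℕ := fun v => I.image (fun i => M + v + i)
    ∪ I'.image (fun i => M + v + r + H + i) with hS
  have hglue : ∀ v ∈ range (N * J + 1), A ^ (M + v) * X * A ^ (M - v) = mon A d Mt (S v) := by
    intro v hv
    have hv' := mem_range.1 hv
    have h1 := mon_glue A d (M + v) H (M - v) r r I I' hI hI'
    have h2 : M + v + r + H + r + (M - v) = Mt := by rw [hMt]; omega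
    rw [h2] at h1
    rw [← h1, hX]
    noncomm_ring
  have hsub : ∀ v ∈ range (N * J + 1), S v ⊆ range Mt := by
    intro v hv x hx
    have hv' := mem_range.1 hv
    simp only [hS, mem_union, mem_image] at hx
    rw [mem_range, hMt]
    rcases hx with ⟨i, hi, rfl⟩ | ⟨i, hi, rfl⟩
    · have := mem_range.1 (hI hi)
      omega
    · have := mem_range.1 (hI' hi)
      omega
  have hcardS : ∀ v ∈ range (N * J + 1), 4 ≤ (S v).card := by
    intro v hv
    simp only [hS]
    rw [Finset.card_union_of_disjoint, Finset.card_image_of_injective,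
      Finset.card_image_of_injective]
    · omega
    · intro a b hab
      simp only at hab
      omega
    · intro a b hab
      simp only at hab
      omega
    · rw [Finset.disjoint_left]
      intro x hx hx'
      simp only [mem_image] at hx hx'
      obtain ⟨i, hi, rfl⟩ := hx
      obtain ⟨j, hj, hj'⟩ := hx'
      have := mem_range.1 (hI hi)
      omega
  have hdisS : ∀ v ∈ range (N * J + 1), ∀ v' ∈ range (N * J + 1), v ≠ v' → v % r = v' % r →
      Disjoint (S v) (S v') := by
    intro v hv v' hv' hne hmod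
    have h1 := mem_range.1 hv
    have h2 := mem_range.1 hv'
    have hfar : v + r ≤ v' ∨ v' + r ≤ v := by
      have e1 := Nat.div_add_mod v r
      have e2 := Nat.div_add_mod v' r
      rcases lt_trichotomy (v / r) (v' / r) with h | h | h
      · left
        have h3 : r * (v / r) + r ≤ r * (v' / r) := by
          calc r * (v / r) + r = r * (v / r + 1) := by ring
            _ ≤ r * (v' / r) := Nat.mul_le_mul_left r h
        omega
      · exfalso
        apply hne
        rw [← e1, ← e2, h, hmod]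
      · right
        have h3 : r * (v' / r) + r ≤ r * (v / r) := by
          calc r * (v' / r) + r = r * (v' / r + 1) := by ring
            _ ≤ r * (v / r) := Nat.mul_le_mul_left r h
        omega
    rw [Finset.disjoint_left]
    intro x hx hx'
    simp only [hS, mem_union, mem_image] at hx hx'
    rcases hx with ⟨i, hi, rfl⟩ | ⟨i, hi, rfl⟩ <;> rcases hx' with ⟨j, hj, hj'⟩ | ⟨j, hj, hj'⟩
    · have a1 := mem_range.1 (hI hi)
      have a2 := mem_range.1 (hI hj)
      omega
    · have a1 := mem_range.1 (hI hi)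
      have a2 := mem_range.1 (hI' hj)
      omega
    · have a1 := mem_range.1 (hI' hi)
      have a2 := mem_range.1 (hI hj)
      omega
    · have a1 := mem_range.1 (hI' hi)
      have a2 := mem_range.1 (hI' hj)
      omega
  -- Hoeffding in every residue class
  have hclass : ∀ c ∈ range r, Dom (Λ * t ^ 4 * (2 ^ J / √(N : ℝ)))
      (2 * Real.exp (-Λ ^ 2 / 2) * 2 ^ J) (A ^ Mt)
      (∑ v ∈ (range (N * J + 1)).filter (fun v => v % r = c), w v • mon A d Mt (S v)) := by
    intro c _
    have h1 := hoeff hA hd hm ht ht1 Mt ((range (N * J + 1)).filter (fun v => v % r = c)) S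
      (fun v hv => hsub v (mem_filter.1 hv).1)
      (fun v hv v' hv' hne => hdisS v (mem_filter.1 hv).1 v' (mem_filter.1 hv').1 hne
        ((mem_filter.1 hv).2.trans (mem_filter.1 hv').2.symm))
      4 (by norm_num) (fun v hv => hcardS v (mem_filter.1 hv).1) w Λ hΛ
    refine dom_mono (nonneg_pow hA.1 _) h1 ?_ ?_
    · refine mul_le_mul_of_nonneg_left ?_ (by positivity)
      have h2 : ∑ v ∈ (range (N * J + 1)).filter (fun v => v % r = c), w v ^ 2 ≤ 4 ^ J / N :=
        (Finset.sum_le_sum_of_subset_of_nonneg (Finset.filter_subset _ _)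
          (fun _ _ _ => sq_nonneg _)).trans wl2
      calc √(∑ v ∈ (range (N * J + 1)).filter (fun v => v % r = c), w v ^ 2)
          ≤ √(4 ^ J / N) := Real.sqrt_le_sqrt h2
        _ = 2 ^ J / √(N : ℝ) := by
            rw [Real.sqrt_div (by positivity)]
            congr 1
            have : (4 : ℝ) ^ J = (2 ^ J) ^ 2 := by rw [← pow_mul, mul_comm, pow_mul]; norm_num
            rw [this, Real.sqrt_sq (by positivity)]
    · refine mul_le_mul_of_nonneg_left ?_ (by positivity)
      exact (Finset.sum_le_sum_of_subset_of_nonneg (Finset.filter_subset _ _)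
          (fun _ _ _ => abs_nonneg _)).trans wl1
  have hsum : Dom (r * 2 ^ J * Λ * t ^ 4 / √(N : ℝ)) (2 * r * 2 ^ J * Real.exp (-Λ ^ 2 / 2)) (A ^ Mt)
      (∑ v ∈ range (N * J + 1), w v • (A ^ (M + v) * X * A ^ (M - v))) := by
    have h1 := dom_sum (range r) hclass
    rw [Finset.sum_const, Finset.sum_const, card_range, nsmul_eq_mul, nsmul_eq_mul] at h1
    have h2 : ∑ c ∈ range r, ∑ v ∈ (range (N * J + 1)).filter (fun v => v % r = c),
        w v • mon A d Mt (S v)
        = ∑ v ∈ range (N * J + 1), w v • (A ^ (M + v) * X * A ^ (M - v)) := by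
      rw [Finset.sum_fiberwise_of_maps_to (g := fun v => v % r)
        (fun v _ => mem_range.2 (Nat.mod_lt v hr))]
      exact Finset.sum_congr rfl fun v hv => by rw [hglue v hv]
    rw [h2] at h1
    refine dom_mono (nonneg_pow hA.1 _) h1 (le_of_eq ?_) (le_of_eq ?_)
    · ring
    · ring
  have hrest : nrm (A ^ M * X * A ^ M
      - ∑ v ∈ range (N * J + 1), w v • (A ^ (M + v) * X * A ^ (M - v)))
      ≤ (2 * N * √(σ / G0)) ^ J := by
    refine hker.trans ?_
    have : 0 ≤ (2 * N * √(σ / G0)) ^ J := by positivity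
    nlinarith
  have hfin := dom_add hsum (dom_of_nrm (E := A ^ Mt) hrest)
  have he : ∑ v ∈ range (N * J + 1), w v • (A ^ (M + v) * X * A ^ (M - v))
      + (A ^ M * X * A ^ M - ∑ v ∈ range (N * J + 1), w v • (A ^ (M + v) * X * A ^ (M - v)))
      = A ^ M * mon A d r I * A ^ H * mon A d r I' * A ^ M := by
    rw [add_sub_cancel, hX]; noncomm_ring
  rw [he, add_zero] at hfin
  exact hfin

end Vale.Agent.P321
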