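import Vale.Agent.P321.FinePair
import Vale.Agent.P321.FineNum
import Vale.Agent.P321.Smooth
import Vale.Agent.P321.Quad

/-!
# P321, module O: the fine step
-/

namespace Vale.Agent.P321

open Finset

namespace Fine

/-- sandwich for `Bd` -/
theorem bd_sand {A : Alg} {t : ℝ} (hA : Prob A) (ht : 0 ≤ t) (G r : ℕ) {F : Alg}
    (h : Bd t (A ^ r) F) : Bd t (A ^ (2 * G + r)) (A ^ G * F * A ^ G) := by
  have h1 := bd_right (prob_pow hA G).1 (nonneg_mul (prob_pow hA G).1 (prob_pow hA r).1) ht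
    (bd_left (prob_pow hA G).1 (prob_pow hA r).1 ht h)
  have e : A ^ G * A ^ r * A ^ G = A ^ (2 * G + r) := by
    rw [← pow_add, ← pow_add]; congr 1; omega
  rwa [e] at h1

theorem comm_sand {A : Alg} {σ : ℝ} (hA : Prob A) (hs : Smooth σ A) (J G G1 : ℕ) (hG1 : 1 ≤ G1)
    (h : J * G1 ≤ G) (d : Alg) :
    nrm (A ^ G * comm A d J * A ^ G) ≤ (2 ^ J * √(σ / G1)) ^ J * nrm d := by
  have h1 := smooth_comm hA hs G1 hG1 J d
  have f1 : A ^ G = A ^ (G - J * G1) * A ^ (J * G1) := by rw [← pow_add]; congr 1; omega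
  have f2 : A ^ G = A ^ (J * G1) * A ^ (G - J * G1) := by rw [← pow_add]; congr 1; omega
  have e : A ^ G * comm A d J * A ^ G =
      A ^ (G - J * G1) * (A ^ (J * G1) * comm A d J * A ^ (J * G1)) * A ^ (G - J * G1) := by
    calc A ^ G * comm A d J * A ^ G
        = (A ^ (G - J * G1) * A ^ (J * G1)) * comm A d J *
            (A ^ (J * G1) * A ^ (G - J * G1)) := by rw [← f1, ← f2]
      _ = _ := by simp only [mul_assoc]
  rw [e]
  exact (contr_right (prob_pow hA _) _).trans ((contr_left (prob_pow hA _) _).trans h1)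

/-- the polynomial of the windows -/
noncomputable def Wp (c : Finset ℕ → ℝ) (A d : Alg) (r : ℕ) : Alg :=
  ∑ I ∈ (range r).powerset, c I • mon A d r I

theorem wp_bd {c : Finset ℕ → ℝ} {A d : Alg} {s : ℝ} (r : ℕ) (hc : ∀ I, |c I| ≤ 1)
    (hc2 : ∀ I, c I ≠ 0 → I ⊆ range r ∧ 2 ≤ I.card) (hA : Prob A) (hd : Bd s A d) (hs0 : 0 ≤ s)
    (hs1 : s ≤ 1) : Bd (2 ^ r * s ^ 2) (A ^ r) (Wp c A d r) := by
  have h1 : ∀ I ∈ (range r).powerset, Bd (s ^ 2) (A ^ r) (c I • mon A d r I) := by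
    intro I _
    by_cases h0 : c I = 0
    · rw [h0, zero_smul]
      intro z
      rw [czero, abs_zero]
      exact mul_nonneg (by positivity) ((prob_pow hA r).1 z)
    · obtain ⟨a1, a2⟩ := hc2 I h0
      refine bd_mono (prob_pow hA r).1 (bd_smul (c I) (mon_bd hA hd hs0 r I a1)) ?_
      calc |c I| * s ^ I.card ≤ 1 * s ^ I.card :=
            mul_le_mul_of_nonneg_right (hc I) (by positivity)
        _ = s ^ I.card := one_mul _
        _ ≤ s ^ 2 := pow_le_pow_of_le_one hs0 hs1 a2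
  have h2 := bd_sum (range r).powerset h1
  have h3 : ∑ _I ∈ (range r).powerset, s ^ 2 = 2 ^ r * s ^ 2 := by
    rw [Finset.sum_const, Finset.card_powerset, Finset.card_range, nsmul_eq_mul]
    push_cast
    rfl
  rw [h3] at h2
  exact h2

theorem wp_mass {c : Finset ℕ → ℝ} {A d : Alg} (r : ℕ)
    (hc2 : ∀ I, c I ≠ 0 → I ⊆ range r ∧ 2 ≤ I.card) (hA : Prob A) (hd : mass d = 0) :
    mass (Wp c A d r) = 0 := by
  unfold Wp
  rw [mass_sum]
  refine Finset.sum_eq_zero fun I _ => ?_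
  rw [mass_smul]
  by_cases h0 : c I = 0
  · rw [h0, zero_mul]
  · obtain ⟨a1, a2⟩ := hc2 I h0
    rw [mon_mass hA hd r I a1 (Finset.card_pos.1 (by omega)), mul_zero]

theorem T0_dom {A d : Alg} {σ s Λ : ℝ} (hA : Prob A) (hs : Smooth σ A) (hd : Bd s A d)
    (hm : mass d = 0) (hs0 : 0 ≤ s) (hs1 : s ≤ 1) (J G m N G0 h : ℕ) (hN : 1 ≤ N) (hG0 : 1 ≤ G0)
    (hNG : N * J ≤ 2 * G) (hM : J * (N + G0) ≤ ulen J G * m) (hΛ : 0 < Λ)
    (c : Finset ℕ → ℝ) (hc : ∀ I, |c I| ≤ 1)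
    (hc2 : ∀ I, c I ≠ 0 → I ⊆ range (2 ^ J) ∧ 2 ≤ I.card) :
    Dom (2 ^ (2 ^ J) * (2 ^ (2 ^ J) * (2 ^ J * 2 ^ J * Λ * s ^ 4 / √(N : ℝ))))
      (2 ^ (2 ^ J) * (2 ^ (2 ^ J) *
        (2 * 2 ^ J * 2 ^ J * Real.exp (-Λ ^ 2 / 2) + (2 * N * √(σ / G0)) ^ J)))
      ((A ^ ulen J G) ^ (2 * m + h + 2))
      ((A ^ ulen J G) ^ m * (A ^ G * Wp c A d (2 ^ J) * A ^ G) * (A ^ ulen J G) ^ h *
        (A ^ G * Wp c A d (2 ^ J) * A ^ G) * (A ^ ulen J G) ^ m) := by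
  classical
  have hsig : 0 ≤ √(σ / (G0 : ℝ)) := Real.sqrt_nonneg _
  have hκ0 : 0 ≤ 2 ^ J * 2 ^ J * Λ * s ^ 4 / √(N : ℝ) := by positivity
  have hζ0 : 0 ≤ 2 * 2 ^ J * 2 ^ J * Real.exp (-Λ ^ 2 / 2) + (2 * N * √(σ / G0)) ^ J := by
    positivity
  set κ0 := 2 ^ J * 2 ^ J * Λ * s ^ 4 / √(N : ℝ) with hκ
  set ζ0 := 2 * 2 ^ J * 2 ^ J * Real.exp (-Λ ^ 2 / 2) + (2 * N * √(σ / G0)) ^ J with hζ
  set r := 2 ^ J with hr
  have hu : ulen J G = 2 * G + r := rfl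
  set u := ulen J G with hud
  have hcard : (((range r).powerset.card : ℕ) : ℝ) = 2 ^ r := by
    rw [Finset.card_powerset, Finset.card_range]; push_cast; rfl
  have key : (A ^ u) ^ m * (A ^ G * Wp c A d r * A ^ G) * (A ^ u) ^ h *
        (A ^ G * Wp c A d r * A ^ G) * (A ^ u) ^ m =
      ∑ I ∈ (range r).powerset, c I • ∑ I' ∈ (range r).powerset, c I' •
        (A ^ (u * m + G) * mon A d r I * A ^ (2 * G + u * h) * mon A d r I' *
          A ^ (u * m + G)) := by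
    have e1 : (A ^ u) ^ m * (A ^ G * Wp c A d r * A ^ G) * (A ^ u) ^ h *
        (A ^ G * Wp c A d r * A ^ G) * (A ^ u) ^ m =
        A ^ (u * m + G) * Wp c A d r * A ^ (2 * G + u * h) * Wp c A d r * A ^ (u * m + G) := by
      have f1 : A ^ (u * m + G) = (A ^ u) ^ m * A ^ G := by rw [pow_add, pow_mul]
      have f2 : A ^ (u * m + G) = A ^ G * (A ^ u) ^ m := by
        rw [add_comm, pow_add, pow_mul]
      have f3 : A ^ (2 * G + u * h) = A ^ G * (A ^ u) ^ h * A ^ G := by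
        rw [← pow_mul, ← pow_add, ← pow_add]; congr 1; ring
      rw [f3]
      nth_rewrite 1 [f1]
      rw [f2]
      simp only [mul_assoc]
    rw [e1]
    unfold Wp
    simp only [Finset.mul_sum, Finset.sum_mul, mul_smul_comm, smul_mul_assoc, Finset.smul_sum]
    refine Finset.sum_comm.trans (Finset.sum_congr rfl fun I _ =>
      Finset.sum_congr rfl fun I' _ => ?_)
    rw [smul_comm]
  rw [key]
  have hpow : (A ^ u) ^ (2 * m + h + 2) =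
      A ^ ((u * m + G) + r + (2 * G + u * h) + r + (u * m + G)) := by
    rw [← pow_mul]; congr 1; rw [hu]; ring
  rw [hpow]
  have hE := (prob_pow hA ((u * m + G) + r + (2 * G + u * h) + r + (u * m + G))).1
  have hr1 : 1 ≤ r := Nat.one_le_two_pow
  have inner : ∀ I ∈ (range r).powerset, c I ≠ 0 → Dom (2 ^ r * κ0) (2 ^ r * ζ0)
      (A ^ ((u * m + G) + r + (2 * G + u * h) + r + (u * m + G)))
      (∑ I' ∈ (range r).powerset, c I' •
        (A ^ (u * m + G) * mon A d r I * A ^ (2 * G + u * h) * mon A d r I' *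
          A ^ (u * m + G))) := by
    intro I _ hI
    obtain ⟨a1, a2⟩ := hc2 I hI
    have := dom_csum hE (range r).powerset c
      (fun I' => A ^ (u * m + G) * mon A d r I * A ^ (2 * G + u * h) * mon A d r I' *
          A ^ (u * m + G)) hκ0 hζ0 hc (fun I' _ hI' => by
        obtain ⟨b1, b2⟩ := hc2 I' hI'
        have hq := quad hA hs hd hm hs0 hs1 r N G0 J (u * m + G) (2 * G + u * h) hr1 hN hG0
          (by omega) (by omega) I I' a1 b1 a2 b2 Λ hΛ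
        refine dom_mono hE hq (le_of_eq ?_) (le_of_eq ?_)
        · rw [hκ, hr]; push_cast; ring
        · rw [hζ, hr]; push_cast; ring)
    rwa [hcard] at this
  have outer := dom_csum hE (range r).powerset c _ (by positivity : 0 ≤ 2 ^ r * κ0)
    (by positivity : 0 ≤ 2 ^ r * ζ0) hc inner
  rwa [hcard] at outer

/-- second level: from the clean letters `â, â + δ2` to the true letters `a, b` -/
theorem second_level {a b ah δ2 : Alg} {σ' q κ1 ζ1 e1 e2 : ℝ} (ha : Prob a) (hb : Prob b)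
    (hah : Prob ah) (hmδ : mass δ2 = 0) (hq0 : 0 ≤ q) (hδ : Bd (2 * q) ah δ2)
    (J g G2 : ℕ) (hq : 2 ^ (2 ^ J) * (2 * q) ≤ 1 / 2)
    (h1 : nrm (a - ah) ≤ e1) (h2 : nrm (b - (ah + δ2)) ≤ e2) (h12 : e1 ≤ e2)
    (hs' : Smooth σ' a) (hG2 : 1 ≤ G2) (hJG2 : J * G2 ≤ g) (hκ1 : 0 ≤ κ1) (hζ1 : 0 ≤ ζ1)
    (c : Finset ℕ → ℝ) (hc : ∀ I, |c I| ≤ 1)
    (hc2 : ∀ I, c I ≠ 0 → I ⊆ range (2 ^ J) ∧ 2 ≤ I.card)
    (hexp : ∀ A d : Alg, (tm A (A + d) J).2 - (tm A (A + d) J).1 =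
      comm A d J + Wp c A d (2 ^ J))
    (hK : ∀ K : Finset ℕ, K ⊆ range (2 ^ J) → 2 ≤ K.card →
      Dom κ1 ζ1 (ah ^ (2 * g + 2 ^ J)) (ah ^ g * mon ah δ2 (2 ^ J) K * ah ^ g)) :
    Dom (2 * (2 ^ (2 ^ J) * κ1))
      (2 * (2 ^ J * √(σ' / G2)) ^ J
        + 2 ^ (2 ^ J) * (2 * (g * e1 * 2 ^ (2 ^ J)) + 2 ^ J * 2 ^ (2 ^ J) * (e1 + e2))
        + (2 ^ (2 ^ J) * ζ1 + 2 * (2 ^ (2 ^ J) * κ1) * (2 * (g * e1) + 2 ^ J * e2)))
      (stepA J g a b) (stepB J g a b - stepA J g a b) := by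
  classical
  have hcard : (((range (2 ^ J)).powerset.card : ℕ) : ℝ) = 2 ^ (2 ^ J) := by
    rw [Finset.card_powerset, Finset.card_range]; push_cast; rfl
  have hc0 : (1 : ℝ) ≤ 2 ^ (2 ^ J) := one_le_pow₀ (by norm_num)
  have h2q : 2 * q ≤ 1 := by
    have : 1 * (2 * q) ≤ 2 ^ (2 ^ J) * (2 * q) := mul_le_mul_of_nonneg_right hc0 (by linarith)
    linarith
  have he1 : 0 ≤ e1 := (nrm_nonneg _).trans h1
  have he2 : 0 ≤ e2 := he1.trans h12
  -- the letter `ah + δ2` is a law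
  have hbh : Prob (ah + δ2) := by
    refine ⟨fun z => ?_, ?_⟩
    · rw [cadd]
      have a1 := hδ z
      have a2 := hah.1 z
      have a3 := neg_abs_le (δ2.coeff z)
      nlinarith
    · rw [mass_add, hah.2, hmδ, add_zero]
  -- norms
  have na : nrm a ≤ 2 := by rw [prob_nrm ha]; norm_num
  have nah : nrm ah ≤ 2 := by rw [prob_nrm hah]; norm_num
  have nδ2 : nrm δ2 ≤ 2 := (nrm_bd hah hδ).trans (by linarith)
  have nδ : nrm (b - a) ≤ 2 := (nrm_sub_le b a).trans (by rw [prob_nrm ha, prob_nrm hb]; norm_num)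
  have dδ : nrm ((b - a) - δ2) ≤ e1 + e2 := by
    have e : (b - a) - δ2 = (b - (ah + δ2)) - (a - ah) := by abel
    rw [e]
    exact (nrm_sub_le _ _).trans (by linarith)
  -- the first two parts
  have split : stepB J g a b - stepA J g a b = a ^ g * comm a (b - a) J * a ^ g
      + (a ^ g * Wp c a (b - a) (2 ^ J) * a ^ g - ah ^ g * Wp c ah δ2 (2 ^ J) * ah ^ g)
      + ah ^ g * Wp c ah δ2 (2 ^ J) * ah ^ g := by
    have h3 := hexp a (b - a)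
    rw [add_sub_cancel] at h3
    have h4 : stepB J g a b - stepA J g a b =
        a ^ g * ((tm a b J).2 - (tm a b J).1) * a ^ g := by
      unfold stepA stepB
      rw [mul_sub, sub_mul]
    rw [h4, h3, mul_add, add_mul]
    abel
  have p1 : nrm (a ^ g * comm a (b - a) J * a ^ g) ≤ 2 * (2 ^ J * √(σ' / G2)) ^ J := by
    refine (comm_sand ha hs' J g G2 hG2 hJG2 _).trans ?_
    rw [mul_comm (2 : ℝ)]
    exact mul_le_mul_of_nonneg_left nδ (by positivity)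
  have p2 : nrm (a ^ g * Wp c a (b - a) (2 ^ J) * a ^ g - ah ^ g * Wp c ah δ2 (2 ^ J) * ah ^ g) ≤
      2 ^ (2 ^ J) * (2 * (g * e1 * 2 ^ (2 ^ J)) + 2 ^ J * 2 ^ (2 ^ J) * (e1 + e2)) := by
    have e : a ^ g * Wp c a (b - a) (2 ^ J) * a ^ g - ah ^ g * Wp c ah δ2 (2 ^ J) * ah ^ g =
        ∑ K ∈ (range (2 ^ J)).powerset, c K • (a ^ g * mon a (b - a) (2 ^ J) K * a ^ g -
          ah ^ g * mon ah δ2 (2 ^ J) K * ah ^ g) := by
      unfold Wp
      simp only [Finset.mul_sum, Finset.sum_mul, mul_smul_comm, smul_mul_assoc, smul_sub,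
        Finset.sum_sub_distrib]
    rw [e]
    refine (nrm_sum_le _ _).trans ?_
    have : ∀ K ∈ (range (2 ^ J)).powerset, nrm (c K • (a ^ g * mon a (b - a) (2 ^ J) K * a ^ g -
          ah ^ g * mon ah δ2 (2 ^ J) K * ah ^ g)) ≤
        2 * (g * e1 * 2 ^ (2 ^ J)) + 2 ^ J * 2 ^ (2 ^ J) * (e1 + e2) := by
      intro K _
      rw [nrm_smul]
      have s1 := sand_diff (X' := mon ah δ2 (2 ^ J) K) ha hah h1
        (nrm_mon_le na nδ (2 ^ J) K) g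
      have s2 := mon_diff na nδ nah nδ2 (e := e1 + e2) (h1.trans (by linarith)) dδ (2 ^ J) K
      have s3 : nrm (a ^ g * mon a (b - a) (2 ^ J) K * a ^ g -
          ah ^ g * mon ah δ2 (2 ^ J) K * ah ^ g) ≤
          2 * (g * e1 * 2 ^ (2 ^ J)) + 2 ^ J * 2 ^ (2 ^ J) * (e1 + e2) := by
        refine s1.trans (add_le_add_right (s2.trans (le_of_eq ?_)) _)
        push_cast
        ring
      calc |c K| * _ ≤ 1 * nrm (a ^ g * mon a (b - a) (2 ^ J) K * a ^ g -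
          ah ^ g * mon ah δ2 (2 ^ J) K * ah ^ g) :=
            mul_le_mul_of_nonneg_right (hc K) (nrm_nonneg _)
        _ ≤ _ := by rw [one_mul]; exact s3
    refine (Finset.sum_le_sum this).trans (le_of_eq ?_)
    rw [Finset.sum_const, nsmul_eq_mul, hcard]
  -- the third part
  have q1 : Dom (2 ^ (2 ^ J) * κ1) (2 ^ (2 ^ J) * ζ1) (ah ^ (2 * g + 2 ^ J))
      (ah ^ g * Wp c ah δ2 (2 ^ J) * ah ^ g) := by
    have := dom_csum (prob_pow hah (2 * g + 2 ^ J)).1 (range (2 ^ J)).powerset c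
      (fun K => ah ^ g * mon ah δ2 (2 ^ J) K * ah ^ g) hκ1 hζ1 hc
      (fun K _ hKc => hK K (hc2 K hKc).1 (hc2 K hKc).2)
    rw [hcard] at this
    have e : ah ^ g * Wp c ah δ2 (2 ^ J) * ah ^ g =
        ∑ K ∈ (range (2 ^ J)).powerset, c K • (ah ^ g * mon ah δ2 (2 ^ J) K * ah ^ g) := by
      unfold Wp
      simp only [Finset.mul_sum, Finset.sum_mul, mul_smul_comm, smul_mul_assoc]
    rw [e]
    exact this
  have q2 : Dom 2 (2 * 0) (stepA J g ah (ah + δ2)) (ah ^ (2 * g + 2 ^ J)) := by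
    have t1 := (tm_bd hah hδ hmδ (by positivity) h2q J).1
    have t2 := bd_sand hah (by positivity) g (2 ^ J) t1
    have e : ah ^ g * ((tm ah (ah + δ2) J).1 - ah ^ 2 ^ J) * ah ^ g =
        stepA J g ah (ah + δ2) - ah ^ (2 * g + 2 ^ J) := by
      unfold stepA
      rw [mul_sub, sub_mul]
      congr 1
      rw [← pow_add, ← pow_add]; congr 1; omega
    rw [e] at t2
    exact dom_flip (step_prob hah hbh J g).1.1 (prob_pow hah _).1
      (dom_mono (prob_pow hah _).1 (dom_of_bd t2) hq (le_refl _))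
  have q3 : nrm (stepA J g ah (ah + δ2) - stepA J g a b) ≤ 2 * (g * e1) + 2 ^ J * e2 := by
    have t1 := (tm_diff ha hb hah hbh (h1.trans h12) h2 J).1
    have t2 := sand_diff (X' := (tm ah (ah + δ2) J).1) ha hah h1
      (le_of_eq (prob_nrm (tm_prob' ha hb J).1)) g
    rw [← nrm_neg, neg_sub]
    unfold stepA
    linarith
  have q4 : Dom 1 (2 * (g * e1) + 2 ^ J * e2) (stepA J g a b) (stepA J g ah (ah + δ2)) :=
    dom_mono (step_prob ha hb J g).1.1 (dom_of_close (step_prob ha hb J g).1.1) (le_refl _) q3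
  have q5 := dom_trans (by positivity : 0 ≤ 2 ^ (2 ^ J) * κ1 * 2) q4
    (dom_trans (by positivity : 0 ≤ 2 ^ (2 ^ J) * κ1) q2 q1)
  rw [split]
  refine dom_mono (step_prob ha hb J g).1.1
    (dom_add (dom_add (dom_of_nrm p1) (dom_of_nrm p2)) q5) (le_of_eq ?_) (le_of_eq ?_)
  · ring
  · ring

/-- first level: clean letters -/
theorem first_level {A B : Alg} {σ t ξ Λ : ℝ} (hA : Prob A) (hB : Prob B) (hs : Smooth σ A)
    (hD : Dom t ξ A (B - A)) (ht : 0 < t) (hξ : ξ ≤ t)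
    (J G m N G0 G1 : ℕ) (hΛ : 1 ≤ Λ) (hN : 1 ≤ N) (hG0 : 1 ≤ G0)
    (hG1 : 1 ≤ G1) (hNG : N * J ≤ 2 * G) (hM : J * (N + G0) ≤ ulen J G * m) (hJG1 : J * G1 ≤ G)
    (ht2 : 2 * t ≤ 1)
    (hsm : 2 ^ (2 ^ J) * (2 * t) * Λ * √(2 * (m : ℝ) + 2 ^ J + 2) ≤ 1 / 8)
    (hq1 : 2 * (2 ^ (2 ^ J) * (2 * t) ^ 2) ≤ 1)
    (c : Finset ℕ → ℝ) (hc : ∀ I, |c I| ≤ 1)
    (hc2 : ∀ I, c I ≠ 0 → I ⊆ range (2 ^ J) ∧ 2 ≤ I.card)
    (hexp : ∀ A d : Alg, (tm A (A + d) J).2 - (tm A (A + d) J).1 =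
      comm A d J + Wp c A d (2 ^ J))
    (q η κ ζ e : ℝ) (hq : q = 2 ^ (2 ^ J) * (2 * t) ^ 2)
    (hη : η = 4 * (2 ^ (2 ^ J) * (2 * t) * Λ * √(2 * (m : ℝ) + 2 ^ J + 2)))
    (hκ : κ = 2 ^ (2 ^ J) * (2 ^ (2 ^ J) * (2 ^ J * 2 ^ J * Λ * (2 * t) ^ 4 / √(N : ℝ))))
    (hζ : ζ = 2 ^ (2 ^ J) * (2 ^ (2 ^ J) *
        (2 * 2 ^ J * 2 ^ J * Real.exp (-Λ ^ 2 / 2) + (2 * N * √(σ / G0)) ^ J)))
    (he : e = 8 * Real.exp (-Λ ^ 2 / 8)) :
    ∃ ah δ2 : Alg, Prob ah ∧ mass δ2 = 0 ∧ Bd (2 * q) ah δ2 ∧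
      nrm (stepA J G A B - ah) ≤ 2 ^ J * (2 * ξ) ∧
      nrm (stepB J G A B - (ah + δ2)) ≤ 2 ^ J * (2 * ξ) + (2 ^ J * √(σ / G1)) ^ J ∧
      ∀ g : ℕ, m ≤ g → ∀ K : Finset ℕ, K ⊆ range (2 ^ J) → 2 ≤ K.card →
        Dom (2 * (κ + 5 * η * q ^ 2) + (2 * q) ^ 3)
          (ζ + 120 * e + (κ + 5 * η * q ^ 2) * (2 * e)) (ah ^ (2 * g + 2 ^ J))
          (ah ^ g * mon ah δ2 (2 ^ J) K * ah ^ g) := by
  classical
  have hmass : mass (B - A) = 0 := by rw [mass_sub, hA.2, hB.2, sub_self]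
  obtain ⟨d, hmd, hd, hdd⟩ := dom_clean hA hmass ht.le hξ hD
  have hB' : Prob (A + d) := by
    refine ⟨fun z => ?_, by rw [mass_add, hA.2, hmd, add_zero]⟩
    rw [cadd]
    have a1 := hd z
    have a2 := hA.1 z
    have a3 := neg_abs_le (d.coeff z)
    nlinarith
  have hBB : nrm (B - (A + d)) ≤ 2 * ξ := by
    have e : B - (A + d) = (B - A) - d := by abel
    rw [e]; exact hdd
  have hξ0 : 0 ≤ 2 * ξ := (nrm_nonneg _).trans hdd
  have hAA : nrm (A - A) ≤ 2 * ξ := by rw [sub_self, nrm_zero]; exact hξ0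
  have pP := prob_pow hA (ulen J G)
  have hsand : ∀ X X' : Alg, nrm (X - X') ≤ 2 ^ J * (2 * ξ) →
      nrm (A ^ G * X * A ^ G - A ^ G * X' * A ^ G) ≤ 2 ^ J * (2 * ξ) := by
    intro X X' hX
    rw [← sub_mul, ← mul_sub]
    exact (contr_right (prob_pow hA G) _).trans ((contr_left (prob_pow hA G) _).trans hX)
  have htm := tm_diff hA hB hA hB' hAA hBB J
  have hah := step_prob hA hB' J G
  -- `δ2`
  have hw1 := wp_bd (2 ^ J) hc hc2 hA hd (by positivity) ht2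
  have hw2 := bd_sand hA (by positivity) G (2 ^ J) hw1
  have hδm : mass (A ^ G * Wp c A d (2 ^ J) * A ^ G) = 0 := by
    rw [mass_mul, mass_mul, wp_mass (2 ^ J) hc2 hA hmd, mul_zero, zero_mul]
  -- `ρ`
  have hρ := tm_bd hA hd hmd (by positivity) ht2 J
  have hρ1 := bd_sand hA (by positivity) G (2 ^ J) hρ.1
  have hρe : A ^ G * ((tm A (A + d) J).1 - A ^ 2 ^ J) * A ^ G =
      stepA J G A (A + d) - A ^ ulen J G := by
    unfold stepA
    rw [mul_sub, sub_mul]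
    congr 1
    rw [← pow_add, ← pow_add]; congr 1; unfold ulen; omega
  rw [hρe] at hρ1
  have hρm : mass (stepA J G A (A + d) - A ^ ulen J G) = 0 := by
    rw [mass_sub, hah.1.2, pP.2, sub_self]
  have hul : 2 * G + 2 ^ J = ulen J G := rfl
  rw [hul] at hρ1 hw2
  -- numbers
  have hsq1 : 1 ≤ √(2 * (m : ℝ) + 2 ^ J + 2) := by
    rw [Real.one_le_sqrt]
    have : (0 : ℝ) ≤ m := Nat.cast_nonneg m
    have : (0 : ℝ) ≤ 2 ^ J := by positivity
    linarith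
  have hτ0 : (0 : ℝ) ≤ 2 ^ (2 ^ J) * (2 * t) := by positivity
  have hτ : (2 : ℝ) ^ (2 ^ J) * (2 * t) ≤ 1 / 8 := by
    refine le_trans ?_ hsm
    have h1 : (2 : ℝ) ^ (2 ^ J) * (2 * t) * 1 ≤ 2 ^ (2 ^ J) * (2 * t) * Λ :=
      mul_le_mul_of_nonneg_left hΛ hτ0
    have h2 : (2 : ℝ) ^ (2 ^ J) * (2 * t) * Λ * 1 ≤
        2 ^ (2 ^ J) * (2 * t) * Λ * √(2 * (m : ℝ) + 2 ^ J + 2) :=
      mul_le_mul_of_nonneg_left hsq1 (by positivity)
    linarith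
  have hη0 : 0 ≤ η := by rw [hη]; positivity
  have hη1 : η ≤ 1 / 2 := by rw [hη]; linarith
  have he0 : 0 ≤ e := by rw [he]; positivity
  have he1 : e ≤ 8 := by
    rw [he]
    have : Real.exp (-Λ ^ 2 / 8) ≤ 1 := by
      rw [Real.exp_le_one_iff]
      have := sq_nonneg Λ
      linarith
    linarith
  have hq0 : 0 ≤ q := by rw [hq]; positivity
  have hκ0 : 0 ≤ κ := by rw [hκ]; positivity
  have hζ0 : 0 ≤ ζ := by rw [hζ]; positivity
  have hp : ∀ k, k ≤ 2 * m + 2 ^ J + 2 → Dom η e ((A ^ ulen J G) ^ k)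
      ((stepA J G A (A + d)) ^ k - (A ^ ulen J G) ^ k) := by
    intro k hk
    have hk' : √(k : ℝ) ≤ √(2 * (m : ℝ) + 2 ^ J + 2) := by
      apply Real.sqrt_le_sqrt
      exact_mod_cast hk
    have hkk : 2 ^ (2 ^ J) * (2 * t) * Λ * √(k : ℝ) ≤
        2 ^ (2 ^ J) * (2 * t) * Λ * √(2 * (m : ℝ) + 2 ^ J + 2) :=
      mul_le_mul_of_nonneg_left hk' (by positivity)
    have := prodpert pP hρ1 hρm hτ0 k Λ hΛ (hkk.trans hsm)
    rw [add_sub_cancel] at this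
    refine dom_mono (prob_pow pP k).1 this ?_ (le_of_eq he.symm)
    rw [hη]
    linarith
  have hδa : Bd (2 * q) (stepA J G A (A + d)) (A ^ G * Wp c A d (2 ^ J) * A ^ G) := by
    intro z
    have a1 := hw2 z
    have a2 := hρ1 z
    rw [csub, abs_le] at a2
    have a3 := pP.1 z
    have a4 : 2 ^ (2 ^ J) * (2 * t) * (A ^ ulen J G).coeff z ≤
        1 / 8 * (A ^ ulen J G).coeff z := mul_le_mul_of_nonneg_right hτ a3
    have a5 : (A ^ ulen J G).coeff z ≤ 2 * (stepA J G A (A + d)).coeff z := by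
      linarith [a2.1]
    rw [← hq] at a1
    calc _ ≤ q * (A ^ ulen J G).coeff z := a1
      _ ≤ q * (2 * (stepA J G A (A + d)).coeff z) := mul_le_mul_of_nonneg_left a5 hq0
      _ = _ := by ring
  rw [← hq] at hw2 hq1
  refine ⟨stepA J G A (A + d), A ^ G * Wp c A d (2 ^ J) * A ^ G, hah.1, hδm, hδa, ?_, ?_, ?_⟩
  · exact hsand _ _ htm.1
  · have e1 : stepB J G A B - (stepA J G A (A + d) + A ^ G * Wp c A d (2 ^ J) * A ^ G) =
        (stepB J G A B - stepB J G A (A + d)) + A ^ G * comm A d J * A ^ G := by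
      have h3 : stepB J G A (A + d) = stepA J G A (A + d) + A ^ G * comm A d J * A ^ G
          + A ^ G * Wp c A d (2 ^ J) * A ^ G := by
        have h4 : (tm A (A + d) J).2 = (tm A (A + d) J).1 + comm A d J + Wp c A d (2 ^ J) := by
          rw [add_assoc, ← hexp A d]; abel
        unfold stepA stepB
        rw [h4, mul_add, mul_add, add_mul, add_mul]
      rw [h3]
      abel
    rw [e1]
    refine (nrm_add_le _ _).trans (add_le_add (hsand _ _ htm.2) ?_)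
    refine (comm_sand hA hs J G G1 hG1 hJG1 d).trans (mul_le_of_le_one_right (by positivity) ?_)
    exact (nrm_bd hA hd).trans ht2
  · intro g hmg K hK hK2
    exact K_dom hah.1 pP (2 ^ J) g m hη0 hη1 he0 he1 hq0 hq1 hκ0 hζ0 hmg hp hw2 hδa
      (fun h hh => by
        have := T0_dom (Λ := Λ) hA hs hd hmd (by positivity) ht2 J G m N G0 h hN hG0 hNG hM
          (by linarith) c hc hc2
        rw [← hκ, ← hζ] at this
        exact this) K hK hK2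

end Fine

open Fine in
theorem fine_step {A B : Alg} {σ σ' t ξ Λ : ℝ} (hA : Prob A) (hB : Prob B) (hs : Smooth σ A)
    (hD : Dom t ξ A (B - A)) (ht : 0 < t) (hξ : ξ ≤ t) (hξ0 : 0 ≤ ξ)
    (J G g m N G0 G1 G2 : ℕ) (hJ : 1 ≤ J)
    (hs' : Smooth σ' (stepA J G A B)) (hΛ : 1 ≤ Λ) (hN : 1 ≤ N) (hm1 : 1 ≤ m) (hG0 : 1 ≤ G0)
    (hG1 : 1 ≤ G1) (hG2 : 1 ≤ G2)
    (hNG : N * J ≤ 2 * G) (hM : J * (N + G0) ≤ ulen J G * m) (hJG1 : J * G1 ≤ G)
    (hJG2 : J * G2 ≤ g) (hmg : m ≤ g)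
    (hsm : 2 ^ (2 ^ J + 1) * t * Λ * √(2 * (m : ℝ) + 2 ^ J + 2) ≤ 1 / 8)
    (hsm2 : 2 ^ (2 * 2 ^ J + 5) * t ^ 2 ≤ 1) :
    Dom (2 ^ (20 * 2 ^ J) * (t ^ 4 * Λ / √(N : ℝ) + t ^ 5 * Λ * √(m : ℝ)))
      (2 ^ (20 * 2 ^ J) * ((g + 1) * ξ + Real.exp (-Λ ^ 2 / 8) + (2 * N * √(σ / G0)) ^ J
        + (2 ^ J * √(σ / G1)) ^ J + (2 ^ J * √(σ' / G2)) ^ J))
      (stepA J g (stepA J G A B) (stepB J G A B))
      (stepB J g (stepA J G A B) (stepB J G A B) - stepA J g (stepA J G A B) (stepB J G A B)) := by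
  obtain ⟨c, hc, hc2, hexp⟩ := expand2 J
  -- numbers
  have hr2 : (2 : ℝ) ≤ 2 ^ J := by
    calc (2 : ℝ) = 2 ^ 1 := (pow_one 2).symm
      _ ≤ 2 ^ J := pow_le_pow_right₀ (by norm_num) hJ
  have hrN : 2 ≤ 2 ^ J := by
    calc 2 = 2 ^ 1 := (pow_one 2).symm
      _ ≤ 2 ^ J := Nat.pow_le_pow_right (by norm_num) hJ
  have hC4 : (4 : ℝ) ≤ 2 ^ (2 ^ J) := by
    calc (4 : ℝ) = 2 ^ 2 := by norm_num
      _ ≤ 2 ^ (2 ^ J) := pow_le_pow_right₀ (by norm_num) hrN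
  have hrC : (2 : ℝ) ^ J ≤ 2 ^ (2 ^ J) :=
    pow_le_pow_right₀ (by norm_num) (Nat.lt_two_pow_self).le
  have e20 : (2 : ℝ) ^ (20 * 2 ^ J) = (2 ^ (2 ^ J)) ^ 20 := by rw [← pow_mul, mul_comm]
  have hsm' : 2 ^ (2 ^ J) * (2 * t) * Λ * √(2 * (m : ℝ) + 2 ^ J + 2) ≤ 1 / 8 := by
    refine le_trans (le_of_eq ?_) hsm
    rw [pow_succ]; ring
  have hsm2' : 32 * (2 ^ (2 ^ J)) ^ 2 * t ^ 2 ≤ 1 := by
    refine le_trans (le_of_eq ?_) hsm2
    rw [pow_add, pow_mul']; ring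
  have hS1 : 1 ≤ √(2 * (m : ℝ) + 2 ^ J + 2) := by
    rw [Real.one_le_sqrt]
    have : (0 : ℝ) ≤ m := Nat.cast_nonneg m
    linarith
  have hm1' : (1 : ℝ) ≤ m := by exact_mod_cast hm1
  have hN1' : (1 : ℝ) ≤ N := by exact_mod_cast hN
  have hsN : 1 ≤ √(N : ℝ) := by rwa [Real.one_le_sqrt]
  have hsM : 1 ≤ √(m : ℝ) := by rwa [Real.one_le_sqrt]
  have hSle := num_sqrt hr2 hm1'
  obtain ⟨ht2, hq1, hCq, htΛ⟩ := num_pre hC4 ht hΛ hS1 hsm' hsm2'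
  obtain ⟨ah, δ2, hah, hmδ, hδ, hn1, hn2, hK⟩ := first_level hA hB hs hD ht hξ J G m N G0 G1 hΛ
    hN hG0 hG1 hNG hM hJG1 ht2 hsm' hq1 c hc hc2 hexp _ _ _ _ _ rfl rfl rfl rfl rfl
  have hE0 : 0 ≤ (2 * N * √(σ / G0)) ^ J := by positivity
  have hE1 : 0 ≤ (2 ^ J * √(σ / G1)) ^ J := by positivity
  have hE2 : 0 ≤ (2 ^ J * √(σ' / G2)) ^ J := by positivity
  have hab := step_prob hA hB J G
  have hfin := second_level (q := 2 ^ (2 ^ J) * (2 * t) ^ 2)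
    (κ1 := 2 * (2 ^ (2 ^ J) * (2 ^ (2 ^ J) * (2 ^ J * 2 ^ J * Λ * (2 * t) ^ 4 / √(N : ℝ))) +
      5 * (4 * (2 ^ (2 ^ J) * (2 * t) * Λ * √(2 * (m : ℝ) + 2 ^ J + 2))) *
        (2 ^ (2 ^ J) * (2 * t) ^ 2) ^ 2) + (2 * (2 ^ (2 ^ J) * (2 * t) ^ 2)) ^ 3)
    hab.1 hab.2 hah hmδ (by positivity) hδ J g G2 hCq hn1 hn2 (by linarith) hs' hG2 hJG2
    (by positivity) (by positivity) c hc hc2 hexp (hK g hmg)
  refine dom_mono (step_prob hab.1 hab.2 J g).1.1 hfin ?_ ?_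
  · rw [e20]
    exact num_main hC4 (by positivity) hrC ht (by linarith) hΛ (by linarith) hsM hSle
  · rw [e20]
    have hex : Real.exp (-Λ ^ 2 / 2) ≤ Real.exp (-Λ ^ 2 / 8) := by
      apply Real.exp_le_exp.2
      have := sq_nonneg Λ
      linarith
    exact num_err hC4 (by positivity) hrC hξ0 (by positivity)
      (num_W hC4 (by positivity) hrC ht (by linarith) hΛ hsN htΛ (by positivity) hsm' hq1)
      (by positivity) (pow_le_one₀ (by positivity) hq1) (Real.exp_pos _).le hex hE0 hE1 hE2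
      (Nat.cast_nonneg g)

end Vale.Agent.P321
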