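import Vale.Agent.P321.Final

/-! Finitely many traces always suffice. -/

namespace Vale.Agent.P321

open Finset

theorem subword_univ {n : ℕ} (x : Fin n → Bool) : subword x Finset.univ = List.ofFn x := by
  unfold subword
  rw [Fin.sort_univ, List.ofFn_eq_map]

theorem subword_length {n : ℕ} (x : Fin n → Bool) (s : Finset (Fin n)) :
    (subword x s).length = s.card := by
  unfold subword
  rw [List.length_map, Finset.length_sort]

open Classical in
/-- decode: use any trace of full length -/
noncomputable def dec {n m : ℕ} (z : Fin m → List Bool) : Fin n → Bool :=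
  if h : ∃ i, (z i).length = n then Classical.choose (ofFn_exists (z h.choose) n h.choose_spec)
  else fun _ => false

theorem dec_eq {n m : ℕ} (x : Fin n → Bool) (s : Fin m → Finset (Fin n))
    (h : ∃ i, s i = Finset.univ) : dec (fun i => subword x (s i)) = x := by
  have h' : ∃ i, ((fun i => subword x (s i)) i).length = n := by
    obtain ⟨i, hi⟩ := h
    refine ⟨i, ?_⟩
    show (subword x (s i)).length = n
    rw [subword_length, hi, Finset.card_univ, Fintype.card_fin]
  unfold dec
  rw [dif_pos h']
  have h1 := Classical.choose_spec (ofFn_exists ((fun i => subword x (s i)) h'.choose) n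
    h'.choose_spec)
  have h2 : (subword x (s h'.choose)).length = n := h'.choose_spec
  rw [subword_length] at h2
  have h3 : s h'.choose = Finset.univ := by
    rw [← Finset.card_eq_iff_eq_univ, h2, Fintype.card_fin]
  have h4 : (fun i => subword x (s i)) h'.choose = List.ofFn x := by
    show subword x (s h'.choose) = List.ofFn x
    rw [h3, subword_univ]
  exact List.ofFn_injective (h1.trans h4)

theorem exists_reconstructs {q : ℝ} (h0 : 0 < q) (h1 : q < 1) (n : ℕ) :
    ∃ m, Reconstructs q n m := by
  classical
  have hq : 0 < (1 - q) ^ n := pow_pos (by linarith) n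
  have hq1 : (1 - q) ^ n ≤ 1 := pow_le_one₀ (by linarith) (by linarith)
  obtain ⟨m, hm⟩ := exists_pow_lt_of_lt_one (show (0 : ℝ) < 1 / 3 by norm_num)
    (show 1 - (1 - q) ^ n < 1 by linarith)
  refine ⟨m, fun z x => if x = dec z then 1 else 0, ?_, ?_, ?_⟩
  · intro z x
    dsimp only
    split_ifs
    · norm_num
    · exact le_rfl
  · intro z
    rw [Finset.sum_ite_eq' Finset.univ (dec z) (fun _ => (1 : ℝ)), if_pos (Finset.mem_univ _)]
  · intro x
    have hall : Ex q x m (fun _ => 1) = 1 := Ex_one x m
    have hbad : ∑ s : Fin m → Finset (Fin n),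
        ∏ i, (wt q n (s i) * (if s i = Finset.univ then 0 else 1)) = (1 - (1 - q) ^ n) ^ m := by
      have e1 : ∑ s : Fin m → Finset (Fin n),
          ∏ i, (wt q n (s i) * (if s i = Finset.univ then 0 else 1))
          = ∏ _i : Fin m, ∑ t : Finset (Fin n), wt q n t * (if t = Finset.univ then 0 else 1) := by
        rw [Finset.prod_univ_sum, Fintype.piFinset_univ]
      have e2 : ∑ t : Finset (Fin n), wt q n t * (if t = Finset.univ then 0 else 1)
          = 1 - (1 - q) ^ n := by
        have e3 : ∀ t : Finset (Fin n), wt q n t * (if t = Finset.univ then 0 else 1)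
            = wt q n t - (if t = Finset.univ then wt q n t else 0) := by
          intro t
          split_ifs <;> ring
        rw [Finset.sum_congr rfl (fun t _ => e3 t), Finset.sum_sub_distrib, wt_sum,
          Finset.sum_ite_eq' Finset.univ Finset.univ (wt q n), if_pos (Finset.mem_univ _)]
        unfold wt
        rw [Finset.card_univ, Fintype.card_fin, Nat.sub_self, pow_zero, mul_one]
      rw [e1, e2, Finset.prod_const, Finset.card_univ, Fintype.card_fin]
    have key : Ex q x m (fun _ => 1) ≤ succProb q (fun (z : Fin m → List Bool) x => if x = dec z then 1 else 0) x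
        + ∑ s : Fin m → Finset (Fin n),
        ∏ i, (wt q n (s i) * (if s i = Finset.univ then 0 else 1)) := by
      rw [succ_eq]
      unfold Ex
      rw [← Finset.sum_add_distrib]
      refine Finset.sum_le_sum (fun s _ => ?_)
      have hw : 0 ≤ ∏ i, wt q n (s i) := Finset.prod_nonneg (fun i _ => wt_nonneg h0 h1 n (s i))
      rw [Finset.prod_mul_distrib]
      beta_reduce
      by_cases hs : ∃ i, s i = Finset.univ
      · have e := dec_eq x s hs
        have : (if x = dec (fun i => subword x (s i)) then (1 : ℝ) else 0) = 1 := by
          rw [e, if_pos rfl]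
        rw [this]
        have h2 : 0 ≤ ∏ i, (if s i = Finset.univ then (0 : ℝ) else 1) :=
          Finset.prod_nonneg (fun i _ => by split_ifs <;> norm_num)
        nlinarith [mul_nonneg hw h2]
      · have h2 : ∏ i, (if s i = Finset.univ then (0 : ℝ) else 1) = 1 := by
          refine Finset.prod_eq_one (fun i _ => ?_)
          rw [if_neg (fun h => hs ⟨i, h⟩)]
        rw [h2]
        have h3 : 0 ≤ (if x = dec (fun i => subword x (s i)) then (1 : ℝ) else 0) := by
          split_ifs <;> norm_num
        nlinarith [mul_nonneg hw h3]
    rw [hall, hbad] at key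
    linarith

end Vale.Agent.P321
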