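import Vale.Agent.P321.Basic

/-!
# P321, module F (second half): overlap of products
-/

namespace Vale.Agent.P321

open Finset

theorem le_minA_left (F G : Alg) : Le (minA F G) F := by
  intro z
  rw [minA_coeff]
  exact min_le_left _ _

theorem le_minA_right (F G : Alg) : Le (minA F G) G := by
  intro z
  rw [minA_coeff]
  exact min_le_right _ _

theorem minA_nonneg {F G : Alg} (hF : Nonneg F) (hG : Nonneg G) : Nonneg (minA F G) := by
  intro z
  rw [minA_coeff]
  exact le_min (hF z) (hG z)

/-- a product of pairs of laws at distance `≤ 1` has overlap `2^{-T}` -/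
theorem overlap_chain (T : ℕ) (X Y : ℕ → Alg) (hX : ∀ i, Prob (X i)) (hY : ∀ i, Prob (Y i))
    (h : ∀ i < T, nrm (X i - Y i) ≤ 1) :
    ∃ Z : Alg, Nonneg Z ∧ Le Z ((List.range T).map X).prod ∧ Le Z ((List.range T).map Y).prod ∧
      (1 / 2 : ℝ) ^ T ≤ mass Z := by
  induction T with
  | zero =>
    refine ⟨1, nonneg_one, ?_, ?_, ?_⟩
    · intro z
      simp
    · intro z
      simp
    · rw [pow_zero, mass_one]
  | succ T ih =>
    obtain ⟨Z, h1, h2, h3, h4⟩ := ih fun i hi => h i (Nat.lt_succ_of_lt hi)
    have hmin : Nonneg (minA (X T) (Y T)) := minA_nonneg (hX T).1 (hY T).1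
    refine ⟨Z * minA (X T) (Y T), nonneg_mul h1 hmin, ?_, ?_, ?_⟩
    · rw [List.range_succ, List.map_append, List.prod_append, List.map_singleton,
        List.prod_singleton]
      exact le_mul h1 (hX T).1 h2 (le_minA_left _ _)
    · rw [List.range_succ, List.map_append, List.prod_append, List.map_singleton,
        List.prod_singleton]
      exact le_mul h1 (hY T).1 h3 (le_minA_right _ _)
    · rw [mass_mul, mass_minA (hX T) (hY T), pow_succ]
      have h5 := h T (Nat.lt_succ_self T)
      have h6 : (1 / 2 : ℝ) ≤ 1 - nrm (X T - Y T) / 2 := by linarith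
      exact mul_le_mul h4 h6 (by norm_num) (mass_nonneg h1)

end Vale.Agent.P321
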