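import Vale.Agent.P321.Push

/-!
# P321, module C (second half): product perturbation
-/

namespace Vale.Agent.P321

open Finset

/-- Hoeffding's lemma on a finite probability space -/
theorem exp_moment {α : Type*} [Fintype α] (p f : α → ℝ) (t : ℝ) (hp : ∀ a, 0 ≤ p a)
    (hp1 : ∑ a, p a = 1) (hf0 : ∑ a, p a * f a = 0) (hf : ∀ a, |f a| ≤ t) (ht : 0 < t) (u : ℝ) :
    ∑ a, p a * Real.exp (u * f a) ≤ Real.exp (u ^ 2 * t ^ 2 / 2) := by
  have key : ∀ a, Real.exp (u * f a) ≤ Real.cosh (u * t) + f a * (Real.sinh (u * t) / t) := by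
    intro a
    have h1 := (abs_le.1 (hf a)).1
    have h2 := (abs_le.1 (hf a)).2
    have hw1 : 0 ≤ (t + f a) / (2 * t) := div_nonneg (by linarith) (by linarith)
    have hw2 : 0 ≤ (t - f a) / (2 * t) := div_nonneg (by linarith) (by linarith)
    have hw3 : (t + f a) / (2 * t) + (t - f a) / (2 * t) = 1 := by field_simp; ring
    have hc := convexOn_exp.2 (Set.mem_univ (u * t)) (Set.mem_univ (-(u * t))) hw1 hw2 hw3
    simp only [smul_eq_mul] at hc
    have e1 : (t + f a) / (2 * t) * (u * t) + (t - f a) / (2 * t) * -(u * t) = u * f a := by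
      field_simp; ring
    rw [e1] at hc
    refine hc.trans (le_of_eq ?_)
    rw [Real.cosh_eq, Real.sinh_eq]
    field_simp
    ring
  calc ∑ a, p a * Real.exp (u * f a)
      ≤ ∑ a, p a * (Real.cosh (u * t) + f a * (Real.sinh (u * t) / t)) :=
        Finset.sum_le_sum fun a _ => mul_le_mul_of_nonneg_left (key a) (hp a)
    _ = Real.cosh (u * t) * ∑ a, p a + (Real.sinh (u * t) / t) * ∑ a, p a * f a := by
        rw [Finset.mul_sum, Finset.mul_sum, ← Finset.sum_add_distrib]
        exact Finset.sum_congr rfl fun a _ => by ring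
    _ = Real.cosh (u * t) := by rw [hp1, hf0]; ring
    _ ≤ Real.exp ((u * t) ^ 2 / 2) := Real.cosh_le_exp_half_sq _
    _ = Real.exp (u ^ 2 * t ^ 2 / 2) := by rw [mul_pow]

/-- exponential moment of the sum in the product space -/
theorem exp_moment_prod {α : Type*} [Fintype α] (p f : α → ℝ) (t : ℝ) (hp : ∀ a, 0 ≤ p a)
    (hp1 : ∑ a, p a = 1) (hf0 : ∑ a, p a * f a = 0) (hf : ∀ a, |f a| ≤ t) (ht : 0 < t) (m : ℕ)
    (u : ℝ) :
    ∑ c : Fin m → α, (∏ i, p (c i)) * Real.exp (u * ∑ i, f (c i)) ≤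
      Real.exp (u ^ 2 * (t ^ 2 * m) / 2) := by
  have e1 : ∀ c : Fin m → α, (∏ i, p (c i)) * Real.exp (u * ∑ i, f (c i)) =
      ∏ i, (p (c i) * Real.exp (u * f (c i))) := by
    intro c
    rw [Finset.prod_mul_distrib, Finset.mul_sum, Real.exp_sum]
  have e2 := Fintype.sum_pow (fun a => p a * Real.exp (u * f a)) m
  rw [Finset.sum_congr rfl (fun c _ => e1 c), ← e2]
  have h1 := exp_moment p f t hp hp1 hf0 hf ht u
  have h0 : 0 ≤ ∑ a, p a * Real.exp (u * f a) :=
    Finset.sum_nonneg fun a _ => mul_nonneg (hp a) (Real.exp_pos _).le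
  refine (pow_le_pow_left₀ h0 h1 m).trans (le_of_eq ?_)
  rw [← Real.exp_nat_mul]
  congr 1
  ring

theorem prod_one_add_le (m : ℕ) (x : Fin m → ℝ) (h : ∀ i, -1 ≤ x i) :
    0 ≤ ∏ i, (1 + x i) ∧ ∏ i, (1 + x i) ≤ Real.exp (∑ i, x i) := by
  constructor
  · exact Finset.prod_nonneg fun i _ => by linarith [h i]
  · rw [Real.exp_sum]
    exact Finset.prod_le_prod (fun i _ => by linarith [h i])
      fun i _ => by linarith [Real.add_one_le_exp (x i)]

theorem exp_le_prod (m : ℕ) (x : Fin m → ℝ) (t : ℝ) (ht : t ≤ 1 / 2) (h : ∀ i, |x i| ≤ t) :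
    Real.exp (∑ i, x i - 2 * (t ^ 2 * m)) ≤ ∏ i, (1 + x i) := by
  have h1 : ∀ i, Real.exp (x i - 2 * t ^ 2) ≤ 1 + x i := by
    intro i
    have ha := (abs_le.1 (h i)).1
    have hb := (abs_le.1 (h i)).2
    have hpos : 0 < 1 + x i := by linarith
    have hl := Real.one_sub_inv_le_log_of_pos hpos
    have h2 : x i - 2 * t ^ 2 ≤ 1 - (1 + x i)⁻¹ := by
      have e : 1 - (1 + x i)⁻¹ = x i - x i ^ 2 / (1 + x i) := by field_simp; ring
      rw [e]
      have : x i ^ 2 / (1 + x i) ≤ 2 * t ^ 2 := by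
        rw [div_le_iff₀ hpos]
        have h3 : x i ^ 2 ≤ t ^ 2 := sq_le_sq' (by linarith) hb
        have h4 : 0 ≤ t ^ 2 := sq_nonneg t
        nlinarith
      linarith
    calc Real.exp (x i - 2 * t ^ 2) ≤ Real.exp (Real.log (1 + x i)) :=
          Real.exp_le_exp.2 (h2.trans hl)
      _ = 1 + x i := Real.exp_log hpos
  have e2 : Real.exp (∑ i, x i - 2 * (t ^ 2 * m)) = ∏ i, Real.exp (x i - 2 * t ^ 2) := by
    rw [← Real.exp_sum, Finset.sum_sub_distrib]
    simp only [Finset.sum_const, Finset.card_univ, Fintype.card_fin, nsmul_eq_mul]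
    congr 1
    ring
  rw [e2]
  exact Finset.prod_le_prod (fun i _ => (Real.exp_pos _).le) fun i _ => h1 i

/-- on the good event the product is close to `1` -/
theorem good_bound (m : ℕ) (x : Fin m → ℝ) (t Λ : ℝ) (ht : 0 ≤ t) (ht2 : t ≤ 1 / 2)
    (hΛ : 1 ≤ Λ) (h : t * Λ * √(m : ℝ) ≤ 1 / 8) (hx : ∀ i, |x i| ≤ t)
    (hg : |∑ i, x i| ≤ 2 * (t * Λ * √(m : ℝ))) :
    |∏ i, (1 + x i) - 1| ≤ 4 * (t * Λ * √(m : ℝ)) := by
  set y := t * Λ * √(m : ℝ) with hy
  have hy0 : 0 ≤ y := by positivity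
  obtain ⟨h1, h2⟩ := prod_one_add_le m x (fun i => by linarith [(abs_le.1 (hx i)).1])
  have h3 := exp_le_prod m x t ht2 hx
  have htm : t ^ 2 * m ≤ y / 8 := by
    have e : t ^ 2 * m = (t * √(m : ℝ)) ^ 2 := by
      rw [mul_pow, Real.sq_sqrt (Nat.cast_nonneg m)]
    rw [e]
    have h5 : t * √(m : ℝ) ≤ y := by
      have h6 : 0 ≤ t * √(m : ℝ) := by positivity
      have : y = Λ * (t * √(m : ℝ)) := by rw [hy]; ring
      rw [this]
      nlinarith
    have h6 : 0 ≤ t * √(m : ℝ) := by positivity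
    nlinarith
  have hS := abs_le.1 hg
  rw [abs_le]
  constructor
  · have h5 : -(4 * y) + 1 ≤ Real.exp (∑ i, x i - 2 * (t ^ 2 * m)) := by
      refine le_trans ?_ (Real.add_one_le_exp _)
      linarith [hS.1]
    linarith
  · have h5 : Real.exp (∑ i, x i) ≤ 1 + 4 * y := by
      have h6 : Real.exp (∑ i, x i) ≤ Real.exp (2 * y) := Real.exp_le_exp.2 hS.2
      have h7 : 1 - 2 * y ≤ Real.exp (-(2 * y)) := by linarith [Real.add_one_le_exp (-(2 * y))]
      have h8 : Real.exp (2 * y) * (1 - 2 * y) ≤ 1 := by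
        have := mul_le_mul_of_nonneg_left h7 (Real.exp_pos (2 * y)).le
        rwa [← Real.exp_add, add_neg_cancel, Real.exp_zero] at this
      have h9 : Real.exp (2 * y) ≤ 1 + 4 * y := by
        have hpos : 0 < 1 - 2 * y := by linarith
        have : Real.exp (2 * y) ≤ 1 / (1 - 2 * y) := by rw [le_div_iff₀ hpos]; exact h8
        refine this.trans ?_
        rw [div_le_iff₀ hpos]
        nlinarith
      linarith
    linarith

open Classical in
/-- the bad event -/
theorem bad_bound {α : Type*} [Fintype α] (p f : α → ℝ) (t : ℝ) (hp : ∀ a, 0 ≤ p a)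
    (hp1 : ∑ a, p a = 1) (hf0 : ∑ a, p a * f a = 0) (hf : ∀ a, |f a| ≤ t) (ht : 0 < t)
    (ht1 : t ≤ 1 / 2) (m : ℕ) (hm : 1 ≤ m) (Λ : ℝ) (hΛ : 1 ≤ Λ) (h : t * Λ * √(m : ℝ) ≤ 1 / 8) :
    ∑ c : Fin m → α, (if 2 * (t * Λ * √(m : ℝ)) < |∑ i, f (c i)| then
      (∏ i, p (c i)) * |∏ i, (1 + f (c i)) - 1| else 0) ≤ 8 * Real.exp (-Λ ^ 2 / 8) := by
  set y := t * √(m : ℝ) with hy
  have hm' : (0 : ℝ) < √(m : ℝ) := Real.sqrt_pos.2 (by exact_mod_cast hm)
  have hy0 : 0 < y := mul_pos ht hm'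
  have hyL : y * Λ ≤ 1 / 8 := by
    have : y * Λ = t * Λ * √(m : ℝ) := by rw [hy]; ring
    rw [this]; exact h
  have hy2 : y ^ 2 = t ^ 2 * m := by
    rw [hy, mul_pow, Real.sq_sqrt (Nat.cast_nonneg m)]
  set s := Λ / y with hs
  have hs0 : 0 < s := by positivity
  have hsy : s * y = Λ := by rw [hs]; field_simp
  set w : (Fin m → α) → ℝ := fun c => ∏ i, p (c i) with hw
  have hw0 : ∀ c, 0 ≤ w c := fun c => Finset.prod_nonneg fun i _ => hp _
  set T : (Fin m → α) → ℝ := fun c => ∑ i, f (c i) with hT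
  have key : ∀ c : Fin m → α, (if 2 * (t * Λ * √(m : ℝ)) < |T c| then
      w c * |∏ i, (1 + f (c i)) - 1| else 0) ≤
      Real.exp (-(2 * Λ ^ 2)) * (w c * Real.exp ((1 + s) * T c) +
        w c * Real.exp ((1 - s) * T c) + w c * Real.exp (s * T c) +
        w c * Real.exp (-s * T c)) := by
    intro c
    have hpos : 0 ≤ w c * Real.exp ((1 + s) * T c) +
        w c * Real.exp ((1 - s) * T c) + w c * Real.exp (s * T c) +
        w c * Real.exp (-s * T c) := by
      have := hw0 c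
      positivity
    split_ifs with hc
    · obtain ⟨h1, h2⟩ := prod_one_add_le m (fun i => f (c i))
        (fun i => by linarith [(abs_le.1 (hf (c i))).1])
      have h3 : |∏ i, (1 + f (c i)) - 1| ≤ Real.exp (T c) + 1 := by
        rw [abs_le]; constructor <;> linarith
      have h4 : 1 ≤ Real.exp (-(2 * Λ ^ 2)) * (Real.exp (s * T c) + Real.exp (-s * T c)) := by
        have e1 : 2 * Λ ^ 2 ≤ s * |T c| := by
          have : 2 * Λ ^ 2 = s * (2 * (t * Λ * √(m : ℝ))) := by
            have : t * Λ * √(m : ℝ) = y * Λ := by rw [hy]; ring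
            rw [this]
            have : s * (2 * (y * Λ)) = 2 * (s * y) * Λ := by ring
            rw [this, hsy]; ring
          rw [this]
          exact mul_le_mul_of_nonneg_left hc.le hs0.le
        have e2 : Real.exp (2 * Λ ^ 2) ≤ Real.exp (s * T c) + Real.exp (-s * T c) := by
          rcases abs_cases (T c) with ⟨h5, _⟩ | ⟨h5, _⟩
          · rw [h5] at e1
            have := Real.exp_le_exp.2 e1
            have := Real.exp_pos (-s * T c)
            linarith
          · rw [h5] at e1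
            have e3 : s * -T c = -s * T c := by ring
            rw [e3] at e1
            have := Real.exp_le_exp.2 e1
            have := Real.exp_pos (s * T c)
            linarith
        have e4 := mul_le_mul_of_nonneg_left e2 (Real.exp_pos (-(2 * Λ ^ 2))).le
        rwa [← Real.exp_add, neg_add_cancel, Real.exp_zero] at e4
      have h5 : 0 ≤ Real.exp (T c) + 1 := by positivity
      calc w c * |∏ i, (1 + f (c i)) - 1| ≤ w c * (Real.exp (T c) + 1) :=
            mul_le_mul_of_nonneg_left h3 (hw0 c)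
        _ = w c * (Real.exp (T c) + 1) * 1 := by ring
        _ ≤ w c * (Real.exp (T c) + 1) *
            (Real.exp (-(2 * Λ ^ 2)) * (Real.exp (s * T c) + Real.exp (-s * T c))) :=
            mul_le_mul_of_nonneg_left h4 (mul_nonneg (hw0 c) h5)
        _ = _ := by
            have e5 : Real.exp ((1 + s) * T c) = Real.exp (T c) * Real.exp (s * T c) := by
              rw [← Real.exp_add]; congr 1; ring
            have e6 : Real.exp ((1 - s) * T c) = Real.exp (T c) * Real.exp (-s * T c) := by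
              rw [← Real.exp_add]; congr 1; ring
            rw [e5, e6]; ring
    · exact mul_nonneg (Real.exp_pos _).le hpos
  have hE : ∀ u : ℝ, |u| ≤ 1 + s → ∑ c, w c * Real.exp (u * T c) ≤
      Real.exp ((9 / 8 * Λ) ^ 2 / 2) := by
    intro u hu
    refine (exp_moment_prod p f t hp hp1 hf0 hf ht m u).trans (Real.exp_le_exp.2 ?_)
    rw [← hy2, ← mul_pow]
    have h1 : |u * y| ≤ 9 / 8 * Λ := by
      rw [abs_mul, abs_of_pos hy0]
      calc |u| * y ≤ (1 + s) * y := mul_le_mul_of_nonneg_right hu hy0.le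
        _ = y + s * y := by ring
        _ ≤ 9 / 8 * Λ := by rw [hsy]; nlinarith
    have h2 : (u * y) ^ 2 ≤ (9 / 8 * Λ) ^ 2 := by
      rw [← sq_abs]; exact pow_le_pow_left₀ (abs_nonneg _) h1 2
    linarith
  calc _ ≤ ∑ c, Real.exp (-(2 * Λ ^ 2)) * (w c * Real.exp ((1 + s) * T c) +
        w c * Real.exp ((1 - s) * T c) + w c * Real.exp (s * T c) +
        w c * Real.exp (-s * T c)) := Finset.sum_le_sum fun c _ => key c
    _ = Real.exp (-(2 * Λ ^ 2)) * (∑ c, w c * Real.exp ((1 + s) * T c) +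
        ∑ c, w c * Real.exp ((1 - s) * T c) + ∑ c, w c * Real.exp (s * T c) +
        ∑ c, w c * Real.exp (-s * T c)) := by
        rw [← Finset.mul_sum, Finset.sum_add_distrib, Finset.sum_add_distrib,
          Finset.sum_add_distrib]
    _ ≤ Real.exp (-(2 * Λ ^ 2)) * (4 * Real.exp ((9 / 8 * Λ) ^ 2 / 2)) := by
        refine mul_le_mul_of_nonneg_left ?_ (Real.exp_pos _).le
        have a1 := hE (1 + s) (by rw [abs_of_pos (by linarith)])
        have a2 := hE (1 - s) (by rw [abs_le]; constructor <;> linarith)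
        have a3 := hE s (by rw [abs_of_pos hs0]; linarith)
        have a4 := hE (-s) (by rw [abs_neg, abs_of_pos hs0]; linarith)
        linarith
    _ = 4 * Real.exp (-(2 * Λ ^ 2) + (9 / 8 * Λ) ^ 2 / 2) := by
        rw [Real.exp_add]; ring
    _ ≤ 4 * Real.exp (-Λ ^ 2 / 8) := by
        refine mul_le_mul_of_nonneg_left (Real.exp_le_exp.2 ?_) (by norm_num)
        nlinarith [sq_nonneg Λ]
    _ ≤ 8 * Real.exp (-Λ ^ 2 / 8) := by
        have := Real.exp_pos (-Λ ^ 2 / 8)
        linarith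

/-- product perturbation -/
theorem prodpert {P ρ : Alg} {t : ℝ} (hP : Prob P) (hρ : Bd t P ρ) (hm : mass ρ = 0) (ht : 0 ≤ t)
    (m : ℕ) (Λ : ℝ) (hΛ : 1 ≤ Λ) (h : t * Λ * √(m : ℝ) ≤ 1 / 8) :
    Dom (4 * t * Λ * √(m : ℝ)) (8 * Real.exp (-Λ ^ 2 / 8)) (P ^ m) ((P + ρ) ^ m - P ^ m) := by
  classical
  have hξ : (0 : ℝ) ≤ 8 * Real.exp (-Λ ^ 2 / 8) := by positivity
  have ht4 : 0 ≤ 4 * t * Λ * √(m : ℝ) := by positivity
  have hPm : ∀ z, 0 ≤ (P ^ m).coeff z := by
    have hgen : ∀ k : ℕ, Nonneg (P ^ k) := by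
      intro k
      have e := push_supp P.coeff.support P (Finset.Subset.refl _)
      rw [← ofFn_pow, ← e, push_prod]
      exact push_nonneg _ _ fun c => Finset.prod_nonneg fun i _ => hP.1 _
    exact hgen m
  have htriv : (P + ρ) ^ m - P ^ m = 0 →
      Dom (4 * t * Λ * √(m : ℝ)) (8 * Real.exp (-Λ ^ 2 / 8)) (P ^ m) ((P + ρ) ^ m - P ^ m) := by
    intro h0
    rw [h0]
    refine ⟨0, fun z => ?_, ?_, fun z => ?_⟩
    · rw [MonoidAlgebra.coeff_zero]; exact le_refl 0
    · have : mass 0 = 0 := by simp [mass]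
      rw [this]; exact hξ
    · rw [MonoidAlgebra.coeff_zero]
      have := mul_nonneg ht4 (hPm z)
      simpa using this
  rcases Nat.eq_zero_or_pos m with hm0 | hm1
  · subst hm0
    exact htriv (by simp)
  rcases ht.eq_or_lt with ht0 | ht0
  · have hρ0 : ρ = 0 := by
      apply MonoidAlgebra.ext
      ext z
      have := hρ z
      rw [← ht0, zero_mul] at this
      rw [MonoidAlgebra.coeff_zero]
      exact abs_nonpos_iff.1 this
    exact htriv (by rw [hρ0, add_zero, sub_self])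
  -- the support of `P`
  set S := P.coeff.support with hS
  have hsupp : ρ.coeff.support ⊆ S := by
    intro z hz
    rw [hS, Finsupp.mem_support_iff]
    intro h0
    have := hρ z
    rw [h0, mul_zero] at this
    exact (Finsupp.mem_support_iff.1 hz) (abs_nonpos_iff.1 this)
  set p : S → ℝ := fun a => P.coeff (a : Wd) with hp
  set f : S → ℝ := fun a => ρ.coeff (a : Wd) / P.coeff (a : Wd) with hf
  have hppos : ∀ a, 0 < p a := fun a =>
    lt_of_le_of_ne (hP.1 _) (Ne.symm (Finsupp.mem_support_iff.1 a.2))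
  have hpf : ∀ a, p a * f a = ρ.coeff (a : Wd) := by
    intro a
    have := (hppos a).ne'
    simp only [hf, hp] at this ⊢
    field_simp
  have eP : push (fun a : S => (a : Wd)) p = P := push_supp S P (Finset.Subset.refl _)
  have eρ : push (fun a : S => (a : Wd)) (fun a => p a * f a) = ρ := by
    rw [funext hpf]; exact push_supp S ρ hsupp
  have hp1 : ∑ a, p a = 1 := by rw [← push_mass (fun a : S => (a : Wd)), eP]; exact hP.2
  have hf0 : ∑ a, p a * f a = 0 := by
    rw [← push_mass (fun a : S => (a : Wd)), eρ]; exact hm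
  have hft : ∀ a, |f a| ≤ t := by
    intro a
    have h1 := hρ (a : Wd)
    rw [hf]
    simp only
    rw [abs_div, abs_of_pos (hppos a), div_le_iff₀ (hppos a)]
    exact h1
  have hm1' : (1 : ℝ) ≤ √(m : ℝ) := by
    rw [Real.one_le_sqrt]; exact_mod_cast hm1
  have ht12 : t ≤ 1 / 2 := by
    have h1 : t ≤ t * Λ := by nlinarith
    have h2 : t * Λ ≤ t * Λ * √(m : ℝ) := by
      have : 0 ≤ t * Λ := by positivity
      nlinarith
    linarith
  have eQ : push (fun a : S => (a : Wd)) (fun a => p a * (1 + f a)) = P + ρ := by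
    rw [← eP, ← eρ, push_add]
    congr 1
    funext a
    ring
  have e1 : (P + ρ) ^ m = push (fun c : Fin m → S => (List.ofFn (fun i => (c i : Wd))).prod)
      (fun c => ∏ i, (p (c i) * (1 + f (c i)))) := by
    rw [← ofFn_pow, ← eQ, push_prod m (fun a : S => (a : Wd)) (fun _ a => p a * (1 + f a))]
  have e2 : P ^ m = push (fun c : Fin m → S => (List.ofFn (fun i => (c i : Wd))).prod)
      (fun c => ∏ i, p (c i)) := by
    conv_lhs => rw [← ofFn_pow, ← eP]
    rw [push_prod m (fun a : S => (a : Wd)) (fun _ a => p a)]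
  rw [e1, e2, push_sub]
  refine push_dom _ _ _ (fun c => if 2 * (t * Λ * √(m : ℝ)) < |∑ i, f (c i)| then
      (∏ i, p (c i)) * |∏ i, (1 + f (c i)) - 1| else 0) _ _ ?_ ?_ ?_
  · intro c
    split_ifs
    · exact mul_nonneg (Finset.prod_nonneg fun i _ => (hppos _).le) (abs_nonneg _)
    · exact le_refl 0
  · exact bad_bound p f t (fun a => (hppos a).le) hp1 hf0 hft ht0 ht12 m hm1 Λ hΛ h
  · intro c
    have hw : 0 ≤ ∏ i, p (c i) := Finset.prod_nonneg fun i _ => (hppos _).le
    have e3 : ∏ i, (p (c i) * (1 + f (c i))) - ∏ i, p (c i) =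
        (∏ i, p (c i)) * (∏ i, (1 + f (c i)) - 1) := by
      rw [Finset.prod_mul_distrib]; ring
    rw [e3, abs_mul, abs_of_nonneg hw]
    split_ifs with hc
    · have := mul_nonneg ht4 hw
      linarith
    · have hg := good_bound m (fun i => f (c i)) t Λ ht ht12 hΛ h (fun i => hft _) (not_lt.1 hc)
      have := mul_le_mul_of_nonneg_left hg hw
      linarith

end Vale.Agent.P321
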