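import Vale.Agent.P321.Defs

/-!
# P321: image measures on words
-/

namespace Vale.Agent.P321

open Finset

/-- image of the weights `g` under `w` -/
noncomputable def push {α : Type*} [Fintype α] (w : α → Wd) (g : α → ℝ) : Alg :=
  ∑ a, MonoidAlgebra.single (w a) (g a)

section
variable {α : Type*} [Fintype α]

open Classical in
theorem push_coeff (w : α → Wd) (g : α → ℝ) (z : Wd) :
    (push w g).coeff z = ∑ a, if w a = z then g a else 0 := by
  unfold push
  rw [MonoidAlgebra.coeff_sum, Finsupp.finsetSum_apply]
  refine Finset.sum_congr rfl fun a _ => ?_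
  rw [MonoidAlgebra.coeff_single, Finsupp.single_apply]

theorem push_nonneg (w : α → Wd) (g : α → ℝ) (hg : ∀ a, 0 ≤ g a) : Nonneg (push w g) := by
  classical
  intro z
  rw [push_coeff]
  refine Finset.sum_nonneg fun a _ => ?_
  split_ifs
  · exact hg a
  · exact le_refl 0

theorem push_mass (w : α → Wd) (g : α → ℝ) : mass (push w g) = ∑ a, g a := by
  have h : ∀ F : Alg, mass F = F.coeff.sum (fun _ x => x) := fun F => rfl
  rw [h]
  unfold push
  rw [MonoidAlgebra.coeff_sum, ← Finsupp.sum_finsetSum_index (fun _ => rfl) (fun _ _ _ => rfl)]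
  refine Finset.sum_congr rfl fun a _ => ?_
  rw [MonoidAlgebra.coeff_single, Finsupp.sum_single_index rfl]

theorem push_add (w : α → Wd) (g g' : α → ℝ) :
    push w g + push w g' = push w (fun a => g a + g' a) := by
  unfold push
  rw [← Finset.sum_add_distrib]
  exact Finset.sum_congr rfl fun a _ => (MonoidAlgebra.single_add _ _ _).symm

theorem push_sub (w : α → Wd) (g g' : α → ℝ) :
    push w g - push w g' = push w (fun a => g a - g' a) := by
  rw [sub_eq_iff_eq_add, push_add]
  congr 1
  funext a
  ring

theorem push_smul (w : α → Wd) (c : ℝ) (g : α → ℝ) :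
    c • push w g = push w (fun a => c * g a) := by
  unfold push
  rw [Finset.smul_sum]
  exact Finset.sum_congr rfl fun a _ => by rw [MonoidAlgebra.smul_single, smul_eq_mul]

theorem push_sum {ι : Type*} (s : Finset ι) (w : α → Wd) (g : ι → α → ℝ) :
    ∑ i ∈ s, push w (g i) = push w (fun a => ∑ i ∈ s, g i a) := by
  classical
  induction s using Finset.induction_on with
  | empty => simp [push]
  | insert i s hi ih =>
    rw [Finset.sum_insert hi, ih, push_add]
    congr 1
    funext a
    rw [Finset.sum_insert hi]

/-- every element supported in `S` is an image measure -/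
theorem push_supp (S : Finset Wd) (F : Alg) (hF : F.coeff.support ⊆ S) :
    push (fun a : S => (a : Wd)) (fun a : S => F.coeff (a : Wd)) = F := by
  classical
  apply MonoidAlgebra.ext
  ext z
  rw [push_coeff]
  by_cases hz : z ∈ S
  · rw [Finset.sum_eq_single (⟨z, hz⟩ : S)]
    · simp
    · intro b _ hb
      rw [if_neg]
      intro h
      exact hb (Subtype.ext h)
    · intro h; exact absurd (Finset.mem_univ _) h
  · have h0 : F.coeff z = 0 := by
      by_contra h
      exact hz (hF (Finsupp.mem_support_iff.2 h))
    rw [h0]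
    refine Finset.sum_eq_zero fun a _ => ?_
    rw [if_neg]
    intro h
    exact hz (h ▸ a.2)

/-- products: independent concatenation -/
theorem push_prod (m : ℕ) (w : α → Wd) (g : Fin m → α → ℝ) :
    (List.ofFn (fun i : Fin m => push w (g i))).prod =
      push (fun c : Fin m → α => (List.ofFn (fun i => w (c i))).prod)
        (fun c => ∏ i, g i (c i)) := by
  induction m with
  | zero =>
    simp only [List.ofFn_zero, List.prod_nil, Finset.univ_eq_empty, Finset.prod_empty]
    unfold push
    rw [Fintype.sum_unique]
    rfl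
  | succ m ih =>
    rw [List.ofFn_succ, List.prod_cons, ih (fun i => g i.succ)]
    unfold push
    rw [← (Fin.consEquiv fun _ : Fin (m + 1) => α).sum_comp, Fintype.sum_prod_type,
      Finset.sum_mul]
    refine Finset.sum_congr rfl fun a _ => ?_
    rw [Finset.mul_sum]
    refine Finset.sum_congr rfl fun c _ => ?_
    simp only [MonoidAlgebra.single_mul_single, List.ofFn_succ, List.prod_cons,
      Fin.prod_univ_succ]
    simp [Fin.consEquiv]

/-- domination is inherited by images -/
theorem push_dom (w : α → Wd) (g G R : α → ℝ) (t ξ : ℝ) (hR : ∀ a, 0 ≤ R a)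
    (hξ : ∑ a, R a ≤ ξ) (h : ∀ a, |g a| ≤ t * G a + R a) : Dom t ξ (push w G) (push w g) := by
  classical
  refine ⟨push w R, push_nonneg w R hR, by rw [push_mass]; exact hξ, fun z => ?_⟩
  rw [push_coeff, push_coeff, push_coeff, Finset.mul_sum, ← Finset.sum_add_distrib]
  refine (Finset.abs_sum_le_sum_abs _ _).trans (Finset.sum_le_sum fun a _ => ?_)
  split_ifs
  · exact h a
  · simp

end

theorem ofFn_pow (m : ℕ) (X : Alg) : (List.ofFn (fun _ : Fin m => X)).prod = X ^ m := by
  rw [List.ofFn_const, List.prod_replicate]

theorem mon_ofFn (A d : Alg) (M : ℕ) (I : Finset ℕ) :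
    mon A d M I = (List.ofFn (fun i : Fin M => if (i : ℕ) ∈ I then d else A)).prod := by
  unfold mon
  congr 1
  apply List.ext_getElem
  · simp
  · intro n h1 h2
    simp

end Vale.Agent.P321
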