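import Vale.Agent.P321.Defs

/-! # P321, explicit rate: definitions -/

namespace Vale.Agent.P321

open Finset

/-- explicit systems at base scale `n`, with exceptional mass `n^(-c)` -/
def SysN (q : ℝ) (n : ℕ) (x y l c : ℝ) : Prop :=
  ∃ wA wB : Wd, wA.length = wB.length ∧ wA ≠ wB ∧ (1 ≤ wA.length) ∧
    (wA.length : ℝ) ≤ (n : ℝ) ^ l ∧ Smooth ((n : ℝ) ^ x) (tr q wA) ∧
    Dom ((n : ℝ) ^ (-y)) ((n : ℝ) ^ (-c)) (tr q wA) (tr q wB - tr q wA)

end Vale.Agent.P321
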