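import Vale.Agent.P321.BaseDom2
import Vale.Agent.P321.Words
import Vale.Agent.P321.RDefs

/-! Explicit rate: the base system. -/

namespace Vale.Agent.P321

open Finset

theorem base_dom_n {q : ℝ} (h0 : 0 < q) (h1 : q < 1) (ε : ℝ) (hε : 0 < ε) : ∃ c : ℝ, 0 < c ∧
    ∀ᶠ g : ℕ in Filter.atTop, Dom ((g : ℝ) ^ (-(3 / 4 : ℝ) + ε))
      (Real.exp (-c * (Real.log g) ^ 2))
      (tr q wU ^ g * tr q wV * tr q wU ^ g)
      (tr q wU ^ (g + 1) * tr q wV * tr q wU ^ (g - 1) - tr q wU ^ g * tr q wV * tr q wU ^ g) :=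
  base_dom2 h0 h1 ε hε

theorem base_sys_n {q : ℝ} (h0 : 0 < q) (h1 : q < 1) : ∃ c : ℝ, 0 < c ∧
    ∀ᶠ n : ℕ in Filter.atTop,
      SysN q n (101 / 100) (74 / 100) (11 / 10) (c * Real.log n) := by
  obtain ⟨c, hc, h⟩ := base_dom2 h0 h1 (1 / 100) (by norm_num)
  refine ⟨c, hc, ?_⟩
  have e3 : ∀ᶠ n : ℕ in Filter.atTop, (5 : ℝ) ≤ (n : ℝ) ^ (1 / 10 : ℝ) :=
    ((tendsto_rpow_atTop (by norm_num)).comp tendsto_natCast_atTop_atTop).eventually_ge_atTop 5
  filter_upwards [base_array h0 h1 (1 / 100) (by norm_num), h, e3,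
    Filter.eventually_ge_atTop 5] with n k1 k2 k3 k4
  have hn : (5 : ℝ) ≤ n := by exact_mod_cast k4
  have hn0 : (0 : ℝ) < n := by linarith
  have hlA : (wU ^ n * wV * wU ^ n).length = 4 * n + 1 := by
    rw [FreeMonoid.length_mul, FreeMonoid.length_mul, len_pow, len_U, len_V]; ring
  have hlB : (wU ^ (n + 1) * wV * wU ^ (n - 1)).length = 4 * n + 1 := by
    rw [FreeMonoid.length_mul, FreeMonoid.length_mul, len_pow, len_pow, len_U, len_V]; omega
  refine ⟨wU ^ n * wV * wU ^ n, wU ^ (n + 1) * wV * wU ^ (n - 1), by rw [hlA, hlB], ?_, ?_, ?_,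
    ?_, ?_⟩
  · intro he
    obtain ⟨m, rfl⟩ : ∃ m, n = m + 1 := ⟨n - 1, by omega⟩
    have r1 : wU ^ (m + 1) * wV * wU ^ (m + 1) = wU ^ (m + 1) * (wV * wU * wU ^ m) := by
      rw [pow_succ' wU m]; simp only [mul_assoc]
    have r2 : wU ^ (m + 1 + 1) * wV * wU ^ (m + 1 - 1) = wU ^ (m + 1) * (wU * wV * wU ^ m) := by
      rw [pow_succ wU (m + 1), Nat.add_sub_cancel]; simp only [mul_assoc]
    rw [r1, r2] at he
    have k := (mul_inj_len _ _ _ _ rfl he).2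
    exact UV_ne (mul_inj_len _ _ _ _ (by
      rw [FreeMonoid.length_mul, FreeMonoid.length_mul, len_U, len_V]) k).1
  · rw [hlA]; omega
  · have e : (11 / 10 : ℝ) = 1 + 1 / 10 := by norm_num
    rw [hlA, e, Real.rpow_add hn0, Real.rpow_one]
    push_cast
    nlinarith
  · have : tr q (wU ^ n * wV * wU ^ n) = tr q wU ^ n * tr q wV * tr q wU ^ n := by
      rw [tr_mul, tr_mul, tr_pow]
    rw [this]
    have e : (101 / 100 : ℝ) = 1 + 1 / 100 := by norm_num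
    rw [e]
    exact k1
  · have a1 : tr q (wU ^ n * wV * wU ^ n) = tr q wU ^ n * tr q wV * tr q wU ^ n := by
      rw [tr_mul, tr_mul, tr_pow]
    have a2 : tr q (wU ^ (n + 1) * wV * wU ^ (n - 1))
        = tr q wU ^ (n + 1) * tr q wV * tr q wU ^ (n - 1) := by
      rw [tr_mul, tr_mul, tr_pow, tr_pow]
    rw [a1, a2]
    have e1 : -(74 / 100 : ℝ) = -(3 / 4 : ℝ) + 1 / 100 := by norm_num
    have e2 : (n : ℝ) ^ (-(c * Real.log n)) = Real.exp (-c * Real.log n ^ 2) := by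
      rw [Real.rpow_def_of_pos hn0]
      congr 1
      ring
    rw [e1, e2]
    exact k2

end Vale.Agent.P321
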