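import Vale.Agent.P321.Expand
import Vale.Agent.P321.Dom
import Vale.Agent.P321.FineAux

/-! # P321, explicit rate, R1: polynomial bounds -/

namespace Vale.Agent.P321

open Finset

/-- the sum over the subsets with at least `k` elements -/
theorem sum_pow_card_succ (k r : ℕ) (s : ℝ) :
    ∑ I ∈ (range (r + 1)).powerset.filter (fun I => k + 1 ≤ I.card), s ^ I.card
      = ∑ I ∈ (range r).powerset.filter (fun I => k + 1 ≤ I.card), s ^ I.card
        + s * ∑ I ∈ (range r).powerset.filter (fun I => k ≤ I.card), s ^ I.card := by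
  rw [Finset.sum_filter, Finset.sum_filter, Finset.sum_filter, Finset.range_add_one,
    Finset.sum_powerset_insert Finset.notMem_range_self, Finset.mul_sum]
  congr 1
  refine Finset.sum_congr rfl fun I hI => ?_
  have hr : r ∉ I := fun h => Finset.notMem_range_self (Finset.mem_powerset.mp hI h)
  rw [Finset.card_insert_of_notMem hr]
  by_cases h : k ≤ I.card
  · rw [if_pos (by omega), if_pos h, pow_succ]; ring
  · rw [if_neg (by omega), if_neg h, mul_zero]

theorem sum_pow_card_zero (r : ℕ) (s : ℝ) :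
    ∑ I ∈ (range r).powerset.filter (fun I => 0 ≤ I.card), s ^ I.card = (1 + s) ^ r := by
  have : (range r).powerset.filter (fun I => 0 ≤ I.card) = (range r).powerset := by
    ext I; simp
  rw [this]
  have h := Finset.sum_pow_mul_eq_add_pow s 1 (range r)
  simp only [one_pow, mul_one, Finset.card_range] at h
  rw [h, add_comm]

theorem sum_pow_card (k r : ℕ) (hk : 1 ≤ k) (s : ℝ) (hs : 0 ≤ s) (hrs : r * s ≤ 1) :
    ∑ I ∈ (range r).powerset.filter (fun I => k ≤ I.card), s ^ I.card ≤ 2 * (r * s) ^ k := by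
  induction r generalizing k with
  | zero =>
    have : (range 0).powerset.filter (fun I => k ≤ I.card) = ∅ := by
      rw [Finset.range_zero, Finset.powerset_empty]
      ext I
      simp only [Finset.mem_filter, Finset.mem_singleton, Finset.notMem_empty, iff_false, not_and]
      rintro rfl
      simp only [Finset.card_empty]
      omega
    rw [this, Finset.sum_empty]
    positivity
  | succ r ih =>
    have hr : (r : ℝ) * s ≤ 1 := by
      push_cast at hrs
      nlinarith
    obtain ⟨k', rfl⟩ : ∃ k', k = k' + 1 := ⟨k - 1, by omega⟩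
    rw [sum_pow_card_succ]
    have h1 := ih (k' + 1) (by omega) hr
    rcases Nat.eq_zero_or_pos k' with h0 | h0
    · subst h0
      rw [sum_pow_card_zero]
      -- `(1+s)^r ≤ 2`: use the sharper form for `k = 1`
      have key : ∀ r : ℕ, (r : ℝ) * s ≤ 1 →
          ∑ I ∈ (range r).powerset.filter (fun I => 0 + 1 ≤ I.card), s ^ I.card
            = (1 + s) ^ r - 1 := by
        intro r _
        induction r with
        | zero =>
          have : (range 0).powerset.filter (fun I => 0 + 1 ≤ I.card) = ∅ := by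
            rw [Finset.range_zero, Finset.powerset_empty]
            ext I
            simp only [Finset.mem_filter, Finset.mem_singleton, Finset.notMem_empty, iff_false,
              not_and]
            rintro rfl
            simp
          rw [this, Finset.sum_empty]; simp
        | succ r ih2 =>
          have h2 : (r : ℝ) * s ≤ 1 := by
            rename_i h3
            push_cast at h3
            nlinarith
          rw [sum_pow_card_succ, ih2 h2, sum_pow_card_zero, pow_succ]
          ring
      rw [key r hr]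
      have e1 : (1 + s) ^ r - 1 + s * (1 + s) ^ r = (1 + s) ^ (r + 1) - 1 := by
        rw [pow_succ]; ring
      rw [e1]
      have h3 : (1 + s) ^ (r + 1) ≤ Real.exp (((r + 1 : ℕ) : ℝ) * s) := by
        calc (1 + s) ^ (r + 1) ≤ (Real.exp s) ^ (r + 1) :=
              pow_le_pow_left₀ (by linarith) (by linarith [Real.add_one_le_exp s]) _
          _ = _ := by rw [← Real.exp_nat_mul]
      set v := ((r + 1 : ℕ) : ℝ) * s with hv
      have hv0 : 0 ≤ v := by positivity
      have h4 : Real.exp v ≤ 1 + v + v ^ 2 := by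
        have := Real.abs_exp_sub_one_sub_id_le (x := v) (by rw [abs_of_nonneg hv0]; exact hrs)
        linarith [(abs_le.mp this).2]
      have h5 : v ^ 2 ≤ v := by nlinarith
      rw [zero_add, pow_one]
      linarith
    · have h2 := ih k' h0 hr
      have h3 : s * ∑ I ∈ (range r).powerset.filter (fun I => k' ≤ I.card), s ^ I.card
          ≤ s * (2 * (r * s) ^ k') := mul_le_mul_of_nonneg_left h2 hs
      have h4 : (r : ℝ) ^ (k' + 1) + (r : ℝ) ^ k' ≤ ((r : ℝ) + 1) ^ (k' + 1) := by
        rw [pow_succ, pow_succ]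
        have h5 : (r : ℝ) ^ k' ≤ ((r : ℝ) + 1) ^ k' :=
          pow_le_pow_left₀ (Nat.cast_nonneg r) (by linarith) _
        have h6 : (r : ℝ) ^ k' * ((r : ℝ) + 1) ≤ ((r : ℝ) + 1) ^ k' * ((r : ℝ) + 1) :=
          mul_le_mul_of_nonneg_right h5 (by positivity)
        linarith
      calc _ ≤ 2 * (r * s) ^ (k' + 1) + s * (2 * (r * s) ^ k') := add_le_add h1 h3
        _ = 2 * ((r : ℝ) ^ (k' + 1) + (r : ℝ) ^ k') * s ^ (k' + 1) := by
            rw [mul_pow, mul_pow]; ring
        _ ≤ 2 * ((r : ℝ) + 1) ^ (k' + 1) * s ^ (k' + 1) := by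
            apply mul_le_mul_of_nonneg_right _ (by positivity)
            linarith
        _ = 2 * (((r + 1 : ℕ) : ℝ) * s) ^ (k' + 1) := by
            push_cast; rw [mul_pow]; ring

theorem bd_big {A d : Alg} {s : ℝ} (hA : Prob A) (hd : Bd s A d) (hs : 0 ≤ s) (k r : ℕ)
    (hk : 1 ≤ k) (hrs : r * s ≤ 1) (c : Finset ℕ → ℝ) (hc : ∀ I, |c I| ≤ 1) :
    Bd (2 * (r * s) ^ k) (A ^ r)
      (∑ I ∈ (range r).powerset.filter (fun I => k ≤ I.card), c I • mon A d r I) := by
  have h1 := Fine.bd_sum ((range r).powerset.filter (fun I => k ≤ I.card))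
    (t := fun I => s ^ I.card) (E := A ^ r) (F := fun I => c I • mon A d r I) ?_
  · exact Fine.bd_mono (nonneg_pow hA.1 _) h1 (sum_pow_card k r hk s hs hrs)
  · intro I hI
    rw [Finset.mem_filter, Finset.mem_powerset] at hI
    refine Fine.bd_mono (nonneg_pow hA.1 _) (Fine.bd_smul (c I) (mon_bd hA hd hs r I hI.1)) ?_
    calc |c I| * s ^ I.card ≤ 1 * s ^ I.card :=
          mul_le_mul_of_nonneg_right (hc I) (by positivity)
      _ = s ^ I.card := one_mul _

/-- sums over the nonempty (or larger) subsets of a given set `S` -/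
theorem bd_big_sub {A d : Alg} {s : ℝ} (hA : Prob A) (hd : Bd s A d) (hs : 0 ≤ s) (k r : ℕ)
    (hk : 1 ≤ k) (hrs : r * s ≤ 1) (S : Finset ℕ) (hS : S ⊆ range r) :
    Bd (2 * (r * s) ^ k) (A ^ r)
      (∑ I ∈ S.powerset.filter (fun I => k ≤ I.card), mon A d r I) := by
  have h := bd_big hA hd hs k r hk hrs (fun I => if I ⊆ S then 1 else 0)
    (fun I => by split_ifs <;> norm_num)
  have e : ∑ I ∈ (range r).powerset.filter (fun I => k ≤ I.card),
      (if I ⊆ S then (1 : ℝ) else 0) • mon A d r I
      = ∑ I ∈ S.powerset.filter (fun I => k ≤ I.card), mon A d r I := by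
    simp only [ite_smul, one_smul, zero_smul]
    rw [← Finset.sum_filter]
    refine Finset.sum_congr ?_ fun _ _ => rfl
    ext I
    simp only [Finset.mem_filter, Finset.mem_powerset]
    constructor
    · rintro ⟨⟨_, b⟩, c⟩; exact ⟨c, b⟩
    · rintro ⟨a, b⟩; exact ⟨⟨a.trans hS, b⟩, a⟩
  rwa [e] at h

theorem tm_bd_r {A d : Alg} {t : ℝ} (hA : Prob A) (hd : Bd t A d) (hm : mass d = 0) (ht : 0 ≤ t)
    (J : ℕ) (ht1 : 2 ^ J * t ≤ 1) :
    Bd (2 * (2 ^ J * t)) (A ^ (2 ^ J)) ((tm A (A + d) J).1 - A ^ (2 ^ J)) ∧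
    mass ((tm A (A + d) J).1 - A ^ (2 ^ J)) = 0 := by
  obtain ⟨SA, SB, hSA, hSB, hex⟩ := tm_expand J
  obtain ⟨e1, e2, e3⟩ := hex A d
  have hsplit : (tm A (A + d) J).1 - A ^ (2 ^ J)
      = ∑ I ∈ SA.powerset.filter (fun I => 1 ≤ I.card), mon A d (2 ^ J) I := by
    rw [e1, ← Finset.sum_filter_add_sum_filter_not SA.powerset (fun I => 1 ≤ I.card)]
    have h0 : SA.powerset.filter (fun I => ¬ 1 ≤ I.card) = {∅} := by
      ext I
      simp only [Finset.mem_filter, Finset.mem_powerset, Finset.mem_singleton, not_le,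
        Nat.lt_one_iff, Finset.card_eq_zero]
      constructor
      · rintro ⟨_, h⟩; exact h
      · rintro rfl; exact ⟨Finset.empty_subset _, rfl⟩
    rw [h0, Finset.sum_singleton, mon_empty]
    abel
  constructor
  · rw [hsplit]
    have h := bd_big_sub hA hd ht 1 (2 ^ J) le_rfl (by push_cast; exact ht1) SA hSA
    rw [pow_one] at h
    push_cast at h
    exact h
  · rw [hsplit, mass_sum]
    refine Finset.sum_eq_zero fun I hI => ?_
    rw [Finset.mem_filter, Finset.mem_powerset] at hI
    exact mon_mass hA hm (2 ^ J) I (hI.1.trans hSA) (Finset.card_pos.1 (by omega))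

end Vale.Agent.P321
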