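import Vale.Agent.P321.CrudeStep
import Vale.Agent.P321.RBounds

namespace Vale.Agent.P321

open Finset

theorem crude_step_r {A B : Alg} {σ t ξ : ℝ} (hA : Prob A) (hB : Prob B) (hs : Smooth σ A)
    (hD : Dom t ξ A (B - A)) (ht : 0 ≤ t) (hξ : ξ ≤ t) (J G G1 : ℕ) (ht1' : 2 ^ (J + 1) * t ≤ 1)
    (hG1 : 1 ≤ G1) (hJG : J * G1 ≤ G) :
    Dom (2 ^ (2 * J + 6) * t ^ 2) (2 * (2 ^ J * √(σ / G1)) ^ J + 2 ^ (J + 2) * ξ)
      (A ^ ulen J G) (stepB J G A B - stepA J G A B) := by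
  have hr1 : (1 : ℝ) ≤ 2 ^ J := one_le_pow₀ (by norm_num)
  have hrt : ((2 ^ J : ℕ) : ℝ) * (2 * t) ≤ 1 := by
    push_cast; rw [pow_succ] at ht1'; linarith
  have ht1 : 2 * t ≤ 1 := by push_cast at hrt; nlinarith
  obtain ⟨d', hd0, hdb, hBp, hBn⟩ := clean_letter hA hB hD ht hξ ht1
  obtain ⟨SA, SB, hSA, hSB, hex⟩ := tm_expand J
  obtain ⟨e1, e2, e3⟩ := hex A d'
  have hpert := tm_pert hA hB hBp hBn J
  have h2t0 : (0 : ℝ) ≤ 2 * t := by positivity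
  -- the quadratic part
  set QA : Alg := ∑ I ∈ SA.powerset.filter (fun I => 2 ≤ I.card), mon A d' (2 ^ J) I with hQA
  set QB : Alg := ∑ I ∈ SB.powerset.filter (fun I => 2 ≤ I.card), mon A d' (2 ^ J) I with hQB
  have hdiff : (tm A (A + d') J).2 - (tm A (A + d') J).1 = comm A d' J + (QB - QA) := by
    rw [e1, e2, Fine.powerset_split SA, Fine.powerset_split SB, ← e3]
    abel
  have hQbd : ∀ S : Finset ℕ, S ⊆ range (2 ^ J) →
      Bd (2 * (((2 ^ J : ℕ) : ℝ) * (2 * t)) ^ 2) (A ^ (2 ^ J))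
        (∑ I ∈ S.powerset.filter (fun I => 2 ≤ I.card), mon A d' (2 ^ J) I) :=
    fun S hS => bd_big_sub hA hdb h2t0 2 (2 ^ J) (by norm_num) hrt S hS
  have hQ : Bd (2 ^ (2 * J + 6) * t ^ 2) (A ^ (2 ^ J)) (QB - QA) := by
    have h1 := Fine.bd_add (hQbd SB hSB) (Fine.bd_smul (-1) (hQbd SA hSA))
    have h2 : QB + (-1 : ℝ) • QA = QB - QA := by rw [neg_one_smul]; abel
    rw [← hQA, ← hQB, h2] at h1
    refine Fine.bd_mono (nonneg_pow hA.1 _) h1 ?_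
    rw [abs_neg, abs_one]
    have e : 2 * (((2 ^ J : ℕ) : ℝ) * (2 * t)) ^ 2 + 1 * (2 * (((2 ^ J : ℕ) : ℝ) * (2 * t)) ^ 2)
        = 16 * (2 ^ (2 * J) * t ^ 2) := by push_cast; ring
    rw [e]
    have e2 : (2 : ℝ) ^ (2 * J + 6) * t ^ 2 = 64 * (2 ^ (2 * J) * t ^ 2) := by ring
    rw [e2]
    have : (0 : ℝ) ≤ 2 ^ (2 * J) * t ^ 2 := by positivity
    linarith
  have hQ' : Bd (2 ^ (2 * J + 6) * t ^ 2) (A ^ ulen J G) (A ^ G * (QB - QA) * A ^ G) := by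
    rw [ulen_pow]
    have hc : (0 : ℝ) ≤ 2 ^ (2 * J + 6) * t ^ 2 := by positivity
    exact Fine.bd_right (nonneg_pow hA.1 _) (nonneg_mul (nonneg_pow hA.1 _) (nonneg_pow hA.1 _)) hc
      (Fine.bd_left (nonneg_pow hA.1 _) (nonneg_pow hA.1 _) hc hQ)
  -- the commutator
  have hnd : nrm d' ≤ 1 := (Fine.nrm_bd hA hdb).trans ht1
  have hcomm : nrm (A ^ G * comm A d' J * A ^ G) ≤ 2 * (2 ^ J * √(σ / G1)) ^ J := by
    have h1 : A ^ G * comm A d' J * A ^ G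
        = A ^ (G - J * G1) * (A ^ (J * G1) * comm A d' J * A ^ (J * G1)) * A ^ (G - J * G1) := by
      have h2 : (A : Alg) ^ G = A ^ (G - J * G1) * A ^ (J * G1) := by
        rw [← pow_add]; congr 1; omega
      have h3 : (A : Alg) ^ G = A ^ (J * G1) * A ^ (G - J * G1) := by
        rw [← pow_add]; congr 1; omega
      calc A ^ G * comm A d' J * A ^ G
          = (A ^ (G - J * G1) * A ^ (J * G1)) * comm A d' J * (A ^ (J * G1) * A ^ (G - J * G1)) := by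
            rw [← h2, ← h3]
        _ = _ := by noncomm_ring
    rw [h1]
    refine (contr_right (prob_pow hA _) _).trans ((contr_left (prob_pow hA _) _).trans ?_)
    refine (smooth_comm hA hs G1 hG1 J d').trans ?_
    have h4 : 0 ≤ (2 ^ J * √(σ / G1)) ^ J := by positivity
    have h5 := nrm_nonneg d'
    nlinarith
  -- assembly
  have hF : stepB J G A B - stepA J G A B
      = A ^ G * (QB - QA) * A ^ G + (A ^ G * comm A d' J * A ^ G
        + (A ^ G * ((tm A B J).2 - (tm A (A + d') J).2) * A ^ G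
          - A ^ G * ((tm A B J).1 - (tm A (A + d') J).1) * A ^ G)) := by
    have h1 : stepB J G A B - stepA J G A B = A ^ G * ((tm A B J).2 - (tm A B J).1) * A ^ G := by
      rw [stepA, stepB]; noncomm_ring
    have h2 : (tm A B J).2 - (tm A B J).1 = (comm A d' J + (QB - QA))
        + (((tm A B J).2 - (tm A (A + d') J).2) - ((tm A B J).1 - (tm A (A + d') J).1)) := by
      rw [← hdiff]; abel
    rw [h1, h2]; noncomm_ring
  have hr1 : nrm (A ^ G * ((tm A B J).2 - (tm A (A + d') J).2) * A ^ G) ≤ 2 ^ J * (2 * ξ) :=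
    (contr_right (prob_pow hA _) _).trans ((contr_left (prob_pow hA _) _).trans hpert.2)
  have hr2 : nrm (A ^ G * ((tm A B J).1 - (tm A (A + d') J).1) * A ^ G) ≤ 2 ^ J * (2 * ξ) :=
    (contr_right (prob_pow hA _) _).trans ((contr_left (prob_pow hA _) _).trans hpert.1)
  rw [hF]
  have hrest : nrm (A ^ G * comm A d' J * A ^ G
        + (A ^ G * ((tm A B J).2 - (tm A (A + d') J).2) * A ^ G
          - A ^ G * ((tm A B J).1 - (tm A (A + d') J).1) * A ^ G))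
      ≤ 2 * (2 ^ J * √(σ / G1)) ^ J + 2 ^ (J + 2) * ξ := by
    refine (nrm_add_le _ _).trans ?_
    have h3 := nrm_sub_le (A ^ G * ((tm A B J).2 - (tm A (A + d') J).2) * A ^ G)
      (A ^ G * ((tm A B J).1 - (tm A (A + d') J).1) * A ^ G)
    have h4 : (2 : ℝ) ^ (J + 2) * ξ = 2 ^ J * (2 * ξ) + 2 ^ J * (2 * ξ) := by ring
    rw [h4]
    linarith
  have := dom_add (dom_of_bd hQ') (dom_of_nrm (E := A ^ ulen J G) hrest)
  simpa using this

theorem ref_step_r {A B : Alg} {t ξ : ℝ} (hA : Prob A) (hB : Prob B)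
    (hD : Dom t ξ A (B - A)) (ht : 0 ≤ t) (hξ : ξ ≤ t) (J G : ℕ)
    (ht1' : 2 ^ (J + 3) * t ≤ 1) :
    Dom 2 (2 ^ (J + 2) * ξ) (stepA J G A B) (A ^ ulen J G) := by
  have hp2 : (1 : ℝ) ≤ 2 ^ J := one_le_pow₀ (by norm_num)
  have ht1 : 2 * (2 ^ J * (2 * t)) ≤ 1 / 2 := by
    have e : (2 : ℝ) ^ (J + 3) * t = 8 * (2 ^ J * t) := by ring
    rw [e] at ht1'
    linarith
  have hrt : 2 ^ J * (2 * t) ≤ 1 := by linarith
  have h2t : 2 * t ≤ 1 := by nlinarith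
  have h2t0 : (0 : ℝ) ≤ 2 * t := by positivity
  obtain ⟨d', hd0, hdb, hBp, hBn⟩ := clean_letter hA hB hD ht hξ h2t
  have hpert := tm_pert hA hB hBp hBn J
  obtain ⟨hb, _⟩ := tm_bd_r hA hdb hd0 h2t0 J hrt
  have hb1 : Bd (1 / 2) (A ^ (2 ^ J)) ((tm A (A + d') J).1 - A ^ (2 ^ J)) :=
    Fine.bd_mono (nonneg_pow hA.1 _) hb ht1
  have hb2 : Bd (1 / 2) (A ^ ulen J G)
      (A ^ G * ((tm A (A + d') J).1 - A ^ (2 ^ J)) * A ^ G) := by
    rw [ulen_pow]
    exact Fine.bd_right (nonneg_pow hA.1 _) (nonneg_mul (nonneg_pow hA.1 _) (nonneg_pow hA.1 _))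
      (by norm_num) (Fine.bd_left (nonneg_pow hA.1 _) (nonneg_pow hA.1 _) (by norm_num) hb1)
  have hr2 : nrm (A ^ G * ((tm A B J).1 - (tm A (A + d') J).1) * A ^ G) ≤ 2 ^ J * (2 * ξ) :=
    (contr_right (prob_pow hA _) _).trans ((contr_left (prob_pow hA _) _).trans hpert.1)
  have hF : stepA J G A B - A ^ ulen J G
      = A ^ G * ((tm A (A + d') J).1 - A ^ (2 ^ J)) * A ^ G
        + A ^ G * ((tm A B J).1 - (tm A (A + d') J).1) * A ^ G := by
    rw [ulen_pow, stepA]; noncomm_ring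
  have h1 : Dom (1 / 2) (2 ^ (J + 1) * ξ) (A ^ ulen J G) (stepA J G A B - A ^ ulen J G) := by
    rw [hF]
    have := dom_add (dom_of_bd hb2) (dom_of_nrm (E := A ^ ulen J G) hr2)
    have e : (2 : ℝ) ^ J * (2 * ξ) = 2 ^ (J + 1) * ξ := by ring
    rw [e] at this
    simpa using this
  have hap : Prob (stepA J G A B) :=
    prob_mul (prob_mul (prob_pow hA _) (Fine.tm_prob' hA hB J).1) (prob_pow hA _)
  have := dom_flip hap.1 (nonneg_pow hA.1 _) h1
  have e : 2 * ((2 : ℝ) ^ (J + 1) * ξ) = 2 ^ (J + 2) * ξ := by ring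
  rw [e] at this
  exact this

end Vale.Agent.P321
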