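import Mathlib

/-!
# P321, rate: the numerical bounds of the fine step with polynomial constants
-/

namespace Vale.Agent.P321

namespace Fine

theorem numr_main {r t Λ sN sM S : ℝ} (hr : 2 ≤ r) (ht : 0 < t)
    (ht1 : t ≤ 1) (hΛ : 1 ≤ Λ) (hsN : 0 < sN) (hsM : 1 ≤ sM) (hS : S ≤ (r + 4) * sM) :
    2 * (r ^ 2 * (2 * ((r ^ 4 * (r * r * Λ * (2 * t) ^ 4 / sN) + 8 * (r * (2 * t)) ^ 5) +
        5 * (4 * (2 * (r * (2 * t)) * Λ * S)) * (2 * (r * (2 * t)) ^ 2) ^ 2) +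
        (2 * (2 * (r * (2 * t)) ^ 2)) ^ 3) + 2 * (r * (2 * (2 * (r * (2 * t)) ^ 2))) ^ 3)
      ≤ 2 ^ 60 * r ^ 20 * (t ^ 4 * Λ / sN + t ^ 5 * Λ * sM) := by
  have hr1 : 1 ≤ r := by linarith
  have hr0 : 0 < r := by linarith
  have e : 2 * (r ^ 2 * (2 * ((r ^ 4 * (r * r * Λ * (2 * t) ^ 4 / sN) + 8 * (r * (2 * t)) ^ 5) +
        5 * (4 * (2 * (r * (2 * t)) * Λ * S)) * (2 * (r * (2 * t)) ^ 2) ^ 2) +
        (2 * (2 * (r * (2 * t)) ^ 2)) ^ 3) + 2 * (r * (2 * (2 * (r * (2 * t)) ^ 2))) ^ 3)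
      = 64 * r ^ 8 * (t ^ 4 * Λ / sN) + 1024 * r ^ 7 * t ^ 5 + 20480 * r ^ 7 * (t ^ 5 * Λ * S)
        + 8192 * r ^ 8 * t ^ 6 + 16384 * r ^ 9 * t ^ 6 := by ring
  rw [e]
  have hx0 : 0 ≤ t ^ 4 * Λ / sN := by positivity
  have hy0 : 0 ≤ t ^ 5 * Λ * sM := by positivity
  have hΛM : 1 ≤ Λ * sM := one_le_mul_of_one_le_of_one_le hΛ hsM
  have y5 : t ^ 5 ≤ t ^ 5 * Λ * sM := by
    calc t ^ 5 = t ^ 5 * 1 := (mul_one _).symm
      _ ≤ t ^ 5 * (Λ * sM) := mul_le_mul_of_nonneg_left hΛM (by positivity)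
      _ = _ := by ring
  have y6 : t ^ 6 ≤ t ^ 5 * Λ * sM := by
    refine le_trans ?_ y5
    calc t ^ 6 = t ^ 5 * t := by ring
      _ ≤ t ^ 5 * 1 := mul_le_mul_of_nonneg_left ht1 (by positivity)
      _ = t ^ 5 := mul_one _
  have yS : t ^ 5 * Λ * S ≤ 3 * r * (t ^ 5 * Λ * sM) := by
    calc t ^ 5 * Λ * S ≤ t ^ 5 * Λ * ((r + 4) * sM) := mul_le_mul_of_nonneg_left hS (by positivity)
      _ = (r + 4) * (t ^ 5 * Λ * sM) := by ring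
      _ ≤ 3 * r * (t ^ 5 * Λ * sM) := mul_le_mul_of_nonneg_right (by linarith) hy0
  generalize t ^ 4 * Λ / sN = x at *
  generalize t ^ 5 * Λ * sM = y at *
  have p7 : r ^ 7 ≤ r ^ 20 := pow_le_pow_right₀ hr1 (by norm_num)
  have p8 : r ^ 8 ≤ r ^ 20 := pow_le_pow_right₀ hr1 (by norm_num)
  have p9 : r ^ 9 ≤ r ^ 20 := pow_le_pow_right₀ hr1 (by norm_num)
  have a1 : r ^ 8 * x ≤ r ^ 20 * x := mul_le_mul_of_nonneg_right p8 hx0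
  have a2 : r ^ 7 * t ^ 5 ≤ r ^ 20 * y := mul_le_mul p7 y5 (by positivity) (by positivity)
  have a3 : r ^ 7 * (t ^ 5 * Λ * S) ≤ 3 * (r ^ 20 * y) := by
    calc r ^ 7 * (t ^ 5 * Λ * S) ≤ r ^ 7 * (3 * r * y) :=
          mul_le_mul_of_nonneg_left yS (by positivity)
      _ = 3 * (r ^ 8 * y) := by ring
      _ ≤ 3 * (r ^ 20 * y) :=
          mul_le_mul_of_nonneg_left (mul_le_mul_of_nonneg_right p8 hy0) (by norm_num)
  have a4 : r ^ 8 * t ^ 6 ≤ r ^ 20 * y := mul_le_mul p8 y6 (by positivity) (by positivity)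
  have a5 : r ^ 9 * t ^ 6 ≤ r ^ 20 * y := mul_le_mul p9 y6 (by positivity) (by positivity)
  have z1 : 0 ≤ r ^ 20 * x := by positivity
  have z2 : 0 ≤ r ^ 20 * y := by positivity
  have fin : 2 ^ 60 * r ^ 20 * (x + y) = 2 ^ 60 * (r ^ 20 * x) + 2 ^ 60 * (r ^ 20 * y) := by ring
  rw [fin]
  nlinarith

theorem numr_W {r t Λ sN S : ℝ} (hr : 2 ≤ r) (ht : 0 < t)
    (ht1 : t ≤ 1) (hΛ : 1 ≤ Λ) (hsN : 1 ≤ sN) (htΛ : t * Λ ≤ 1) (hS : 0 ≤ S)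
    (hrt : r * (2 * t) ≤ 1)
    (hη : 2 * (r * (2 * t)) * Λ * S ≤ 1 / 8) (hq : 2 * (2 * (r * (2 * t)) ^ 2) ≤ 1) :
    (r ^ 4 * (r * r * Λ * (2 * t) ^ 4 / sN) + 8 * (r * (2 * t)) ^ 5) +
      5 * (4 * (2 * (r * (2 * t)) * Λ * S)) * (2 * (r * (2 * t)) ^ 2) ^ 2 ≤ 25 * r ^ 6 := by
  have hr1 : 1 ≤ r := by linarith
  have hr0 : 0 < r := by linarith
  have p6 : 1 ≤ r ^ 6 := one_le_pow₀ hr1
  have w1 : r ^ 4 * (r * r * Λ * (2 * t) ^ 4 / sN) ≤ 16 * r ^ 6 := by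
    have x1 : t ^ 4 * Λ / sN ≤ 1 := by
      rw [div_le_one (by linarith)]
      have : t ^ 4 * Λ ≤ 1 := by
        have t3 : t ^ 3 ≤ 1 := pow_le_one₀ ht.le ht1
        calc t ^ 4 * Λ = t ^ 3 * (t * Λ) := by ring
          _ ≤ 1 * 1 := mul_le_mul t3 htΛ (by positivity) (by norm_num)
          _ = 1 := one_mul 1
      linarith
    calc r ^ 4 * (r * r * Λ * (2 * t) ^ 4 / sN) = 16 * r ^ 6 * (t ^ 4 * Λ / sN) := by ring
      _ ≤ 16 * r ^ 6 * 1 := mul_le_mul_of_nonneg_left x1 (by positivity)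
      _ = _ := mul_one _
  have w2 : (r * (2 * t)) ^ 5 ≤ 1 := pow_le_one₀ (by positivity) hrt
  have w3 : 5 * (4 * (2 * (r * (2 * t)) * Λ * S)) * (2 * (r * (2 * t)) ^ 2) ^ 2 ≤ 1 := by
    have y3 : (2 * (r * (2 * t)) ^ 2) ^ 2 ≤ 1 / 4 := by
      have := pow_le_pow_left₀ (by positivity) (by linarith : 2 * (r * (2 * t)) ^ 2 ≤ 1 / 2) 2
      linarith
    calc _ ≤ 5 * (1 / 2) * (1 / 4 : ℝ) := by
          refine mul_le_mul (by linarith) y3 (by positivity) (by norm_num)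
      _ ≤ 1 := by norm_num
  linarith

theorem numr_err {r ξ W q3 z3 ex ex2 E0 E1 E2 g : ℝ} (hr : 2 ≤ r)
    (hξ : 0 ≤ ξ) (hW0 : 0 ≤ W) (hW : W ≤ 25 * r ^ 6) (hq0 : 0 ≤ q3) (hq : q3 ≤ 1)
    (hz0 : 0 ≤ z3) (hz : z3 ≤ 1)
    (hex2 : 0 ≤ ex2) (hex : ex2 ≤ ex) (hE0 : 0 ≤ E0) (hE1 : 0 ≤ E1) (hE2 : 0 ≤ E2) (hg : 0 ≤ g) :
    2 * E2 + (2 * (g * (r * (2 * ξ)) * (r * 2)) + (r * (r * (2 * ξ) + (r * (2 * ξ) + E1))
          + r ^ 2 * (2 * (r * (2 * ξ)))))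
      + 2 * (2 * (g * (r * (2 * ξ))) + r * (r * (2 * ξ) + E1))
      + (r ^ 2 * (r ^ 4 * (2 * r * r * ex2 + E0) + 120 * (8 * ex) + W * (2 * (8 * ex)))
        + 2 * (r ^ 2 * (2 * W + q3) + z3) * (2 * (g * (r * (2 * ξ))) + r * (r * (2 * ξ) + E1)))
    ≤ 2 ^ 60 * r ^ 20 * ((g + 1) * ξ + ex + E0 + E1 + E2) := by
  have hr1 : 1 ≤ r := by linarith
  have hr0 : 0 < r := by linarith
  have hex0 : 0 ≤ ex := hex2.trans hex
  have hgξ : 0 ≤ g * ξ := by positivity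
  have p28 : r ^ 2 ≤ r ^ 8 := pow_le_pow_right₀ hr1 (by norm_num)
  have p08 : 1 ≤ r ^ 8 := one_le_pow₀ hr1
  have hM : r ^ 2 * (2 * W + q3) + z3 ≤ 52 * r ^ 8 := by
    have h1 : r ^ 2 * (2 * W + q3) ≤ r ^ 2 * (2 * (25 * r ^ 6) + 1) :=
      mul_le_mul_of_nonneg_left (by linarith) (by positivity)
    have h2 : r ^ 2 * (2 * (25 * r ^ 6) + 1) = 50 * r ^ 8 + r ^ 2 := by ring
    linarith
  have hM0 : 0 ≤ r ^ 2 * (2 * W + q3) + z3 := by positivity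
  have hY0 : 0 ≤ 2 * (g * (r * (2 * ξ))) + r * (r * (2 * ξ) + E1) := by positivity
  have a4 : 2 * (r ^ 2 * (2 * W + q3) + z3) * (2 * (g * (r * (2 * ξ))) + r * (r * (2 * ξ) + E1)) ≤
      416 * r ^ 9 * (g * ξ) + 208 * r ^ 10 * ξ + 104 * r ^ 9 * E1 := by
    calc _ ≤ 2 * (52 * r ^ 8) * (2 * (g * (r * (2 * ξ))) + r * (r * (2 * ξ) + E1)) :=
          mul_le_mul_of_nonneg_right (by linarith) hY0
      _ = _ := by ring
  have a3 : r ^ 2 * (r ^ 4 * (2 * r * r * ex2 + E0) + 120 * (8 * ex) + W * (2 * (8 * ex))) ≤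
      2 * r ^ 8 * ex + r ^ 6 * E0 + 960 * r ^ 2 * ex + 400 * r ^ 8 * ex := by
    have h1 : r ^ 8 * ex2 ≤ r ^ 8 * ex := mul_le_mul_of_nonneg_left hex (by positivity)
    have h2 : r ^ 2 * ex * W ≤ r ^ 2 * ex * (25 * r ^ 6) :=
      mul_le_mul_of_nonneg_left hW (by positivity)
    have e1 : r ^ 2 * (r ^ 4 * (2 * r * r * ex2 + E0) + 120 * (8 * ex) + W * (2 * (8 * ex))) =
        2 * (r ^ 8 * ex2) + r ^ 6 * E0 + 960 * r ^ 2 * ex + 16 * (r ^ 2 * ex * W) := by ring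
    have e2 : r ^ 2 * ex * (25 * r ^ 6) = 25 * (r ^ 8 * ex) := by ring
    rw [e1]
    rw [e2] at h2
    linarith
  have a2 : (2 * (g * (r * (2 * ξ)) * (r * 2)) + (r * (r * (2 * ξ) + (r * (2 * ξ) + E1))
          + r ^ 2 * (2 * (r * (2 * ξ)))))
      + 2 * (2 * (g * (r * (2 * ξ))) + r * (r * (2 * ξ) + E1)) =
      8 * r ^ 2 * (g * ξ) + 8 * r * (g * ξ) + 8 * r ^ 2 * ξ + 4 * r ^ 3 * ξ + 3 * r * E1 := by ring
  set R := r ^ 20 with hR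
  have k1 : r ≤ R := by
    calc r = r ^ 1 := (pow_one r).symm
      _ ≤ R := pow_le_pow_right₀ hr1 (by norm_num)
  have k2 : r ^ 2 ≤ R := pow_le_pow_right₀ hr1 (by norm_num)
  have k3 : r ^ 3 ≤ R := pow_le_pow_right₀ hr1 (by norm_num)
  have k6 : r ^ 6 ≤ R := pow_le_pow_right₀ hr1 (by norm_num)
  have k8 : r ^ 8 ≤ R := pow_le_pow_right₀ hr1 (by norm_num)
  have k9 : r ^ 9 ≤ R := pow_le_pow_right₀ hr1 (by norm_num)
  have k10 : r ^ 10 ≤ R := pow_le_pow_right₀ hr1 (by norm_num)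
  have k0 : 1 ≤ R := one_le_pow₀ hr1
  have m1 := mul_le_mul_of_nonneg_right k1 hgξ
  have m2 := mul_le_mul_of_nonneg_right k2 hgξ
  have m9 := mul_le_mul_of_nonneg_right k9 hgξ
  have n2 := mul_le_mul_of_nonneg_right k2 hξ
  have n3 := mul_le_mul_of_nonneg_right k3 hξ
  have n10 := mul_le_mul_of_nonneg_right k10 hξ
  have o1 := mul_le_mul_of_nonneg_right k1 hE1
  have o9 := mul_le_mul_of_nonneg_right k9 hE1
  have q2 := mul_le_mul_of_nonneg_right k2 hex0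
  have q8 := mul_le_mul_of_nonneg_right k8 hex0
  have s6 := mul_le_mul_of_nonneg_right k6 hE0
  have t0 := mul_le_mul_of_nonneg_right k0 hE2
  have u1 : 0 ≤ R * (g * ξ) := by positivity
  have u2 : 0 ≤ R * ξ := by positivity
  have u3 : 0 ≤ R * E1 := by positivity
  have u4 : 0 ≤ R * ex := by positivity
  have u5 : 0 ≤ R * E0 := by positivity
  have u6 : 0 ≤ R * E2 := by positivity
  have fin : 2 ^ 60 * R * ((g + 1) * ξ + ex + E0 + E1 + E2) =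
      2 ^ 60 * (R * (g * ξ)) + 2 ^ 60 * (R * ξ) + 2 ^ 60 * (R * ex) + 2 ^ 60 * (R * E0)
        + 2 ^ 60 * (R * E1) + 2 ^ 60 * (R * E2) := by ring
  rw [fin]
  have big : 2 * E2 + (8 * r ^ 2 * (g * ξ) + 8 * r * (g * ξ) + 8 * r ^ 2 * ξ + 4 * r ^ 3 * ξ
        + 3 * r * E1) + ((2 * r ^ 8 * ex + r ^ 6 * E0 + 960 * r ^ 2 * ex + 400 * r ^ 8 * ex)
        + (416 * r ^ 9 * (g * ξ) + 208 * r ^ 10 * ξ + 104 * r ^ 9 * E1)) ≤
      432 * (R * (g * ξ)) + 220 * (R * ξ) + 1362 * (R * ex) + R * E0 + 107 * (R * E1)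
        + 2 * (R * E2) := by linarith
  have big2 : 432 * (R * (g * ξ)) + 220 * (R * ξ) + 1362 * (R * ex) + R * E0 + 107 * (R * E1)
        + 2 * (R * E2) ≤ 2 ^ 60 * (R * (g * ξ)) + 2 ^ 60 * (R * ξ) + 2 ^ 60 * (R * ex)
        + 2 ^ 60 * (R * E0) + 2 ^ 60 * (R * E1) + 2 ^ 60 * (R * E2) := by
    norm_num
    linarith
  refine le_trans ?_ (le_trans big big2)
  linarith

end Fine

end Vale.Agent.P321
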