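import Vale.Agent.P321.RFineA
import Vale.Agent.P321.RFineNum

/-!
# P321, rate: the fine step with polynomial constants
-/

namespace Vale.Agent.P321

open Finset

namespace Fine

/-- second level: from the clean letters `â, â + δ2` to the true letters `a, b` -/
theorem second_level_r {a b ah δ2 : Alg} {σ' q κ1 ζ1 e1 e2 : ℝ} (ha : Prob a) (hb : Prob b)
    (hah : Prob ah) (hmδ : mass δ2 = 0) (hq0 : 0 ≤ q) (hδ : Bd (2 * q) ah δ2)
    (J g G2 : ℕ) (hq : 2 * (2 ^ J * (2 * q)) ≤ 1 / 2)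
    (h1 : nrm (a - ah) ≤ e1) (h2 : nrm (b - (ah + δ2)) ≤ e2) (h12 : e1 ≤ e2)
    (hs' : Smooth σ' a) (hG2 : 1 ≤ G2) (hJG2 : J * G2 ≤ g) (hκ1 : 0 ≤ κ1) (hζ1 : 0 ≤ ζ1)
    (c : Finset ℕ → ℝ) (hc : ∀ I, |c I| ≤ 1)
    (hc2 : ∀ I, c I ≠ 0 → I ⊆ range (2 ^ J) ∧ 2 ≤ I.card)
    (hexp : ∀ A d : Alg, (tm A (A + d) J).2 - (tm A (A + d) J).1 =
      comm A d J + Wp c A d (2 ^ J))
    (hK : ∀ K : Finset ℕ, K ⊆ range (2 ^ J) → 2 ≤ K.card →
      Dom κ1 ζ1 (ah ^ (2 * g + 2 ^ J)) (ah ^ g * mon ah δ2 (2 ^ J) K * ah ^ g)) :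
    Dom (2 * ((2 ^ J) ^ 2 * κ1 + 2 * (2 ^ J * (2 * q)) ^ 3))
      (2 * (2 ^ J * √(σ' / G2)) ^ J
        + (2 * (g * e1 * (2 ^ J * 2)) + (2 ^ J * (e1 + e2) + 4 ^ J * (2 * e1)))
        + 2 * (2 * (g * e1) + 2 ^ J * e2)
        + ((2 ^ J) ^ 2 * ζ1 + 2 * ((2 ^ J) ^ 2 * κ1 + 2 * (2 ^ J * (2 * q)) ^ 3) *
          (2 * (g * e1) + 2 ^ J * e2)))
      (stepA J g a b) (stepB J g a b - stepA J g a b) := by
  classical
  have hb1 : (1 : ℝ) ≤ 2 ^ J := one_le_pow₀ (by norm_num)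
  have hcast : ((2 ^ J : ℕ) : ℝ) = 2 ^ J := by push_cast; rfl
  have hrq : 2 ^ J * (2 * q) ≤ 1 := by linarith
  have h2q : 2 * q ≤ 1 := by nlinarith
  have he1 : 0 ≤ e1 := (nrm_nonneg _).trans h1
  have he2 : 0 ≤ e2 := he1.trans h12
  -- the letter `ah + δ2` is a law
  have hbh : Prob (ah + δ2) := by
    refine ⟨fun z => ?_, ?_⟩
    · rw [cadd]
      have a1 := hδ z
      have a2 := hah.1 z
      have a3 := neg_abs_le (δ2.coeff z)
      nlinarith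
    · rw [mass_add, hah.2, hmδ, add_zero]
  -- norms
  have nδ : nrm (b - a) ≤ 2 := (nrm_sub_le b a).trans (by rw [prob_nrm ha, prob_nrm hb]; norm_num)
  have dδ : nrm ((b - a) - δ2) ≤ e1 + e2 := by
    have e : (b - a) - δ2 = (b - (ah + δ2)) - (a - ah) := by abel
    rw [e]
    exact (nrm_sub_le _ _).trans (by linarith)
  have split : stepB J g a b - stepA J g a b =
      ((stepB J g a b - stepB J g ah (ah + δ2)) - (stepA J g a b - stepA J g ah (ah + δ2)))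
      + ah ^ g * comm ah δ2 J * ah ^ g + ah ^ g * Wp c ah δ2 (2 ^ J) * ah ^ g := by
    have h3 := hexp ah δ2
    have h4 : stepB J g ah (ah + δ2) - stepA J g ah (ah + δ2) =
        ah ^ g * ((tm ah (ah + δ2) J).2 - (tm ah (ah + δ2) J).1) * ah ^ g := by
      unfold stepA stepB
      rw [mul_sub, sub_mul]
    rw [h3, mul_add, add_mul] at h4
    rw [add_assoc, ← h4]
    abel
  have qA : nrm (stepA J g a b - stepA J g ah (ah + δ2)) ≤ 2 * (g * e1) + 2 ^ J * e2 := by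
    have t1 := (tm_diff ha hb hah hbh (h1.trans h12) h2 J).1
    have t2 := sand_diff (X' := (tm ah (ah + δ2) J).1) ha hah h1
      (le_of_eq (prob_nrm (tm_prob' ha hb J).1)) g
    unfold stepA
    linarith
  have qB : nrm (stepB J g a b - stepB J g ah (ah + δ2)) ≤ 2 * (g * e1) + 2 ^ J * e2 := by
    have t1 := (tm_diff ha hb hah hbh (h1.trans h12) h2 J).2
    have t2 := sand_diff (X' := (tm ah (ah + δ2) J).2) ha hah h1
      (le_of_eq (prob_nrm (tm_prob' ha hb J).2)) g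
    unfold stepB
    linarith
  have p0 : nrm (a ^ g * comm a (b - a) J * a ^ g) ≤ 2 * (2 ^ J * √(σ' / G2)) ^ J := by
    refine (comm_sand ha hs' J g G2 hG2 hJG2 _).trans ?_
    rw [mul_comm (2 : ℝ)]
    exact mul_le_mul_of_nonneg_left nδ (by positivity)
  have p1 : nrm (ah ^ g * comm ah δ2 J * ah ^ g) ≤ 2 * (2 ^ J * √(σ' / G2)) ^ J
      + (2 * (g * e1 * (2 ^ J * 2)) + (2 ^ J * (e1 + e2) + 4 ^ J * (2 * e1))) := by
    have s1 := sand_diff (X' := comm ah δ2 J) ha hah h1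
      ((comm_nrm (d := b - a) ha J).trans (mul_le_mul_of_nonneg_left nδ (by positivity))) g
    have s2 := comm_diff ha hah h1 dδ nδ J
    have s3 := nrm_sub_le (a ^ g * comm a (b - a) J * a ^ g)
      (a ^ g * comm a (b - a) J * a ^ g - ah ^ g * comm ah δ2 J * ah ^ g)
    rw [sub_sub_cancel] at s3
    linarith
  have p2 : nrm ((stepB J g a b - stepB J g ah (ah + δ2)) -
      (stepA J g a b - stepA J g ah (ah + δ2))) ≤ 2 * (2 * (g * e1) + 2 ^ J * e2) :=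
    (nrm_sub_le _ _).trans (by linarith)
  -- the third part
  have q1 : Dom ((2 ^ J) ^ 2 * κ1 + 2 * (2 ^ J * (2 * q)) ^ 3) ((2 ^ J) ^ 2 * ζ1)
      (ah ^ (2 * g + 2 ^ J)) (ah ^ g * Wp c ah δ2 (2 ^ J) * ah ^ g) := by
    have k2 : Dom ((2 ^ J) ^ 2 * κ1) ((2 ^ J) ^ 2 * ζ1) (ah ^ (2 * g + 2 ^ J))
        (ah ^ g * W2 c ah δ2 (2 ^ J) * ah ^ g) := by
      have hcard := card2_le (2 ^ J)
      rw [hcast] at hcard
      have := dom_csum (prob_pow hah (2 * g + 2 ^ J)).1 (powersetCard 2 (range (2 ^ J))) c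
        (fun K => ah ^ g * mon ah δ2 (2 ^ J) K * ah ^ g) hκ1 hζ1 hc
        (fun K _ hKc => hK K (hc2 K hKc).1 (hc2 K hKc).2)
      have e : ah ^ g * W2 c ah δ2 (2 ^ J) * ah ^ g =
          ∑ K ∈ powersetCard 2 (range (2 ^ J)), c K • (ah ^ g * mon ah δ2 (2 ^ J) K * ah ^ g) := by
        unfold W2
        simp only [Finset.mul_sum, Finset.sum_mul, mul_smul_comm, smul_mul_assoc]
      rw [e]
      exact dom_mono (prob_pow hah _).1 this (mul_le_mul_of_nonneg_right hcard hκ1)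
        (mul_le_mul_of_nonneg_right hcard hζ1)
    have k3 := bd_sand hah (by positivity) g (2 ^ J)
      (w3_bd (2 ^ J) hc hah hδ (by positivity) (by rw [hcast]; exact hrq))
    rw [hcast] at k3
    have hW : ah ^ g * Wp c ah δ2 (2 ^ J) * ah ^ g = ah ^ g * W2 c ah δ2 (2 ^ J) * ah ^ g
        + ah ^ g * W3 c ah δ2 (2 ^ J) * ah ^ g := by
      rw [wp_split (2 ^ J) hc2, mul_add, add_mul]
    rw [hW]
    refine dom_mono (prob_pow hah _).1 (dom_add k2 (dom_of_bd k3)) (le_refl _) (le_of_eq ?_)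
    ring
  have q2 : Dom 2 (2 * 0) (stepA J g ah (ah + δ2)) (ah ^ (2 * g + 2 ^ J)) := by
    have t1 := (tm_bd_r hah hδ hmδ (by positivity) J hrq).1
    have t2 := bd_sand hah (by positivity) g (2 ^ J) t1
    have e : ah ^ g * ((tm ah (ah + δ2) J).1 - ah ^ 2 ^ J) * ah ^ g =
        stepA J g ah (ah + δ2) - ah ^ (2 * g + 2 ^ J) := by
      unfold stepA
      rw [mul_sub, sub_mul]
      congr 1
      rw [← pow_add, ← pow_add]; congr 1; omega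
    rw [e] at t2
    exact dom_flip (step_prob hah hbh J g).1.1 (prob_pow hah _).1
      (dom_mono (prob_pow hah _).1 (dom_of_bd t2) hq (le_refl _))
  have q3 : nrm (stepA J g ah (ah + δ2) - stepA J g a b) ≤ 2 * (g * e1) + 2 ^ J * e2 := by
    rw [← nrm_neg, neg_sub]
    exact qA
  have q4 : Dom 1 (2 * (g * e1) + 2 ^ J * e2) (stepA J g a b) (stepA J g ah (ah + δ2)) :=
    dom_mono (step_prob ha hb J g).1.1 (dom_of_close (step_prob ha hb J g).1.1) (le_refl _) q3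
  have q5 := dom_trans
    (by positivity : 0 ≤ ((2 ^ J) ^ 2 * κ1 + 2 * (2 ^ J * (2 * q)) ^ 3) * 2) q4
    (dom_trans (by positivity : 0 ≤ (2 ^ J) ^ 2 * κ1 + 2 * (2 ^ J * (2 * q)) ^ 3) q2 q1)
  rw [split]
  refine dom_mono (step_prob ha hb J g).1.1
    (dom_add (dom_add (dom_of_nrm p2) (dom_of_nrm p1)) q5) (le_of_eq ?_) (le_of_eq ?_)
  · ring
  · ring

/-- first level: clean letters -/
theorem first_level_r {A B : Alg} {σ t ξ Λ : ℝ} (hA : Prob A) (hB : Prob B) (hs : Smooth σ A)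
    (hD : Dom t ξ A (B - A)) (ht : 0 < t) (hξ : ξ ≤ t)
    (J G m N G0 G1 : ℕ) (hΛ : 1 ≤ Λ) (hN : 1 ≤ N) (hG0 : 1 ≤ G0)
    (hG1 : 1 ≤ G1) (hNG : N * J ≤ 2 * G) (hM : J * (N + G0) ≤ ulen J G * m) (hJG1 : J * G1 ≤ G)
    (hrt : 2 ^ J * (2 * t) ≤ 1)
    (hsm : 2 * (2 ^ J * (2 * t)) * Λ * √(2 * (m : ℝ) + 2 ^ J + 2) ≤ 1 / 8)
    (hq1 : 2 * (2 * (2 ^ J * (2 * t)) ^ 2) ≤ 1)
    (c : Finset ℕ → ℝ) (hc : ∀ I, |c I| ≤ 1)
    (hc2 : ∀ I, c I ≠ 0 → I ⊆ range (2 ^ J) ∧ 2 ≤ I.card)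
    (hexp : ∀ A d : Alg, (tm A (A + d) J).2 - (tm A (A + d) J).1 =
      comm A d J + Wp c A d (2 ^ J))
    (q η κ ζ e : ℝ) (hq : q = 2 * (2 ^ J * (2 * t)) ^ 2)
    (hη : η = 4 * (2 * (2 ^ J * (2 * t)) * Λ * √(2 * (m : ℝ) + 2 ^ J + 2)))
    (hκ : κ = (2 ^ J) ^ 4 * (2 ^ J * 2 ^ J * Λ * (2 * t) ^ 4 / √(N : ℝ))
      + 8 * (2 ^ J * (2 * t)) ^ 5)
    (hζ : ζ = (2 ^ J) ^ 4 *
        (2 * 2 ^ J * 2 ^ J * Real.exp (-Λ ^ 2 / 2) + (2 * N * √(σ / G0)) ^ J))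
    (he : e = 8 * Real.exp (-Λ ^ 2 / 8)) :
    ∃ ah δ2 : Alg, Prob ah ∧ mass δ2 = 0 ∧ Bd (2 * q) ah δ2 ∧
      nrm (stepA J G A B - ah) ≤ 2 ^ J * (2 * ξ) ∧
      nrm (stepB J G A B - (ah + δ2)) ≤ 2 ^ J * (2 * ξ) + (2 ^ J * √(σ / G1)) ^ J ∧
      ∀ g : ℕ, m ≤ g → ∀ K : Finset ℕ, K ⊆ range (2 ^ J) → 2 ≤ K.card →
        Dom (2 * (κ + 5 * η * q ^ 2) + (2 * q) ^ 3)
          (ζ + 120 * e + (κ + 5 * η * q ^ 2) * (2 * e)) (ah ^ (2 * g + 2 ^ J))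
          (ah ^ g * mon ah δ2 (2 ^ J) K * ah ^ g) := by
  classical
  have hb1 : (1 : ℝ) ≤ 2 ^ J := one_le_pow₀ (by norm_num)
  have hcast : ((2 ^ J : ℕ) : ℝ) = 2 ^ J := by push_cast; rfl
  have ht2 : 2 * t ≤ 1 := by nlinarith
  have hmass : mass (B - A) = 0 := by rw [mass_sub, hA.2, hB.2, sub_self]
  obtain ⟨d, hmd, hd, hdd⟩ := dom_clean hA hmass ht.le hξ hD
  have hB' : Prob (A + d) := by
    refine ⟨fun z => ?_, by rw [mass_add, hA.2, hmd, add_zero]⟩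
    rw [cadd]
    have a1 := hd z
    have a2 := hA.1 z
    have a3 := neg_abs_le (d.coeff z)
    nlinarith
  have hBB : nrm (B - (A + d)) ≤ 2 * ξ := by
    have e : B - (A + d) = (B - A) - d := by abel
    rw [e]; exact hdd
  have hξ0 : 0 ≤ 2 * ξ := (nrm_nonneg _).trans hdd
  have hAA : nrm (A - A) ≤ 2 * ξ := by rw [sub_self, nrm_zero]; exact hξ0
  have pP := prob_pow hA (ulen J G)
  have hsand : ∀ X X' : Alg, nrm (X - X') ≤ 2 ^ J * (2 * ξ) →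
      nrm (A ^ G * X * A ^ G - A ^ G * X' * A ^ G) ≤ 2 ^ J * (2 * ξ) := by
    intro X X' hX
    rw [← sub_mul, ← mul_sub]
    exact (contr_right (prob_pow hA G) _).trans ((contr_left (prob_pow hA G) _).trans hX)
  have htm := tm_diff hA hB hA hB' hAA hBB J
  have hah := step_prob hA hB' J G
  -- `δ2`
  have hw1 := wp_bd_r (2 ^ J) hc hc2 hA hd (by positivity) (by rw [hcast]; exact hrt)
  rw [hcast] at hw1
  have hw2 := bd_sand hA (by positivity) G (2 ^ J) hw1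
  have hδm : mass (A ^ G * Wp c A d (2 ^ J) * A ^ G) = 0 := by
    rw [mass_mul, mass_mul, wp_mass (2 ^ J) hc2 hA hmd, mul_zero, zero_mul]
  -- `ρ`
  have hρ := tm_bd_r hA hd hmd (by positivity) J hrt
  have hρ1 := bd_sand hA (by positivity) G (2 ^ J) hρ.1
  have hρe : A ^ G * ((tm A (A + d) J).1 - A ^ 2 ^ J) * A ^ G =
      stepA J G A (A + d) - A ^ ulen J G := by
    unfold stepA
    rw [mul_sub, sub_mul]
    congr 1
    rw [← pow_add, ← pow_add]; congr 1; unfold ulen; omega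
  rw [hρe] at hρ1
  have hρm : mass (stepA J G A (A + d) - A ^ ulen J G) = 0 := by
    rw [mass_sub, hah.1.2, pP.2, sub_self]
  have hul : 2 * G + 2 ^ J = ulen J G := rfl
  rw [hul] at hρ1 hw2
  -- numbers
  have hsq1 : 1 ≤ √(2 * (m : ℝ) + 2 ^ J + 2) := by
    rw [Real.one_le_sqrt]
    have : (0 : ℝ) ≤ m := Nat.cast_nonneg m
    linarith
  have hτ0 : (0 : ℝ) ≤ 2 * (2 ^ J * (2 * t)) := by positivity
  have hτ : 2 * ((2 : ℝ) ^ J * (2 * t)) ≤ 1 / 8 := by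
    refine le_trans ?_ hsm
    have h1 : 2 * ((2 : ℝ) ^ J * (2 * t)) * 1 ≤ 2 * (2 ^ J * (2 * t)) * Λ :=
      mul_le_mul_of_nonneg_left hΛ hτ0
    have h2 : 2 * ((2 : ℝ) ^ J * (2 * t)) * Λ * 1 ≤
        2 * (2 ^ J * (2 * t)) * Λ * √(2 * (m : ℝ) + 2 ^ J + 2) :=
      mul_le_mul_of_nonneg_left hsq1 (by positivity)
    linarith
  have hη0 : 0 ≤ η := by rw [hη]; positivity
  have hη1 : η ≤ 1 / 2 := by rw [hη]; linarith
  have he0 : 0 ≤ e := by rw [he]; positivity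
  have he1 : e ≤ 8 := by
    rw [he]
    have : Real.exp (-Λ ^ 2 / 8) ≤ 1 := by
      rw [Real.exp_le_one_iff]
      have := sq_nonneg Λ
      linarith
    linarith
  have hq0 : 0 ≤ q := by rw [hq]; positivity
  have hκ0 : 0 ≤ κ := by rw [hκ]; positivity
  have hζ0 : 0 ≤ ζ := by rw [hζ]; positivity
  have hp : ∀ k, k ≤ 2 * m + 2 ^ J + 2 → Dom η e ((A ^ ulen J G) ^ k)
      ((stepA J G A (A + d)) ^ k - (A ^ ulen J G) ^ k) := by
    intro k hk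
    have hk' : √(k : ℝ) ≤ √(2 * (m : ℝ) + 2 ^ J + 2) := by
      apply Real.sqrt_le_sqrt
      exact_mod_cast hk
    have hkk : 2 * (2 ^ J * (2 * t)) * Λ * √(k : ℝ) ≤
        2 * (2 ^ J * (2 * t)) * Λ * √(2 * (m : ℝ) + 2 ^ J + 2) :=
      mul_le_mul_of_nonneg_left hk' (by positivity)
    have := prodpert pP hρ1 hρm hτ0 k Λ hΛ (hkk.trans hsm)
    rw [add_sub_cancel] at this
    refine dom_mono (prob_pow pP k).1 this ?_ (le_of_eq he.symm)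
    rw [hη]
    linarith
  have hδa : Bd (2 * q) (stepA J G A (A + d)) (A ^ G * Wp c A d (2 ^ J) * A ^ G) := by
    intro z
    have a1 := hw2 z
    have a2 := hρ1 z
    rw [csub, abs_le] at a2
    have a3 := pP.1 z
    have a4 : 2 * (2 ^ J * (2 * t)) * (A ^ ulen J G).coeff z ≤
        1 / 8 * (A ^ ulen J G).coeff z := mul_le_mul_of_nonneg_right hτ a3
    have a5 : (A ^ ulen J G).coeff z ≤ 2 * (stepA J G A (A + d)).coeff z := by
      linarith [a2.1]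
    rw [← hq] at a1
    calc _ ≤ q * (A ^ ulen J G).coeff z := a1
      _ ≤ q * (2 * (stepA J G A (A + d)).coeff z) := mul_le_mul_of_nonneg_left a5 hq0
      _ = _ := by ring
  rw [← hq] at hw2 hq1
  refine ⟨stepA J G A (A + d), A ^ G * Wp c A d (2 ^ J) * A ^ G, hah.1, hδm, hδa, ?_, ?_, ?_⟩
  · exact hsand _ _ htm.1
  · have e1 : stepB J G A B - (stepA J G A (A + d) + A ^ G * Wp c A d (2 ^ J) * A ^ G) =
        (stepB J G A B - stepB J G A (A + d)) + A ^ G * comm A d J * A ^ G := by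
      have h3 : stepB J G A (A + d) = stepA J G A (A + d) + A ^ G * comm A d J * A ^ G
          + A ^ G * Wp c A d (2 ^ J) * A ^ G := by
        have h4 : (tm A (A + d) J).2 = (tm A (A + d) J).1 + comm A d J + Wp c A d (2 ^ J) := by
          rw [add_assoc, ← hexp A d]; abel
        unfold stepA stepB
        rw [h4, mul_add, mul_add, add_mul, add_mul]
      rw [h3]
      abel
    rw [e1]
    refine (nrm_add_le _ _).trans (add_le_add (hsand _ _ htm.2) ?_)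
    refine (comm_sand hA hs J G G1 hG1 hJG1 d).trans (mul_le_of_le_one_right (by positivity) ?_)
    exact (nrm_bd hA hd).trans ht2
  · intro g hmg K hK hK2
    exact K_dom hah.1 pP (2 ^ J) g m hη0 hη1 he0 he1 hq0 hq1 hκ0 hζ0 hmg hp hw2 hδa
      (fun h hh => by
        have := T0_dom_r (J₀ := J) (Λ := Λ) hA hs hd hmd (by positivity) hrt G m N G0 h hN hG0
          hNG hM (by linarith) c hc hc2
        rw [← hκ, ← hζ] at this
        exact this) K hK hK2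

end Fine

open Fine in
theorem fine_step_r {A B : Alg} {σ σ' t ξ Λ : ℝ} (hA : Prob A) (hB : Prob B) (hs : Smooth σ A)
    (hD : Dom t ξ A (B - A)) (ht : 0 < t) (hξ : ξ ≤ t) (hξ0 : 0 ≤ ξ)
    (J G g m N G0 G1 G2 : ℕ) (hJ : 1 ≤ J)
    (hs' : Smooth σ' (stepA J G A B)) (hΛ : 1 ≤ Λ) (hN : 1 ≤ N) (hm1 : 1 ≤ m) (hG0 : 1 ≤ G0)
    (hG1 : 1 ≤ G1) (hG2 : 1 ≤ G2)
    (hNG : N * J ≤ 2 * G) (hM : J * (N + G0) ≤ ulen J G * m) (hJG1 : J * G1 ≤ G)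
    (hJG2 : J * G2 ≤ g) (hmg : m ≤ g)
    (hsm : 2 ^ (J + 3) * t * Λ * √(2 * (m : ℝ) + 2 ^ J + 2) ≤ 1 / 8)
    (hsm2 : 2 ^ (4 * J + 20) * t ^ 2 ≤ 1) :
    Dom (2 ^ (20 * J + 60) * (t ^ 4 * Λ / √(N : ℝ) + t ^ 5 * Λ * √(m : ℝ)))
      (2 ^ (20 * J + 60) * ((g + 1) * ξ + Real.exp (-Λ ^ 2 / 8) + (2 * N * √(σ / G0)) ^ J
        + (2 ^ J * √(σ / G1)) ^ J + (2 ^ J * √(σ' / G2)) ^ J))
      (stepA J g (stepA J G A B) (stepB J G A B))
      (stepB J g (stepA J G A B) (stepB J G A B) - stepA J g (stepA J G A B) (stepB J G A B)) := by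
  obtain ⟨c, hc, hc2, hexp⟩ := expand2 J
  -- numbers
  have hr2 : (2 : ℝ) ≤ 2 ^ J := by
    calc (2 : ℝ) = 2 ^ 1 := (pow_one 2).symm
      _ ≤ 2 ^ J := pow_le_pow_right₀ (by norm_num) hJ
  have e20 : (2 : ℝ) ^ (20 * J + 60) = 2 ^ 60 * (2 ^ J) ^ 20 := by
    rw [pow_add, mul_comm 20 J, pow_mul]; ring
  have e4 : (4 : ℝ) ^ J = (2 ^ J) ^ 2 := by rw [← pow_mul, mul_comm, pow_mul]; norm_num
  have hS1 : 1 ≤ √(2 * (m : ℝ) + 2 ^ J + 2) := by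
    rw [Real.one_le_sqrt]
    have : (0 : ℝ) ≤ m := Nat.cast_nonneg m
    linarith
  have hsm' : 2 * (2 ^ J * (2 * t)) * Λ * √(2 * (m : ℝ) + 2 ^ J + 2) ≤ 1 / 8 := by
    have h8 : (2 : ℝ) ^ (J + 3) * t * Λ * √(2 * (m : ℝ) + 2 ^ J + 2) =
        2 * (2 * (2 ^ J * (2 * t)) * Λ * √(2 * (m : ℝ) + 2 ^ J + 2)) := by
      rw [pow_add]; ring
    have h0 : 0 ≤ 2 * (2 ^ J * (2 * t)) * Λ * √(2 * (m : ℝ) + 2 ^ J + 2) := by positivity
    rw [h8] at hsm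
    linarith
  have hτ : 2 ^ J * (2 * t) ≤ 1 / 16 ∧ t * Λ ≤ 1 := by
    have h1 : 2 * (2 ^ J * (2 * t)) * Λ * 1 ≤
        2 * (2 ^ J * (2 * t)) * Λ * √(2 * (m : ℝ) + 2 ^ J + 2) :=
      mul_le_mul_of_nonneg_left hS1 (by positivity)
    have h2 : 2 * (2 ^ J * (2 * t)) * 1 ≤ 2 * (2 ^ J * (2 * t)) * Λ :=
      mul_le_mul_of_nonneg_left hΛ (by positivity)
    refine ⟨by linarith, ?_⟩
    have h3 : 1 * (t * Λ) ≤ 4 * 2 ^ J * (t * Λ) :=
      mul_le_mul_of_nonneg_right (by linarith) (by positivity)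
    linarith
  obtain ⟨hτ1, htΛ⟩ := hτ
  have hrt : 2 ^ J * (2 * t) ≤ 1 := by linarith
  have ht1 : t ≤ 1 := by nlinarith
  have hq1 : 2 * (2 * ((2 : ℝ) ^ J * (2 * t)) ^ 2) ≤ 1 := by
    have h0 : (0 : ℝ) ≤ 2 ^ J * (2 * t) := by positivity
    nlinarith
  have hsm2' : (2 : ℝ) ^ 20 * (2 ^ J) ^ 4 * t ^ 2 ≤ 1 := by
    refine le_trans (le_of_eq ?_) hsm2
    rw [pow_add, mul_comm 4 J, pow_mul]; ring
  have hrq : 2 * (2 ^ J * (2 * (2 * ((2 : ℝ) ^ J * (2 * t)) ^ 2))) ≤ 1 / 2 := by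
    have e : 2 * (2 ^ J * (2 * (2 * ((2 : ℝ) ^ J * (2 * t)) ^ 2))) = 32 * ((2 ^ J) ^ 3 * t ^ 2) := by
      ring
    rw [e]
    have h3 : ((2 : ℝ) ^ J) ^ 3 * t ^ 2 ≤ (2 ^ J) ^ 4 * t ^ 2 :=
      mul_le_mul_of_nonneg_right (pow_le_pow_right₀ (by linarith) (by norm_num)) (by positivity)
    nlinarith
  have hm1' : (1 : ℝ) ≤ m := by exact_mod_cast hm1
  have hN1' : (1 : ℝ) ≤ N := by exact_mod_cast hN
  have hsN : 1 ≤ √(N : ℝ) := by rwa [Real.one_le_sqrt]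
  have hsM : 1 ≤ √(m : ℝ) := by rwa [Real.one_le_sqrt]
  have hSle := num_sqrt hr2 hm1'
  obtain ⟨ah, δ2, hah, hmδ, hδ, hn1, hn2, hK⟩ := first_level_r hA hB hs hD ht hξ J G m N G0 G1 hΛ
    hN hG0 hG1 hNG hM hJG1 hrt hsm' hq1 c hc hc2 hexp _ _ _ _ _ rfl rfl rfl rfl rfl
  have hE0 : 0 ≤ (2 * N * √(σ / G0)) ^ J := by positivity
  have hE1 : 0 ≤ (2 ^ J * √(σ / G1)) ^ J := by positivity
  have hE2 : 0 ≤ (2 ^ J * √(σ' / G2)) ^ J := by positivity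
  have hab := step_prob hA hB J G
  have hfin := second_level_r (q := 2 * (2 ^ J * (2 * t)) ^ 2)
    (κ1 := 2 * (((2 ^ J) ^ 4 * (2 ^ J * 2 ^ J * Λ * (2 * t) ^ 4 / √(N : ℝ))
      + 8 * (2 ^ J * (2 * t)) ^ 5) +
      5 * (4 * (2 * (2 ^ J * (2 * t)) * Λ * √(2 * (m : ℝ) + 2 ^ J + 2))) *
        (2 * (2 ^ J * (2 * t)) ^ 2) ^ 2) + (2 * (2 * (2 ^ J * (2 * t)) ^ 2)) ^ 3)
    hab.1 hab.2 hah hmδ (by positivity) hδ J g G2 hrq hn1 hn2 (by linarith) hs' hG2 hJG2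
    (by positivity) (by positivity) c hc hc2 hexp (hK g hmg)
  rw [e4] at hfin
  refine dom_mono (step_prob hab.1 hab.2 J g).1.1 hfin ?_ ?_
  · rw [e20]
    exact numr_main hr2 ht ht1 hΛ (by linarith) hsM hSle
  · rw [e20]
    have hex : Real.exp (-Λ ^ 2 / 2) ≤ Real.exp (-Λ ^ 2 / 8) := by
      apply Real.exp_le_exp.2
      have := sq_nonneg Λ
      linarith
    exact numr_err hr2 hξ0 (by positivity)
      (numr_W hr2 ht ht1 hΛ hsN htΛ (by positivity) hrt hsm' hq1)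
      (by positivity) (pow_le_one₀ (by positivity) hq1) (by positivity)
      (by
        have h0 : (0 : ℝ) ≤ 2 ^ J * (2 * (2 * (2 ^ J * (2 * t)) ^ 2)) := by positivity
        have h1 : (2 : ℝ) ^ J * (2 * (2 * (2 ^ J * (2 * t)) ^ 2)) ≤ 1 / 4 := by linarith
        have h2 := pow_le_pow_left₀ h0 h1 3
        norm_num at h2
        linarith)
      (Real.exp_pos _).le hex hE0 hE1 hE2 (Nat.cast_nonneg g)

end Vale.Agent.P321
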