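import Vale.Agent.P321.RSuperA
import Vale.Agent.P321.RFine

/-! Uniform assembly of two window steps. -/

namespace Vale.Agent.P321

open Filter

theorem fine_err_u {n : ℕ} (hn1 : (1 : ℝ) ≤ n) (x η c c1 C : ℝ) (J G g N U : ℕ) (hJ : 1 ≤ J)
    (hU : (2 : ℝ) ^ (200 * (J + 1)) ≤ (n : ℝ) ^ (η / 2)) (hC : 0 ≤ C)
    (hη : 0 < η) (hx : 0 < x) (hcJ : 2 * (c + η) ≤ η * J)
    (hc1 : c + η + (2 * x + 8 * η) ≤ c1)
    (gl : (n : ℝ) ^ (x + η + 2 * η) ≤ G)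
    (g2l : (n : ℝ) ^ (2 * (x + η) + 4 * η + 2 * η) ≤ g)
    (g2u : (g : ℝ) ≤ 2 * (n : ℝ) ^ (2 * (x + η) + 4 * η + 2 * η))
    (Nu : (N : ℝ) ≤ (n : ℝ) ^ (x / 3)) (hJG : J ≤ G) (hJg : J ≤ g) (hJU : 2 * J ≤ U)
    (ul : (n : ℝ) ^ (x + η + 2 * η + 2 * x / 3) ≤ U)
    (e8 : Real.exp (-(1 / 8 * (n : ℝ) ^ (2 * η))) ≤ (n : ℝ) ^ (-(c + η)))
    (e10 : C * 7 * (n : ℝ) ^ (-(c + η)) ≤ (n : ℝ) ^ (-c)) :
    C * (((g : ℝ) + 1) * (n : ℝ) ^ (-c1) + Real.exp (-((n : ℝ) ^ η) ^ 2 / 8)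
      + (2 * N * √((n : ℝ) ^ (x + η) / ((U / (2 * J) : ℕ) : ℝ))) ^ J
      + (2 ^ J * √((n : ℝ) ^ (x + η) / ((G / J : ℕ) : ℝ))) ^ J
      + (2 ^ J * √((n : ℝ) ^ (2 * (x + η) + 4 * η) / ((g / J : ℕ) : ℝ))) ^ J)
      ≤ (n : ℝ) ^ (-c) := by
  have hn0 : (0 : ℝ) < n := by linarith
  have f1 : ((g : ℝ) + 1) * (n : ℝ) ^ (-c1) ≤ 3 * (n : ℝ) ^ (-(c + η)) := by
    have one4 : 1 ≤ (n : ℝ) ^ (2 * (x + η) + 4 * η + 2 * η) := pw_one hn1 (by linarith)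
    calc ((g : ℝ) + 1) * (n : ℝ) ^ (-c1)
        ≤ (3 * (n : ℝ) ^ (2 * (x + η) + 4 * η + 2 * η)) * (n : ℝ) ^ (-c1) := by
          refine mul_le_mul_of_nonneg_right ?_ (by positivity)
          linarith
      _ = 3 * (n : ℝ) ^ (2 * (x + η) + 4 * η + 2 * η + -c1) := by
          rw [← pw_mul hn0 (2 * (x + η) + 4 * η + 2 * η) (-c1)]; ring
      _ ≤ 3 * (n : ℝ) ^ (-(c + η)) :=
          mul_le_mul_of_nonneg_left (pw_le hn1 (by linarith)) (by norm_num)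
  have f2 : Real.exp (-((n : ℝ) ^ η) ^ 2 / 8) ≤ (n : ℝ) ^ (-(c + η)) := by
    refine le_trans (le_of_eq ?_) e8
    rw [sq_pw hn0]
    congr 1
    ring
  have f3 := u_avg (s := x + η) (c := c + η) hn1 hU hJ Nu hJU ul hcJ
  have f4 := u_half (s := x + η) (c := c + η) hn1 hU hJ hJG gl hcJ
  have f5 := u_half (s := 2 * (x + η) + 4 * η) (c := c + η) hn1 hU hJ hJg g2l hcJ
  refine le_trans ?_ e10
  calc _ ≤ C * (3 * (n : ℝ) ^ (-(c + η)) + (n : ℝ) ^ (-(c + η))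
        + (n : ℝ) ^ (-(c + η)) + (n : ℝ) ^ (-(c + η)) + (n : ℝ) ^ (-(c + η))) :=
        mul_le_mul_of_nonneg_left
          (add_le_add (add_le_add (add_le_add (add_le_add f1 f2) f3) f4) f5) hC
    _ = _ := by ring

theorem fine_sm_u {n : ℕ} (hn1 : (1 : ℝ) ≤ n) (x y η R : ℝ) (J m : ℕ) (hx : 0 < x) (hR : 0 ≤ R)
    (mu : (m : ℝ) ≤ 2 * (n : ℝ) ^ (2 * x / 3))
    (e6 : 8 * (R * √(6 + 2 ^ J)) * (n : ℝ) ^ (-(y - η) + η + x / 3) ≤ 1) :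
    R * (n : ℝ) ^ (-(y - η)) * (n : ℝ) ^ η * √(2 * (m : ℝ) + 2 ^ J + 2) ≤ 1 / 8 := by
  have hn0 : (0 : ℝ) < n := by linarith
  have onex := pw_one hn1 (show 0 ≤ 2 * x / 3 by linarith)
  have hr0 : (0 : ℝ) < 2 ^ J := by positivity
  have hsq : √(2 * (m : ℝ) + 2 ^ J + 2) ≤ √(6 + 2 ^ J) * (n : ℝ) ^ (x / 3) := by
    have : √(2 * (m : ℝ) + 2 ^ J + 2) ≤ √((6 + 2 ^ J) * (n : ℝ) ^ (2 * x / 3)) := by
      refine Real.sqrt_le_sqrt ?_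
      nlinarith
    rw [sqrt_pw hn0 _ _ (by positivity)] at this
    have e : 2 * x / 3 / 2 = x / 3 := by ring
    rwa [e] at this
  calc R * (n : ℝ) ^ (-(y - η)) * (n : ℝ) ^ η * √(2 * (m : ℝ) + 2 ^ J + 2)
      ≤ R * (n : ℝ) ^ (-(y - η)) * (n : ℝ) ^ η
        * (√(6 + 2 ^ J) * (n : ℝ) ^ (x / 3)) := mul_le_mul_of_nonneg_left hsq (by positivity)
    _ = 1 / 8 * (8 * (R * √(6 + 2 ^ J))
        * (n : ℝ) ^ (-(y - η) + η + x / 3)) := by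
        rw [← pw_mul hn0 (-(y - η) + η), ← pw_mul hn0 (-(y - η))]; ring
    _ ≤ 1 / 8 := by linarith

theorem fine_u {n J : ℕ} {x y η c c1 : ℝ} (hn1 : (1 : ℝ) ≤ n)
    (hU : (2 : ℝ) ^ (200 * (J + 1)) ≤ (n : ℝ) ^ (η / 2)) (hJ : 1 ≤ J) (hη : 0 < η)
    (hxη : 99 * η ≤ x)
    (hxy : x / 2 + 50 * η ≤ y) (hcJ : 2 * (c + η) ≤ η * J)
    (hV : 8 * (c + η) * Real.log n ≤ (n : ℝ) ^ (2 * η))
    (hc1 : c + η + (2 * x + 8 * η) ≤ c1) (hyc : y ≤ c1 + η)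
    (A B : Alg) (hA : Prob A) (hB : Prob B) (hsA : Smooth ((n : ℝ) ^ (x + η)) A)
    (hD : Dom ((n : ℝ) ^ (-(y - η))) ((n : ℝ) ^ (-c1)) A (B - A))
    (hsa : Smooth ((n : ℝ) ^ (2 * (x + η) + 4 * η)) (stepA J ⌈(n : ℝ) ^ (x + η + 2 * η)⌉₊ A B)) :
      Dom ((n : ℝ) ^ (-(4 * y + x / 6 - 6 * η))) ((n : ℝ) ^ (-c))
        (stepA J ⌈(n : ℝ) ^ (2 * (x + η) + 4 * η + 2 * η)⌉₊
          (stepA J ⌈(n : ℝ) ^ (x + η + 2 * η)⌉₊ A B) (stepB J ⌈(n : ℝ) ^ (x + η + 2 * η)⌉₊ A B))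
        (stepB J ⌈(n : ℝ) ^ (2 * (x + η) + 4 * η + 2 * η)⌉₊
          (stepA J ⌈(n : ℝ) ^ (x + η + 2 * η)⌉₊ A B) (stepB J ⌈(n : ℝ) ^ (x + η + 2 * η)⌉₊ A B)
        - stepA J ⌈(n : ℝ) ^ (2 * (x + η) + 4 * η + 2 * η)⌉₊
          (stepA J ⌈(n : ℝ) ^ (x + η + 2 * η)⌉₊ A B)
          (stepB J ⌈(n : ℝ) ^ (x + η + 2 * η)⌉₊ A B)) := by
  have hx : 0 < x := by linarith
  have hy : 0 < y := by linarith
  have hn0 : (0 : ℝ) < n := by linarith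
  have hb1 : (1 : ℝ) ≤ 2 ^ J := one_le_pow₀ (by norm_num)
  have hJ2 : (J : ℝ) ≤ 2 ^ J := by exact_mod_cast Nat.lt_two_pow_self.le
  have e1 : 2 ≤ (n : ℝ) ^ (x / 3) :=
    u_le0 hn1 hU _ _ (le_trans (by norm_num) (u_pow 1 (by omega))) (by linarith)
  have e2 : (J : ℝ) * (n : ℝ) ^ (x / 3) ≤ (n : ℝ) ^ (x + η + 2 * η) :=
    u_le hn1 hU _ _ _ (le_trans hJ2 (u_pow J (by omega))) (by linarith)
  have e3 : 2 * (n : ℝ) ^ (2 * x / 3) ≤ (n : ℝ) ^ (2 * (x + η) + 4 * η + 2 * η) :=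
    u_le hn1 hU _ _ _ (le_trans (by norm_num) (u_pow 1 (by omega))) (by linarith)
  have e4 : 2 * (J : ℝ) ≤ (n : ℝ) ^ (x + η + 2 * η) := by
    refine u_le0 hn1 hU _ _ (le_trans ?_ (u_pow (J + 1) (by omega))) (by linarith)
    have : (2 : ℝ) ^ (J + 1) = 2 * 2 ^ J := by ring
    rw [this]
    linarith
  have e5 : (J : ℝ) ≤ (n : ℝ) ^ (2 * (x + η) + 4 * η + 2 * η) :=
    u_le0 hn1 hU _ _ (le_trans hJ2 (u_pow J (by omega))) (by linarith)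
  have e6 : 8 * (2 ^ (J + 3) * √(6 + 2 ^ J)) * (n : ℝ) ^ (-(y - η) + η + x / 3)
      ≤ (n : ℝ) ^ (0 : ℝ) := by
    refine u_le hn1 hU _ _ _ (le_trans ?_ (u_pow (2 * J + 9) (by omega))) (by linarith)
    have h1 : √((6 : ℝ) + 2 ^ J) ≤ 2 ^ (J + 3) := by
      apply Real.sqrt_le_iff.2
      refine ⟨by positivity, ?_⟩
      have : ((2 : ℝ) ^ (J + 3)) ^ 2 = 64 * (2 ^ J * 2 ^ J) := by ring
      rw [this]
      nlinarith
    have h2 : (2 : ℝ) ^ (2 * J + 9) = 8 * (2 ^ (J + 3) * 2 ^ (J + 3)) := by ring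
    rw [h2]
    gcongr
  have e7 : 2 ^ (4 * J + 20) * (n : ℝ) ^ (-(2 * (y - η))) ≤ (n : ℝ) ^ (0 : ℝ) :=
    u_le hn1 hU _ _ _ (u_pow _ (by omega)) (by linarith)
  have e8 : Real.exp (-(1 / 8 * (n : ℝ) ^ (2 * η))) ≤ (n : ℝ) ^ (-(c + η)) :=
    u_exp hn1 _ _ _ (by linarith)
  have e9 : 4 * 2 ^ (20 * J + 60) * (n : ℝ) ^ (-(4 * y + x / 6) + 5 * η)
      ≤ (n : ℝ) ^ (-(4 * y + x / 6 - 6 * η)) := by
    refine u_le hn1 hU _ _ _ (le_trans ?_ (u_pow (20 * J + 62) (by omega))) (by linarith)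
    have : (2 : ℝ) ^ (20 * J + 62) = 4 * 2 ^ (20 * J + 60) := by ring
    rw [this]
  have e10 : 2 ^ (20 * J + 60) * 7 * (n : ℝ) ^ (-(c + η)) ≤ (n : ℝ) ^ (-c) := by
    refine u_le hn1 hU _ _ _ (le_trans ?_ (u_pow (20 * J + 63) (by omega))) (by linarith)
    have : (2 : ℝ) ^ (20 * J + 63) = 2 ^ (20 * J + 60) * 8 := by ring
    rw [this]
    have h0 : (0 : ℝ) < 2 ^ (20 * J + 60) := by positivity
    linarith
  rw [Real.rpow_zero] at e6 e7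
  have gl : (n : ℝ) ^ (x + η + 2 * η) ≤ (⌈(n : ℝ) ^ (x + η + 2 * η)⌉₊ : ℝ) := Nat.le_ceil _
  have g2l : (n : ℝ) ^ (2 * (x + η) + 4 * η + 2 * η)
    ≤ (⌈(n : ℝ) ^ (2 * (x + η) + 4 * η + 2 * η)⌉₊ : ℝ) := Nat.le_ceil _
  have g2u : (⌈(n : ℝ) ^ (2 * (x + η) + 4 * η + 2 * η)⌉₊ : ℝ)
    ≤ 2 * (n : ℝ) ^ (2 * (x + η) + 4 * η + 2 * η) := ceil_le hn1 (by linarith)
  generalize ⌈(n : ℝ) ^ (x + η + 2 * η)⌉₊ = G at gl hsa ⊢
  generalize ⌈(n : ℝ) ^ (2 * (x + η) + 4 * η + 2 * η)⌉₊ = g at g2l g2u ⊢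
  obtain ⟨N, m, hN1, hm1, Nu, Nl, mu, hJG2, hNJ, hmg, hG0, hM, hJU, ul⟩ :=
    fine_par hn1 x η J G g hJ hx gl g2l e1 e2 e3 e4
  have hJg : J ≤ g := by
    have : (J : ℝ) ≤ g := le_trans e5 g2l
    exact_mod_cast this
  have hG1 : 1 ≤ G / J := (Nat.one_le_div_iff (by omega)).2 (by omega)
  have hG2 : 1 ≤ g / J := (Nat.one_le_div_iff (by omega)).2 hJg
  have hΛ : 1 ≤ (n : ℝ) ^ η := pw_one hn1 hη.le
  have ht0 : 0 < (n : ℝ) ^ (-(y - η)) := by positivity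
  have hξt : (n : ℝ) ^ (-c1) ≤ (n : ℝ) ^ (-(y - η)) := pw_le hn1 (by linarith)
  have hsm := fine_sm_u hn1 x y η (2 ^ (J + 3)) J m hx (by positivity) mu e6
  have hsm2 : 2 ^ (4 * J + 20) * ((n : ℝ) ^ (-(y - η))) ^ 2 ≤ 1 := by
    rw [sq_pw hn0, show 2 * -(y - η) = -(2 * (y - η)) by ring]
    exact e7
  have key := fine_step_r hA hB hsA hD ht0 hξt (by positivity) J G g m N
    (ulen J G * m / (2 * J)) (G / J) (g / J) hJ hsa hΛ hN1 hm1 hG0 hG1 hG2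
    hNJ hM (Nat.mul_div_le G J) (Nat.mul_div_le g J) hmg hsm hsm2
  have hPa := step_prob hA hB J G
  refine dom_mono (step_prob hPa.1 hPa.2 J g).1.1 key ?_ ?_
  · have hp : (0 : ℝ) < (n : ℝ) ^ (2 * x / 3) := by positivity
    exact le_trans (fine_t hn1 x y η (2 ^ (20 * J + 60)) N m (by positivity) hxy hη Nl
      (by linarith)) e9
  · exact fine_err_u hn1 x η c c1 (2 ^ (20 * J + 60)) J G g N (ulen J G * m) hJ hU
      (by positivity) hη hx hcJ hc1 gl g2l g2u Nu (by omega) hJg hJU ul e8 e10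

theorem super_step_n' {q : ℝ} (h0 : 0 < q) (h1 : q < 1) (n : ℕ) (x y l c η : ℝ) (J : ℕ)
    (hη : 0 < η) (hxη : 99 * η ≤ x) (hxy : x + 103 * η ≤ 2 * y) (hJ : 1 ≤ J)
    (hU : (2 : ℝ) ^ (200 * (J + 1)) ≤ (n : ℝ) ^ (η / 2))
    (hlog : 1000 * (x + y + c + 1) * (Real.log n + 1) ≤ (n : ℝ) ^ (η / 2))
    (hηJ : 4 * (c + 1) ≤ η * J) (hc : 20 * (x + η) + 20 + (y - η) ≤ c)
    (H : SysN q n (x + η) (y - η) l c) :
    SysN q n (4 * (x + η) + 20 * η) (4 * (y - η) + (x + η) / 6 - 20 * η)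
      (l + 3 * (x + η) + 20 * η) (c - 20 * (x + η) - 20) := by
  obtain ⟨wA, wB, w1, w2, w3, w4, w5, w6⟩ := H
  have hx0 : 0 < x := by linarith
  have hy0 : 0 < y := by linarith
  have hc0 : 0 < c := by linarith
  have hn1 : (1 : ℝ) ≤ n := by
    by_contra hcon
    push Not at hcon
    have hn : n = 0 := by
      have : n < 1 := by exact_mod_cast hcon
      omega
    rw [hn, Nat.cast_zero, Real.zero_rpow (by linarith)] at hU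
    have : (0 : ℝ) < 2 ^ (200 * (J + 1)) := by positivity
    linarith
  have hn0 : (0 : ℝ) < n := by linarith
  have hln : 0 ≤ Real.log n := Real.log_nonneg hn1
  have hA := tr_prob h0.le h1.le wA
  have hB := tr_prob h0.le h1.le wB
  have hη1 : 1000 * η ≤ c := by linarith
  have hV1 : 100 * (x + η + 1) * (Real.log n + 1) ≤ (n : ℝ) ^ (η / 2) := by
    refine le_trans (mul_le_mul_of_nonneg_right ?_ (by linarith)) hlog
    linarith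
  have hV2 : 100 * (2 * (x + η) + 4 * η + 1) * (Real.log n + 1) ≤ (n : ℝ) ^ (η / 2) := by
    refine le_trans (mul_le_mul_of_nonneg_right ?_ (by linarith)) hlog
    linarith
  have hV3 : 8 * (c - 20 * (x + η) - 20 + η) * Real.log n ≤ (n : ℝ) ^ (2 * η) := by
    have h2 : (n : ℝ) ^ (η / 2) ≤ (n : ℝ) ^ (2 * η) := pw_le hn1 (by linarith)
    refine le_trans (le_trans ?_ hlog) h2
    have h3 : 8 * (c - 20 * (x + η) - 20 + η) ≤ 1000 * (x + y + c + 1) := by linarith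
    have h4 : 0 ≤ 1000 * (x + y + c + 1) := by linarith
    nlinarith [mul_le_mul_of_nonneg_right h3 hln]
  have s1 := smooth_u (s := x + η) (τ := y - η) (c := c) hn1 hU hV1 (by linarith) hη
    (by linarith) (by linarith) (by linarith) (by linarith) _ _ hA hB w5 w6
  have s2 := crude_u (s := x + η) (τ := y - η) (c := c) (c' := c - η) hn1 hU hJ (by linarith) hη
    (by linarith) (by linarith) (by linarith) (by linarith) _ _ hA hB w5 w6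
  have s3 := fine_u (x := x) (y := y) (c := c - 20 * (x + η) - 20) (c1 := c) hn1 hU hJ hη hxη
    (by linarith) (by linarith) hV3 (by linarith) (by linarith) _ _ hA hB w5 w6 s1
  have gu1 : (⌈(n : ℝ) ^ (x + η + 2 * η)⌉₊ : ℝ) ≤ 2 * (n : ℝ) ^ (x + η + 2 * η) :=
    ceil_le hn1 (by linarith)
  have gu2 : (⌈(n : ℝ) ^ (2 * (x + η) + 4 * η + 2 * η)⌉₊ : ℝ)
    ≤ 2 * (n : ℝ) ^ (2 * (x + η) + 4 * η + 2 * η) := ceil_le hn1 (by linarith)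
  generalize ⌈(n : ℝ) ^ (x + η + 2 * η)⌉₊ = G at s1 s2 s3 gu1
  have hPa := step_prob hA hB J G
  obtain ⟨τ, hτ1, hτ2, hτ3⟩ : ∃ τ : ℝ, τ ≤ 2 * (y - η) - η ∧ τ ≤ c - η ∧
      2 * (x + η) + 4 * η + 10 * η ≤ 2 * τ := by
    refine ⟨min (2 * (y - η) - η) (c - η), min_le_left _ _, min_le_right _ _, ?_⟩
    rcases min_choice (2 * (y - η) - η) (c - η) with h | h <;> rw [h] <;> linarith
  have s2' := dom_mono hPa.1.1 s2 (pw_le hn1 (show -(2 * (y - η) - η) ≤ -τ by linarith)) le_rfl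
  have s4 := smooth_u (s := 2 * (x + η) + 4 * η) (τ := τ) (c := c - η) hn1 hU hV2
    (by linarith) hη (by linarith) hτ3 (by linarith) hτ2 _ _ hPa.1 hPa.2 s1 s2'
  generalize ⌈(n : ℝ) ^ (2 * (x + η) + 4 * η + 2 * η)⌉₊ = g at s3 s4 gu2
  have t1 := tr_step q J G wA wB
  have l1 := step_length J G wA wB w1
  have l1' : (stepA J G wA wB).length = (stepB J G wA wB).length := by rw [l1.1, l1.2]
  have ne1 := step_ne J G wA wB w1 w2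
  have t2 := tr_step q J g (stepA J G wA wB) (stepB J G wA wB)
  have l2 := step_length J g (stepA J G wA wB) (stepB J G wA wB) l1'
  have ne2 := step_ne J g (stepA J G wA wB) (stepB J G wA wB) l1' ne1
  rw [t1.1, t1.2] at t2
  have u1 : 1 ≤ ulen J G := le_trans (Nat.one_le_two_pow) (Nat.le_add_left _ _)
  have u2 : 1 ≤ ulen J g := le_trans (Nat.one_le_two_pow) (Nat.le_add_left _ _)
  refine ⟨stepA J g (stepA J G wA wB) (stepB J G wA wB),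
    stepB J g (stepA J G wA wB) (stepB J G wA wB), by rw [l2.1, l2.2], ne2, ?_, ?_, ?_, ?_⟩
  · rw [l2.1, l1.1]
    exact Nat.one_le_iff_ne_zero.2 (by positivity)
  · rw [l2.1, l1.1]
    have v1 := ev_ulen (s := x + η) (η := η) hn1 J G (by linarith) gu1
    have v2 := ev_ulen (s := 2 * (x + η) + 4 * η) (η := η) hn1 J g (by linarith) gu2
    have hb1 : (1 : ℝ) ≤ 2 ^ J := one_le_pow₀ (by norm_num)
    have k6 : ((4 : ℝ) + 2 ^ J) * (4 + 2 ^ J) * (n : ℝ) ^ (l + 3 * x + 11 * η)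
        ≤ (n : ℝ) ^ (l + 3 * (x + η) + 20 * η) := by
      refine u_le hn1 hU _ _ _ (le_trans ?_ (u_pow (2 * J + 6) (by omega))) (by linarith)
      have : (2 : ℝ) ^ (2 * J + 6) = 64 * (2 ^ J * 2 ^ J) := by ring
      rw [this]
      nlinarith
    push_cast
    calc ((ulen J g : ℕ) : ℝ) * (((ulen J G : ℕ) : ℝ) * (wA.length : ℝ))
        ≤ ((4 + 2 ^ J) * (n : ℝ) ^ (2 * (x + η) + 4 * η + 2 * η))
          * (((4 + 2 ^ J) * (n : ℝ) ^ (x + η + 2 * η)) * (n : ℝ) ^ l) := by gcongr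
      _ = ((4 + 2 ^ J) * (4 + 2 ^ J)) * (n : ℝ) ^ (l + 3 * x + 11 * η) := by
          have e : l + 3 * x + 11 * η
            = (2 * (x + η) + 4 * η + 2 * η) + ((x + η + 2 * η) + l) := by ring
          rw [e, ← pw_mul hn0 (2 * (x + η) + 4 * η + 2 * η) (x + η + 2 * η + l),
            ← pw_mul hn0 (x + η + 2 * η) l]
          ring
      _ ≤ _ := k6
  · rw [t2.1]
    exact s4.mono (pw_le hn1 (by linarith))
  · rw [t2.1, t2.2]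
    exact dom_mono (step_prob hPa.1 hPa.2 J g).1.1 s3 (pw_le hn1 (by linarith)) le_rfl

theorem super_step_n {q : ℝ} (h0 : 0 < q) (h1 : q < 1) (n : ℕ) (x y l c η : ℝ) (J : ℕ)
    (hη : 0 < η) (hxη : 100 * η ≤ x) (hxy : x + 100 * η ≤ 2 * y) (_hl : 0 ≤ l) (hJ : 1 ≤ J)
    (hX : (2 : ℝ) ^ (200 * (J + 1)) ≤ (n : ℝ) ^ (η / 2))
    (hlog : 1000 * (x + y + c + 1) * (Real.log n + 1) ≤ (n : ℝ) ^ (η / 2))
    (hηJ : 4 * (c + 1) ≤ η * J) (hc : 20 * x + 20 + y ≤ c) (H : SysN q n x y l c) :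
    SysN q n (4 * x + 20 * η) (4 * y + x / 6 - 20 * η) (l + 3 * x + 20 * η)
      (c - 20 * x - 20) := by
  have H' : SysN q n (x - η + η) (y + η - η) l c := by
    rw [sub_add_cancel, add_sub_cancel_right]; exact H
  have e : x - η + (y + η) + c + 1 = x + y + c + 1 := by ring
  have key := super_step_n' h0 h1 n (x - η) (y + η) l c η J hη (by linarith) (by linarith) hJ hX
    (by rw [e]; exact hlog) hηJ (by linarith) H'
  rw [sub_add_cancel, add_sub_cancel_right] at key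
  exact key

end Vale.Agent.P321
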