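import Vale.Agent.P321.RBase
import Vale.Agent.P321.RSuper

/-! Explicit rate: iteration of the super step. -/

namespace Vale.Agent.P321

open Finset

theorem sysN_mono {q x y l c c' : ℝ} (h0 : 0 < q) (h1 : q < 1) {n : ℕ} (hn : 1 ≤ n)
    (hc : c' ≤ c) (H : SysN q n x y l c) : SysN q n x y l c' := by
  obtain ⟨wA, wB, a1, a2, a3, a4, a5, a6⟩ := H
  have hn1 : (1 : ℝ) ≤ n := by exact_mod_cast hn
  exact ⟨wA, wB, a1, a2, a3, a4, a5, dom_mono (tr_prob h0.le h1.le wA).1 a6 le_rfl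
    (Real.rpow_le_rpow_of_exponent_le hn1 (by linarith))⟩

/-- the invariant after `k` super steps -/
theorem iter_inv {q : ℝ} (h0 : 0 < q) (h1 : q < 1) (n J : ℕ) (c0 C : ℝ) (hJ1 : 1 ≤ J)
    (hC : 2 ≤ C) (hX : (2 : ℝ) ^ (200 * (J + 1)) ≤ (n : ℝ) ^ ((1 / 2000 : ℝ) / 2))
    (hlog : 1000 * (3 * Real.log n + 1) * (Real.log n + 1) ≤ (n : ℝ) ^ ((1 / 2000 : ℝ) / 2))
    (hc0J : 4 * (c0 + 1) ≤ 1 / 2000 * (J : ℝ)) (hc0l : c0 ≤ Real.log n)
    (hD : ∀ v : ℝ, C * v ≤ Real.log n → 100 * v ≤ c0)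
    (H0 : SysN q n (101 / 100) (74 / 100) (11 / 10) c0) (k : ℕ) :
    C * ((k + 1) * 4 ^ k) ≤ Real.log n →
    ∃ x y l c : ℝ, 4 ^ k ≤ x ∧ x ≤ 4 ^ k * (102 / 100) - 1 / 100 ∧
      4 ^ k * (7 / 10 + k / 24) + 1 / 100 ≤ y ∧ y ≤ 4 ^ k * (1 + k) ∧
      0 ≤ l ∧ l ≤ 11 / 5 * 4 ^ k ∧ c0 - 30 * 4 ^ k ≤ c ∧ c ≤ c0 ∧ SysN q n x y l c := by
  induction k with
  | zero =>
    intro _
    refine ⟨101 / 100, 74 / 100, 11 / 10, c0, ?_, ?_, ?_, ?_, ?_, ?_, ?_, ?_, H0⟩ <;> norm_num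
  | succ k ih =>
    intro hk
    have t1 : (1 : ℝ) ≤ 4 ^ k := one_le_pow₀ (by norm_num)
    have k0 : (0 : ℝ) ≤ k := Nat.cast_nonneg k
    rw [pow_succ] at hk ⊢
    push_cast at hk ⊢
    generalize (4 : ℝ) ^ k = t at t1 hk ih ⊢
    have kt : 0 ≤ (k : ℝ) * t := by positivity
    have hk1 : C * ((k + 1) * t) ≤ C * ((k + 1 + 1) * (t * 4)) := by
      refine mul_le_mul_of_nonneg_left ?_ (by linarith)
      nlinarith
    obtain ⟨x, y, l, c, i1, i2, i3, i4, i5, i6, i7, i8, i9⟩ := ih (le_trans hk1 hk)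
    have hd := hD _ hk
    have hlv : 2 * ((k + 1 + 1) * (t * 4)) ≤ Real.log n := by
      refine le_trans ?_ hk
      exact mul_le_mul_of_nonneg_right hC (by positivity)
    refine ⟨4 * x + 20 * (1 / 2000), 4 * y + x / 6 - 20 * (1 / 2000), l + 3 * x + 20 * (1 / 2000),
      c - 20 * x - 20, by linarith, by linarith, ?_, ?_, by linarith, by linarith, by linarith,
      by linarith, ?_⟩
    · nlinarith
    · nlinarith
    · refine super_step_n h0 h1 n x y l c (1 / 2000) J (by norm_num) (by linarith) ?_ i5 hJ1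
        hX ?_ (by linarith) ?_ i9
      · nlinarith
      · refine le_trans ?_ hlog
        have hl0 : 0 ≤ Real.log n := by nlinarith
        refine mul_le_mul_of_nonneg_right ?_ (by linarith)
        have e1 : x ≤ Real.log n := by nlinarith
        have e2 : y ≤ Real.log n := by nlinarith
        linarith
      · nlinarith

theorem iter_n {q : ℝ} (h0 : 0 < q) (h1 : q < 1) : ∃ C : ℝ, 1 ≤ C ∧
    ∀ᶠ n : ℕ in Filter.atTop, ∀ k : ℕ, C * ((k + 1) * 4 ^ k) ≤ Real.log n →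
      ∃ wA wB : Wd, wA.length = wB.length ∧ wA ≠ wB ∧
        (wA.length : ℝ) ≤ (n : ℝ) ^ (3 * 4 ^ k : ℝ) ∧
        nrm (tr q wB - tr q wA) ≤ (n : ℝ) ^ (-(4 ^ k * (k / 24) : ℝ)) := by
  obtain ⟨cs, hcs, hbase⟩ := base_sys_n h0 h1
  obtain ⟨κ, κ0, κ1⟩ : ∃ κ : ℝ, κ = 1 / 10 ^ 6 ∧ 0 < κ := ⟨_, rfl, by norm_num⟩
  obtain ⟨κ2, a0, a1, a2, a3⟩ : ∃ κ2 : ℝ, 0 < κ2 ∧ κ2 ≤ cs ∧ κ2 ≤ κ / 16000 ∧ κ2 ≤ 1 :=
    ⟨min cs (κ / 16000), lt_min hcs (by positivity), min_le_left _ _, min_le_right _ _,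
      le_trans (min_le_right _ _) (by rw [κ0]; norm_num)⟩
  have hC2 : 2 ≤ 100 / κ2 := by
    rw [le_div_iff₀ a0]; linarith
  refine ⟨100 / κ2, by linarith, ?_⟩
  have ev1 : ∀ᶠ n : ℕ in Filter.atTop,
      1000 * (3 * Real.log n + 1) * (Real.log n + 1) ≤ (n : ℝ) ^ ((1 / 2000 : ℝ) / 2) := by
    filter_upwards [ev_log_le 100 (1 / 8000) (by norm_num), ev_log_ge 1,
      Filter.eventually_ge_atTop 1] with n b1 b2 b3
    have n0 : (0 : ℝ) < n := by exact_mod_cast b3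
    have e : (n : ℝ) ^ ((1 / 2000 : ℝ) / 2) = ((n : ℝ) ^ (1 / 8000 : ℝ)) ^ 2 := by
      rw [← Real.rpow_natCast, ← Real.rpow_mul n0.le]
      congr 1
      norm_num
    rw [e]
    have := pow_le_pow_left₀ (by positivity) b1 2
    nlinarith
  have ev2 : ∀ᶠ n : ℕ in Filter.atTop, (2 : ℝ) ^ (200 * (⌊κ * Real.log n⌋₊ + 1))
      ≤ (n : ℝ) ^ ((1 / 2000 : ℝ) / 2) := by
    filter_upwards [ev_log_ge (2 * 10 ^ 6), Filter.eventually_ge_atTop 1] with n b2 b3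
    have n0 : (0 : ℝ) < n := by exact_mod_cast b3
    rw [← Real.rpow_natCast, Real.rpow_def_of_pos (by norm_num : (0 : ℝ) < 2),
      Real.rpow_def_of_pos n0]
    refine Real.exp_le_exp.2 ?_
    have hf := Nat.floor_le (show 0 ≤ κ * Real.log n by nlinarith)
    have l2 := Real.log_two_lt_d9
    have l2' := Real.log_two_gt_d9
    push_cast
    rw [κ0] at hf ⊢
    generalize (⌊1 / 10 ^ 6 * Real.log n⌋₊ : ℝ) = f at hf
    nlinarith
  filter_upwards [hbase, ev1, ev2, ev_log_ge (10 ^ 12), Filter.eventually_ge_atTop 1]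
    with n c1 c2 c3 c4 c5 k hk
  have n1 : (1 : ℝ) ≤ n := by exact_mod_cast c5
  have n0 : (0 : ℝ) < n := by linarith
  have hfl := Nat.lt_floor_add_one (κ * Real.log n)
  have hJ1 : 1 ≤ ⌊κ * Real.log n⌋₊ := by
    refine Nat.le_floor ?_
    rw [κ0]; push_cast; linarith
  have H0 := sysN_mono h0 h1 c5 (show κ2 * Real.log n ≤ cs * Real.log n from
    mul_le_mul_of_nonneg_right a1 (by linarith)) c1
  obtain ⟨x, y, l, c, i1, i2, i3, i4, i5, i6, i7, i8, i9⟩ :=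
    iter_inv h0 h1 n ⌊κ * Real.log n⌋₊ (κ2 * Real.log n) (100 / κ2) hJ1 hC2 c3 c2
      (by rw [κ0] at *; nlinarith) (by nlinarith)
      (fun v hv => by
        have := mul_le_mul_of_nonneg_left hv a0.le
        have e : κ2 * (100 / κ2 * v) = 100 * v := by field_simp
        linarith) H0 k hk
  obtain ⟨wA, wB, w1, w2, w3, w4, w5, w6⟩ := i9
  have t1 : (1 : ℝ) ≤ 4 ^ k := one_le_pow₀ (by norm_num)
  have k0 : (0 : ℝ) ≤ k := Nat.cast_nonneg k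
  refine ⟨wA, wB, w1, w2, le_trans w4 (Real.rpow_le_rpow_of_exponent_le n1 (by linarith)), ?_⟩
  have hnr := dom_nrm (tr_prob h0.le h1.le wA) w6
  have hcv : 100 * ((k + 1) * (4 : ℝ) ^ k) ≤ κ2 * Real.log n := by
    have := mul_le_mul_of_nonneg_left hk a0.le
    have e : κ2 * (100 / κ2 * ((k + 1) * (4 : ℝ) ^ k)) = 100 * ((k + 1) * (4 : ℝ) ^ k) := by
      field_simp
    linarith
  generalize (4 : ℝ) ^ k = t at *
  have hcy : t * (7 / 10 + k / 24) ≤ c := by nlinarith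
  have e1 : (n : ℝ) ^ (-y) ≤ (n : ℝ) ^ (-(t * (7 / 10 + k / 24))) :=
    Real.rpow_le_rpow_of_exponent_le n1 (by linarith)
  have e2 : (n : ℝ) ^ (-c) ≤ (n : ℝ) ^ (-(t * (7 / 10 + k / 24))) :=
    Real.rpow_le_rpow_of_exponent_le n1 (by linarith)
  have e3 : (n : ℝ) ^ (-(t * (7 / 10 + k / 24)))
      = (n : ℝ) ^ (-(t * (k / 24))) * (n : ℝ) ^ (-(t * (7 / 10))) := by
    rw [← Real.rpow_add n0]; congr 1; ring
  have e4 : (n : ℝ) ^ (-(t * (7 / 10))) ≤ 1 / 2 := by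
    rw [Real.rpow_def_of_pos n0, show (1 / 2 : ℝ) = Real.exp (-Real.log 2) by
      rw [Real.exp_neg, Real.exp_log (by norm_num)]; norm_num]
    refine Real.exp_le_exp.2 ?_
    have l2 := Real.log_two_lt_d9
    nlinarith
  have e5 : 0 ≤ (n : ℝ) ^ (-(t * (k / 24))) := by positivity
  rw [e3] at e1 e2
  have e6 := mul_le_mul_of_nonneg_left e4 e5
  linarith

end Vale.Agent.P321
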