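import Vale.Agent.P321.Final
import Vale.Agent.P321.RIter

/-! # P321, explicit rate: conclusion -/

namespace Vale.Agent.P321

open Finset

theorem four_pow_le_exp (k : ℕ) : (4 : ℝ) ^ k ≤ Real.exp (2 * k) := by
  have h2 : (2 : ℝ) ≤ Real.exp 1 := by
    have := Real.add_one_le_exp (1 : ℝ); linarith
  have h4 : (4 : ℝ) ≤ Real.exp 2 := by
    have : Real.exp 2 = Real.exp 1 * Real.exp 1 := by rw [← Real.exp_add]; norm_num
    rw [this]; nlinarith
  calc (4 : ℝ) ^ k ≤ (Real.exp 2) ^ k := pow_le_pow_left₀ (by norm_num) h4 k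
    _ = Real.exp (2 * k) := by rw [← Real.exp_nat_mul]; congr 1; ring

/-- length -/
theorem rate_len {n : ℕ} {M P : ℝ} (hP : 1 ≤ P) (hn : (n : ℝ) ≤ Real.exp (M / (3 * P))) :
    (n : ℝ) ^ (3 * P) ≤ Real.exp M := by
  have h3 : (n : ℝ) ^ (3 * P) ≤ Real.exp (M / (3 * P)) ^ (3 * P) :=
    Real.rpow_le_rpow (Nat.cast_nonneg n) hn (by positivity)
  refine h3.trans (le_of_eq ?_)
  rw [← Real.exp_mul]
  congr 1
  exact div_mul_cancel₀ M (by positivity)

/-- rate -/
theorem rate_exp {n : ℕ} {M P v k : ℝ} (hP : 1 ≤ P) (hM : 0 < M) (hk : v / 16 ≤ k) (hk0 : 0 ≤ k)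
    (hn : Real.exp (M / (6 * P)) ≤ n) :
    (n : ℝ) ^ (-(P * (k / 24))) ≤ Real.exp M ^ (-(1 / 2304 * v)) := by
  have hnpos : (0 : ℝ) < n := (Real.exp_pos _).trans_le hn
  have h8 : (n : ℝ) ^ (-(P * (k / 24))) ≤ (Real.exp (M / (6 * P))) ^ (-(P * (k / 24))) := by
    rw [Real.rpow_neg hnpos.le, Real.rpow_neg (Real.exp_pos _).le]
    apply inv_anti₀ (Real.rpow_pos_of_pos (Real.exp_pos _) _)
    exact Real.rpow_le_rpow (Real.exp_pos _).le hn (by positivity)
  refine h8.trans ?_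
  rw [← Real.exp_mul, ← Real.exp_mul]
  apply Real.exp_le_exp.mpr
  have hP0 : P ≠ 0 := by positivity
  have h9 : M / (6 * P) * -(P * (k / 24)) = -(M * (k / 144)) := by
    field_simp
    ring
  rw [h9]
  have h10 : M * (v / 2304) ≤ M * (k / 144) :=
    mul_le_mul_of_nonneg_left (by linarith) hM.le
  linarith

/-- choice of the base scale -/
theorem rate_scale {C n0 M v P k : ℝ} (hC1 : 1 ≤ C) (hn0 : 0 ≤ n0) (hMe : M = Real.exp v)
    (hv : 16 * (3 * C + 3 + n0) ≤ v) (hk1 : k ≤ v / 8) (hP1 : 1 ≤ P)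
    (hPe : P ≤ Real.exp (v / 4)) :
    C * ((k + 1) * P) ≤ M / (3 * P) - 1 ∧ 2 * (3 * C + 3 + n0) ≤ Real.exp (M / (3 * P)) ∧
      2 ≤ M / (3 * P) := by
  set B : ℝ := 3 * C + 3 + n0 with hB
  have hB6 : 6 ≤ B := by rw [hB]; linarith
  set W : ℝ := Real.exp (3 * v / 8) with hW
  have hWB : B ≤ W := by
    have := Real.add_one_le_exp (3 * v / 8)
    rw [← hW] at this
    linarith
  have hvW : v / 8 + 1 ≤ Real.exp (v / 8) := Real.add_one_le_exp (v / 8)
  have hkP : (k + 1) * P ≤ W := by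
    calc (k + 1) * P ≤ Real.exp (v / 8) * Real.exp (v / 4) :=
          mul_le_mul (by linarith) hPe (by linarith) (Real.exp_pos _).le
      _ = W := by rw [← Real.exp_add, hW]; congr 1; ring
  have hMP : W * W ≤ M / P := by
    rw [le_div_iff₀ (by linarith)]
    calc W * W * P ≤ W * W * Real.exp (v / 4) :=
          mul_le_mul_of_nonneg_left hPe (by positivity)
      _ = M := by rw [hMe, hW, ← Real.exp_add, ← Real.exp_add]; congr 1; ring
  have hP0 : P ≠ 0 := by positivity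
  have hMD : M / (3 * P) = M / P / 3 := by field_simp
  have hMDW : W * W / 3 ≤ M / (3 * P) := by rw [hMD]; linarith
  have hE1 : M / (3 * P) + 1 ≤ Real.exp (M / (3 * P)) := Real.add_one_le_exp _
  have hW6 : 6 ≤ W := by linarith
  have hWW : W * B ≤ W * W := mul_le_mul_of_nonneg_left hWB (by linarith)
  have hWW2 : 6 * B ≤ W * B := mul_le_mul_of_nonneg_right hW6 (by linarith)
  refine ⟨?_, by linarith, by linarith⟩
  have h3 : C * ((k + 1) * P) ≤ C * W := mul_le_mul_of_nonneg_left hkP (by linarith)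
  have h5 : W * (3 * C + 3) ≤ W * W :=
    mul_le_mul_of_nonneg_left (by linarith) (by linarith)
  have h6 : W * (3 * C + 3) = 3 * (C * W) + 3 * W := by ring
  linarith

theorem rate_floor {E B : ℝ} {n : ℕ} {L : ℝ} (hn : n = ⌊E⌋₊) (hE : E = Real.exp L) (hB : 2 * B ≤ E)
    (hB6 : 6 ≤ B) (hL : 2 ≤ L) :
    (n : ℝ) ≤ E ∧ B ≤ n ∧ L - 1 ≤ Real.log n ∧ Real.exp (L / 2) ≤ n := by
  have hE0 : 0 < E := by rw [hE]; exact Real.exp_pos _
  have hnE : (n : ℝ) ≤ E := by rw [hn]; exact Nat.floor_le hE0.le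
  have hnE2 : E - 1 < n := by
    have := Nat.lt_floor_add_one E
    rw [← hn] at this
    linarith
  have hnE3 : E / 2 ≤ n := by linarith
  refine ⟨hnE, by linarith, ?_, ?_⟩
  · have h3 : Real.log (E / 2) ≤ Real.log n := Real.log_le_log (by positivity) hnE3
    have h4 : Real.log (E / 2) = L - Real.log 2 := by
      rw [Real.log_div hE0.ne' (by norm_num), hE, Real.log_exp]
    have h5 : Real.log 2 ≤ 1 := by
      have := Real.log_le_sub_one_of_pos (show (0 : ℝ) < 2 by norm_num)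
      linarith
    linarith
  · have h3 : E = Real.exp (L / 2) * Real.exp (L / 2) := by
      rw [hE, ← Real.exp_add]; congr 1; ring
    have h4 : 2 ≤ Real.exp (L / 2) := by
      have h5 := Real.add_one_le_exp (L / 2)
      linarith
    have h7 : Real.exp (L / 2) * 2 ≤ Real.exp (L / 2) * Real.exp (L / 2) :=
      mul_le_mul_of_nonneg_left h4 (Real.exp_pos _).le
    linarith

theorem close_words_r {q : ℝ} (h0 : 0 < q) (h1 : q < 1) : ∃ c : ℝ, 0 < c ∧
    ∀ᶠ n : ℕ in Filter.atTop, ∃ x y : Fin n → Bool, x ≠ y ∧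
      nrm (tr q (FreeMonoid.ofList (List.ofFn x)) - tr q (FreeMonoid.ofList (List.ofFn y)))
        ≤ (n : ℝ) ^ (-(c * Real.log (Real.log n))) := by
  obtain ⟨C, hC1, hit⟩ := iter_n h0 h1
  obtain ⟨n0, hn0⟩ := Filter.eventually_atTop.mp hit
  refine ⟨1 / 2304, by norm_num, ?_⟩
  have hv : Filter.Tendsto (fun N : ℕ => Real.log (Real.log N)) Filter.atTop Filter.atTop :=
    Real.tendsto_log_atTop.comp (Real.tendsto_log_atTop.comp tendsto_natCast_atTop_atTop)
  have hM1 : Filter.Tendsto (fun N : ℕ => Real.log N) Filter.atTop Filter.atTop :=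
    Real.tendsto_log_atTop.comp tendsto_natCast_atTop_atTop
  have hn0' : (0 : ℝ) ≤ n0 := Nat.cast_nonneg n0
  filter_upwards [hv.eventually_ge_atTop (16 * (3 * C + 3 + n0)), hM1.eventually_ge_atTop 1,
    Filter.eventually_ge_atTop 2] with N hvN hMN hN2
  have hN0 : (0 : ℝ) < N := by
    have : (2 : ℝ) ≤ N := by exact_mod_cast hN2
    linarith
  generalize hvd : Real.log (Real.log N) = v at hvN ⊢
  generalize hMd : Real.log N = M at hMN hvd
  have hM0 : 0 < M := by linarith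
  have hMe : M = Real.exp v := by rw [← hvd, Real.exp_log hM0]
  have hNe : (N : ℝ) = Real.exp M := by rw [← hMd, Real.exp_log hN0]
  obtain ⟨k, hk⟩ : ∃ k : ℕ, k = ⌊v / 8⌋₊ := ⟨_, rfl⟩
  have hv96 : 96 ≤ v := by linarith
  have hk1 : (k : ℝ) ≤ v / 8 := by rw [hk]; exact Nat.floor_le (by linarith)
  have hk2 : v / 16 ≤ k := by
    have := Nat.lt_floor_add_one (v / 8)
    rw [← hk] at this
    linarith
  have hP1 : (1 : ℝ) ≤ 4 ^ k := one_le_pow₀ (by norm_num)
  have hPe : (4 : ℝ) ^ k ≤ Real.exp (v / 4) :=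
    (four_pow_le_exp k).trans (Real.exp_le_exp.mpr (by linarith))
  obtain ⟨s1, s2, s3⟩ := rate_scale hC1 hn0' hMe hvN hk1 hP1 hPe
  obtain ⟨n, hn⟩ : ∃ n : ℕ, n = ⌊Real.exp (M / (3 * 4 ^ k))⌋₊ := ⟨_, rfl⟩
  obtain ⟨f1, f2, f3, f4⟩ := rate_floor hn rfl s2 (by linarith) s3
  have hnn0 : n0 ≤ n := by
    have : (n0 : ℝ) ≤ n := by linarith
    exact_mod_cast this
  obtain ⟨wA, wB, w1, w2, w3, w4⟩ := hn0 n hnn0 k (s1.trans f3)
  have hlen : wA.length ≤ N := by
    have h3 := w3.trans (rate_len hP1 f1)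
    rw [← hNe] at h3
    exact_mod_cast h3
  have h6 : Real.exp (M / (6 * 4 ^ k)) ≤ n := by
    have : M / (6 * 4 ^ k) = M / (3 * 4 ^ k) / 2 := by
      rw [div_div]; congr 1; ring
    rw [this]; exact f4
  have h7 := rate_exp (v := v) hP1 hM0 hk2 (Nat.cast_nonneg k) h6
  rw [← hNe] at h7
  exact pad h0 h1 wA wB w1 w2 N hlen _ (w4.trans h7)

theorem main_rate {q : ℝ} (h0 : 0 < q) (h1 : q < 1) : ∃ c : ℝ, 0 < c ∧
    ∀ᶠ n : ℕ in Filter.atTop, ∀ m : ℕ, (m : ℝ) ≤ (n : ℝ) ^ (c * Real.log (Real.log n)) →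
      ¬ Reconstructs q n m := by
  obtain ⟨c, hc, hcl⟩ := close_words_r h0 h1
  refine ⟨c / 2, by positivity, ?_⟩
  have hv : Filter.Tendsto (fun N : ℕ => Real.log (Real.log N)) Filter.atTop Filter.atTop :=
    Real.tendsto_log_atTop.comp (Real.tendsto_log_atTop.comp tendsto_natCast_atTop_atTop)
  have hM : Filter.Tendsto (fun N : ℕ => Real.log N) Filter.atTop Filter.atTop :=
    Real.tendsto_log_atTop.comp tendsto_natCast_atTop_atTop
  filter_upwards [hcl, hv.eventually_ge_atTop (8 / c), hM.eventually_ge_atTop 1,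
    Filter.eventually_ge_atTop 2] with n hn hvn hMn hn2
  intro m hm hrec
  obtain ⟨x, y, hxy, hnr⟩ := hn
  have h3 := reconstruct_tv h0 h1 x y hxy hrec
  have hn0 : (0 : ℝ) < n := by
    have : (2 : ℝ) ≤ n := by exact_mod_cast hn2
    linarith
  set v := Real.log (Real.log n) with hvd
  have h4 : (m : ℝ) * nrm (tr q (FreeMonoid.ofList (List.ofFn x))
      - tr q (FreeMonoid.ofList (List.ofFn y)))
      ≤ (n : ℝ) ^ (c / 2 * v) * (n : ℝ) ^ (-(c * v)) :=
    mul_le_mul hm hnr (nrm_nonneg _) (Real.rpow_nonneg hn0.le _)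
  rw [← Real.rpow_add hn0] at h4
  have h5 : c / 2 * v + -(c * v) = -(c / 2 * v) := by ring
  rw [h5, Real.rpow_def_of_pos hn0] at h4
  have hcv : 8 ≤ v * c := by
    rwa [div_le_iff₀ hc] at hvn
  have h6 : Real.log n * -(c / 2 * v) ≤ -4 := by nlinarith
  have h7 : Real.exp (Real.log n * -(c / 2 * v)) ≤ Real.exp (-4) := Real.exp_le_exp.mpr h6
  have h8 : Real.exp (-4) ≤ 1 / 5 := by
    rw [Real.exp_neg, ← one_div]
    apply one_div_le_one_div_of_le (by norm_num)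
    have := Real.add_one_le_exp (4 : ℝ)
    linarith
  linarith

end Vale.Agent.P321
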