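import Vale.Agent.P321.RFine

/-! (The fine step with polynomial constants is in `RFine.lean`; this file is empty.) -/
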