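import Vale.Agent.P321.FineStep
import Vale.Agent.P321.RBounds

/-!
# P321, rate: the fine step with polynomial constants, part 1
-/

namespace Vale.Agent.P321

open Finset

namespace Fine

/-- windows with exactly two defects -/
noncomputable def W2 (c : Finset ℕ → ℝ) (A d : Alg) (r : ℕ) : Alg :=
  ∑ I ∈ powersetCard 2 (range r), c I • mon A d r I

/-- windows with at least three defects -/
noncomputable def W3 (c : Finset ℕ → ℝ) (A d : Alg) (r : ℕ) : Alg :=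
  ∑ I ∈ (range r).powerset.filter (fun I => 3 ≤ I.card), c I • mon A d r I

theorem wp_filter {c : Finset ℕ → ℝ} {A d : Alg} (r : ℕ)
    (hc2 : ∀ I, c I ≠ 0 → I ⊆ range r ∧ 2 ≤ I.card) :
    Wp c A d r = ∑ I ∈ (range r).powerset.filter (fun I => 2 ≤ I.card), c I • mon A d r I := by
  unfold Wp
  rw [Finset.sum_filter]
  refine Finset.sum_congr rfl fun I _ => ?_
  by_cases h : 2 ≤ I.card
  · rw [if_pos h]
  · rw [if_neg h]
    by_cases h0 : c I = 0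
    · rw [h0, zero_smul]
    · exact absurd (hc2 I h0).2 h

theorem wp_split {c : Finset ℕ → ℝ} {A d : Alg} (r : ℕ)
    (hc2 : ∀ I, c I ≠ 0 → I ⊆ range r ∧ 2 ≤ I.card) :
    Wp c A d r = W2 c A d r + W3 c A d r := by
  classical
  rw [wp_filter r hc2]
  unfold W2 W3
  rw [← Finset.sum_filter_add_sum_filter_not
    ((range r).powerset.filter (fun I => 2 ≤ I.card)) (fun I => I.card = 2)]
  congr 1
  · refine Finset.sum_congr ?_ fun _ _ => rfl
    ext I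
    simp only [Finset.mem_filter, Finset.mem_powerset, Finset.mem_powersetCard]
    constructor
    · rintro ⟨⟨h1, _⟩, h3⟩; exact ⟨h1, h3⟩
    · rintro ⟨h1, h3⟩; exact ⟨⟨h1, by omega⟩, h3⟩
  · refine Finset.sum_congr ?_ fun _ _ => rfl
    ext I
    simp only [Finset.mem_filter, Finset.mem_powerset]
    constructor
    · rintro ⟨⟨h1, h2⟩, h3⟩; exact ⟨h1, by omega⟩
    · rintro ⟨h1, h3⟩; exact ⟨⟨h1, by omega⟩, by omega⟩

theorem wp_bd_r {c : Finset ℕ → ℝ} {A d : Alg} {s : ℝ} (r : ℕ) (hc : ∀ I, |c I| ≤ 1)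
    (hc2 : ∀ I, c I ≠ 0 → I ⊆ range r ∧ 2 ≤ I.card) (hA : Prob A) (hd : Bd s A d) (hs0 : 0 ≤ s)
    (hrs : r * s ≤ 1) : Bd (2 * (r * s) ^ 2) (A ^ r) (Wp c A d r) := by
  rw [wp_filter r hc2]
  exact bd_big hA hd hs0 2 r (by norm_num) hrs c hc

theorem w3_bd {c : Finset ℕ → ℝ} {A d : Alg} {s : ℝ} (r : ℕ) (hc : ∀ I, |c I| ≤ 1)
    (hA : Prob A) (hd : Bd s A d) (hs0 : 0 ≤ s)
    (hrs : r * s ≤ 1) : Bd (2 * (r * s) ^ 3) (A ^ r) (W3 c A d r) :=
  bd_big hA hd hs0 3 r (by norm_num) hrs c hc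

theorem w2_bd {c : Finset ℕ → ℝ} {A d : Alg} {s : ℝ} (r : ℕ) (hc : ∀ I, |c I| ≤ 1)
    (hA : Prob A) (hd : Bd s A d) (hs0 : 0 ≤ s)
    (hrs : r * s ≤ 1) : Bd (2 * (r * s) ^ 2) (A ^ r) (W2 c A d r) := by
  classical
  have h1 := bd_big hA hd hs0 2 r (by norm_num) hrs
    (fun I => if I.card = 2 then c I else 0) (fun I => by
      split_ifs
      · exact hc I
      · rw [abs_zero]; exact zero_le_one)
  have e : W2 c A d r = ∑ I ∈ (range r).powerset.filter (fun I => 2 ≤ I.card),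
      (if I.card = 2 then c I else 0) • mon A d r I := by
    have hU : powersetCard 2 (range r) = (range r).powerset.filter (fun I => I.card = 2) := by
      ext I
      simp only [Finset.mem_filter, Finset.mem_powerset, Finset.mem_powersetCard]
    unfold W2
    rw [hU, Finset.sum_filter, Finset.sum_filter]
    refine Finset.sum_congr rfl fun I _ => ?_
    by_cases h : I.card = 2
    · rw [if_pos h, if_pos (by omega), if_pos h]
    · rw [if_neg h, if_neg h, zero_smul]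
      split_ifs <;> rfl
  rw [e]
  exact h1

theorem card2_le (r : ℕ) : (((powersetCard 2 (range r)).card : ℕ) : ℝ) ≤ (r : ℝ) ^ 2 := by
  rw [Finset.card_powersetCard, Finset.card_range, Nat.choose_two_right]
  have h : r * (r - 1) / 2 ≤ r ^ 2 := by
    refine (Nat.div_le_self _ _).trans ?_
    rw [sq]
    exact Nat.mul_le_mul_left r (Nat.sub_le r 1)
  exact_mod_cast h

theorem T22_dom {A d : Alg} {σ s Λ : ℝ} (hA : Prob A) (hs : Smooth σ A) (hd : Bd s A d)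
    (hm : mass d = 0) (hs0 : 0 ≤ s) (hs1 : s ≤ 1) (J G m N G0 h : ℕ) (hN : 1 ≤ N) (hG0 : 1 ≤ G0)
    (hNG : N * J ≤ 2 * G) (hM : J * (N + G0) ≤ ulen J G * m) (hΛ : 0 < Λ)
    (c : Finset ℕ → ℝ) (hc : ∀ I, |c I| ≤ 1)
    (hc2 : ∀ I, c I ≠ 0 → I ⊆ range (2 ^ J) ∧ 2 ≤ I.card) :
    Dom ((2 ^ J) ^ 4 * (2 ^ J * 2 ^ J * Λ * s ^ 4 / √(N : ℝ)))
      ((2 ^ J) ^ 4 * (2 * 2 ^ J * 2 ^ J * Real.exp (-Λ ^ 2 / 2) + (2 * N * √(σ / G0)) ^ J))
      ((A ^ ulen J G) ^ (2 * m + h + 2))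
      ((A ^ ulen J G) ^ m * (A ^ G * W2 c A d (2 ^ J) * A ^ G) * (A ^ ulen J G) ^ h *
        (A ^ G * W2 c A d (2 ^ J) * A ^ G) * (A ^ ulen J G) ^ m) := by
  classical
  have hsig : 0 ≤ √(σ / (G0 : ℝ)) := Real.sqrt_nonneg _
  have hκ0 : 0 ≤ 2 ^ J * 2 ^ J * Λ * s ^ 4 / √(N : ℝ) := by positivity
  have hζ0 : 0 ≤ 2 * 2 ^ J * 2 ^ J * Real.exp (-Λ ^ 2 / 2) + (2 * N * √(σ / G0)) ^ J := by
    positivity
  set κ0 := 2 ^ J * 2 ^ J * Λ * s ^ 4 / √(N : ℝ) with hκ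
  set ζ0 := 2 * 2 ^ J * 2 ^ J * Real.exp (-Λ ^ 2 / 2) + (2 * N * √(σ / G0)) ^ J with hζ
  have hcast : ((2 ^ J : ℕ) : ℝ) = 2 ^ J := by push_cast; rfl
  have hcard := card2_le (2 ^ J)
  rw [hcast] at hcard
  set r := 2 ^ J with hr
  have hu : ulen J G = 2 * G + r := rfl
  set u := ulen J G with hud
  set U := powersetCard 2 (range r) with hU
  have key : (A ^ u) ^ m * (A ^ G * W2 c A d r * A ^ G) * (A ^ u) ^ h *
        (A ^ G * W2 c A d r * A ^ G) * (A ^ u) ^ m =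
      ∑ I ∈ U, c I • ∑ I' ∈ U, c I' •
        (A ^ (u * m + G) * mon A d r I * A ^ (2 * G + u * h) * mon A d r I' *
          A ^ (u * m + G)) := by
    have e1 : (A ^ u) ^ m * (A ^ G * W2 c A d r * A ^ G) * (A ^ u) ^ h *
        (A ^ G * W2 c A d r * A ^ G) * (A ^ u) ^ m =
        A ^ (u * m + G) * W2 c A d r * A ^ (2 * G + u * h) * W2 c A d r * A ^ (u * m + G) := by
      have f1 : A ^ (u * m + G) = (A ^ u) ^ m * A ^ G := by rw [pow_add, pow_mul]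
      have f2 : A ^ (u * m + G) = A ^ G * (A ^ u) ^ m := by
        rw [add_comm, pow_add, pow_mul]
      have f3 : A ^ (2 * G + u * h) = A ^ G * (A ^ u) ^ h * A ^ G := by
        rw [← pow_mul, ← pow_add, ← pow_add]; congr 1; ring
      rw [f3]
      nth_rewrite 1 [f1]
      rw [f2]
      simp only [mul_assoc]
    rw [e1]
    unfold W2
    simp only [Finset.mul_sum, Finset.sum_mul, mul_smul_comm, smul_mul_assoc, Finset.smul_sum]
    refine Finset.sum_comm.trans (Finset.sum_congr rfl fun I _ =>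
      Finset.sum_congr rfl fun I' _ => ?_)
    rw [smul_comm]
  rw [key]
  have hpow : (A ^ u) ^ (2 * m + h + 2) =
      A ^ ((u * m + G) + r + (2 * G + u * h) + r + (u * m + G)) := by
    rw [← pow_mul]; congr 1; rw [hu]; ring
  rw [hpow]
  have hE := (prob_pow hA ((u * m + G) + r + (2 * G + u * h) + r + (u * m + G))).1
  have hr1 : 1 ≤ r := Nat.one_le_two_pow
  have inner : ∀ I ∈ U, c I ≠ 0 → Dom ((2 ^ J) ^ 2 * κ0) ((2 ^ J) ^ 2 * ζ0)
      (A ^ ((u * m + G) + r + (2 * G + u * h) + r + (u * m + G)))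
      (∑ I' ∈ U, c I' •
        (A ^ (u * m + G) * mon A d r I * A ^ (2 * G + u * h) * mon A d r I' *
          A ^ (u * m + G))) := by
    intro I _ hI
    obtain ⟨a1, a2⟩ := hc2 I hI
    have := dom_csum hE U c
      (fun I' => A ^ (u * m + G) * mon A d r I * A ^ (2 * G + u * h) * mon A d r I' *
          A ^ (u * m + G)) hκ0 hζ0 hc (fun I' _ hI' => by
        obtain ⟨b1, b2⟩ := hc2 I' hI'
        have hq := quad hA hs hd hm hs0 hs1 r N G0 J (u * m + G) (2 * G + u * h) hr1 hN hG0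
          (by omega) (by omega) I I' a1 b1 a2 b2 Λ hΛ
        refine dom_mono hE hq (le_of_eq ?_) (le_of_eq ?_)
        · rw [hκ, hr]; push_cast; ring
        · rw [hζ, hr]; push_cast; ring)
    exact dom_mono hE this (mul_le_mul_of_nonneg_right hcard hκ0)
      (mul_le_mul_of_nonneg_right hcard hζ0)
  have outer := dom_csum hE U c _ (by positivity : (0 : ℝ) ≤ (2 ^ J) ^ 2 * κ0)
    (by positivity : (0 : ℝ) ≤ (2 ^ J) ^ 2 * ζ0) hc inner
  refine dom_mono hE outer ?_ ?_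
  · calc ((U.card : ℕ) : ℝ) * ((2 ^ J) ^ 2 * κ0) ≤ (2 ^ J) ^ 2 * ((2 ^ J) ^ 2 * κ0) :=
          mul_le_mul_of_nonneg_right hcard (by positivity)
      _ = _ := by ring
  · calc ((U.card : ℕ) : ℝ) * ((2 ^ J) ^ 2 * ζ0) ≤ (2 ^ J) ^ 2 * ((2 ^ J) ^ 2 * ζ0) :=
          mul_le_mul_of_nonneg_right hcard (by positivity)
      _ = _ := by ring

theorem T0_dom_r {J₀ : ℕ} {A d : Alg} {σ s Λ : ℝ} (hA : Prob A) (hs : Smooth σ A) (hd : Bd s A d)
    (hm : mass d = 0) (hs0 : 0 ≤ s) (hrs : 2 ^ J₀ * s ≤ 1) (G m N G0 h : ℕ) (hN : 1 ≤ N)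
    (hG0 : 1 ≤ G0)
    (hNG : N * J₀ ≤ 2 * G) (hM : J₀ * (N + G0) ≤ ulen J₀ G * m) (hΛ : 0 < Λ)
    (c : Finset ℕ → ℝ) (hc : ∀ I, |c I| ≤ 1)
    (hc2 : ∀ I, c I ≠ 0 → I ⊆ range (2 ^ J₀) ∧ 2 ≤ I.card) :
    Dom ((2 ^ J₀) ^ 4 * (2 ^ J₀ * 2 ^ J₀ * Λ * s ^ 4 / √(N : ℝ)) + 8 * (2 ^ J₀ * s) ^ 5)
      ((2 ^ J₀) ^ 4 * (2 * 2 ^ J₀ * 2 ^ J₀ * Real.exp (-Λ ^ 2 / 2) + (2 * N * √(σ / G0)) ^ J₀))
      ((A ^ ulen J₀ G) ^ (2 * m + h + 2))
      ((A ^ ulen J₀ G) ^ m * (A ^ G * Wp c A d (2 ^ J₀) * A ^ G) * (A ^ ulen J₀ G) ^ h *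
        (A ^ G * Wp c A d (2 ^ J₀) * A ^ G) * (A ^ ulen J₀ G) ^ m) := by
  have hcast : ((2 ^ J₀ : ℕ) : ℝ) = 2 ^ J₀ := by push_cast; rfl
  have hb1 : (1 : ℝ) ≤ 2 ^ J₀ := one_le_pow₀ (by norm_num)
  have hs1 : s ≤ 1 := by nlinarith
  have hrs' : ((2 ^ J₀ : ℕ) : ℝ) * s ≤ 1 := by rw [hcast]; exact hrs
  have t1 := T22_dom hA hs hd hm hs0 hs1 J₀ G m N G0 h hN hG0 hNG hM hΛ c hc hc2
  have b2 := bd_sand hA (by positivity) G (2 ^ J₀) (w2_bd (2 ^ J₀) hc hA hd hs0 hrs')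
  have b3 := bd_sand hA (by positivity) G (2 ^ J₀) (w3_bd (2 ^ J₀) hc hA hd hs0 hrs')
  have bw := bd_sand hA (by positivity) G (2 ^ J₀) (wp_bd_r (2 ^ J₀) hc hc2 hA hd hs0 hrs')
  rw [hcast] at b2 b3 bw
  have hul : 2 * G + 2 ^ J₀ = ulen J₀ G := rfl
  rw [hul] at b2 b3 bw
  set x : ℝ := 2 ^ J₀ * s with hx
  have hx0 : 0 ≤ x := by positivity
  have hW : A ^ G * Wp c A d (2 ^ J₀) * A ^ G = A ^ G * W2 c A d (2 ^ J₀) * A ^ G
      + A ^ G * W3 c A d (2 ^ J₀) * A ^ G := by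
    rw [wp_split (2 ^ J₀) hc2, mul_add, add_mul]
  generalize A ^ G * W2 c A d (2 ^ J₀) * A ^ G = D2 at t1 b2 hW
  generalize A ^ G * W3 c A d (2 ^ J₀) * A ^ G = D3 at b3 hW
  generalize A ^ G * Wp c A d (2 ^ J₀) * A ^ G = D at bw hW ⊢
  have pP := prob_pow hA (ulen J₀ G)
  generalize A ^ ulen J₀ G = P at t1 b2 b3 bw pP ⊢
  have pm := prob_pow pP m
  have ph := prob_pow pP h
  have p2 := prob_mul pm pP
  have p3 := prob_mul p2 ph
  have p4 := prob_mul p3 pP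
  have e1 : P ^ m * P * P ^ h * P * P ^ m = P ^ (2 * m + h + 2) := by
    rw [← pow_succ, ← pow_add, ← pow_succ, ← pow_add]
    congr 1
    omega
  have sw : ∀ (X Y : Alg) (α β : ℝ), 0 ≤ α → 0 ≤ β → Bd α P X → Bd β P Y →
      Bd (α * β) (P ^ (2 * m + h + 2)) (P ^ m * X * P ^ h * Y * P ^ m) := by
    intro X Y α β hα hβ hX hY
    have k1 := bd_left pm.1 pP.1 hα hX
    have k2 := bd_right ph.1 p2.1 hα k1
    have k3 := bd_mul p3.1 pP.1 hα hβ k2 hY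
    have k4 := bd_right pm.1 p4.1 (by positivity) k3
    rwa [e1] at k4
  have s1 := sw D2 D3 _ _ (by positivity) (by positivity) b2 b3
  have s2 := sw D3 D _ _ (by positivity) (by positivity) b3 bw
  have hsum : P ^ m * D * P ^ h * D * P ^ m = P ^ m * D2 * P ^ h * D2 * P ^ m +
      (P ^ m * D2 * P ^ h * D3 * P ^ m + P ^ m * D3 * P ^ h * D * P ^ m) := by
    nth_rewrite 1 [hW]
    have : P ^ m * D2 * P ^ h * D2 * P ^ m + P ^ m * D2 * P ^ h * D3 * P ^ m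
        = P ^ m * D2 * P ^ h * D * P ^ m := by
      rw [hW, mul_add, add_mul]
    rw [← add_assoc, this, mul_add, add_mul, add_mul, add_mul]
  rw [hsum]
  refine dom_mono (prob_pow pP _).1 (dom_add t1 (dom_of_bd (bd_add s1 s2))) (le_of_eq ?_)
    (le_of_eq ?_)
  · ring
  · ring

/-- the commutator is Lipschitz -/
theorem comm_nrm {a d : Alg} (ha : Prob a) (J : ℕ) : nrm (comm a d J) ≤ 2 ^ J * nrm d := by
  induction J with
  | zero => simp [comm]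
  | succ J ih =>
    have c1 : comm a d (J + 1) = comm a d J * a ^ (2 ^ J) - a ^ (2 ^ J) * comm a d J := rfl
    rw [c1]
    refine (nrm_sub_le _ _).trans ?_
    have h1 := (contr_right (prob_pow ha (2 ^ J)) (comm a d J)).trans ih
    have h2 := (contr_left (prob_pow ha (2 ^ J)) (comm a d J)).trans ih
    have : (2 : ℝ) ^ (J + 1) = 2 * 2 ^ J := by ring
    rw [this]
    linarith

theorem comm_diff {a a' d d' : Alg} {e e' : ℝ} (ha : Prob a) (ha' : Prob a')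
    (h : nrm (a - a') ≤ e) (h' : nrm (d - d') ≤ e') (hd : nrm d ≤ 2) (J : ℕ) :
    nrm (comm a d J - comm a' d' J) ≤ 2 ^ J * e' + 4 ^ J * (2 * e) := by
  have he : 0 ≤ e := (nrm_nonneg _).trans h
  induction J with
  | zero =>
    simp only [comm, pow_zero, one_mul]
    linarith
  | succ J ih =>
    have hp := pow_diff ha ha' h (2 ^ J)
    have hcast : ((2 ^ J : ℕ) : ℝ) = 2 ^ J := by push_cast; rfl
    rw [hcast] at hp
    have hn := (comm_nrm (d := d) ha J).trans (mul_le_mul_of_nonneg_left hd (by positivity))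
    have e1 : comm a d (J + 1) - comm a' d' (J + 1) =
        ((comm a d J * (a ^ (2 ^ J) - a' ^ (2 ^ J)) +
          (comm a d J - comm a' d' J) * a' ^ (2 ^ J)) -
        ((a ^ (2 ^ J) - a' ^ (2 ^ J)) * comm a d J +
          a' ^ (2 ^ J) * (comm a d J - comm a' d' J))) := by
      have c1 : comm a d (J + 1) = comm a d J * a ^ (2 ^ J) - a ^ (2 ^ J) * comm a d J := rfl
      have c2 : comm a' d' (J + 1) = comm a' d' J * a' ^ (2 ^ J) - a' ^ (2 ^ J) * comm a' d' J :=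
        rfl
      rw [c1, c2]
      simp only [mul_sub, sub_mul]
      abel
    rw [e1]
    have k1 : nrm (comm a d J * (a ^ (2 ^ J) - a' ^ (2 ^ J))) ≤ 2 ^ J * 2 * (2 ^ J * e) :=
      (nrm_mul_le _ _).trans (mul_le_mul hn hp (nrm_nonneg _) (by positivity))
    have k2 : nrm ((a ^ (2 ^ J) - a' ^ (2 ^ J)) * comm a d J) ≤ 2 ^ J * e * (2 ^ J * 2) :=
      (nrm_mul_le _ _).trans (mul_le_mul hp hn (nrm_nonneg _) (by positivity))
    have k3 := (contr_right (prob_pow ha' (2 ^ J)) (comm a d J - comm a' d' J)).trans ih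
    have k4 := (contr_left (prob_pow ha' (2 ^ J)) (comm a d J - comm a' d' J)).trans ih
    have k5 := nrm_add_le (comm a d J * (a ^ (2 ^ J) - a' ^ (2 ^ J)))
      ((comm a d J - comm a' d' J) * a' ^ (2 ^ J))
    have k6 := nrm_add_le ((a ^ (2 ^ J) - a' ^ (2 ^ J)) * comm a d J)
      (a' ^ (2 ^ J) * (comm a d J - comm a' d' J))
    refine (nrm_sub_le _ _).trans ?_
    have p1 : (2 : ℝ) ^ (J + 1) = 2 * 2 ^ J := by ring
    have p2 : (4 : ℝ) ^ (J + 1) = 4 * 4 ^ J := by ring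
    have p3 : (2 : ℝ) ^ J * 2 ^ J = 4 ^ J := by rw [← mul_pow]; norm_num
    have p4 : (2 : ℝ) ^ J * 2 * (2 ^ J * e) = 2 * (4 ^ J * e) := by rw [← p3]; ring
    have p5 : (2 : ℝ) ^ J * e * (2 ^ J * 2) = 2 * (4 ^ J * e) := by rw [← p3]; ring
    rw [p4] at k1
    rw [p5] at k2
    rw [p1, p2]
    linarith

end Fine

end Vale.Agent.P321
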