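import Vale.Agent.P321.SmoothStep
import Vale.Agent.P321.RBounds

namespace Vale.Agent.P321

open Finset

theorem smooth_step_r {A B : Alg} {σ t ξ : ℝ} (hA : Prob A) (hB : Prob B) (hs : Smooth σ A)
    (hσ : 1 ≤ σ) (hD : Dom t ξ A (B - A)) (ht : 0 < t) (hξ : ξ ≤ t) (J G S : ℕ)
    (hG : 8 * σ + 4 ≤ G) (hS : 64 * σ * ulen J G ≤ S)
    (htail : ((S : ℝ) + 1) * (2 * Real.exp (-((G : ℝ) / 2) ^ 2 / (2 * (S + 1)))) ≤ 1 / 2)
    (hΓ : (2 ^ (J + 2) * t) ^ 2 * (3 * 2 ^ J * √((S : ℝ) + 1)) ≤ 1 / 2)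
    (herr : (Nat.log 2 (S + 1) + 1) *
        (2 * √(2 * ((2 ^ (J + 2) * t) ^ 2 * (3 * 2 ^ J * √((S : ℝ) + 1))))
          + 4 * √(σ / (G / 2 : ℕ)) + 2 ^ (J + 2) * t)
        + ((S : ℝ) + 1) * 2 ^ (J + 1) * ξ ≤ 1 / 8) :
    Smooth (400 * (S + 1)) (stepA J G A B) := by
  have hmd : mass (B - A) = 0 := by rw [mass_sub, hA.2, hB.2, sub_self]
  obtain ⟨d', hd0, hdb, hdn⟩ := dom_clean hA hmd ht.le hξ hD
  set τ : ℝ := 2 ^ (J + 2) * t with hτdef
  have hτ0 : 0 < τ := by positivity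
  have hp1 : (1 : ℝ) ≤ 2 ^ J := one_le_pow₀ (by norm_num)
  have hp2 : (1 : ℝ) ≤ 2 ^ (2 ^ J) := one_le_pow₀ (by norm_num)
  have hS1 : (1 : ℝ) ≤ √((S : ℝ) + 1) := by
    rw [Real.one_le_sqrt]
    have : (0 : ℝ) ≤ S := Nat.cast_nonneg S
    linarith
  have hτ1 : τ ^ 2 ≤ 1 / 6 := by
    have h3 : (3 : ℝ) ≤ 3 * 2 ^ J * √((S : ℝ) + 1) := by nlinarith
    nlinarith [sq_nonneg τ]
  have hτ2 : τ ≤ 1 / 2 := by nlinarith
  have h2t : 2 * t ≤ 1 := by
    have : 2 * t ≤ τ := by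
      have e : (2 : ℝ) ^ (J + 2) * t = 4 * (2 ^ J * t) := by ring
      rw [hτdef, e]
      nlinarith
    linarith
  set B' : Alg := A + d' with hB'
  have hBd' : Prob B' := by
    constructor
    · intro z
      have h1 := hdb z
      have h2 := hA.1 z
      have h3 : B'.coeff z = A.coeff z + d'.coeff z := by
        rw [hB']; rfl
      rw [h3]
      have h4 := (abs_le.1 h1).1
      nlinarith
    · rw [hB', mass_add, hd0, hA.2, add_zero]
  have hBB : nrm (B - B') ≤ 2 * ξ := by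
    have : B - B' = (B - A) - d' := by rw [hB']; abel
    rw [this]; exact hdn
  have hξ0 : 0 ≤ ξ := by have := nrm_nonneg (B - B'); linarith
  set W : Alg := (tm A B' J).1 with hW
  have hWp : Prob W := (tm_prob hA hBd' J).1
  set ρ : Alg := W - A ^ (2 ^ J) with hρ
  have hrt : 2 ^ J * (2 * t) ≤ 1 := by
    have e : (2 : ℝ) ^ J * (2 * t) = τ / 2 := by rw [hτdef]; ring
    rw [e]; linarith
  obtain ⟨hρb, hρm⟩ := tm_bd_r hA hdb hd0 (by positivity : (0 : ℝ) ≤ 2 * t) J hrt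
  have hρe : 2 * (2 ^ J * (2 * t)) = τ := by rw [hτdef]; ring
  rw [hρe] at hρb
  have hWe : A ^ (2 ^ J) + ρ = W := by rw [hρ]; abel
  set P : Alg := A ^ (2 * G + 2 ^ J) with hP
  have hPp : Prob P := prob_pow hA _
  set ah : Alg := A ^ G * W * A ^ G with hah
  have hahp : Prob ah := prob_mul (prob_mul (prob_pow hA _) hWp) (prob_pow hA _)
  have hap : Prob (stepA J G A B) :=
    prob_mul (prob_mul (prob_pow hA _) (tm_prob hA hB J).1) (prob_pow hA _)
  have haah : nrm (stepA J G A B - ah) ≤ 2 ^ (J + 1) * ξ := by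
    have h1 : stepA J G A B - ah = A ^ G * ((tm A B J).1 - W) * A ^ G := by
      rw [stepA, hah]; noncomm_ring
    rw [h1]
    refine (contr_right (prob_pow hA _) _).trans ((contr_left (prob_pow hA _) _).trans ?_)
    refine (tm_pert hA hB hBd' hBB J).1.trans (le_of_eq ?_)
    ring
  have hnρ : nrm ρ ≤ τ := by
    have h1 : nrm ρ ≤ mass (τ • A ^ (2 ^ J)) := by
      refine nrm_le_of_abs_le fun z => ?_
      have h2 : (τ • A ^ (2 ^ J)).coeff z = τ * (A ^ (2 ^ J)).coeff z := rfl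
      rw [h2]
      exact hρb z
    rw [mass_smul, (prob_pow hA _).2, mul_one] at h1
    exact h1
  have hahP : nrm (ah - P) ≤ τ := by
    have h1 : ah - P = A ^ G * ρ * A ^ G := by
      have e : (A ^ (2 * G + 2 ^ J) : Alg) = A ^ G * A ^ (2 ^ J) * A ^ G := by
        rw [← pow_add, ← pow_add]; congr 1; ring
      rw [hah, hP, e, hρ]; noncomm_ring
    rw [h1]
    exact (contr_right (prob_pow hA _) _).trans ((contr_left (prob_pow hA _) _).trans hnρ)
  -- the second moment bound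
  have hG2 : 1 ≤ G / 2 := by
    have : (4 : ℝ) ≤ G := by linarith
    have : 4 ≤ G := by exact_mod_cast this
    omega
  have hGh : 4 * σ + 1 ≤ ((G / 2 : ℕ) : ℝ) := by
    have h1 : G ≤ 2 * (G / 2) + 1 := by omega
    have h2 : (G : ℝ) ≤ 2 * ((G / 2 : ℕ) : ℝ) + 1 := by exact_mod_cast h1
    linarith
  have hGh2 : 2 ≤ G / 2 := by
    have h3 : (2 : ℝ) ≤ ((G / 2 : ℕ) : ℝ) := by linarith
    exact_mod_cast h3
  set Ω : ℝ := 2 * √(2 * (τ ^ 2 * (3 * 2 ^ J * √((S : ℝ) + 1)))) + 4 * √(σ / (G / 2 : ℕ)) with hΩ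
  have hΩ0 : 0 ≤ Ω := by positivity
  have hSM : ∀ S' : ℕ, 1 ≤ S' → S' ≤ S + 1 → nrm ((ah ^ S' - P ^ S') * P ^ S') ≤ Ω := by
    intro S' h1 h2
    have h2' : (S' : ℝ) ≤ (S : ℝ) + 1 := by exact_mod_cast h2
    have h1' : (1 : ℝ) ≤ (S' : ℝ) := by exact_mod_cast h1
    have hsq : √((S' : ℝ) / (1 : ℕ)) ≤ √((S : ℝ) + 1) := by
      refine Real.sqrt_le_sqrt ?_
      simpa using h2'
    have hΓ' : τ ^ 2 * (3 * ((2 ^ J : ℕ) : ℝ) * √((S' : ℝ) / (1 : ℕ)))
        ≤ τ ^ 2 * (3 * 2 ^ J * √((S : ℝ) + 1)) := by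
      refine mul_le_mul_of_nonneg_left ?_ (sq_nonneg _)
      push_cast at hsq ⊢
      refine mul_le_mul_of_nonneg_left hsq (by positivity)
    have key := SM (A := A) (ρ := ρ) (σ := σ) (τ := τ) hA hs (by linarith) (2 ^ J)
      (Nat.one_le_two_pow) hτ0.le hρb (hWe ▸ hWp) (G / 2) 1 (G - G / 2) G S' (by omega) hGh hGh2
      le_rfl (by omega) h1 ?_ (hΓ'.trans hΓ)
    · rw [hWe] at key
      refine key.trans ?_
      rw [hΩ]
      have := Real.sqrt_le_sqrt (mul_le_mul_of_nonneg_left hΓ' (by norm_num : (0 : ℝ) ≤ 2))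
      linarith
    · refine le_trans ?_ htail
      have hz : (G : ℝ) / 2 ≤ ((G - G / 2 : ℕ) : ℝ) := by
        have h3 : G ≤ 2 * (G - G / 2) := by omega
        have h4 : (G : ℝ) ≤ 2 * ((G - G / 2 : ℕ) : ℝ) := by exact_mod_cast h3
        linarith
      have hz0 : (0 : ℝ) ≤ (G : ℝ) / 2 := by positivity
      have hexp : Real.exp (-(((G - G / 2 : ℕ) : ℝ)) ^ 2 / (2 * ((S' : ℝ) * (1 : ℕ))))
          ≤ Real.exp (-((G : ℝ) / 2) ^ 2 / (2 * (S + 1))) := by
        refine Real.exp_le_exp.2 ?_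
        rw [neg_div, neg_div, neg_le_neg_iff]
        have h5 : ((G : ℝ) / 2) ^ 2 ≤ (((G - G / 2 : ℕ) : ℝ)) ^ 2 := pow_le_pow_left₀ hz0 hz 2
        refine div_le_div₀ (by positivity) h5 (by positivity) ?_
        push_cast
        linarith
      refine mul_le_mul h2' (by linarith) (by positivity) (by positivity)
  -- dyadic induction
  have hdy : ∀ S' : ℕ, 1 ≤ S' → S' ≤ S + 1 →
      nrm (ah ^ S' - P ^ S') ≤ (Nat.log 2 (S + 1) + 1) * (Ω + τ) := by
    intro S' h1 h2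
    have h3 := dyadic hahp hPp S' h1 (fun _ => Ω) (fun S'' h4 h5 => hSM S'' h4 (h5.trans h2))
    refine h3.trans ?_
    have h6 : (Nat.log 2 S' : ℝ) ≤ Nat.log 2 (S + 1) := by
      exact_mod_cast Nat.log_mono_right h2
    have h7 : (0 : ℝ) ≤ (Nat.log 2 S' : ℝ) := Nat.cast_nonneg _
    rw [Finset.sum_const, card_range, nsmul_eq_mul]
    have h8 := nrm_nonneg (ah - P)
    have h9 : (Nat.log 2 S' : ℝ) * Ω ≤ (Nat.log 2 (S + 1) + 1) * Ω := by
      refine mul_le_mul_of_nonneg_right ?_ hΩ0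
      linarith
    have h10 : ((Nat.log 2 S' : ℝ) + 1) * nrm (ah - P) ≤ (Nat.log 2 (S + 1) + 1) * τ := by
      refine mul_le_mul ?_ hahP h8 (by positivity)
      linarith
    linarith
  have hclose : ∀ S' : ℕ, 1 ≤ S' → S' ≤ S + 1 →
      nrm (stepA J G A B ^ S' - P ^ S') ≤ 1 / 8 := by
    intro S' h1 h2
    have h2' : (S' : ℝ) ≤ (S : ℝ) + 1 := by exact_mod_cast h2
    have h3 := hdy S' h1 h2
    have h4 := pow_sub_pow_nrm hap hahp S'
    have h5 : (S' : ℝ) * nrm (stepA J G A B - ah) ≤ ((S : ℝ) + 1) * 2 ^ (J + 1) * ξ := by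
      calc (S' : ℝ) * nrm (stepA J G A B - ah)
          ≤ ((S : ℝ) + 1) * (2 ^ (J + 1) * ξ) :=
            mul_le_mul h2' haah (nrm_nonneg _) (by positivity)
        _ = _ := by ring
    have h6 : stepA J G A B ^ S' - P ^ S'
        = (stepA J G A B ^ S' - ah ^ S') + (ah ^ S' - P ^ S') := by abel
    rw [h6]
    refine (nrm_add_le _ _).trans ?_
    have h7 : (Nat.log 2 (S + 1) + 1 : ℝ) * (Ω + τ) + ((S : ℝ) + 1) * 2 ^ (J + 1) * ξ ≤ 1 / 8 := by
      have := herr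
      rw [hΩ]
      exact this
    linarith
  have hu0 : (0 : ℝ) < ulen J G := by
    have : 1 ≤ ulen J G := by
      have : 1 ≤ 2 ^ J := Nat.one_le_two_pow
      unfold ulen; omega
    exact_mod_cast this
  have hSpos : (0 : ℝ) < S := lt_of_lt_of_le (by positivity) hS
  have hS1n : 1 ≤ S := by exact_mod_cast hSpos
  have hPP : nrm (P ^ (S + 1) - P ^ S) ≤ 1 / 8 := by
    have h1 : P ^ (S + 1) - P ^ S = A ^ (ulen J G * S) * (A ^ ulen J G - 1) := by
      rw [hP, ← pow_mul, ← pow_mul]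
      have : ulen J G = 2 * G + 2 ^ J := rfl
      rw [this, mul_sub, mul_one, ← pow_add]
      congr 2
    rw [h1]
    have hNS : 1 ≤ ulen J G * S := by
      have h2 : 1 ≤ ulen J G := by exact_mod_cast hu0
      exact Nat.mul_pos h2 hS1n
    refine (smooth_pow hA hs _ hNS _).trans ?_
    have h3 : (ulen J G : ℝ) * √(σ / ((ulen J G * S : ℕ) : ℝ))
        = √(σ * (ulen J G : ℝ) / S) := by
      rw [← Real.sqrt_sq hu0.le, ← Real.sqrt_mul (sq_nonneg _), Real.sqrt_sq hu0.le]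
      congr 1
      push_cast
      field_simp
    rw [h3]
    rw [Real.sqrt_le_left (by norm_num)]
    rw [div_le_iff₀ hSpos]
    linarith
  set a : Alg := stepA J G A B with ha
  have hfin : nrm (a ^ S - a ^ (S + 1)) ≤ 3 / 8 := by
    have h1 : a ^ S - a ^ (S + 1)
        = (a ^ S - P ^ S) - (P ^ (S + 1) - P ^ S) - (a ^ (S + 1) - P ^ (S + 1)) := by abel
    rw [h1]
    have h2 := nrm_sub_le ((a ^ S - P ^ S) - (P ^ (S + 1) - P ^ S)) (a ^ (S + 1) - P ^ (S + 1))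
    have h3 := nrm_sub_le (a ^ S - P ^ S) (P ^ (S + 1) - P ^ S)
    have h4 := hclose S hS1n (by omega)
    have h5 := hclose (S + 1) (by omega) le_rfl
    linarith
  have hZm : (1 / 2 : ℝ) ≤ mass (minA (a ^ S) (a ^ (S + 1))) := by
    rw [mass_minA (prob_pow hap _) (prob_pow hap _)]
    linarith
  have hfinal := overlap_smooth (A := a) (Z := minA (a ^ S) (a ^ (S + 1))) hap S (1 / 2)
    (by norm_num) ?_ ?_ ?_ hZm
  · have : (200 * ((S : ℝ) + 1) / (1 / 2)) = 400 * (S + 1) := by ring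
    rw [this] at hfinal
    exact hfinal
  · intro z
    rw [minA_coeff]
    exact le_min ((prob_pow hap _).1 z) ((prob_pow hap _).1 z)
  · intro z
    rw [minA_coeff]
    exact min_le_left _ _
  · intro z
    rw [minA_coeff]
    exact min_le_right _ _

end Vale.Agent.P321
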