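import Vale.Agent.P321.Super
import Vale.Agent.P321.RDefs
import Vale.Agent.P321.RSmooth
import Vale.Agent.P321.RCrude

/-! Uniform form of the window step. -/

namespace Vale.Agent.P321

open Filter

section
variable {n J : ℕ} {η : ℝ}

/-- constants are absorbed -/
theorem u_le (hn1 : (1 : ℝ) ≤ n) (hU : (2 : ℝ) ^ (200 * (J + 1)) ≤ (n : ℝ) ^ (η / 2))
    (K a b : ℝ) (hK : K ≤ 2 ^ (200 * (J + 1))) (hab : a + η / 2 ≤ b) :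
    K * (n : ℝ) ^ a ≤ (n : ℝ) ^ b := by
  have hn0 : (0 : ℝ) < n := by linarith
  calc K * (n : ℝ) ^ a ≤ (n : ℝ) ^ (η / 2) * (n : ℝ) ^ a :=
        mul_le_mul_of_nonneg_right (hK.trans hU) (by positivity)
    _ = (n : ℝ) ^ (η / 2 + a) := pw_mul hn0 _ _
    _ ≤ _ := pw_le hn1 (by linarith)

theorem u_le0 (hn1 : (1 : ℝ) ≤ n) (hU : (2 : ℝ) ^ (200 * (J + 1)) ≤ (n : ℝ) ^ (η / 2))
    (K b : ℝ) (hK : K ≤ 2 ^ (200 * (J + 1))) (hab : η / 2 ≤ b) : K ≤ (n : ℝ) ^ b :=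
  hK.trans (hU.trans (pw_le hn1 hab))

theorem u_pow (a : ℕ) (h : a ≤ 200 * (J + 1)) : (2 : ℝ) ^ a ≤ 2 ^ (200 * (J + 1)) :=
  pow_le_pow_right₀ (by norm_num) h

theorem u_exp (hn1 : (1 : ℝ) ≤ n) (b ζ K : ℝ) (h : K * Real.log n ≤ b * (n : ℝ) ^ ζ) :
    Real.exp (-(b * (n : ℝ) ^ ζ)) ≤ (n : ℝ) ^ (-K) := by
  have hn0 : (0 : ℝ) < n := by linarith
  rw [Real.rpow_def_of_pos hn0 (-K)]
  apply Real.exp_le_exp.2
  linarith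

theorem u_log (hn1 : (1 : ℝ) ≤ n) (ζ K : ℝ) (hK : 0 ≤ K)
    (h : 4 * (K + 1) * (Real.log n + 1) ≤ (n : ℝ) ^ ζ) (S : ℕ) (hS : (S : ℝ) ≤ (n : ℝ) ^ K) :
    (Nat.log 2 (S + 1) : ℝ) + 1 ≤ (n : ℝ) ^ ζ := by
  have hn0 : (0 : ℝ) < n := by linarith
  have hl2 : (1 / 2 : ℝ) < Real.log 2 := by
    have := Real.log_two_gt_d9
    linarith
  have hln : 0 ≤ Real.log n := Real.log_nonneg hn1
  have hp1 : (1 : ℝ) ≤ (n : ℝ) ^ K := Real.one_le_rpow hn1 hK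
  have hS1 : ((S + 1 : ℕ) : ℝ) ≤ 2 * (n : ℝ) ^ K := by push_cast; linarith
  have hSp : (0 : ℝ) < ((S + 1 : ℕ) : ℝ) := by positivity
  have a1 : (Nat.log 2 (S + 1) : ℝ) * Real.log 2 ≤ Real.log ((S + 1 : ℕ) : ℝ) := by
    have := Nat.pow_log_le_self 2 (Nat.succ_ne_zero S)
    have h := Real.log_le_log (by positivity) (show ((2 ^ Nat.log 2 (S + 1) : ℕ) : ℝ)
      ≤ ((S + 1 : ℕ) : ℝ) by exact_mod_cast this)
    rw [Nat.cast_pow, Real.log_pow] at h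
    exact_mod_cast h
  have a2 : Real.log ((S + 1 : ℕ) : ℝ) ≤ Real.log 2 + K * Real.log n := by
    have := Real.log_le_log hSp hS1
    rwa [Real.log_mul (by norm_num) (by positivity), Real.log_rpow hn0] at this
  have hKl : 0 ≤ K * Real.log n := mul_nonneg hK hln
  have a3 : (Nat.log 2 (S + 1) : ℝ) ≤ 1 + 2 * (K * Real.log n) := by
    by_contra hc
    push Not at hc
    have : (1 + 2 * (K * Real.log n)) * Real.log 2 < (Nat.log 2 (S + 1) : ℝ) * Real.log 2 :=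
      mul_lt_mul_of_pos_right hc (by linarith)
    nlinarith
  nlinarith

theorem u_half {s c : ℝ} {G : ℕ} (hn1 : (1 : ℝ) ≤ n)
    (hU : (2 : ℝ) ^ (200 * (J + 1)) ≤ (n : ℝ) ^ (η / 2)) (hJ : 1 ≤ J)
    (hJG : J ≤ G) (gl : (n : ℝ) ^ (s + 2 * η) ≤ G) (hc : 2 * c ≤ η * J) :
    (2 ^ J * √((n : ℝ) ^ s / ((G / J : ℕ) : ℝ))) ^ J ≤ (n : ℝ) ^ (-c) := by
  have hn0 : (0 : ℝ) < n := by linarith
  have b1 := ev_half (s := s) (η := η) hn1 J G (by omega) hJG gl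
  have hJ2 : (J : ℝ) ≤ 2 ^ J := by exact_mod_cast Nat.lt_two_pow_self.le
  have hb1 : (1 : ℝ) ≤ 2 ^ J := one_le_pow₀ (by norm_num)
  have b2 : √(2 * (J : ℝ)) ≤ 2 ^ (J + 1) := by
    apply Real.sqrt_le_iff.2
    refine ⟨by positivity, ?_⟩
    have : ((2 : ℝ) ^ (J + 1)) ^ 2 = 4 * (2 ^ J * 2 ^ J) := by ring
    rw [this]
    nlinarith
  have b3 : 2 ^ J * (√(2 * (J : ℝ)) * (n : ℝ) ^ (-η)) ≤ (n : ℝ) ^ (-(η / 2)) := by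
    rw [← mul_assoc]
    refine u_le hn1 hU _ _ _ (le_trans ?_ (u_pow (2 * J + 1) (by omega))) (by linarith)
    have : (2 : ℝ) ^ (2 * J + 1) = 2 ^ J * 2 ^ (J + 1) := by ring
    rw [this]
    exact mul_le_mul_of_nonneg_left b2 (by positivity)
  calc (2 ^ J * √((n : ℝ) ^ s / ((G / J : ℕ) : ℝ))) ^ J
      ≤ (2 ^ J * (√(2 * J) * (n : ℝ) ^ (-η))) ^ J := by gcongr
    _ ≤ ((n : ℝ) ^ (-(η / 2))) ^ J := pow_le_pow_left₀ (by positivity) b3 J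
    _ = (n : ℝ) ^ (-(η / 2) * J) := pow_pw hn0 _ _
    _ ≤ (n : ℝ) ^ (-c) := pw_le hn1 (by linarith)

theorem u_avg {x s c : ℝ} {N U : ℕ} (hn1 : (1 : ℝ) ≤ n)
    (hU : (2 : ℝ) ^ (200 * (J + 1)) ≤ (n : ℝ) ^ (η / 2)) (hJ : 1 ≤ J)
    (hNu : (N : ℝ) ≤ (n : ℝ) ^ (x / 3)) (hJU : 2 * J ≤ U)
    (ul : (n : ℝ) ^ (s + 2 * η + 2 * x / 3) ≤ U) (hc : 2 * c ≤ η * J) :
    (2 * N * √((n : ℝ) ^ s / ((U / (2 * J) : ℕ) : ℝ))) ^ J ≤ (n : ℝ) ^ (-c) := by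
  have hn0 : (0 : ℝ) < n := by linarith
  have hJ0 : (0 : ℝ) < J := by exact_mod_cast hJ
  have e0 : s + 2 * η + 2 * x / 3 = s + 2 * (η + x / 3) := by ring
  rw [e0] at ul
  have b1 := ev_half (s := s) (η := η + x / 3) hn1 (2 * J) U (by omega) hJU ul
  have e1 : √(2 * ((2 * J : ℕ) : ℝ)) = √(4 * J) := by
    congr 1; push_cast; ring
  rw [e1] at b1
  have hJ2 : (J : ℝ) ≤ 2 ^ J := by exact_mod_cast Nat.lt_two_pow_self.le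
  have hb1 : (1 : ℝ) ≤ 2 ^ J := one_le_pow₀ (by norm_num)
  have b2 : √(4 * (J : ℝ)) ≤ 2 ^ (J + 1) := by
    apply Real.sqrt_le_iff.2
    refine ⟨by positivity, ?_⟩
    have : ((2 : ℝ) ^ (J + 1)) ^ 2 = 4 * (2 ^ J * 2 ^ J) := by ring
    rw [this]
    nlinarith
  have b3 : 2 * √(4 * (J : ℝ)) * (n : ℝ) ^ (-η) ≤ (n : ℝ) ^ (-(η / 2)) := by
    refine u_le hn1 hU _ _ _ (le_trans ?_ (u_pow (J + 2) (by omega))) (by linarith)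
    have : (2 : ℝ) ^ (J + 2) = 2 * 2 ^ (J + 1) := by ring
    rw [this]
    linarith
  have b4 : 2 * (n : ℝ) ^ (x / 3) * (√(4 * J) * (n : ℝ) ^ (-(η + x / 3)))
      = 2 * √(4 * (J : ℝ)) * (n : ℝ) ^ (-η) := by
    have := pw_mul hn0 (x / 3) (-(η + x / 3))
    have e : x / 3 + -(η + x / 3) = -η := by ring
    rw [e] at this
    rw [← this]; ring
  calc (2 * N * √((n : ℝ) ^ s / ((U / (2 * J) : ℕ) : ℝ))) ^ J
      ≤ (2 * (n : ℝ) ^ (x / 3) * (√(4 * J) * (n : ℝ) ^ (-(η + x / 3)))) ^ J := by gcongr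
    _ ≤ ((n : ℝ) ^ (-(η / 2))) ^ J := by
        rw [b4]
        exact pow_le_pow_left₀ (by positivity) b3 J
    _ = (n : ℝ) ^ (-(η / 2) * J) := pow_pw hn0 _ _
    _ ≤ (n : ℝ) ^ (-c) := pw_le hn1 (by linarith)

/-- numerical constants of the smoothness step -/
theorem u_const (J : ℕ) : (48 : ℝ) * (2 ^ (J + 1)) ^ 2 * 2 ^ J ≤ (2 ^ (2 * J + 4)) ^ 2 ∧
    16 * (2 * √(48 * (2 ^ (J + 1)) ^ 2 * 2 ^ J) + 8 + 2 * 2 ^ (J + 1))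
      ≤ (2 : ℝ) ^ (2 * J + 11) := by
  have h1 : (1 : ℝ) ≤ 2 ^ J := one_le_pow₀ (by norm_num)
  have hK1 : (48 : ℝ) * (2 ^ (J + 1)) ^ 2 * 2 ^ J ≤ (2 ^ (2 * J + 4)) ^ 2 := by
    have e1 : (48 : ℝ) * (2 ^ (J + 1)) ^ 2 * 2 ^ J = 192 * ((2 ^ J) ^ 2 * 2 ^ J) := by ring
    have e2 : ((2 : ℝ) ^ (2 * J + 4)) ^ 2 = 256 * ((2 ^ J) ^ 2 * (2 ^ J) ^ 2) := by ring
    rw [e1, e2]
    have : (2 ^ J : ℝ) ≤ (2 ^ J) ^ 2 := by nlinarith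
    have h2 : ((2 : ℝ) ^ J) ^ 2 * 2 ^ J ≤ (2 ^ J) ^ 2 * (2 ^ J) ^ 2 :=
      mul_le_mul_of_nonneg_left this (by positivity)
    have h3 : (0 : ℝ) ≤ (2 ^ J) ^ 2 * 2 ^ J := by positivity
    linarith
  refine ⟨hK1, ?_⟩
  have hK2 : √(48 * (2 ^ (J + 1)) ^ 2 * 2 ^ J) ≤ (2 : ℝ) ^ (2 * J + 4) :=
    Real.sqrt_le_iff.2 ⟨by positivity, hK1⟩
  have e2 : (2 : ℝ) ^ (2 * J + 4) = 16 * (2 ^ J) ^ 2 := by ring
  have e3 : (2 : ℝ) ^ (2 * J + 11) = 2048 * (2 ^ J) ^ 2 := by ring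
  have e4 : 2 * (2 : ℝ) ^ (J + 1) = 4 * 2 ^ J := by ring
  rw [e2] at hK2
  rw [e3, e4]
  nlinarith

end

theorem smooth_u {n J : ℕ} {s τ c η : ℝ} (hn1 : (1 : ℝ) ≤ n)
    (hU : (2 : ℝ) ^ (200 * (J + 1)) ≤ (n : ℝ) ^ (η / 2))
    (hV : 100 * (s + 1) * (Real.log n + 1) ≤ (n : ℝ) ^ (η / 2))
    (hs : 0 < s) (hη : 0 < η) (hηs : 10 * η ≤ s) (hτ : s + 10 * η ≤ 2 * τ)
    (hc : 2 * s + 4 * η ≤ c) (hc2 : τ ≤ c) (A B : Alg) (hA : Prob A) (hB : Prob B)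
    (hsA : Smooth ((n : ℝ) ^ s) A) (hD : Dom ((n : ℝ) ^ (-τ)) ((n : ℝ) ^ (-c)) A (B - A)) :
      Smooth ((n : ℝ) ^ (2 * s + 4 * η)) (stepA J ⌈(n : ℝ) ^ (s + 2 * η)⌉₊ A B) := by
  have hn0 : (0 : ℝ) < n := by linarith
  have hln : 0 ≤ Real.log n := Real.log_nonneg hn1
  have hr0 : (0 : ℝ) < 2 ^ J := by positivity
  have hR0 : (0 : ℝ) < 2 ^ (J + 1) := by positivity
  obtain ⟨hK1, hCb1⟩ := u_const J
  have hK0 : (0 : ℝ) < 48 * (2 ^ (J + 1)) ^ 2 * 2 ^ J := by positivity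
  have hCb0 : (0 : ℝ) < 2 * √(48 * (2 ^ (J + 1)) ^ 2 * 2 ^ J) + 8 + 2 * 2 ^ (J + 1) := by
    positivity
  have hb1 : (1 : ℝ) ≤ 2 ^ J := one_le_pow₀ (by norm_num)
  have e1 : 12 * (n : ℝ) ^ s ≤ (n : ℝ) ^ (s + 2 * η) :=
    u_le hn1 hU _ _ _ (le_trans (by norm_num) (u_pow 4 (by omega))) (by linarith)
  have e2 : 64 * (4 + 2 ^ J) * (n : ℝ) ^ (2 * s + 2 * η) ≤ (n : ℝ) ^ (2 * s + 3 * η) := by
    refine u_le hn1 hU _ _ _ (le_trans ?_ (u_pow (J + 9) (by omega))) (by linarith)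
    have : (2 : ℝ) ^ (J + 9) = 512 * 2 ^ J := by ring
    rw [this]
    linarith
  have e3 : Real.exp (-(1 / 24 * (n : ℝ) ^ η)) ≤ (n : ℝ) ^ (-(2 * s + 4 * η)) := by
    refine u_exp hn1 _ _ _ ?_
    have h1 : (n : ℝ) ^ (η / 2) ≤ (n : ℝ) ^ η := pw_le hn1 (by linarith)
    nlinarith
  have e4 : 12 ≤ (n : ℝ) ^ η :=
    u_le0 hn1 hU _ _ (le_trans (by norm_num) (u_pow 4 (by omega))) (by linarith)
  have e5 : 48 * (2 ^ (J + 1)) ^ 2 * 2 ^ J * (n : ℝ) ^ (-(2 * τ) + s + 3 / 2 * η)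
      ≤ (n : ℝ) ^ (0 : ℝ) := by
    refine u_le hn1 hU _ _ _ (le_trans hK1 ?_) (by linarith)
    rw [← pow_mul]
    exact u_pow _ (by omega)
  have e6 := u_log hn1 (η / 2) (2 * s + 4 * η) (by linarith) (by nlinarith)
  have e7 : 16 * (2 * √(48 * (2 ^ (J + 1)) ^ 2 * 2 ^ J) + 8 + 2 * 2 ^ (J + 1))
      * (n : ℝ) ^ (-(η / 2)) ≤ (n : ℝ) ^ (0 : ℝ) :=
    u_le hn1 hU _ _ _ (le_trans hCb1 (u_pow _ (by omega))) (by linarith)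
  have e8 : 48 * 2 ^ (J + 1) * (n : ℝ) ^ (2 * s + 3 * η - c) ≤ (n : ℝ) ^ (0 : ℝ) := by
    refine u_le hn1 hU _ _ _ (le_trans ?_ (u_pow (J + 7) (by omega))) (by linarith)
    have e2 : (2 : ℝ) ^ (J + 7) = 128 * 2 ^ J := by ring
    have e3 : (2 : ℝ) ^ (J + 1) = 2 * 2 ^ J := by ring
    rw [e2, e3]
    linarith
  have e9 : 1200 * (n : ℝ) ^ (2 * s + 3 * η) ≤ (n : ℝ) ^ (2 * s + 4 * η) :=
    u_le hn1 hU _ _ _ (le_trans (by norm_num) (u_pow 11 (by omega))) (by linarith)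
  rw [Real.rpow_zero] at e5 e7 e8
  have gl : (n : ℝ) ^ (s + 2 * η) ≤ (⌈(n : ℝ) ^ (s + 2 * η)⌉₊ : ℝ) := Nat.le_ceil _
  have gu : (⌈(n : ℝ) ^ (s + 2 * η)⌉₊ : ℝ) ≤ 2 * (n : ℝ) ^ (s + 2 * η) :=
    ceil_le hn1 (by linarith)
  have sl : (n : ℝ) ^ (2 * s + 3 * η) ≤ (⌈(n : ℝ) ^ (2 * s + 3 * η)⌉₊ : ℝ) := Nat.le_ceil _
  have su : (⌈(n : ℝ) ^ (2 * s + 3 * η)⌉₊ : ℝ) ≤ 2 * (n : ℝ) ^ (2 * s + 3 * η) :=
    ceil_le hn1 (by linarith)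
  generalize ⌈(n : ℝ) ^ (s + 2 * η)⌉₊ = G at gl gu ⊢
  generalize ⌈(n : ℝ) ^ (2 * s + 3 * η)⌉₊ = S at sl su
  have one1 := pw_one hn1 hs.le
  have one3 : 1 ≤ (n : ℝ) ^ (2 * s + 3 * η) := pw_one hn1 (by linarith)
  have su1 : (S : ℝ) + 1 ≤ 3 * (n : ℝ) ^ (2 * s + 3 * η) := by linarith
  have htail := ev_tail hn1 G S gl su1 e3 e4
  have hQ := ev_Q (s := s) (τ := τ) (η := η) hn1 S (2 ^ J) (2 ^ (J + 1)) hr0.le hR0.le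
    (by linarith)
  have hΓ : (2 ^ (J + 1) * (2 * (n : ℝ) ^ (-τ))) ^ 2 * (3 * 2 ^ J * √((S : ℝ) + 1)) ≤ 1 / 2 := by
    linarith
  have b1 : √(2 * ((2 ^ (J + 1) * (2 * (n : ℝ) ^ (-τ))) ^ 2 * (3 * 2 ^ J * √((S : ℝ) + 1))))
      ≤ √(48 * (2 ^ (J + 1)) ^ 2 * 2 ^ J) * (n : ℝ) ^ (-η) := by
    have a1 := Real.sqrt_le_sqrt (show 2 * ((2 ^ (J + 1) * (2 * (n : ℝ) ^ (-τ))) ^ 2
      * (3 * 2 ^ J * √((S : ℝ) + 1))) ≤ 48 * (2 ^ (J + 1)) ^ 2 * 2 ^ J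
        * (n : ℝ) ^ (-(2 * τ) + s + 3 / 2 * η) by linarith)
    rw [sqrt_pw hn0 _ _ hK0.le] at a1
    refine le_trans a1 (mul_le_mul_of_nonneg_left (pw_le hn1 ?_) (Real.sqrt_nonneg _))
    linarith
  have hG12 : (12 : ℝ) ≤ G := by linarith
  have hG2 : 2 ≤ G := by
    have : (2 : ℝ) ≤ G := by linarith
    exact_mod_cast this
  have b2 := ev_half (s := s) (η := η) hn1 2 G (by norm_num) hG2 gl
  have b2' : √(2 * ((2 : ℕ) : ℝ)) = 2 := by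
    rw [show (2 * ((2 : ℕ) : ℝ)) = 2 ^ 2 by norm_num]; exact Real.sqrt_sq (by norm_num)
  rw [b2'] at b2
  have b3 : (n : ℝ) ^ (-τ) ≤ (n : ℝ) ^ (-η) := pw_le hn1 (by linarith)
  have hlog : (Nat.log 2 (S + 1) : ℝ) + 1 ≤ (n : ℝ) ^ (η / 2) := by
    refine e6 S (le_trans su (le_trans ?_ e9))
    linarith
  have b4 := mul_le_mul_of_nonneg_left b3 hR0.le
  have herr := ev_err (s := s) (c := c) (η := η) hn1 S J ((Nat.log 2 (S + 1) : ℝ) + 1)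
    (2 * √(2 * ((2 ^ (J + 1) * (2 * (n : ℝ) ^ (-τ))) ^ 2 * (3 * 2 ^ J * √((S : ℝ) + 1)))))
    (4 * √((n : ℝ) ^ s / ((G / 2 : ℕ) : ℝ))) (2 ^ (J + 1) * (2 * (n : ℝ) ^ (-τ)))
    (2 * √(48 * (2 ^ (J + 1)) ^ 2 * 2 ^ J) + 8 + 2 * 2 ^ (J + 1)) hCb0.le (by positivity) hlog
    (by positivity) (by linarith) su1 e7 e8
  have hRt : (2 : ℝ) ^ (J + 1) * (2 * (n : ℝ) ^ (-τ)) = 2 ^ (J + 2) * (n : ℝ) ^ (-τ) := by ring
  rw [hRt] at hΓ herr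
  refine (smooth_step_r hA hB hsA one1 hD (by positivity) (pw_le hn1 (by linarith)) J G S
    (by linarith) ?_ htail hΓ herr).mono ?_
  · have u1 := ev_ulen (s := s) (η := η) hn1 J G (by linarith) gu
    calc 64 * (n : ℝ) ^ s * ((ulen J G : ℕ) : ℝ)
        ≤ 64 * (n : ℝ) ^ s * ((4 + 2 ^ J) * (n : ℝ) ^ (s + 2 * η)) := by gcongr
      _ = 64 * (4 + 2 ^ J) * (n : ℝ) ^ (2 * s + 2 * η) := by
          have := pw_mul hn0 s (s + 2 * η)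
          have e : s + (s + 2 * η) = 2 * s + 2 * η := by ring
          rw [e] at this
          rw [← this]; ring
      _ ≤ (n : ℝ) ^ (2 * s + 3 * η) := e2
      _ ≤ S := sl
  · linarith

theorem crude_u {n J : ℕ} {s τ c c' η : ℝ} (hn1 : (1 : ℝ) ≤ n)
    (hU : (2 : ℝ) ^ (200 * (J + 1)) ≤ (n : ℝ) ^ (η / 2)) (hJ : 1 ≤ J) (hs : 0 < s) (hη : 0 < η)
    (hητ : η ≤ τ) (hτc : τ ≤ c) (hc : c' + η ≤ c) (hcJ : 2 * (c' + η) ≤ η * J)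
    (A B : Alg) (hA : Prob A) (hB : Prob B) (hsA : Smooth ((n : ℝ) ^ s) A)
    (hD : Dom ((n : ℝ) ^ (-τ)) ((n : ℝ) ^ (-c)) A (B - A)) :
      Dom ((n : ℝ) ^ (-(2 * τ - η))) ((n : ℝ) ^ (-c')) (stepA J ⌈(n : ℝ) ^ (s + 2 * η)⌉₊ A B)
        (stepB J ⌈(n : ℝ) ^ (s + 2 * η)⌉₊ A B - stepA J ⌈(n : ℝ) ^ (s + 2 * η)⌉₊ A B) := by
  have hn0 : (0 : ℝ) < n := by linarith
  have hb1 : (1 : ℝ) ≤ 2 ^ J := one_le_pow₀ (by norm_num)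
  have hJ2 : (J : ℝ) ≤ 2 ^ J := by exact_mod_cast Nat.lt_two_pow_self.le
  have e1 := u_le hn1 hU (2 ^ (J + 3)) (-τ) 0 (u_pow _ (by omega)) (by linarith)
  have e2 := u_le hn1 hU (2 ^ (2 * J + 7)) (-(2 * τ)) (-(2 * τ - η)) (u_pow _ (by omega))
    (by linarith)
  have e3 : (J : ℝ) ≤ (n : ℝ) ^ (s + 2 * η) :=
    u_le0 hn1 hU _ _ (le_trans hJ2 (u_pow J (by omega))) (by linarith)
  have e4 : (2 + 2 ^ (J + 3)) * (n : ℝ) ^ (-(c' + η)) ≤ (n : ℝ) ^ (-c') := by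
    refine u_le hn1 hU _ _ _ (le_trans ?_ (u_pow (J + 4) (by omega))) (by linarith)
    have h3 : (2 : ℝ) ^ (J + 3) = 8 * 2 ^ J := by ring
    have h4 : (2 : ℝ) ^ (J + 4) = 16 * 2 ^ J := by ring
    rw [h3, h4]
    linarith
  have e6 := u_le hn1 hU (2 ^ (2 * J + 6)) (-(2 * τ)) 0 (u_pow _ (by omega)) (by linarith)
  rw [Real.rpow_zero] at e1 e6
  have gl : (n : ℝ) ^ (s + 2 * η) ≤ (⌈(n : ℝ) ^ (s + 2 * η)⌉₊ : ℝ) := Nat.le_ceil _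
  generalize ⌈(n : ℝ) ^ (s + 2 * η)⌉₊ = G at gl ⊢
  have hJG : J ≤ G := by
    have : (J : ℝ) ≤ G := le_trans e3 gl
    exact_mod_cast this
  have hG1 : 1 ≤ G / J := (Nat.one_le_div_iff (by omega)).2 hJG
  have ht0 : 0 < (n : ℝ) ^ (-τ) := by positivity
  have hξt : (n : ℝ) ^ (-c) ≤ (n : ℝ) ^ (-τ) := pw_le hn1 (by linarith)
  have h2t : 2 ^ (J + 1) * (n : ℝ) ^ (-τ) ≤ 1 := by
    refine le_trans (mul_le_mul_of_nonneg_right ?_ ht0.le) e1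
    exact pow_le_pow_right₀ (by norm_num) (by omega)
  have k1 := crude_step_r hA hB hsA hD ht0.le hξt J G (G / J) h2t hG1 (Nat.mul_div_le G J)
  have k2 := ref_step_r hA hB hD ht0.le hξt J G e1
  rw [sq_pw hn0] at k1
  have k3 := dom_trans (by positivity) k2 k1
  refine dom_mono (step_prob hA hB J G).1.1 k3 ?_ ?_
  · calc 2 ^ (2 * J + 6) * (n : ℝ) ^ (2 * -τ) * 2
        = 2 ^ (2 * J + 7) * (n : ℝ) ^ (-(2 * τ)) := by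
          rw [show 2 * -τ = -(2 * τ) by ring]; ring
      _ ≤ _ := e2
  · have b2 := u_half (s := s) (c := c' + η) hn1 hU hJ hJG gl hcJ
    have b3 : (n : ℝ) ^ (-c) ≤ (n : ℝ) ^ (-(c' + η)) := pw_le hn1 (by linarith)
    have b4 : 2 ^ (2 * J + 6) * (n : ℝ) ^ (2 * -τ) ≤ 1 := by
      rw [show 2 * -τ = -(2 * τ) by ring]; exact e6
    have b5 : 2 ^ (2 * J + 6) * (n : ℝ) ^ (2 * -τ) * (2 ^ (J + 2) * (n : ℝ) ^ (-c))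
        ≤ 1 * (2 ^ (J + 2) * (n : ℝ) ^ (-c)) := mul_le_mul_of_nonneg_right b4 (by positivity)
    have b6 : 2 ^ (J + 2) * (n : ℝ) ^ (-c) ≤ 2 ^ (J + 2) * (n : ℝ) ^ (-(c' + η)) :=
      mul_le_mul_of_nonneg_left b3 (by positivity)
    have b7 : (2 : ℝ) ^ (J + 3) * (n : ℝ) ^ (-(c' + η))
      = 2 * (2 ^ (J + 2) * (n : ℝ) ^ (-(c' + η))) := by ring
    linarith

end Vale.Agent.P321
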