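import Vale.Agent.P321.SMcore

/-! # P321, module K: the second moment lemma -/

namespace Vale.Agent.P321

open Finset

namespace SMaux

/-- position before the period `k` -/
def xpos {S M : ℕ} (s : Fin S × Fin M → Bool) (k : ℕ) : ℤ :=
  ∑ l : Fin S × Fin M, if (l.1 : ℕ) < k then (if s l then 1 else -1) else 0

theorem xpos_zero {S M : ℕ} (s : Fin S × Fin M → Bool) : xpos s 0 = 0 := by
  simp [xpos]

theorem xpos_succ {S M : ℕ} (s : Fin S × Fin M → Bool) (k : ℕ) : xpos s (k + 1) = pos s k := by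
  unfold xpos pos
  refine Finset.sum_congr rfl fun l _ => ?_
  simp only [Nat.lt_succ_iff]

theorem xpos_step {S M : ℕ} (s : Fin S × Fin M → Bool) (k : ℕ) (hk : k < S) :
    xpos s (k + 1) - xpos s k = ∑ i : Fin M, (if s (⟨k, hk⟩, i) then (1 : ℤ) else -1) := by
  unfold xpos
  rw [← Finset.sum_sub_distrib, Fintype.sum_prod_type]
  have : ∀ a : Fin S, ∑ i : Fin M,
      ((if ((a, i) : Fin S × Fin M).1.val < k + 1 then (if s (a, i) then (1 : ℤ) else -1) else 0)
        - (if ((a, i) : Fin S × Fin M).1.val < k then (if s (a, i) then (1 : ℤ) else -1) else 0))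
      = if a = ⟨k, hk⟩ then ∑ i : Fin M, (if s (a, i) then (1 : ℤ) else -1) else 0 := by
    intro a
    by_cases ha : a = ⟨k, hk⟩
    · subst ha; simp
    · rw [if_neg ha]
      apply Finset.sum_eq_zero
      intro i _
      have hne : (a : ℕ) ≠ k := fun h => ha (Fin.ext h)
      have : ((a : ℕ) < k + 1) ↔ (a : ℕ) < k := by omega
      simp only [this, sub_self]
  rw [Finset.sum_congr rfl fun a _ => this a]
  simp

/-- number of bad sign patterns -/
theorem tail_count {S M : ℕ} (hS : 1 ≤ S) (hM : 1 ≤ M) (z : ℕ)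
    (htail : (S : ℝ) * (2 * Real.exp (-(z : ℝ) ^ 2 / (2 * (S * M)))) ≤ 1 / 2)
    (good : Finset (Fin S × Fin M → Bool))
    (hgood : ∀ s, s ∉ good → ∃ k < S, (z : ℤ) < |pos s k|) :
    (2 : ℝ) ^ (S * M) / 2 ≤ good.card := by
  classical
  have hn0 : (0 : ℝ) < (S : ℝ) * M := by
    have h1 : (1 : ℝ) ≤ S := by exact_mod_cast hS
    have h2 : (1 : ℝ) ≤ M := by exact_mod_cast hM
    nlinarith
  set lam : ℝ := (z : ℝ) / (S * M) with hlam
  have hlam0 : 0 ≤ lam := by positivity
  have hcard : ((Finset.univ : Finset (Fin S × Fin M → Bool)).card : ℝ) = 2 ^ (S * M) := by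
    rw [Finset.card_univ, Fintype.card_fun, Fintype.card_bool, Fintype.card_prod,
      Fintype.card_fin, Fintype.card_fin]
    push_cast; rfl
  have h1 : ((Finset.univ : Finset (Fin S × Fin M → Bool)).card : ℝ) - good.card
      ≤ ∑ s : Fin S × Fin M → Bool, ∑ k ∈ range S,
        (Real.exp (lam * pos s k) * Real.exp (-(lam * z))
          + Real.exp (-lam * pos s k) * Real.exp (-(lam * z))) := by
    have hsub : ((Finset.univ : Finset (Fin S × Fin M → Bool)).card : ℝ) - good.card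
        = ∑ s : Fin S × Fin M → Bool, (if s ∈ good then (0 : ℝ) else 1) := by
      rw [Finset.sum_ite]
      simp only [Finset.sum_const_zero, zero_add, Finset.sum_const, nsmul_eq_mul, mul_one]
      have hc : (Finset.univ.filter (fun s => s ∉ good)).card + good.card
          = (Finset.univ : Finset (Fin S × Fin M → Bool)).card := by
        have := Finset.card_filter_add_card_filter_not
          (s := (Finset.univ : Finset (Fin S × Fin M → Bool))) (fun s => s ∈ good)
        have h2 : (Finset.univ : Finset (Fin S × Fin M → Bool)).filter (fun s => s ∈ good)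
            = good := by ext s; simp
        rw [h2] at this
        omega
      rw [← hc]; push_cast; ring
    rw [hsub]
    refine Finset.sum_le_sum fun s _ => ?_
    have hterm : ∀ k, 0 ≤ Real.exp (lam * pos s k) * Real.exp (-(lam * z))
          + Real.exp (-lam * pos s k) * Real.exp (-(lam * z)) := fun k => by positivity
    by_cases hs : s ∈ good
    · rw [if_pos hs]
      exact Finset.sum_nonneg fun k _ => hterm k
    · rw [if_neg hs]
      obtain ⟨k, hk, hz⟩ := hgood s hs
      refine le_trans ?_ (Finset.single_le_sum (fun k _ => hterm k) (Finset.mem_range.mpr hk))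
      have hz' : (z : ℝ) < |((pos s k : ℤ) : ℝ)| := by exact_mod_cast hz
      rcases le_total 0 ((pos s k : ℤ) : ℝ) with h | h
      · rw [abs_of_nonneg h] at hz'
        have : 1 ≤ Real.exp (lam * pos s k) * Real.exp (-(lam * z)) := by
          rw [← Real.exp_add]; apply Real.one_le_exp; nlinarith
        have h3 : 0 ≤ Real.exp (-lam * pos s k) * Real.exp (-(lam * z)) := by positivity
        linarith
      · rw [abs_of_nonpos h] at hz'
        have : 1 ≤ Real.exp (-lam * pos s k) * Real.exp (-(lam * z)) := by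
          rw [← Real.exp_add]; apply Real.one_le_exp; nlinarith
        have h3 : 0 ≤ Real.exp (lam * pos s k) * Real.exp (-(lam * z)) := by positivity
        linarith
  rw [Finset.sum_comm] at h1
  have h2 : ∑ k ∈ range S, ∑ s : Fin S × Fin M → Bool,
        (Real.exp (lam * pos s k) * Real.exp (-(lam * z))
          + Real.exp (-lam * pos s k) * Real.exp (-(lam * z)))
      ≤ ∑ k ∈ range S, 2 ^ (S * M) * (2 * Real.exp (-(z : ℝ) ^ 2 / (2 * (S * M)))) := by
    refine Finset.sum_le_sum fun k _ => ?_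
    rw [Finset.sum_add_distrib, ← Finset.sum_mul, ← Finset.sum_mul]
    have e1 := exp_moment_pos (S := S) (M := M) k lam
    have e2 := exp_moment_pos (S := S) (M := M) k (-lam)
    rw [neg_sq] at e2
    have e3 : Real.exp (lam ^ 2 * (S * M) / 2) * Real.exp (-(lam * z))
        = Real.exp (-(z : ℝ) ^ 2 / (2 * (S * M))) := by
      rw [← Real.exp_add]
      congr 1
      rw [hlam]
      field_simp
      ring
    calc _ ≤ (2 ^ (S * M) * Real.exp (lam ^ 2 * (S * M) / 2)) * Real.exp (-(lam * z))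
          + (2 ^ (S * M) * Real.exp (lam ^ 2 * (S * M) / 2)) * Real.exp (-(lam * z)) := by
          have hpos := (Real.exp_pos (-(lam * z))).le
          exact add_le_add (mul_le_mul_of_nonneg_right e1 hpos)
            (mul_le_mul_of_nonneg_right e2 hpos)
      _ = 2 ^ (S * M) * (2 * Real.exp (-(z : ℝ) ^ 2 / (2 * (S * M)))) := by
          rw [mul_assoc, e3]; ring
  rw [Finset.sum_const, Finset.card_range, nsmul_eq_mul] at h2
  have h3 : (S : ℝ) * (2 ^ (S * M) * (2 * Real.exp (-(z : ℝ) ^ 2 / (2 * (S * M)))))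
      ≤ 2 ^ (S * M) / 2 := by
    have h4 : (0 : ℝ) ≤ 2 ^ (S * M) := by positivity
    calc (S : ℝ) * (2 ^ (S * M) * (2 * Real.exp (-(z : ℝ) ^ 2 / (2 * (S * M)))))
        = 2 ^ (S * M) * ((S : ℝ) * (2 * Real.exp (-(z : ℝ) ^ 2 / (2 * (S * M))))) := by ring
      _ ≤ 2 ^ (S * M) * (1 / 2) := mul_le_mul_of_nonneg_left htail h4
      _ = 2 ^ (S * M) / 2 := by ring
  linarith

/-- mean displacement -/
theorem mean_disp {S M : ℕ} (hS : 1 ≤ S) (hM : 1 ≤ M) (k : ℕ) :
    ∑ s : Fin S × Fin M → Bool, |((pos s k : ℤ) : ℝ)|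
      ≤ √((S : ℝ) * M) * (2 ^ (S * M) * (2 * Real.exp (-(1 / 2)))) := by
  have hn0 : (0 : ℝ) < (S : ℝ) * M := by
    have h1 : (1 : ℝ) ≤ S := by exact_mod_cast hS
    have h2 : (1 : ℝ) ≤ M := by exact_mod_cast hM
    nlinarith
  set R := √((S : ℝ) * M) with hR
  have hR0 : 0 < R := Real.sqrt_pos.mpr hn0
  have hR2 : R ^ 2 = (S : ℝ) * M := Real.sq_sqrt hn0.le
  have h1 : ∀ s : Fin S × Fin M → Bool, |((pos s k : ℤ) : ℝ)|
      ≤ R * (Real.exp ((1 / R) * pos s k) * Real.exp (-1)
          + Real.exp (-(1 / R) * pos s k) * Real.exp (-1)) := by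
    intro s
    set v : ℝ := ((pos s k : ℤ) : ℝ) with hv
    have h2 : |v| = R * |v / R| := by
      rw [abs_div, abs_of_pos hR0]; field_simp
    rw [h2]
    apply mul_le_mul_of_nonneg_left _ hR0.le
    have h3 := Real.add_one_le_exp (|v / R| - 1)
    rw [sub_add_cancel, sub_eq_add_neg, Real.exp_add] at h3
    refine h3.trans ?_
    rw [← add_mul]
    apply mul_le_mul_of_nonneg_right _ (Real.exp_pos _).le
    rcases le_total 0 (v / R) with h | h
    · rw [abs_of_nonneg h]
      have : 1 / R * v = v / R := by ring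
      rw [this]
      linarith [Real.exp_pos (-(1 / R) * v)]
    · rw [abs_of_nonpos h]
      have : -(1 / R) * v = -(v / R) := by ring
      rw [this]
      linarith [Real.exp_pos (1 / R * v)]
  refine (Finset.sum_le_sum fun s _ => h1 s).trans ?_
  rw [← Finset.mul_sum, Finset.sum_add_distrib, ← Finset.sum_mul, ← Finset.sum_mul]
  apply mul_le_mul_of_nonneg_left _ hR0.le
  have e1 := exp_moment_pos (S := S) (M := M) k (1 / R)
  have e2 := exp_moment_pos (S := S) (M := M) k (-(1 / R))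
  rw [neg_sq] at e2
  have e3 : Real.exp ((1 / R) ^ 2 * (S * M) / 2) * Real.exp (-1) = Real.exp (-(1 / 2)) := by
    rw [← Real.exp_add]
    congr 1
    rw [← hR2]
    field_simp
    norm_num
  calc _ ≤ (2 ^ (S * M) * Real.exp ((1 / R) ^ 2 * (S * M) / 2)) * Real.exp (-1)
        + (2 ^ (S * M) * Real.exp ((1 / R) ^ 2 * (S * M) / 2)) * Real.exp (-1) := by
        have hpos := (Real.exp_pos (-1)).le
        exact add_le_add (mul_le_mul_of_nonneg_right e1 hpos)
          (mul_le_mul_of_nonneg_right e2 hpos)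
    _ = 2 ^ (S * M) * (2 * Real.exp (-(1 / 2))) := by
        rw [mul_assoc, e3]; ring

theorem list_pow {ι : Type*} (A : Alg) (f : ι → ℕ) (L : List ι) :
    (L.map (fun i => A ^ (f i))).prod = A ^ (L.map f).sum := by
  induction L with
  | nil => simp
  | cons x L ih => rw [List.map_cons, List.prod_cons, ih, List.map_cons, List.sum_cons, pow_add]

theorem zprod_prob {K O : ℕ → Alg} (hK : ∀ k, Prob (K k)) (hO : ∀ k, Prob (O k)) (S : ℕ) :
    Prob (zprod K O S) := by
  induction S with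
  | zero => simpa [zprod] using prob_one
  | succ n ih =>
    unfold zprod at ih ⊢
    rw [List.range_succ, List.map_append, List.prod_append]
    simpa using prob_mul ih (prob_mul (hK n) (hO n))

end SMaux

open SMaux

theorem SM {A ρ : Alg} {σ τ : ℝ} (hA : Prob A) (hs : Smooth σ A) (hσ : 0 ≤ σ) (r : ℕ)
    (hr : 1 ≤ r) (hτ : 0 ≤ τ)
    (hρ : Bd τ (A ^ r) ρ) (hW : Prob (A ^ r + ρ)) (h M z G S : ℕ) (hG : G = M * h + z)
    (hh : 4 * σ + 1 ≤ h) (h2 : 2 ≤ h) (hM : 1 ≤ M) (hz : 1 ≤ z) (hS : 1 ≤ S)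
    (htail : (S : ℝ) * (2 * Real.exp (-(z : ℝ) ^ 2 / (2 * (S * M)))) ≤ 1 / 2)
    (hΓ : τ ^ 2 * (3 * r * √((S : ℝ) / M)) ≤ 1 / 2) :
    nrm (((A ^ G * (A ^ r + ρ) * A ^ G) ^ S - (A ^ (2 * G + r)) ^ S) * (A ^ (2 * G + r)) ^ S)
      ≤ 2 * √(2 * (τ ^ 2 * (3 * r * √((S : ℝ) / M)))) + 4 * √(σ / h) := by
  classical
  have hm : mass ρ = 0 := by
    have h1 := hW.2
    rw [mass_add, (prob_pow hA r).2] at h1
    linarith
  set W := A ^ r + ρ with hWdef
  set u := 2 * G + r with hu
  -- the good sign patterns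
  set good : Finset (Fin S × Fin M → Bool) :=
    Finset.univ.filter (fun s => ∀ k < S, |pos s k| ≤ (z : ℤ)) with hgood
  have hgood' : ∀ s ∈ good, ∀ k < S, |pos s k| ≤ (z : ℤ) := fun s hs =>
    (Finset.mem_filter.mp hs).2
  have hE : (2 : ℝ) ^ (S * M) / 2 ≤ good.card := by
    apply tail_count hS hM z htail good
    intro s hs
    rw [hgood, Finset.mem_filter] at hs
    push Not at hs
    obtain ⟨k, hk, hz⟩ := hs (Finset.mem_univ s)
    exact ⟨k, hk, hz⟩
  set y : (Fin S × Fin M → Bool) → ℕ → ℕ := fun s k => min ((z : ℤ) - pos s k).toNat (2 * z)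
    with hy
  have hy2 : ∀ s k, y s k ≤ 2 * z := fun s k => min_le_right _ _
  have hyp : ∀ s ∈ good, ∀ k < S, (y s k : ℤ) = z - pos s k := by
    intro s hs k hk
    have := abs_le.mp (hgood' s hs k hk)
    simp only [hy]
    omega
  -- the letters
  set X := A ^ (M * h) with hX
  set Z := minA (A ^ (h - 1)) (A ^ (h + 1)) with hZ
  set ex : Bool → ℕ := fun b => if b then h + 1 else h - 1 with hex
  set Y : Bool → Alg := fun b => A ^ (ex b) - Z with hY
  have hP1 := prob_pow hA (h - 1)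
  have hP2 := prob_pow hA (h + 1)
  have hZn : Nonneg Z := by
    intro w; rw [hZ, minA_coeff]; exact le_min (hP1.1 w) (hP2.1 w)
  have hYn : ∀ b, Nonneg (Y b) := by
    intro b w
    simp only [hY]
    rw [csub, hZ, minA_coeff]
    cases b
    · simp only [hex, Bool.false_eq_true, if_false]
      linarith [min_le_left ((A ^ (h - 1)).coeff w) ((A ^ (h + 1)).coeff w)]
    · simp only [hex, if_true]
      linarith [min_le_right ((A ^ (h - 1)).coeff w) ((A ^ (h + 1)).coeff w)]
  set θ := mass Z with hθdef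
  have hYm : ∀ b, mass (Y b) = 1 - θ := by
    intro b
    simp only [hY]
    rw [mass_sub, (prob_pow hA (ex b)).2]
  have hZY : ∀ b, Z + Y b = A ^ (ex b) := by
    intro b; simp only [hY]; abel
  have hθ : 1 / 2 ≤ θ := by
    rw [hθdef, hZ, mass_minA hP1 hP2]
    have h3 : nrm (A ^ (h - 1) - A ^ (h + 1)) ≤ 1 := by
      have e1 : A ^ (h - 1) - A ^ (h + 1) = -(A ^ (h - 1) * (A ^ 2 - 1)) := by
        have : h + 1 = (h - 1) + 2 := by omega
        rw [this, pow_add]; simp [mul_sub]
      rw [e1, nrm_neg]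
      refine (smooth_pow hA hs (h - 1) (by omega) 2).trans ?_
      have e2 : σ / ((h - 1 : ℕ) : ℝ) ≤ (1 / 2) ^ 2 := by
        have e3 : ((h - 1 : ℕ) : ℝ) = (h : ℝ) - 1 := by
          rw [Nat.cast_sub (by omega)]; simp
        have e4 : (2 : ℝ) ≤ h := by exact_mod_cast h2
        rw [e3, div_le_iff₀ (by linarith)]
        nlinarith
      calc ((2 : ℕ) : ℝ) * √(σ / ((h - 1 : ℕ) : ℝ)) ≤ 2 * √((1 / 2) ^ 2) := by
            push_cast
            exact mul_le_mul_of_nonneg_left (Real.sqrt_le_sqrt e2) (by norm_num)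
        _ = 1 := by rw [Real.sqrt_sq (by norm_num)]; norm_num
    linarith
  have hθ1 : θ ≤ 1 := by
    rw [hθdef, hZ, mass_minA hP1 hP2]
    linarith [nrm_nonneg (A ^ (h - 1) - A ^ (h + 1))]
  have hXp : Prob X := prob_pow hA _
  -- exponents
  set e : (Fin S × Fin M → Bool) → ℕ → ℕ := fun s k =>
    if hk : k < S then ∑ i : Fin M, ex (s (⟨k, hk⟩, i)) else 0 with he
  have hKK : ∀ (s : Fin S × Fin M → Bool) (k : ℕ), KK X (fun l => Z + Y (s l)) k = (if k = 0 then 1 else X) * A ^ (e s k) := by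
    intro s k
    unfold KK
    congr 1
    simp only [he, hZY]
    by_cases hk : k < S
    · simp only [hk, dif_pos]
      rw [list_pow A (fun i => ex (s (⟨k, hk⟩, i))), Fin.sum_univ_def]
    · simp [hk]
  have he' : ∀ s, ∀ k < S, (e s k : ℤ) = ((M * h : ℕ) : ℤ) + (xpos s (k + 1) - xpos s k) := by
    intro s k hk
    rw [xpos_step s k hk]
    simp only [he, hk, dif_pos]
    push_cast
    have h3 : ∀ i : Fin M, ((ex (s (⟨k, hk⟩, i)) : ℕ) : ℤ)
        = (h : ℤ) + (if s (⟨k, hk⟩, i) then (1 : ℤ) else -1) := by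
      intro i
      simp only [hex]
      split_ifs <;> omega
    rw [Finset.sum_congr rfl fun i _ => h3 i, Finset.sum_add_distrib]
    simp
  set c : (Fin S × Fin M → Bool) → ℕ := fun s => ((u * S : ℕ) - xpos s S : ℤ).toNat with hc
  have hzu : z ≤ u * S := by
    have : z ≤ u := by omega
    nlinarith
  have hxS : ∀ s : Fin S × Fin M → Bool, xpos s S = pos s (S - 1) := by
    intro s
    have h3 := xpos_succ s (S - 1)
    rwa [Nat.sub_add_cancel hS] at h3
  have hxz : ∀ s ∈ good, |xpos s S| ≤ (z : ℤ) := by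
    intro s hs; rw [hxS]; exact hgood' s hs (S - 1) (by omega)
  have hc' : ∀ s ∈ good, ((u * S : ℕ) : ℤ) = c s + xpos s S := by
    intro s hs
    have h3 := abs_le.mp (hxz s hs)
    have h4 : (z : ℤ) ≤ ((u * S : ℕ) : ℤ) := by exact_mod_cast hzu
    simp only [hc]
    omega
  have hid : ∀ (W' : Alg), ∀ s ∈ good, (A ^ G * W' * A ^ G) ^ S * A ^ (u * S)
      = zprod (KK X (fun l => Z + Y (s l)))
          (fun k => A ^ (y s k) * W' * A ^ (2 * z - y s k)) S * (X * A ^ (c s)) := by
    intro W' s hs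
    have h3 := rebracket A W' G (M * h) z hG (xpos s) (e s) (y s) S (xpos_zero s) (he' s)
      (fun k hk => by rw [xpos_succ]; exact hyp s hs k hk) (fun k _ => hy2 s k) (c s) (u * S)
      (hc' s hs)
    rw [← h3, zprod_rot (fun k => A ^ (e s k))
      (fun k => A ^ (y s k) * W' * A ^ (2 * z - y s k)) (A ^ (M * h)) S hS, mul_assoc]
    congr 2
    funext k
    exact (hKK s k).symm
  set D : (Fin S × Fin M → Bool) → Alg := fun s =>
    zprod (KK X (fun l => Z + Y (s l))) (fun k => A ^ (y s k) * W * A ^ (2 * z - y s k)) S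
        - zprod (KK X (fun l => Z + Y (s l))) (fun _ => A ^ (2 * z + r)) S with hD
  set Lh : Alg := ((A ^ G * W * A ^ G) ^ S - (A ^ u) ^ S) * (A ^ u) ^ S with hLh
  have hmain : ∀ s ∈ good, Lh = D s * (X * A ^ (c s)) := by
    intro s hs
    have h3 := hid W s hs
    have h4 := hid (A ^ r) s hs
    have h5 : (fun k => A ^ (y s k) * A ^ r * A ^ (2 * z - y s k))
        = fun _ : ℕ => A ^ (2 * z + r) := by
      funext k
      rw [← pow_add, ← pow_add]
      congr 1
      have := hy2 s k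
      omega
    have h6 : A ^ G * A ^ r * A ^ G = A ^ u := by
      rw [← pow_add, ← pow_add]; congr 1; omega
    rw [h5, h6] at h4
    rw [hLh, hD]
    simp only
    rw [sub_mul, sub_mul, ← h3, ← h4, ← pow_mul A u S]
  -- probability of the products
  have hKKp : ∀ (s : Fin S × Fin M → Bool) (k : ℕ), Prob (KK X (fun l => Z + Y (s l)) k) := by
    intro s k
    rw [hKK]
    apply prob_mul
    · split_ifs
      · exact prob_one
      · exact hXp
    · exact prob_pow hA _
  have hD2 : ∀ s, nrm (D s) ≤ 2 := by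
    intro s
    have h3 := prob_nrm (zprod_prob (hKKp s)
      (fun k => prob_mul (prob_mul (prob_pow hA (y s k)) hW) (prob_pow hA (2 * z - y s k))) S)
    have h4 := prob_nrm (zprod_prob (hKKp s) (fun _ => prob_pow hA (2 * z + r)) S)
    have h5 := nrm_sub_le (zprod (KK X (fun l => Z + Y (s l)))
      (fun k => A ^ (y s k) * W * A ^ (2 * z - y s k)) S)
      (zprod (KK X (fun l => Z + Y (s l))) (fun _ => A ^ (2 * z + r)) S)
    rw [h3, h4] at h5
    simp only [hD]
    linarith
  -- the smoothing error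
  have hn0 : (0 : ℝ) < (S : ℝ) * M := by
    have h1 : (1 : ℝ) ≤ S := by exact_mod_cast hS
    have h2 : (1 : ℝ) ≤ M := by exact_mod_cast hM
    nlinarith
  have hh0 : (0 : ℝ) < h := by
    have : (2 : ℝ) ≤ h := by exact_mod_cast h2
    linarith
  set B := √(σ / (2 * (S * M) * h)) with hB
  have hBN : ∀ N : ℕ, u * S ≤ N + z → √(σ / N) ≤ B := by
    intro N hN
    have h3 : (2 : ℝ) * (S * M) * h ≤ N := by
      have h4 : 2 * (S * M) * h + z ≤ u * S := by
        rw [hu, hG]
        have : z ≤ z * S := Nat.le_mul_of_pos_right z (by omega)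
        nlinarith
      have h5 : 2 * (S * M) * h ≤ N := by omega
      exact_mod_cast h5
    exact Real.sqrt_le_sqrt (div_le_div_of_nonneg_left hσ (by positivity) h3)
  have herr : ∀ s ∈ good, nrm (A ^ (c s) - A ^ (u * S)) ≤ |((xpos s S : ℤ) : ℝ)| * B := by
    intro s hsg
    have h3 := hc' s hsg
    have h4 := abs_le.mp (hxz s hsg)
    have hu1 : z < u * S := by
      have : z < u := by omega
      nlinarith
    rcases le_total 0 (xpos s S) with h0 | h0
    · -- c s ≤ u S
      obtain ⟨k, hk⟩ : ∃ k : ℕ, xpos s S = k := ⟨(xpos s S).toNat, by omega⟩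
      have h5 : u * S = c s + k := by rw [hk] at h3; exact_mod_cast h3
      have h6 : A ^ (c s) - A ^ (u * S) = -(A ^ (c s) * (A ^ k - 1)) := by
        rw [h5, pow_add]; simp [mul_sub]
      have hkz : k ≤ z := by rw [hk] at h4; omega
      rw [h6, nrm_neg]
      refine (smooth_pow hA hs (c s) (by omega) k).trans ?_
      rw [hk]
      have : |(((k : ℤ)) : ℝ)| = (k : ℝ) := by simp
      rw [this]
      exact mul_le_mul_of_nonneg_left (hBN (c s) (by omega)) (by positivity)
    · obtain ⟨k, hk⟩ : ∃ k : ℕ, xpos s S = -(k : ℤ) := ⟨(-xpos s S).toNat, by omega⟩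
      have h5 : c s = u * S + k := by
        rw [hk] at h3; omega
      have h6 : A ^ (c s) - A ^ (u * S) = A ^ (u * S) * (A ^ k - 1) := by
        rw [h5, pow_add, mul_sub, mul_one]
      rw [h6]
      refine (smooth_pow hA hs (u * S) (by omega) k).trans ?_
      rw [hk]
      have : |((-(k : ℤ) : ℤ) : ℝ)| = (k : ℝ) := by simp
      rw [this]
      exact mul_le_mul_of_nonneg_left (hBN (u * S) (by omega)) (by positivity)
  -- averaging
  have hcore := core hA r hr hτ hρ hm z S M hM hS hXp hZn hYn hθ hθ1 rfl hYm good y hy2 hyp hΓ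
  have hsum : (good.card : ℝ) * nrm Lh ≤ nrm (∑ s ∈ good, D s)
      + ∑ s ∈ good, 2 * (|((xpos s S : ℤ) : ℝ)| * B) := by
    have h3 : (good.card : ℝ) • Lh = (∑ s ∈ good, D s) * (X * A ^ (u * S))
        + ∑ s ∈ good, D s * (X * (A ^ (c s) - A ^ (u * S))) := by
      rw [Finset.sum_mul, ← Finset.sum_add_distrib]
      have h4 : ∀ s ∈ good, D s * (X * A ^ (u * S)) + D s * (X * (A ^ (c s) - A ^ (u * S)))
          = Lh := by
        intro s hs
        rw [hmain s hs, ← mul_add, ← mul_add, add_sub_cancel]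
      rw [Finset.sum_congr rfl h4, Finset.sum_const, Nat.cast_smul_eq_nsmul]
    have h4 : (good.card : ℝ) * nrm Lh = nrm ((good.card : ℝ) • Lh) := by
      rw [nrm_smul, abs_of_nonneg (by positivity)]
    rw [h4, h3]
    refine (nrm_add_le _ _).trans (add_le_add ?_ ?_)
    · exact contr_right (prob_mul hXp (prob_pow hA _)) _
    · refine (nrm_sum_le _ _).trans (Finset.sum_le_sum fun s hs => ?_)
      refine (nrm_mul_le _ _).trans ?_
      exact mul_le_mul (hD2 s) ((contr_left hXp _).trans (herr s hs)) (nrm_nonneg _) (by norm_num)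
  have hdisp : ∑ s ∈ good, 2 * (|((xpos s S : ℤ) : ℝ)| * B)
      ≤ 2 * B * (√((S : ℝ) * M) * (2 ^ (S * M) * (2 * Real.exp (-(1 / 2))))) := by
    have h3 := mean_disp (S := S) (M := M) hS hM (S - 1)
    have hB0 : 0 ≤ B := Real.sqrt_nonneg _
    calc ∑ s ∈ good, 2 * (|((xpos s S : ℤ) : ℝ)| * B)
        ≤ ∑ s : Fin S × Fin M → Bool, 2 * (|((xpos s S : ℤ) : ℝ)| * B) := by
          apply Finset.sum_le_sum_of_subset_of_nonneg (Finset.subset_univ _)
          intro s _ _; positivity
      _ = 2 * B * ∑ s : Fin S × Fin M → Bool, |((pos s (S - 1) : ℤ) : ℝ)| := by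
          rw [Finset.mul_sum]
          refine Finset.sum_congr rfl fun s _ => ?_
          rw [hxS]; ring
      _ ≤ _ := mul_le_mul_of_nonneg_left h3 (by positivity)
  have hRB : √((S : ℝ) * M) * B = √(σ / h) * √(1 / 2) := by
    rw [hB, ← Real.sqrt_mul hn0.le, ← Real.sqrt_mul (by positivity)]
    congr 1
    field_simp
  have hexp : Real.exp (-(1 / 2)) ≤ √(1 / 2) := by
    apply Real.le_sqrt_of_sq_le
    rw [← Real.exp_nat_mul]
    have h3 : (2 : ℝ) ≤ Real.exp 1 := by
      have := Real.add_one_le_exp (1 : ℝ); linarith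
    have h4 : ((2 : ℕ) : ℝ) * -(1 / 2) = -1 := by norm_num
    rw [h4, Real.exp_neg, ← one_div]
    exact one_div_le_one_div_of_le (by norm_num) h3
  have hhalf : √(1 / 2 : ℝ) * √(1 / 2) = 1 / 2 := Real.mul_self_sqrt (by norm_num)
  have hfin : (good.card : ℝ) * nrm Lh ≤ 2 ^ (S * M) *
      (√(2 * (τ ^ 2 * (3 * r * √((S : ℝ) / M)))) + 2 * √(σ / h)) := by
    refine hsum.trans ((add_le_add hcore hdisp).trans ?_)
    have h3 : 2 * B * (√((S : ℝ) * M) * (2 ^ (S * M) * (2 * Real.exp (-(1 / 2)))))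
        = 2 ^ (S * M) * (4 * (√(σ / h) * (√(1 / 2) * Real.exp (-(1 / 2))))) := by
      calc 2 * B * (√((S : ℝ) * M) * (2 ^ (S * M) * (2 * Real.exp (-(1 / 2)))))
          = 2 ^ (S * M) * (4 * ((√((S : ℝ) * M) * B) * Real.exp (-(1 / 2)))) := by ring
        _ = _ := by rw [hRB]; ring
    rw [h3, mul_add]
    have h4 : √(1 / 2 : ℝ) * Real.exp (-(1 / 2)) ≤ 1 / 2 :=
      (mul_le_mul_of_nonneg_left hexp (Real.sqrt_nonneg _)).trans_eq hhalf
    have h5 : (0 : ℝ) ≤ √(σ / h) := Real.sqrt_nonneg _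
    have h6 : √(σ / h) * (√(1 / 2 : ℝ) * Real.exp (-(1 / 2))) ≤ √(σ / h) * (1 / 2) :=
      mul_le_mul_of_nonneg_left h4 h5
    have h7 : (0 : ℝ) ≤ 2 ^ (S * M) := by positivity
    have h8 : (2 : ℝ) ^ (S * M) * (4 * (√(σ / h) * (√(1 / 2) * Real.exp (-(1 / 2)))))
        ≤ 2 ^ (S * M) * (2 * √(σ / h)) := mul_le_mul_of_nonneg_left (by linarith) h7
    linarith
  have hn : 0 ≤ nrm Lh := nrm_nonneg _
  have hpow : (0 : ℝ) < 2 ^ (S * M) := by positivity
  have h9 : (2 : ℝ) ^ (S * M) / 2 * nrm Lh ≤ 2 ^ (S * M) *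
      (√(2 * (τ ^ 2 * (3 * r * √((S : ℝ) / M)))) + 2 * √(σ / h)) :=
    (mul_le_mul_of_nonneg_right hE hn).trans hfin
  have h10 : (2 : ℝ) ^ (S * M) * (nrm Lh / 2) ≤ 2 ^ (S * M) *
      (√(2 * (τ ^ 2 * (3 * r * √((S : ℝ) / M)))) + 2 * √(σ / h)) := by
    calc (2 : ℝ) ^ (S * M) * (nrm Lh / 2) = 2 ^ (S * M) / 2 * nrm Lh := by ring
      _ ≤ _ := h9
  have h11 := le_of_mul_le_mul_left h10 hpow
  linarith

end Vale.Agent.P321
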