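import Vale.Agent.P321.Basic

/-! # P321, module K: auxiliary facts (expansion of products, re-bracketing) -/

namespace Vale.Agent.P321

open Finset

namespace SMaux

/-- evaluate a list of fixed elements and slots -/
noncomputable def evalL {ι : Type*} (κ : ι → Alg) (L : List (Alg ⊕ ι)) : Alg :=
  (L.map (Sum.elim id κ)).prod

/-- the slots of a list -/
def slots {ι : Type*} : List (Alg ⊕ ι) → List ι
  | [] => []
  | (Sum.inl _ :: L) => slots L
  | (Sum.inr l :: L) => l :: slots L

theorem slots_append {ι : Type*} (L L' : List (Alg ⊕ ι)) :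
    slots (L ++ L') = slots L ++ slots L' := by
  induction L with
  | nil => rfl
  | cons x L ih =>
    rcases x with X | l
    · simp [slots, ih]
    · simp [slots, ih]

theorem slots_map_inr {ι : Type*} (L : List ι) :
    slots (L.map (Sum.inr : ι → Alg ⊕ ι)) = L := by
  induction L with
  | nil => rfl
  | cons x L ih => simp [slots, ih]

theorem slots_flatMap {ι κ : Type*} (L : List κ) (f : κ → List (Alg ⊕ ι)) :
    slots (L.flatMap f) = L.flatMap (fun k => slots (f k)) := by
  induction L with
  | nil => rfl
  | cons x L ih => rw [List.flatMap_cons, slots_append, ih, List.flatMap_cons]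

theorem evalL_nil {ι : Type*} (κ : ι → Alg) : evalL κ ([] : List (Alg ⊕ ι)) = 1 := by
  simp [evalL]

theorem evalL_inl {ι : Type*} (κ : ι → Alg) (X : Alg) (L : List (Alg ⊕ ι)) :
    evalL κ (Sum.inl X :: L) = X * evalL κ L := by
  simp [evalL]

theorem evalL_inr {ι : Type*} (κ : ι → Alg) (l : ι) (L : List (Alg ⊕ ι)) :
    evalL κ (Sum.inr l :: L) = κ l * evalL κ L := by
  simp [evalL]

theorem evalL_append {ι : Type*} (κ : ι → Alg) (L L' : List (Alg ⊕ ι)) :
    evalL κ (L ++ L') = evalL κ L * evalL κ L' := by
  simp [evalL]

theorem evalL_map_inr {ι : Type*} (κ : ι → Alg) (L : List ι) :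
    evalL κ (L.map (Sum.inr : ι → Alg ⊕ ι)) = (L.map κ).prod := by
  induction L with
  | nil => simp [evalL]
  | cons x L ih => rw [List.map_cons, evalL_inr, ih, List.map_cons, List.prod_cons]

theorem evalL_flatMap {ι κ' : Type*} (κ : ι → Alg) (L : List κ') (f : κ' → List (Alg ⊕ ι)) :
    evalL κ (L.flatMap f) = (L.map (fun k => evalL κ (f k))).prod := by
  induction L with
  | nil => simp [evalL]
  | cons x L ih => rw [List.flatMap_cons, evalL_append, ih, List.map_cons, List.prod_cons]

theorem evalL_congr {ι : Type*} {κ κ' : ι → Alg} (L : List (Alg ⊕ ι))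
    (h : ∀ l ∈ slots L, κ l = κ' l) : evalL κ L = evalL κ' L := by
  induction L with
  | nil => simp [evalL]
  | cons x L ih =>
    rcases x with X | l
    · rw [evalL_inl, evalL_inl, ih]
      intro l hl; exact h l (by simpa [slots] using hl)
    · rw [evalL_inr, evalL_inr, ih, h l (by simp [slots])]
      intro l' hl'; exact h l' (by simp only [slots, List.mem_cons]; right; exact hl')

theorem mix_expand {ι : Type*} [DecidableEq ι] (f g : ι → Alg) (L : List (Alg ⊕ ι))
    (hL : (slots L).Nodup) :
    evalL (fun l => f l + g l) L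
      = ∑ I ∈ (slots L).toFinset.powerset, evalL (fun l => if l ∈ I then f l else g l) L := by
  induction L with
  | nil => simp [evalL, slots]
  | cons x L ih =>
    rcases x with X | l
    · have hs : slots (Sum.inl X :: L) = slots L := rfl
      rw [hs] at hL ⊢
      rw [evalL_inl, ih hL, Finset.mul_sum]
      refine Finset.sum_congr rfl fun I _ => ?_
      rw [evalL_inl]
    · have hs : slots (Sum.inr l :: L) = l :: slots L := rfl
      rw [hs] at hL ⊢
      have hnd := List.nodup_cons.mp hL
      rw [evalL_inr, ih hnd.2, List.toFinset_cons, Finset.sum_powerset_insert (by simpa using hnd.1),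
        add_mul, add_comm, Finset.mul_sum, Finset.mul_sum]
      congr 1
      · refine Finset.sum_congr rfl fun I hI => ?_
        rw [evalL_inr, if_neg]
        intro h
        exact hnd.1 (by simpa using Finset.mem_powerset.mp hI h)
      · refine Finset.sum_congr rfl fun I hI => ?_
        rw [evalL_inr, if_pos (Finset.mem_insert_self _ _)]
        congr 1
        apply evalL_congr
        intro l' hl'
        have : l' ≠ l := by rintro rfl; exact hnd.1 hl'
        simp [Finset.mem_insert, this]

/-- the factors `K_k` of a product with slots `κ (k, i)` -/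
noncomputable def KK {S M : ℕ} (X : Alg) (κ : Fin S × Fin M → Alg) (k : ℕ) : Alg :=
  (if k = 0 then 1 else X) *
    (if hk : k < S then ((List.finRange M).map (fun i => κ (⟨k, hk⟩, i))).prod else 1)

/-- the list of the product -/
noncomputable def LL (S M : ℕ) (X : Alg) (O : ℕ → Alg) : List (Alg ⊕ (Fin S × Fin M)) :=
  (List.finRange S).flatMap (fun k : Fin S => Sum.inl (if (k : ℕ) = 0 then 1 else X) ::
    (((List.finRange M).map (fun i => ((k, i) : Fin S × Fin M))).map Sum.inr
      ++ [Sum.inl (O k)]))

theorem range_map_eq {α : Type*} (S : ℕ) (f : ℕ → α) :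
    (List.range S).map f = (List.finRange S).map (fun k : Fin S => f k) := by
  apply List.ext_getElem <;> simp

theorem zprod_eq_evalL {S M : ℕ} (X : Alg) (κ : Fin S × Fin M → Alg) (O : ℕ → Alg) :
    zprod (KK X κ) O S = evalL κ (LL S M X O) := by
  unfold zprod LL
  rw [evalL_flatMap, range_map_eq]
  congr 1
  refine List.map_congr_left fun k _ => ?_
  rw [evalL_inl, evalL_append, evalL_map_inr, evalL_inl, evalL_nil, mul_one, List.map_map]
  simp only [KK, k.2, dif_pos, mul_assoc]
  rfl

theorem slots_LL (S M : ℕ) (X : Alg) (O : ℕ → Alg) :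
    slots (LL S M X O) = (List.finRange S).product (List.finRange M) := by
  unfold LL
  rw [slots_flatMap, List.product]
  refine List.flatMap_congr fun k _ => ?_
  simp only [slots]
  rw [slots_append, slots_map_inr]
  simp [slots]

theorem expand_zprod {S M : ℕ} (X : Alg) (f g : Fin S × Fin M → Alg) (O : ℕ → Alg) :
    zprod (KK X (fun l => f l + g l)) O S
      = ∑ I : Finset (Fin S × Fin M), zprod (KK X (fun l => if l ∈ I then f l else g l)) O S := by
  have hnd : (slots (LL S M X O)).Nodup := by
    rw [slots_LL]
    exact (List.nodup_finRange S).product (List.nodup_finRange M)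
  have huniv : (slots (LL S M X O)).toFinset = Finset.univ := by
    rw [slots_LL]
    ext ⟨a, b⟩
    simp [List.mem_product]
  rw [zprod_eq_evalL, mix_expand f g _ hnd, huniv, Finset.powerset_univ]
  exact Finset.sum_congr rfl fun I _ => (zprod_eq_evalL X _ O).symm

/-- rotation of a periodic factor -/
theorem zprod_rot (E O : ℕ → Alg) (X : Alg) (n : ℕ) (hn : 1 ≤ n) :
    ((List.range n).map (fun k => E k * O k * X)).prod
      = zprod (fun k => (if k = 0 then 1 else X) * E k) O n * X := by
  induction n, hn using Nat.le_induction with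
  | base => simp [zprod]
  | succ n hn ih =>
    rw [List.range_succ, List.map_append, List.prod_append, ih]
    unfold zprod
    rw [List.range_succ, List.map_append, List.prod_append]
    have : n ≠ 0 := by omega
    simp [this, mul_assoc]

/-- re-bracketing -/
theorem rebracket (A W : Alg) (G H z : ℕ) (hG : G = H + z) (x : ℕ → ℤ) (e y : ℕ → ℕ) (n : ℕ)
    (h0 : x 0 = 0) (he : ∀ k < n, (e k : ℤ) = H + (x (k + 1) - x k))
    (hy : ∀ k < n, (y k : ℤ) = z - x (k + 1)) (hy2 : ∀ k < n, y k ≤ 2 * z) (c c' : ℕ)
    (hc : (c' : ℤ) = c + x n) :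
    ((List.range n).map (fun k => A ^ (e k) * (A ^ (y k) * W * A ^ (2 * z - y k)) * A ^ H)).prod
        * A ^ c = (A ^ G * W * A ^ G) ^ n * A ^ c' := by
  induction n generalizing c c' with
  | zero =>
    have : c' = c := by rw [h0] at hc; omega
    simp [this]
  | succ n ih =>
    rw [List.range_succ, List.map_append, List.prod_append]
    simp only [List.map_cons, List.map_nil, List.prod_cons, List.prod_nil, mul_one]
    have h1 := he n (by omega)
    have h2 := hy n (by omega)
    have h3 := hy2 n (by omega)
    have key := ih (fun k hk => he k (by omega)) (fun k hk => hy k (by omega))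
      (fun k hk => hy2 k (by omega)) (e n + y n) G (by push_cast; omega)
    have hexp : (2 * z - y n) + H + c = G + c' := by omega
    calc ((List.range n).map (fun k => A ^ (e k) * (A ^ (y k) * W * A ^ (2 * z - y k)) * A ^ H)).prod
          * (A ^ (e n) * (A ^ (y n) * W * A ^ (2 * z - y n)) * A ^ H) * A ^ c
        = (((List.range n).map
            (fun k => A ^ (e k) * (A ^ (y k) * W * A ^ (2 * z - y k)) * A ^ H)).prod
          * A ^ (e n + y n)) * (W * A ^ ((2 * z - y n) + H + c)) := by
          simp only [pow_add, mul_assoc]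
      _ = (A ^ G * W * A ^ G) ^ (n + 1) * A ^ c' := by
          rw [key, hexp, pow_succ, pow_add]
          simp only [mul_assoc]

/-! ### sign patterns -/

/-- product formula -/
theorem sum_prod_signs {T : Type*} [Fintype T] [DecidableEq T] (g : T → Bool → ℝ) :
    ∑ s : T → Bool, ∏ l, g l (s l) = ∏ l, (g l true + g l false) := by
  have := (Finset.prod_univ_sum (fun _ : T => (Finset.univ : Finset Bool)) g).symm
  rw [Fintype.piFinset_univ] at this
  rw [this]
  exact Finset.prod_congr rfl fun l _ => by simp

/-- number of sign patterns agreeing with `s` outside `I` -/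
theorem count_agree {T : Type*} [Fintype T] [DecidableEq T] (I : Finset T) (s : T → Bool) :
    ∑ σ : T → Bool, (if ∀ l, l ∉ I → σ l = s l then (1 : ℝ) else 0) = 2 ^ I.card := by
  have h1 : ∀ σ : T → Bool, (if ∀ l, l ∉ I → σ l = s l then (1 : ℝ) else 0)
      = ∏ l, (if l ∈ I then 1 else if σ l = s l then 1 else 0) := by
    intro σ
    by_cases h : ∀ l, l ∉ I → σ l = s l
    · rw [if_pos h, Finset.prod_eq_one]
      intro l _
      by_cases hl : l ∈ I
      · simp [hl]
      · simp [hl, h l hl]
    · rw [if_neg h]
      push Not at h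
      obtain ⟨l, hl, hne⟩ := h
      symm
      apply Finset.prod_eq_zero (Finset.mem_univ l)
      simp [hl, hne]
  rw [Finset.sum_congr rfl fun σ _ => h1 σ,
    sum_prod_signs (fun l b => if l ∈ I then (1 : ℝ) else if b = s l then 1 else 0)]
  have h2 : ∀ l, ((if l ∈ I then (1 : ℝ) else if true = s l then 1 else 0)
      + (if l ∈ I then (1 : ℝ) else if false = s l then 1 else 0)) = if l ∈ I then 2 else 1 := by
    intro l
    by_cases hl : l ∈ I
    · simp [hl]; norm_num
    · cases h : s l <;> simp [hl]
  rw [Finset.prod_congr rfl fun l _ => h2 l, Finset.prod_ite]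
  simp

/-- exponential moment of a partial sum of signs -/
theorem exp_moment_pos {S M : ℕ} (k : ℕ) (lam : ℝ) :
    ∑ s : Fin S × Fin M → Bool, Real.exp (lam * pos s k)
      ≤ 2 ^ (S * M) * Real.exp (lam ^ 2 * (S * M) / 2) := by
  set g : Fin S × Fin M → Bool → ℝ :=
    fun l b => Real.exp (if (l.1 : ℕ) ≤ k then (if b then lam else -lam) else 0) with hg
  have h1 : ∀ s : Fin S × Fin M → Bool, Real.exp (lam * pos s k) = ∏ l, g l (s l) := by
    intro s
    rw [hg, ← Real.exp_sum]
    congr 1
    unfold pos
    push_cast
    rw [Finset.mul_sum]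
    refine Finset.sum_congr rfl fun l _ => ?_
    split_ifs <;> simp
  rw [Finset.sum_congr rfl fun s _ => h1 s, sum_prod_signs g]
  have h2 : ∀ l : Fin S × Fin M, g l true + g l false ≤ 2 * Real.exp (lam ^ 2 / 2) := by
    intro l
    simp only [hg]
    by_cases hl : (l.1 : ℕ) ≤ k
    · have := Real.cosh_le_exp_half_sq lam
      rw [Real.cosh_eq] at this
      simp only [hl, if_true]
      simp only [Bool.false_eq_true, if_false]
      linarith
    · simp only [hl, if_false, Real.exp_zero]
      have : 1 ≤ Real.exp (lam ^ 2 / 2) := Real.one_le_exp (by positivity)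
      linarith
  calc _ ≤ ∏ l : Fin S × Fin M, (2 * Real.exp (lam ^ 2 / 2)) := by
        apply Finset.prod_le_prod
        · intro l _; simp only [hg]; positivity
        · intro l _; exact h2 l
    _ = 2 ^ (S * M) * Real.exp (lam ^ 2 * (S * M) / 2) := by
        rw [Finset.prod_const, Finset.card_univ, Fintype.card_prod, Fintype.card_fin,
          Fintype.card_fin, mul_pow, ← Real.exp_nat_mul]
        congr 2
        push_cast
        ring

end SMaux

end Vale.Agent.P321
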