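import Vale.Agent.P321.Defs

/-! Collisions of the hidden walk. -/

namespace Vale.Agent.P321

open Finset

namespace WalkAux

/-! ### operators on functions of an integer -/

/-- shift -/
noncomputable def sh (j : ℤ) : Module.End ℝ (ℤ → ℝ) where
  toFun f v := f (v + j)
  map_add' _ _ := rfl
  map_smul' _ _ := rfl

theorem sh_apply (j : ℤ) (f : ℤ → ℝ) (v : ℤ) : sh j f v = f (v + j) := rfl

theorem sh_mul (i j : ℤ) : sh i * sh j = sh (i + j) := by
  ext f v
  change f (v + i + j) = f (v + (i + j))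
  rw [add_assoc]

theorem sh_zero : sh 0 = 1 := by
  ext f v
  change f (v + 0) = f v
  rw [add_zero]

theorem sh_pow (i : ℤ) (n : ℕ) : sh i ^ n = sh (n * i) := by
  induction n with
  | zero => simp [sh_zero]
  | succ n ih =>
    rw [pow_succ, ih, sh_mul]
    congr 1
    push_cast
    ring

/-- average operator of a weighted step -/
noncomputable def opA {α : Type} [Fintype α] (p : α → ℝ) (x : α → ℤ) :
    Module.End ℝ (ℤ → ℝ) where
  toFun f v := ∑ a, p a * f (v + x a)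
  map_add' f g := by
    funext v
    simp only [Pi.add_apply, mul_add, sum_add_distrib]
  map_smul' c f := by
    funext v
    simp only [Pi.smul_apply, smul_eq_mul, RingHom.id_apply, mul_sum]
    exact sum_congr rfl fun a _ => by ring

theorem opA_apply {α : Type} [Fintype α] (p : α → ℝ) (x : α → ℤ) (f : ℤ → ℝ) (v : ℤ) :
    opA p x f v = ∑ a, p a * f (v + x a) := rfl

theorem opA_prod {α : Type} [Fintype α] (p : α → ℝ) (x : α → ℤ) (f : ℤ → ℝ) : ∀ (n : ℕ) (v : ℤ),
    ∑ c : Fin n → α, (∏ j, p (c j)) * f (v + ∑ j, x (c j)) = (opA p x ^ n) f v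
  | 0, v => by
      rw [Fintype.sum_unique]
      simp
  | n + 1, v => by
      rw [← (Fin.consEquiv fun _ : Fin (n + 1) => α).sum_comp, Fintype.sum_prod_type, pow_succ',
        Module.End.mul_apply, opA_apply]
      refine sum_congr rfl fun a _ => ?_
      rw [← opA_prod p x f n (v + x a), mul_sum]
      refine sum_congr rfl fun c _ => ?_
      simp only [Fin.consEquiv, Equiv.coe_fn_mk, Fin.prod_univ_succ, Fin.sum_univ_succ,
        Fin.cons_zero, Fin.cons_succ]
      rw [mul_assoc, add_assoc]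

theorem opA_mono {α : Type} [Fintype α] {p : α → ℝ} {x : α → ℤ} (hp : ∀ a, 0 ≤ p a)
    {f g : ℤ → ℝ} (h : ∀ v, f v ≤ g v) (v : ℤ) : opA p x f v ≤ opA p x g v :=
  sum_le_sum fun a _ => mul_le_mul_of_nonneg_left (h _) (hp a)

theorem opA_pow_mono {α : Type} [Fintype α] {p : α → ℝ} {x : α → ℤ} (hp : ∀ a, 0 ≤ p a)
    {f g : ℤ → ℝ} (h : ∀ v, f v ≤ g v) : ∀ (n : ℕ) (v : ℤ),
      (opA p x ^ n) f v ≤ (opA p x ^ n) g v
  | 0, v => by simpa using h v
  | n + 1, v => by
      rw [pow_succ', Module.End.mul_apply, Module.End.mul_apply]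
      exact opA_mono hp (opA_pow_mono hp h n) v

/-! ### weighted number of visits -/

/-- `E ∏ g (position)` -/
noncomputable def uu (P : Module.End ℝ (ℤ → ℝ)) (g : ℤ → ℝ) : ℕ → ℤ → ℝ
  | 0 => fun _ => 1
  | n + 1 => P (fun y => g y * uu P g n y)

theorem uu_rep {α : Type} [Fintype α] (p : α → ℝ) (x : α → ℤ) (g : ℤ → ℝ) :
    ∀ (n : ℕ) (v : ℤ), ∑ c : Fin n → α, (∏ j, p (c j)) *
      ∏ k ∈ range n, g (v + ∑ i : Fin n, if (i : ℕ) ≤ k then x (c i) else 0)
      = uu (opA p x) g n v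
  | 0, v => by
      rw [Fintype.sum_unique]
      simp [uu]
  | n + 1, v => by
      rw [← (Fin.consEquiv fun _ : Fin (n + 1) => α).sum_comp, Fintype.sum_prod_type]
      change _ = opA p x (fun y => g y * uu (opA p x) g n y) v
      rw [opA_apply]
      refine sum_congr rfl fun a _ => ?_
      rw [← uu_rep p x g n (v + x a), mul_sum, mul_sum]
      refine sum_congr rfl fun c _ => ?_
      simp only [Fin.consEquiv, Equiv.coe_fn_mk, Fin.prod_univ_succ, Fin.sum_univ_succ,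
        Fin.cons_zero, Fin.cons_succ, Fin.val_zero, Fin.val_succ, Nat.zero_le, if_true]
      rw [prod_range_succ']
      have e1 : ∀ k, (v + (x a + ∑ i : Fin n, if (i : ℕ) + 1 ≤ k + 1 then x (c i) else 0))
          = v + x a + ∑ i : Fin n, if (i : ℕ) ≤ k then x (c i) else 0 := by
        intro k
        rw [add_assoc]
        simp only [Nat.add_le_add_iff_right]
      have e2 : (v + (x a + ∑ i : Fin n, if (i : ℕ) + 1 ≤ 0 then x (c i) else 0)) = v + x a := by
        simp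
      simp only [e1, e2]
      ring

theorem uu_exp (P : Module.End ℝ (ℤ → ℝ)) (h1 : P (fun _ => 1) = fun _ => 1) (a : ℝ)
    (χ : ℤ → ℝ) : ∀ n : ℕ, uu P (fun y => 1 + a * χ y) n
      = (fun _ => 1) + a • ∑ k ∈ range n,
        (P ^ (k + 1)) (fun y => χ y * uu P (fun y => 1 + a * χ y) (n - 1 - k) y)
  | 0 => by
      simp [uu]
  | n + 1 => by
      have ih := uu_exp P h1 a χ n
      set u := uu P (fun y => 1 + a * χ y) with hu
      have e : u (n + 1) = P (u n) + a • P (fun y => χ y * u n y) := by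
        have : u (n + 1) = P (fun y => (1 + a * χ y) * u n y) := rfl
        rw [this, ← map_smul, ← map_add]
        congr 1
        funext y
        simp only [Pi.add_apply, Pi.smul_apply, smul_eq_mul]
        ring
      rw [e]
      have e2 : P (u n) = (fun _ => 1) + a • ∑ k ∈ range n,
          (P ^ (k + 1 + 1)) (fun y => χ y * u (n - 1 - k) y) := by
        conv_lhs => rw [ih]
        rw [map_add, h1, map_smul, map_sum]
        congr 2
        refine sum_congr rfl fun k _ => ?_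
        rw [pow_succ' P (k + 1), Module.End.mul_apply]
      rw [e2, sum_range_succ']
      have e3 : ∀ k ∈ range n, (P ^ (k + 1 + 1)) (fun y => χ y * u (n + 1 - 1 - (k + 1)) y)
          = (P ^ (k + 1 + 1)) (fun y => χ y * u (n - 1 - k) y) := by
        intro k _
        have : n + 1 - 1 - (k + 1) = n - 1 - k := by omega
        rw [this]
      rw [sum_congr rfl e3]
      have e4 : n + 1 - 1 - 0 = n := by omega
      rw [e4, zero_add, pow_one, smul_add, add_assoc]

theorem uu_bound {α : Type} [Fintype α] {p : α → ℝ} {x : α → ℤ} (hp : ∀ a, 0 ≤ p a)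
    (hp1 : ∑ a, p a = 1) (a Γ : ℝ) (ha : 0 ≤ a) (χ : ℤ → ℝ) (hχ : ∀ y, 0 ≤ χ y) (κ : ℕ → ℝ)
    (S : ℕ) (hκ : ∀ k, k < S → ∀ v, (opA p x ^ (k + 1)) χ v ≤ κ k) (hκ0 : ∀ k, 0 ≤ κ k)
    (hΓ : a * ∑ k ∈ range S, κ k ≤ Γ) (hΓ1 : Γ ≤ 1 / 2) : ∀ n, n ≤ S → ∀ v,
      0 ≤ uu (opA p x) (fun y => 1 + a * χ y) n v ∧
      uu (opA p x) (fun y => 1 + a * χ y) n v ≤ 1 / (1 - Γ) := by
  have hP1 : opA p x (fun _ => 1) = fun _ => 1 := by
    funext v
    rw [opA_apply]
    simp [hp1]
  have g0 : 0 < 1 - Γ := by linarith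
  intro n
  induction n using Nat.strong_induction_on with
  | _ n ih =>
    intro hn v
    have hnn : 0 ≤ uu (opA p x) (fun y => 1 + a * χ y) n v := by
      rcases n with _ | n
      · simp [uu]
      · change 0 ≤ opA p x (fun y => (1 + a * χ y) * uu (opA p x) (fun y => 1 + a * χ y) n y) v
        rw [opA_apply]
        refine sum_nonneg fun b _ => mul_nonneg (hp b) (mul_nonneg ?_ ?_)
        · have := mul_nonneg ha (hχ (v + x b))
          linarith
        · exact (ih n (by omega) (by omega) _).1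
    refine ⟨hnn, ?_⟩
    rw [uu_exp _ hP1 a χ n]
    simp only [Pi.add_apply, Pi.smul_apply, smul_eq_mul, Finset.sum_apply]
    have key : ∑ k ∈ range n, (opA p x ^ (k + 1))
        (fun y => χ y * uu (opA p x) (fun y => 1 + a * χ y) (n - 1 - k) y) v
        ≤ ∑ k ∈ range n, 1 / (1 - Γ) * κ k := by
      refine sum_le_sum fun k hk => ?_
      have hk' := mem_range.1 hk
      have m1 := opA_pow_mono (x := x) hp (f := fun y => χ y * uu (opA p x) (fun y => 1 + a * χ y)
        (n - 1 - k) y) (g := (1 / (1 - Γ)) • χ) (fun y => by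
          have := (ih (n - 1 - k) (by omega) (by omega) y).2
          have := mul_le_mul_of_nonneg_left this (hχ y)
          simp only [Pi.smul_apply, smul_eq_mul]
          linarith) (k + 1) v
      rw [map_smul] at m1
      simp only [Pi.smul_apply, smul_eq_mul] at m1
      refine le_trans m1 ?_
      exact mul_le_mul_of_nonneg_left (hκ k (by omega) v) (by positivity)
    rw [← mul_sum] at key
    have k2 : ∑ k ∈ range n, κ k ≤ ∑ k ∈ range S, κ k :=
      sum_le_sum_of_subset_of_nonneg (range_mono hn) fun k _ _ => hκ0 k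
    have k3 : a * ∑ k ∈ range n, κ k ≤ Γ :=
      le_trans (mul_le_mul_of_nonneg_left k2 ha) hΓ
    have k4 := mul_le_mul_of_nonneg_left key ha
    have k5 : a * (1 / (1 - Γ) * ∑ k ∈ range n, κ k) = 1 / (1 - Γ) * (a * ∑ k ∈ range n, κ k) := by
      ring
    have k6 : 1 / (1 - Γ) * (a * ∑ k ∈ range n, κ k) ≤ 1 / (1 - Γ) * Γ :=
      mul_le_mul_of_nonneg_left k3 (by positivity)
    have k7 : 1 + 1 / (1 - Γ) * Γ = 1 / (1 - Γ) := by
      field_simp
      ring
    linarith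

/-! ### the local estimate -/

theorem cb_bound (m : ℕ) : (Nat.centralBinom m : ℝ) ^ 2 * (m + 1) ≤ 16 ^ m := by
  induction m with
  | zero => simp
  | succ m ih =>
    have h := Nat.succ_mul_centralBinom_succ m
    have hr : ((m : ℝ) + 1) * (Nat.centralBinom (m + 1) : ℝ)
        = 2 * (2 * m + 1) * (Nat.centralBinom m : ℝ) := by exact_mod_cast h
    have m1 : (0 : ℝ) < (m : ℝ) + 1 := by positivity
    have e : ((m : ℝ) + 1) ^ 3 * ((Nat.centralBinom (m + 1) : ℝ) ^ 2 * ((m : ℝ) + 1 + 1))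
        = 4 * (2 * m + 1) ^ 2 * (m + 2) * ((Nat.centralBinom m : ℝ) ^ 2 * (m + 1)) := by
      have : (((m : ℝ) + 1) * (Nat.centralBinom (m + 1) : ℝ)) ^ 2
          = (2 * (2 * m + 1) * (Nat.centralBinom m : ℝ)) ^ 2 := by rw [hr]
      linear_combination ((m : ℝ) + 1) * ((m : ℝ) + 2) * this
    have k : 4 * (2 * (m : ℝ) + 1) ^ 2 * (m + 2) ≤ 16 * ((m : ℝ) + 1) ^ 3 := by
      nlinarith [sq_nonneg (m : ℝ), Nat.cast_nonneg (α := ℝ) m]
    have k2 : ((m : ℝ) + 1) ^ 3 * ((Nat.centralBinom (m + 1) : ℝ) ^ 2 * ((m : ℝ) + 1 + 1))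
        ≤ ((m : ℝ) + 1) ^ 3 * 16 ^ (m + 1) := by
      rw [e, pow_succ]
      calc 4 * (2 * (m : ℝ) + 1) ^ 2 * (m + 2) * ((Nat.centralBinom m : ℝ) ^ 2 * (m + 1))
          ≤ 16 * ((m : ℝ) + 1) ^ 3 * 16 ^ m :=
            mul_le_mul k ih (by positivity) (by positivity)
        _ = _ := by ring
    push_cast
    exact le_of_mul_le_mul_left k2 (by positivity)

theorem cb_sqrt (m : ℕ) : (Nat.centralBinom m : ℝ) / 4 ^ m ≤ 1 / √((m : ℝ) + 1) := by
  have h := cb_bound m
  have m1 : (0 : ℝ) < (m : ℝ) + 1 := by positivity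
  have hs := Real.sqrt_pos.2 m1
  rw [div_le_div_iff₀ (by positivity) hs, one_mul]
  refine le_of_sq_le_sq ?_ (by positivity) |> fun h => h
  rw [mul_pow, Real.sq_sqrt m1.le]
  have : ((4 : ℝ) ^ m) ^ 2 = 16 ^ m := by
    rw [← pow_mul, mul_comm, pow_mul]; norm_num
  rw [this]
  exact h

/-- indicator -/
noncomputable def ind (r : ℕ) (y : ℤ) : ℝ := if |y| < (r : ℤ) then 1 else 0

theorem ind_nonneg (r : ℕ) (y : ℤ) : 0 ≤ ind r y := by
  unfold ind; split_ifs <;> norm_num

theorem card_bd (r m : ℕ) (v : ℤ) :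
    ((range (2 * m + 1)).filter (fun j : ℕ => |v + (2 * (j : ℤ) - 2 * m)| < (r : ℤ))).card ≤ r := by
  have h : ((range (2 * m + 1)).filter
      (fun j : ℕ => |v + (2 * (j : ℤ) - 2 * m)| < (r : ℤ))).card ≤ (range r).card := by
    refine card_le_card_of_injOn (fun j : ℕ => ((v - 2 * m + r + 2 * (j : ℤ)) / 2).toNat) ?_ ?_
    · intro j hj
      simp only [coe_filter, mem_range, Set.mem_ofPred_eq] at hj
      have := abs_lt.1 hj.2
      simp only [coe_range, Set.mem_Iio]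
      omega
    · intro j hj k hk hjk
      simp only [coe_filter, mem_range, Set.mem_ofPred_eq] at hj hk
      have h1 := abs_lt.1 hj.2
      have h2 := abs_lt.1 hk.2
      simp only at hjk
      omega
  rwa [card_range] at h

/-- symmetric operator -/
noncomputable def HH : Module.End ℝ (ℤ → ℝ) := sh 1 + sh (-1)

theorem HH_pow (N : ℕ) (f : ℤ → ℝ) (v : ℤ) :
    (HH ^ N) f v = ∑ j ∈ range (N + 1), (N.choose j : ℝ) * f (v + (2 * (j : ℤ) - N)) := by
  have hc : Commute (sh 1) (sh (-1)) := by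
    change sh 1 * sh (-1) = sh (-1) * sh 1
    rw [sh_mul, sh_mul]
    congr 1
  unfold HH
  rw [hc.add_pow, LinearMap.sum_apply, Finset.sum_apply]
  refine sum_congr rfl fun j hj => ?_
  have hj' : j ≤ N := by have := mem_range.1 hj; omega
  rw [sh_pow, sh_pow, sh_mul, Module.End.mul_apply, sh_apply, Module.End.natCast_apply]
  simp only [Pi.smul_apply, nsmul_eq_mul]
  congr 3
  push_cast [hj']
  ring

theorem HH_bd (r m : ℕ) (v : ℤ) : (HH ^ (2 * m)) (ind r) v ≤ r * (Nat.centralBinom m : ℝ) := by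
  rw [HH_pow]
  have h1 : ∀ j ∈ range (2 * m + 1), ((2 * m).choose j : ℝ)
      * ind r (v + (2 * (j : ℤ) - (2 * m : ℕ)))
      ≤ (Nat.centralBinom m : ℝ) * (if |v + (2 * (j : ℤ) - 2 * m)| < (r : ℤ) then 1 else 0) := by
    intro j _
    have hc : ((2 * m).choose j : ℝ) ≤ Nat.centralBinom m := by
      exact_mod_cast Nat.choose_le_centralBinom j m
    unfold ind
    push_cast
    exact mul_le_mul_of_nonneg_right hc (by split_ifs <;> norm_num)
  refine le_trans (sum_le_sum h1) ?_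
  rw [← mul_sum, sum_boole, mul_comm]
  have := card_bd r m v
  have hr : ((((range (2 * m + 1)).filter
      (fun j : ℕ => |v + (2 * (j : ℤ) - 2 * m)| < (r : ℤ))).card : ℕ) : ℝ) ≤ r := by
    exact_mod_cast this
  exact mul_le_mul_of_nonneg_right hr (by positivity)

/-- micro step -/
noncomputable def QQ (θ : ℝ) : Module.End ℝ (ℤ → ℝ) :=
  θ • ((1 / 4 : ℝ) • HH ^ 2) + (1 - θ) • (1 : Module.End ℝ (ℤ → ℝ))

theorem QQ_pow (θ : ℝ) (n : ℕ) (f : ℤ → ℝ) (v : ℤ) :
    (QQ θ ^ n) f v = ∑ m ∈ range (n + 1), (n.choose m : ℝ) * θ ^ m * (1 - θ) ^ (n - m)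
      * ((1 / 4) ^ m * (HH ^ (2 * m)) f v) := by
  have hc : Commute (θ • ((1 / 4 : ℝ) • HH ^ 2)) ((1 - θ) • (1 : Module.End ℝ (ℤ → ℝ))) := by
    exact (Commute.one_right _).smul_right _
  unfold QQ
  rw [hc.add_pow, LinearMap.sum_apply, Finset.sum_apply]
  refine sum_congr rfl fun m _ => ?_
  rw [smul_pow, smul_pow, smul_pow, one_pow, ← pow_mul, Module.End.mul_apply,
    Module.End.natCast_apply, ← Nat.cast_smul_eq_nsmul ℝ, Module.End.mul_apply]
  simp only [LinearMap.smul_apply, Module.End.one_apply, map_smul, Pi.smul_apply, smul_eq_mul]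
  ring

theorem binom_one (θ : ℝ) (n : ℕ) :
    ∑ m ∈ range (n + 1), (n.choose m : ℝ) * θ ^ m * (1 - θ) ^ (n - m) = 1 := by
  have h := add_pow θ (1 - θ) n
  rw [add_sub_cancel, one_pow] at h
  exact (sum_congr rfl fun m _ => by ring).trans h.symm

theorem binom_inv (θ : ℝ) (h0 : 0 < θ) (h1 : θ ≤ 1) (n : ℕ) :
    ∑ m ∈ range (n + 1), (n.choose m : ℝ) * θ ^ m * (1 - θ) ^ (n - m) * (1 / ((m : ℝ) + 1))
      ≤ 1 / (((n : ℝ) + 1) * θ) := by
  have hn : (0 : ℝ) < (n : ℝ) + 1 := by positivity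
  rw [le_div_iff₀ (by positivity), sum_mul]
  have e : ∀ m ∈ range (n + 1), (n.choose m : ℝ) * θ ^ m * (1 - θ) ^ (n - m)
      * (1 / ((m : ℝ) + 1)) * (((n : ℝ) + 1) * θ)
      = ((n + 1).choose (m + 1) : ℝ) * θ ^ (m + 1) * (1 - θ) ^ (n + 1 - (m + 1)) := by
    intro m _
    have h := Nat.add_one_mul_choose_eq n m
    have hr : ((n : ℝ) + 1) * (n.choose m : ℝ) = ((n + 1).choose (m + 1) : ℝ) * ((m : ℝ) + 1) := by
      exact_mod_cast h
    have m1 : (m : ℝ) + 1 ≠ 0 := by positivity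
    have e2 : n + 1 - (m + 1) = n - m := by omega
    rw [e2]
    have e3 : ((n + 1).choose (m + 1) : ℝ) = ((n : ℝ) + 1) * (n.choose m : ℝ) / ((m : ℝ) + 1) := by
      rw [hr]; field_simp
    rw [e3]
    field_simp
    ring
  rw [sum_congr rfl e]
  have h := binom_one θ (n + 1)
  rw [sum_range_succ'] at h
  have z : 0 ≤ ((n + 1).choose 0 : ℝ) * θ ^ 0 * (1 - θ) ^ (n + 1 - 0) := by
    have : 0 ≤ 1 - θ := by linarith
    positivity
  linarith

theorem QQ_bd (θ : ℝ) (h0 : 0 < θ) (h1 : θ ≤ 1) (r n : ℕ) (v : ℤ) :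
    (QQ θ ^ n) (ind r) v ≤ r / √(((n : ℝ) + 1) * θ) := by
  rw [QQ_pow]
  have hn : (0 : ℝ) < ((n : ℝ) + 1) * θ := by positivity
  set a := √(((n : ℝ) + 1) * θ) with ha
  have a0 : 0 < a := Real.sqrt_pos.2 hn
  have a2 : a ^ 2 = ((n : ℝ) + 1) * θ := Real.sq_sqrt hn.le
  have q0 : 0 ≤ 1 - θ := by linarith
  have term : ∀ m ∈ range (n + 1), (n.choose m : ℝ) * θ ^ m * (1 - θ) ^ (n - m)
      * ((1 / 4) ^ m * (HH ^ (2 * m)) (ind r) v)
      ≤ (n.choose m : ℝ) * θ ^ m * (1 - θ) ^ (n - m)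
        * (r * (a / 2 * (1 / ((m : ℝ) + 1)) + 1 / (2 * a))) := by
    intro m _
    refine mul_le_mul_of_nonneg_left ?_ (by positivity)
    have k1 := HH_bd r m v
    have k2 := cb_sqrt m
    have m1 : (0 : ℝ) < (m : ℝ) + 1 := by positivity
    have s1 := Real.sqrt_pos.2 m1
    have s2 : √((m : ℝ) + 1) ^ 2 = (m : ℝ) + 1 := Real.sq_sqrt m1.le
    have k3 : 1 / √((m : ℝ) + 1) ≤ a / 2 * (1 / ((m : ℝ) + 1)) + 1 / (2 * a) := by
      set y := √((m : ℝ) + 1) with hy
      rw [← s2]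
      have e : a / 2 * (1 / y ^ 2) + 1 / (2 * a) - 1 / y = (a - y) ^ 2 / (2 * a * y ^ 2) := by
        field_simp
        ring
      have : 0 ≤ (a - y) ^ 2 / (2 * a * y ^ 2) := by positivity
      linarith
    have e4 : ((1 : ℝ) / 4) ^ m = 1 / 4 ^ m := by rw [one_div_pow]
    calc ((1 : ℝ) / 4) ^ m * (HH ^ (2 * m)) (ind r) v
        ≤ (1 / 4) ^ m * (r * (Nat.centralBinom m : ℝ)) :=
          mul_le_mul_of_nonneg_left k1 (by positivity)
      _ = r * ((Nat.centralBinom m : ℝ) / 4 ^ m) := by rw [e4]; ring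
      _ ≤ r * (a / 2 * (1 / ((m : ℝ) + 1)) + 1 / (2 * a)) :=
          mul_le_mul_of_nonneg_left (le_trans k2 k3) (by positivity)
  refine le_trans (sum_le_sum term) ?_
  have e : ∀ m ∈ range (n + 1), (n.choose m : ℝ) * θ ^ m * (1 - θ) ^ (n - m)
        * (r * (a / 2 * (1 / ((m : ℝ) + 1)) + 1 / (2 * a)))
      = r * (a / 2) * ((n.choose m : ℝ) * θ ^ m * (1 - θ) ^ (n - m) * (1 / ((m : ℝ) + 1)))
        + r * (1 / (2 * a)) * ((n.choose m : ℝ) * θ ^ m * (1 - θ) ^ (n - m)) := fun m _ => by ring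
  rw [sum_congr rfl e, sum_add_distrib, ← mul_sum, ← mul_sum, binom_one]
  have k := mul_le_mul_of_nonneg_left (binom_inv θ h0 h1 n)
    (by positivity : (0 : ℝ) ≤ r * (a / 2))
  rw [← a2] at k
  have e5 : (r : ℝ) * (a / 2) * (1 / a ^ 2) + r * (1 / (2 * a)) * 1 = r / a := by
    field_simp
    ring
  linarith

theorem sum_sqrt (S : ℕ) : ∑ k ∈ range S, 1 / √((k : ℝ) + 1) ≤ 2 * √(S : ℝ) := by
  induction S with
  | zero => simp
  | succ S ih =>
    rw [sum_range_succ]
    have p1 : (0 : ℝ) < (S : ℝ) + 1 := by positivity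
    have a1 : √((S : ℝ) + 1) ^ 2 = (S : ℝ) + 1 := Real.sq_sqrt p1.le
    have a2 : √(S : ℝ) ^ 2 = (S : ℝ) := Real.sq_sqrt (Nat.cast_nonneg S)
    have b1 := Real.sqrt_pos.2 p1
    have b2 := Real.sqrt_nonneg (S : ℝ)
    have k : 1 / √((S : ℝ) + 1) ≤ 2 * (√((S : ℝ) + 1) - √(S : ℝ)) := by
      rw [div_le_iff₀ b1]
      nlinarith [sq_nonneg (√((S : ℝ) + 1) - √(S : ℝ))]
    push_cast
    linarith

/-! ### the two-letter weights -/

/-- weight of a pair of signs -/
noncomputable def wt (θ : ℝ) (ω : Bool × Bool) : ℝ :=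
  θ / 4 + (if ω.1 = ω.2 then (1 - θ) / 2 else 0)

/-- difference of a pair of signs -/
def dl (ω : Bool × Bool) : ℤ := (if ω.1 then 1 else -1) - (if ω.2 then 1 else -1)

theorem wt_nonneg (θ : ℝ) (h0 : 0 < θ) (h1 : θ ≤ 1) (ω : Bool × Bool) : 0 ≤ wt θ ω := by
  unfold wt
  have : 0 ≤ (1 - θ) / 2 := by linarith
  split_ifs <;> linarith

theorem opA_wt (θ : ℝ) : opA (wt θ) dl = QQ θ := by
  ext f v
  rw [opA_apply, Fintype.sum_prod_type, Fintype.sum_bool, Fintype.sum_bool, Fintype.sum_bool]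
  have h2 := HH_pow 2 f v
  rw [sum_range_succ, sum_range_succ, sum_range_succ, sum_range_zero] at h2
  unfold QQ
  simp only [LinearMap.add_apply, LinearMap.smul_apply, Pi.add_apply, Pi.smul_apply, smul_eq_mul,
    Module.End.one_apply]
  rw [h2]
  simp only [wt, dl]
  norm_num
  ring_nf

/-! ### reduction of the triple sum -/

section
variable {T : Type} [Fintype T] [DecidableEq T]

theorem sum_I (θ : ℝ) (s s' : T → Bool) (X : ℝ) :
    ∑ I : Finset T, θ ^ I.card * (1 - θ) ^ (Fintype.card T - I.card) *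
        (if ∀ l, l ∉ I → s l = s' l then (1 / 2 : ℝ) ^ (Fintype.card T + I.card) * X else 0)
      = (∏ l, wt θ (s l, s' l)) * X := by
  unfold wt
  rw [prod_add, powerset_univ, sum_mul]
  refine sum_congr rfl fun I _ => ?_
  have hc : I.card ≤ Fintype.card T := card_le_univ I
  have e1 : ∏ _l ∈ I, (θ / 4 : ℝ) = (θ / 4) ^ I.card := by rw [prod_const]
  rw [e1, prod_ite_zero, prod_const]
  have e2 : (univ \ I).card = Fintype.card T - I.card := by
    rw [card_sdiff_of_subset (subset_univ I), card_univ]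
  rw [e2]
  have e3 : (∀ i ∈ univ \ I, s i = s' i) ↔ ∀ l, l ∉ I → s l = s' l := by
    simp
  by_cases h : ∀ l, l ∉ I → s l = s' l
  · rw [if_pos h, if_pos (e3.2 h)]
    have e4 : (1 / 2 : ℝ) ^ (Fintype.card T + I.card)
        = (1 / 2) ^ (Fintype.card T - I.card) * (1 / 4) ^ I.card := by
      have : Fintype.card T + I.card = (Fintype.card T - I.card) + 2 * I.card := by omega
      rw [this, pow_add, pow_mul]
      norm_num
    rw [e4]
    simp only [div_pow, one_pow]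
    ring
  · rw [if_neg h, if_neg (fun hh => h (e3.1 hh))]
    simp

theorem sum_pairs (F : (T → Bool) → (T → Bool) → ℝ) :
    ∑ s : T → Bool, ∑ s' : T → Bool, F s s'
      = ∑ c : T → Bool × Bool, F (fun l => (c l).1) (fun l => (c l).2) := by
  rw [← (Equiv.arrowProdEquivProdArrow T (fun _ => Bool) (fun _ => Bool)).symm.sum_comp,
    Fintype.sum_prod_type]
  rfl

end

theorem pow_card (S r : ℕ) (a : ℝ) (D : ℕ → ℤ) :
    (1 + a) ^ ((range S).filter (fun k => |D k| < (r : ℤ))).card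
      = ∏ k ∈ range S, (1 + a * ind r (D k)) := by
  rw [← prod_const, prod_filter]
  refine prod_congr rfl fun k _ => ?_
  unfold ind
  split_ifs <;> simp

theorem pos_sub {S M : ℕ} (c : Fin S × Fin M → Bool × Bool) (k : ℕ) :
    pos (fun l => (c l).1) k - pos (fun l => (c l).2) k
      = 0 + ∑ i : Fin S, if (i : ℕ) ≤ k then ∑ j : Fin M, dl (c (i, j)) else 0 := by
  unfold pos
  rw [← sum_sub_distrib, Fintype.sum_prod_type, zero_add]
  refine sum_congr rfl fun i _ => ?_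
  split_ifs with h
  · exact sum_congr rfl fun j _ => rfl
  · simp

theorem total {S M : ℕ} (θ a : ℝ) (r : ℕ) :
    ∑ c : Fin S × Fin M → Bool × Bool, (∏ l, wt θ (c l)) *
        (1 + a) ^ ((range S).filter (fun k => |pos (fun l => (c l).1) k
          - pos (fun l => (c l).2) k| < (r : ℤ))).card
      = uu (opA (fun ω : Fin M → Bool × Bool => ∏ j, wt θ (ω j)) (fun ω => ∑ j, dl (ω j)))
        (fun y => 1 + a * ind r y) S 0 := by
  rw [← uu_rep, ← (Equiv.curry (Fin S) (Fin M) (Bool × Bool)).symm.sum_comp]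
  refine sum_congr rfl fun c _ => ?_
  rw [Fintype.prod_prod_type, pow_card S r a (fun k =>
    pos (fun l => (((Equiv.curry (Fin S) (Fin M) (Bool × Bool)).symm c) l).1) k
      - pos (fun l => (((Equiv.curry (Fin S) (Fin M) (Bool × Bool)).symm c) l).2) k)]
  simp only [pos_sub]
  rfl

theorem wt_sum (θ : ℝ) : ∑ ω : Bool × Bool, wt θ ω = 1 := by
  rw [Fintype.sum_prod_type, Fintype.sum_bool, Fintype.sum_bool, Fintype.sum_bool]
  simp only [wt]
  norm_num
  ring

theorem prodwt_sum (θ : ℝ) (n : ℕ) : ∑ ω : Fin n → Bool × Bool, ∏ j, wt θ (ω j) = 1 := by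
  have h := opA_prod (wt θ) dl (fun _ => 1) n 0
  simp only [mul_one] at h
  rw [h]
  have h1 : opA (wt θ) dl (fun _ => (1 : ℝ)) = fun _ => 1 := by
    funext v
    rw [opA_apply]
    simp only [mul_one]
    exact wt_sum θ
  have : ∀ m : ℕ, (opA (wt θ) dl ^ m) (fun _ => (1 : ℝ)) = fun _ => 1 := by
    intro m
    induction m with
    | zero => rfl
    | succ m ih => rw [pow_succ', Module.End.mul_apply, ih, h1]
  rw [this]

theorem opA_period (θ : ℝ) (M : ℕ) :
    opA (fun ω : Fin M → Bool × Bool => ∏ j, wt θ (ω j)) (fun ω => ∑ j, dl (ω j)) = QQ θ ^ M := by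
  rw [← opA_wt]
  ext f v
  rw [opA_apply]
  exact opA_prod (wt θ) dl f M v

end WalkAux

open WalkAux in
theorem walk_collision (S M r : ℕ) (hS : 1 ≤ S) (hM : 1 ≤ M) (hr : 1 ≤ r) (θ τ : ℝ)
    (hθ : 1 / 2 ≤ θ) (hθ1 : θ ≤ 1) (hτ : 0 ≤ τ)
    (hsm : τ ^ 2 * (3 * r * √((S : ℝ) / M)) ≤ 1 / 2) :
    ∑ I : Finset (Fin S × Fin M), θ ^ I.card * (1 - θ) ^ (Fintype.card (Fin S × Fin M) - I.card) *
      ∑ s : Fin S × Fin M → Bool, ∑ s' : Fin S × Fin M → Bool,
        (if ∀ l, l ∉ I → s l = s' l then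
          (1 / 2 : ℝ) ^ (Fintype.card (Fin S × Fin M) + I.card) *
          ((1 + τ ^ 2) ^ ((range S).filter (fun k => |pos s k - pos s' k| < (r : ℤ))).card - 1)
        else 0)
      ≤ 2 * (τ ^ 2 * (3 * r * √((S : ℝ) / M))) := by
  have _ := hS
  have _ := hr
  have _ := hτ
  have θ0 : 0 < θ := by linarith
  have hM' : (0 : ℝ) < M := by exact_mod_cast hM
  set Γ := τ ^ 2 * (3 * r * √((S : ℝ) / M)) with hΓ
  have Γ0 : 0 ≤ Γ := by positivity
  -- rewrite the sum
  have e1 : ∑ I : Finset (Fin S × Fin M), θ ^ I.card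
      * (1 - θ) ^ (Fintype.card (Fin S × Fin M) - I.card) *
      ∑ s : Fin S × Fin M → Bool, ∑ s' : Fin S × Fin M → Bool,
        (if ∀ l, l ∉ I → s l = s' l then
          (1 / 2 : ℝ) ^ (Fintype.card (Fin S × Fin M) + I.card) *
          ((1 + τ ^ 2) ^ ((range S).filter (fun k => |pos s k - pos s' k| < (r : ℤ))).card - 1)
        else 0)
      = ∑ s : Fin S × Fin M → Bool, ∑ s' : Fin S × Fin M → Bool,
        (∏ l, wt θ (s l, s' l)) * ((1 + τ ^ 2) ^ ((range S).filter
          (fun k => |pos s k - pos s' k| < (r : ℤ))).card - 1) := by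
    simp only [mul_sum]
    rw [sum_comm]
    refine sum_congr rfl fun s _ => ?_
    rw [sum_comm]
    refine sum_congr rfl fun s' _ => ?_
    exact sum_I θ s s' _
  rw [e1, sum_pairs (fun s s' => (∏ l, wt θ (s l, s' l)) * ((1 + τ ^ 2) ^ ((range S).filter
          (fun k => |pos s k - pos s' k| < (r : ℤ))).card - 1))]
  have e2 : ∑ c : Fin S × Fin M → Bool × Bool, (∏ l, wt θ ((c l).1, (c l).2)) *
        ((1 + τ ^ 2) ^ ((range S).filter (fun k => |pos (fun l => (c l).1) k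
          - pos (fun l => (c l).2) k| < (r : ℤ))).card - 1)
      = uu (opA (fun ω : Fin M → Bool × Bool => ∏ j, wt θ (ω j)) (fun ω => ∑ j, dl (ω j)))
        (fun y => 1 + τ ^ 2 * ind r y) S 0
        - ∑ c : Fin S × Fin M → Bool × Bool, ∏ l, wt θ (c l) := by
    rw [← total, ← sum_sub_distrib]
    refine sum_congr rfl fun c _ => ?_
    rw [mul_sub, mul_one]
  have e3 : ∑ c : Fin S × Fin M → Bool × Bool, ∏ l, wt θ (c l) = 1 := by
    have h := total (S := S) (M := M) θ 0 r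
    simp only [add_zero, one_pow, mul_one, zero_mul] at h
    rw [h]
    have hP : opA (fun ω : Fin M → Bool × Bool => ∏ j, wt θ (ω j)) (fun ω => ∑ j, dl (ω j))
        (fun _ => 1) = fun _ => 1 := by
      funext v
      rw [opA_apply]
      simp only [mul_one]
      exact prodwt_sum θ M
    have : ∀ n, uu (opA (fun ω : Fin M → Bool × Bool => ∏ j, wt θ (ω j))
        (fun ω => ∑ j, dl (ω j))) (fun _ => 1) n = fun _ => 1 := by
      intro n
      induction n with
      | zero => rfl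
      | succ n ih =>
        change opA _ _ (fun y => 1 * uu _ _ n y) = _
        rw [ih]
        simp only [mul_one]
        exact hP
    rw [this]
  rw [e2, e3]
  have hp : ∀ ω : Fin M → Bool × Bool, 0 ≤ ∏ j, wt θ (ω j) := fun ω =>
    prod_nonneg fun j _ => wt_nonneg θ θ0 hθ1 _
  set κ : ℕ → ℝ := fun k => r / √((((k : ℝ) + 1) * M) * θ) with hκ
  have hκb : ∀ k, k < S → ∀ v, (opA (fun ω : Fin M → Bool × Bool => ∏ j, wt θ (ω j))
      (fun ω => ∑ j, dl (ω j)) ^ (k + 1)) (ind r) v ≤ κ k := by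
    intro k _ v
    rw [opA_period, ← pow_mul]
    refine le_trans (QQ_bd θ θ0 hθ1 r (M * (k + 1)) v) ?_
    rw [hκ]
    refine div_le_div_of_nonneg_left (by positivity) (Real.sqrt_pos.2 (by positivity)) ?_
    refine Real.sqrt_le_sqrt ?_
    refine mul_le_mul_of_nonneg_right ?_ θ0.le
    push_cast
    linarith
  have hsum : τ ^ 2 * ∑ k ∈ range S, κ k ≤ Γ := by
    rw [hΓ]
    refine mul_le_mul_of_nonneg_left ?_ (sq_nonneg τ)
    have hk : ∀ k ∈ range S, κ k = r / √((M : ℝ) * θ) * (1 / √((k : ℝ) + 1)) := by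
      intro k _
      rw [hκ]
      have : (((k : ℝ) + 1) * M) * θ = (M * θ) * ((k : ℝ) + 1) := by ring
      simp only [this]
      rw [Real.sqrt_mul (by positivity)]
      rw [div_mul_div_comm, mul_one]
    rw [sum_congr rfl hk, ← mul_sum]
    have h1 := mul_le_mul_of_nonneg_left (sum_sqrt S)
      (by positivity : (0 : ℝ) ≤ r / √((M : ℝ) * θ))
    refine le_trans h1 ?_
    rw [Real.sqrt_mul hM'.le, Real.sqrt_div (Nat.cast_nonneg S)]
    have sM := Real.sqrt_pos.2 hM'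
    have sθ := Real.sqrt_pos.2 θ0
    have hθs : 2 / 3 ≤ √θ := by
      rw [Real.le_sqrt' (by norm_num)]
      norm_num
      linarith
    have e4 : (r : ℝ) / (√(M : ℝ) * √θ) * (2 * √(S : ℝ))
        = (2 / √θ) * (r * (√(S : ℝ) / √(M : ℝ))) := by
      field_simp
    have e5 : 2 / √θ ≤ 3 := by
      rw [div_le_iff₀ sθ]; linarith
    rw [e4]
    calc 2 / √θ * (r * (√(S : ℝ) / √(M : ℝ))) ≤ 3 * (r * (√(S : ℝ) / √(M : ℝ))) :=
          mul_le_mul_of_nonneg_right e5 (by positivity)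
      _ = _ := by ring
  have main := (uu_bound hp (prodwt_sum θ M) (τ ^ 2) Γ (sq_nonneg τ) (ind r) (ind_nonneg r) κ S
    hκb (fun k => by rw [hκ]; positivity) hsum hsm S le_rfl 0).2
  have g0 : 0 < 1 - Γ := by linarith
  have : 1 / (1 - Γ) ≤ 1 + 2 * Γ := by
    rw [div_le_iff₀ g0]
    nlinarith
  linarith

end Vale.Agent.P321
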