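import Vale.Agent.P321.SMaux
import Vale.Agent.P321.Dom
import Vale.Agent.P321.Smooth
import Vale.Agent.P321.Second
import Vale.Agent.P321.Walk

/-! # P321, module K: the second moment estimate averaged over the hidden walk -/

namespace Vale.Agent.P321

open Finset

namespace SMaux

theorem mass_list_prod (L : List Alg) : mass L.prod = (L.map mass).prod := by
  induction L with
  | nil => simp [mass_one]
  | cons x L ih => rw [List.prod_cons, mass_mul, ih, List.map_cons, List.prod_cons]

theorem nonneg_list_prod (L : List Alg) (h : ∀ F ∈ L, Nonneg F) : Nonneg L.prod := by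
  induction L with
  | nil => simpa using nonneg_one
  | cons x L ih =>
    rw [List.prod_cons]
    exact nonneg_mul (h x (by simp)) (ih fun F hF => h F (by simp [hF]))

theorem KK_nonneg {S M : ℕ} {X : Alg} (hX : Nonneg X) {κ : Fin S × Fin M → Alg}
    (hκ : ∀ l, Nonneg (κ l)) (k : ℕ) : Nonneg (KK X κ k) := by
  unfold KK
  apply nonneg_mul
  · split_ifs
    · exact nonneg_one
    · exact hX
  · split_ifs with hk
    · apply nonneg_list_prod
      intro F hF
      obtain ⟨i, _, rfl⟩ := List.mem_map.mp hF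
      exact hκ _
    · exact nonneg_one

theorem KK_mass_prod {S M : ℕ} {X : Alg} (hX : mass X = 1) (κ : Fin S × Fin M → Alg) :
    ∏ k ∈ range S, mass (KK X κ k) = ∏ l : Fin S × Fin M, mass (κ l) := by
  rw [Finset.prod_range, Fintype.prod_prod_type]
  refine Finset.prod_congr rfl fun k _ => ?_
  have h1 : mass (if (k : ℕ) = 0 then (1 : Alg) else X) = 1 := by
    split_ifs
    · exact mass_one
    · exact hX
  unfold KK
  rw [mass_mul, h1, one_mul, dif_pos k.2, mass_list_prod, List.map_map, Fin.prod_univ_def]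
  rfl

/-- averaged second moment estimate -/
theorem core {A ρ : Alg} (hA : Prob A) (r : ℕ) (hr : 1 ≤ r) {τ : ℝ} (hτ : 0 ≤ τ)
    (hρ : Bd τ (A ^ r) ρ) (hm : mass ρ = 0) (z S M : ℕ) (hM : 1 ≤ M) (hS : 1 ≤ S)
    {X Z : Alg} (hX : Prob X) {Y : Bool → Alg} {θ : ℝ} (hZ : Nonneg Z) (hY : ∀ b, Nonneg (Y b))
    (hθ : 1 / 2 ≤ θ) (hθ1 : θ ≤ 1) (hZm : mass Z = θ) (hYm : ∀ b, mass (Y b) = 1 - θ)
    (good : Finset (Fin S × Fin M → Bool)) (y : (Fin S × Fin M → Bool) → ℕ → ℕ)
    (hy : ∀ s k, y s k ≤ 2 * z) (hyp : ∀ s ∈ good, ∀ k < S, (y s k : ℤ) = z - pos s k)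
    (hΓ : τ ^ 2 * (3 * r * √((S : ℝ) / M)) ≤ 1 / 2) :
    nrm (∑ s ∈ good, (zprod (KK X (fun l => Z + Y (s l)))
          (fun k => A ^ (y s k) * (A ^ r + ρ) * A ^ (2 * z - y s k)) S
        - zprod (KK X (fun l => Z + Y (s l))) (fun _ => A ^ (2 * z + r)) S))
      ≤ 2 ^ (S * M) * √(2 * (τ ^ 2 * (3 * r * √((S : ℝ) / M)))) := by
  classical
  set n := Fintype.card (Fin S × Fin M) with hn
  have hnSM : n = S * M := by rw [hn, Fintype.card_prod, Fintype.card_fin, Fintype.card_fin]
  set KI : Finset (Fin S × Fin M) → (Fin S × Fin M → Bool) → ℕ → Alg :=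
    fun I s => KK X (fun l => if l ∈ I then Z else Y (s l)) with hKI
  set O : (Fin S × Fin M → Bool) → ℕ → Alg :=
    fun s k => A ^ (y s k) * (A ^ r + ρ) * A ^ (2 * z - y s k) with hO
  set O0 : ℕ → Alg := fun _ => A ^ (2 * z + r) with hO0
  set F : (Fin S × Fin M → Bool) → (Fin S × Fin M → Bool) → ℝ := fun s s' =>
    (1 + τ ^ 2) ^ ((range S).filter (fun k => |pos s k - pos s' k| < (r : ℤ))).card - 1 with hF
  set Gf : (Fin S × Fin M → Bool) → (Fin S × Fin M → Bool) → ℝ := fun s s' =>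
    (1 + τ ^ 2) ^ ((range S).filter
      (fun k => |(y s k : ℤ) - (y s' k : ℤ)| < (r : ℤ))).card - 1 with hGf
  set p : Finset (Fin S × Fin M) → (Fin S × Fin M → Bool) → (Fin S × Fin M → Bool) → ℝ :=
    fun I σ s => if s ∈ good ∧ ∀ l, l ∉ I → σ l = s l then 1 else 0 with hp
  set mI : Finset (Fin S × Fin M) → ℝ := fun I => θ ^ I.card * (1 - θ) ^ (n - I.card) with hmI
  have hp0 : ∀ I σ s, 0 ≤ p I σ s := by
    intro I σ s; simp only [hp]; split_ifs <;> norm_num
  have hmI0 : ∀ I, 0 ≤ mI I := by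
    intro I; simp only [hmI]
    have : 0 ≤ 1 - θ := by linarith
    positivity
  have hF0 : ∀ s s', 0 ≤ F s s' := by
    intro s s'
    simp only [hF]
    have : 1 ≤ (1 + τ ^ 2) ^ ((range S).filter (fun k => |pos s k - pos s' k| < (r : ℤ))).card :=
      one_le_pow₀ (by nlinarith [sq_nonneg τ])
    linarith
  set Q : Finset (Fin S × Fin M) → (Fin S × Fin M → Bool) → ℝ := fun I σ =>
    ∑ s, ∑ s', p I σ s * p I σ s' * Gf s s' with hQ
  -- step 1: expansion
  have h1 : ∀ s : Fin S × Fin M → Bool,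
      zprod (KK X (fun l => Z + Y (s l))) (O s) S - zprod (KK X (fun l => Z + Y (s l))) O0 S
      = ∑ I : Finset (Fin S × Fin M), (zprod (KI I s) (O s) S - zprod (KI I s) O0 S) := by
    intro s
    rw [expand_zprod X (fun _ => Z) (fun l => Y (s l)) (O s),
      expand_zprod X (fun _ => Z) (fun l => Y (s l)) O0, Finset.sum_sub_distrib]
  -- step 2: averaging over `σ`
  have h2 : ∀ I : Finset (Fin S × Fin M),
      ∑ s ∈ good, (zprod (KI I s) (O s) S - zprod (KI I s) O0 S)
      = ∑ σ : Fin S × Fin M → Bool, ((1 / 2 : ℝ) ^ I.card) •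
          ∑ s, p I σ s • (zprod (KI I σ) (O s) S - zprod (KI I σ) O0 S) := by
    intro I
    have h3 : ∀ σ s, p I σ s • (zprod (KI I σ) (O s) S - zprod (KI I σ) O0 S)
        = p I σ s • (zprod (KI I s) (O s) S - zprod (KI I s) O0 S) := by
      intro σ s
      by_cases h : s ∈ good ∧ ∀ l, l ∉ I → σ l = s l
      · have : KI I σ = KI I s := by
          simp only [hKI]
          congr 1
          funext l
          by_cases hl : l ∈ I
          · simp [hl]
          · simp [hl, h.2 l hl]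
        rw [this]
      · simp only [hp, if_neg h, zero_smul]
    have h3' : ∑ σ : Fin S × Fin M → Bool, ((1 / 2 : ℝ) ^ I.card) •
          ∑ s, p I σ s • (zprod (KI I σ) (O s) S - zprod (KI I σ) O0 S)
        = ∑ σ : Fin S × Fin M → Bool, ((1 / 2 : ℝ) ^ I.card) •
          ∑ s, p I σ s • (zprod (KI I s) (O s) S - zprod (KI I s) O0 S) :=
      Finset.sum_congr rfl fun σ _ => by rw [Finset.sum_congr rfl fun s _ => h3 σ s]
    rw [h3', ← Finset.smul_sum, Finset.sum_comm, Finset.smul_sum]
    rw [← Finset.sum_filter_add_sum_filter_not (Finset.univ : Finset (Fin S × Fin M → Bool))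
      (fun s => s ∈ good)]
    have hzero : ∑ s ∈ (Finset.univ : Finset (Fin S × Fin M → Bool)).filter (fun s => ¬ s ∈ good),
        ((1 / 2 : ℝ) ^ I.card) • ∑ σ, p I σ s • (zprod (KI I s) (O s) S - zprod (KI I s) O0 S)
        = 0 := by
      apply Finset.sum_eq_zero
      intro s hs
      have hs' : s ∉ good := (Finset.mem_filter.mp hs).2
      simp [hp, hs']
    rw [hzero, add_zero]
    have hfil : (Finset.univ : Finset (Fin S × Fin M → Bool)).filter (fun s => s ∈ good) = good := by
      ext s; simp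
    rw [hfil]
    refine Finset.sum_congr rfl fun s hs => ?_
    rw [← Finset.sum_smul, smul_smul]
    have : ∑ σ, p I σ s = 2 ^ I.card := by
      rw [← count_agree I s]
      refine Finset.sum_congr rfl fun σ _ => ?_
      simp [hp, hs]
    rw [this, ← mul_pow]
    norm_num
  -- step 3: second moment
  have h4 : ∀ I σ, nrm (∑ s, p I σ s • (zprod (KI I σ) (O s) S - zprod (KI I σ) O0 S))
      ≤ mI I * √(Q I σ) := by
    intro I σ
    have := second_moment hA r z S hτ hρ hm (KI I σ)
      (fun k => KK_nonneg hX.1 (fun l => by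
        by_cases hl : l ∈ I
        · simpa [hl] using hZ
        · simpa [hl] using hY _) k) (p I σ) (hp0 I σ) y hy
    refine this.trans (le_of_eq ?_)
    rw [KK_mass_prod hX.2]
    congr 1
    have hmm : ∀ l : Fin S × Fin M, mass (if l ∈ I then Z else Y (σ l))
        = if l ∈ I then θ else 1 - θ := by
      intro l; split_ifs
      · exact hZm
      · exact hYm _
    rw [Finset.prod_congr rfl fun l _ => hmm l, Finset.prod_ite]
    simp only [Finset.prod_const, hmI]
    congr 2
    · congr 1; ext l; simp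
    · rw [hn, ← Finset.card_univ, ← Finset.card_sdiff_of_subset (Finset.subset_univ I)]
      congr 1; ext l; simp
  -- step 4: triangle inequality
  have h5 : nrm (∑ s ∈ good, (zprod (KK X (fun l => Z + Y (s l))) (O s) S
        - zprod (KK X (fun l => Z + Y (s l))) O0 S))
      ≤ ∑ I : Finset (Fin S × Fin M), ∑ σ : Fin S × Fin M → Bool,
        √(mI I) * (√(mI I) * ((1 / 2 : ℝ) ^ I.card * √(Q I σ))) := by
    rw [Finset.sum_congr rfl fun s _ => h1 s, Finset.sum_comm, Finset.sum_congr rfl fun I _ => h2 I]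
    refine (nrm_sum_le _ _).trans (Finset.sum_le_sum fun I _ => ?_)
    refine (nrm_sum_le _ _).trans (Finset.sum_le_sum fun σ _ => ?_)
    rw [nrm_smul, abs_of_nonneg (by positivity)]
    have hsq : √(mI I) * (√(mI I) * ((1 / 2 : ℝ) ^ I.card * √(Q I σ)))
        = (1 / 2 : ℝ) ^ I.card * (mI I * √(Q I σ)) := by
      rw [← mul_assoc, Real.mul_self_sqrt (hmI0 I)]; ring
    rw [hsq]
    exact mul_le_mul_of_nonneg_left (h4 I σ) (by positivity)
  refine h5.trans ?_
  rw [← Fintype.sum_prod_type' (f := fun (I : Finset (Fin S × Fin M)) (σ : Fin S × Fin M → Bool) =>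
      √(mI I) * (√(mI I) * ((1 / 2 : ℝ) ^ I.card * √(Q I σ))))]
  refine (Real.sum_mul_le_sqrt_mul_sqrt _ _ _).trans ?_
  have h6 : ∑ x : Finset (Fin S × Fin M) × (Fin S × Fin M → Bool), √(mI x.1) ^ 2 = 2 ^ n := by
    rw [Fintype.sum_prod_type]
    have : ∀ I : Finset (Fin S × Fin M), ∑ σ : Fin S × Fin M → Bool, √(mI I) ^ 2
        = 2 ^ n * mI I := by
      intro I
      rw [Finset.sum_const, Real.sq_sqrt (hmI0 I), Finset.card_univ, Fintype.card_fun,
        Fintype.card_bool, nsmul_eq_mul]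
      push_cast
      rfl
    simp only [this]
    rw [← Finset.mul_sum]
    have hs := Fintype.sum_pow_mul_eq_add_pow (Fin S × Fin M) θ (1 - θ)
    simp only [hmI]
    rw [hs]
    simp
  have hQ0 : ∀ I σ, 0 ≤ Q I σ := by
    intro I σ
    apply Finset.sum_nonneg; intro s _; apply Finset.sum_nonneg; intro s' _
    apply mul_nonneg (mul_nonneg (hp0 _ _ _) (hp0 _ _ _))
    have : 1 ≤ (1 + τ ^ 2) ^ ((range S).filter
      (fun k => |(y s k : ℤ) - (y s' k : ℤ)| < (r : ℤ))).card :=
      one_le_pow₀ (by nlinarith [sq_nonneg τ])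
    simp only [hGf]
    linarith
  have h7 : ∑ x : Finset (Fin S × Fin M) × (Fin S × Fin M → Bool),
      (√(mI x.1) * ((1 / 2 : ℝ) ^ x.1.card * √(Q x.1 x.2))) ^ 2
      ≤ 2 ^ n * (2 * (τ ^ 2 * (3 * r * √((S : ℝ) / M)))) := by
    rw [Fintype.sum_prod_type]
    have h8 : ∀ I σ, (√(mI I) * ((1 / 2 : ℝ) ^ I.card * √(Q I σ))) ^ 2
        = mI I * ((1 / 2 : ℝ) ^ I.card * (1 / 2 : ℝ) ^ I.card) * Q I σ := by
      intro I σ
      rw [mul_pow, mul_pow, Real.sq_sqrt (hmI0 I), Real.sq_sqrt (hQ0 I σ)]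
      ring
    simp only [h8]
    have h9 : ∀ I : Finset (Fin S × Fin M), ∑ σ, Q I σ
        ≤ 2 ^ I.card * ∑ s : Fin S × Fin M → Bool, ∑ s' : Fin S × Fin M → Bool,
          (if ∀ l, l ∉ I → s l = s' l then F s s' else 0) := by
      intro I
      simp only [hQ]
      rw [Finset.sum_comm, Finset.mul_sum]
      refine Finset.sum_le_sum fun s _ => ?_
      rw [Finset.sum_comm, Finset.mul_sum]
      refine Finset.sum_le_sum fun s' _ => ?_
      rw [← count_agree I s, Finset.sum_mul]
      refine Finset.sum_le_sum fun σ _ => ?_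
      by_cases hs : s ∈ good ∧ ∀ l, l ∉ I → σ l = s l
      · by_cases hs' : s' ∈ good ∧ ∀ l, l ∉ I → σ l = s' l
        · have ha : ∀ l, l ∉ I → s l = s' l := fun l hl => (hs.2 l hl).symm.trans (hs'.2 l hl)
          simp only [hp, if_pos hs, if_pos hs', if_pos hs.2, if_pos ha, one_mul, hGf, hF]
          apply le_of_eq
          congr 3
          apply Finset.filter_congr
          intro k hk
          rw [hyp s hs.1 k (Finset.mem_range.mp hk), hyp s' hs'.1 k (Finset.mem_range.mp hk)]
          have : (z : ℤ) - pos s k - (z - pos s' k) = -(pos s k - pos s' k) := by ring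
          rw [this, abs_neg]
        · simp only [hp, if_neg hs', mul_zero, zero_mul]
          apply mul_nonneg
          · split_ifs <;> norm_num
          · split_ifs
            · exact hF0 _ _
            · exact le_rfl
      · simp only [hp, if_neg hs, zero_mul]
        apply mul_nonneg
        · split_ifs <;> norm_num
        · split_ifs
          · exact hF0 _ _
          · exact le_rfl
    have hwalk := walk_collision S M r hS hM hr θ τ hθ hθ1 hτ hΓ
    calc ∑ I : Finset (Fin S × Fin M), ∑ σ : Fin S × Fin M → Bool,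
          mI I * ((1 / 2 : ℝ) ^ I.card * (1 / 2 : ℝ) ^ I.card) * Q I σ
        = ∑ I : Finset (Fin S × Fin M),
          mI I * ((1 / 2 : ℝ) ^ I.card * (1 / 2 : ℝ) ^ I.card) * ∑ σ, Q I σ := by
          refine Finset.sum_congr rfl fun I _ => ?_
          rw [Finset.mul_sum]
      _ ≤ ∑ I : Finset (Fin S × Fin M),
          mI I * ((1 / 2 : ℝ) ^ I.card * (1 / 2 : ℝ) ^ I.card) *
            (2 ^ I.card * ∑ s : Fin S × Fin M → Bool, ∑ s' : Fin S × Fin M → Bool,
          (if ∀ l, l ∉ I → s l = s' l then F s s' else 0)) := by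
          refine Finset.sum_le_sum fun I _ => ?_
          exact mul_le_mul_of_nonneg_left (h9 I) (mul_nonneg (hmI0 I) (by positivity))
      _ = 2 ^ n * ∑ I : Finset (Fin S × Fin M), θ ^ I.card * (1 - θ) ^ (n - I.card) *
          ∑ s : Fin S × Fin M → Bool, ∑ s' : Fin S × Fin M → Bool,
          (if ∀ l, l ∉ I → s l = s' l then (1 / 2 : ℝ) ^ (n + I.card) * F s s' else 0) := by
          rw [Finset.mul_sum]
          refine Finset.sum_congr rfl fun I _ => ?_
          have h10 : ∀ s s' : Fin S × Fin M → Bool,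
              (if ∀ l, l ∉ I → s l = s' l then (1 / 2 : ℝ) ^ (n + I.card) * F s s' else 0)
              = (1 / 2 : ℝ) ^ (n + I.card) * (if ∀ l, l ∉ I → s l = s' l then F s s' else 0) := by
            intro s s'; split_ifs <;> simp
          simp only [h10, ← Finset.mul_sum]
          simp only [hmI]
          have e1 : (1 / 2 : ℝ) ^ I.card * 2 ^ I.card = 1 := by
            rw [← mul_pow]; norm_num
          have e2 : (2 : ℝ) ^ n * (1 / 2 : ℝ) ^ n = 1 := by
            rw [← mul_pow]; norm_num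
          set V := ∑ s : Fin S × Fin M → Bool, ∑ s' : Fin S × Fin M → Bool,
            (if ∀ l, l ∉ I → s l = s' l then F s s' else 0)
          calc θ ^ I.card * (1 - θ) ^ (n - I.card) * ((1 / 2 : ℝ) ^ I.card * (1 / 2) ^ I.card)
                * (2 ^ I.card * V)
              = θ ^ I.card * (1 - θ) ^ (n - I.card) * (1 / 2 : ℝ) ^ I.card *
                ((1 / 2 : ℝ) ^ I.card * 2 ^ I.card) * V := by ring
            _ = (2 ^ n * (1 / 2 : ℝ) ^ n) *
                (θ ^ I.card * (1 - θ) ^ (n - I.card) * (1 / 2 : ℝ) ^ I.card) * V := by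
                rw [e1, e2]; ring
            _ = _ := by rw [pow_add]; ring
      _ ≤ 2 ^ n * (2 * (τ ^ 2 * (3 * r * √((S : ℝ) / M)))) :=
          mul_le_mul_of_nonneg_left hwalk (by positivity)
  rw [h6]
  calc √((2 : ℝ) ^ n) * √(∑ x : Finset (Fin S × Fin M) × (Fin S × Fin M → Bool),
      (√(mI x.1) * ((1 / 2 : ℝ) ^ x.1.card * √(Q x.1 x.2))) ^ 2)
      ≤ √((2 : ℝ) ^ n) * √(2 ^ n * (2 * (τ ^ 2 * (3 * r * √((S : ℝ) / M))))) :=
        mul_le_mul_of_nonneg_left (Real.sqrt_le_sqrt h7) (Real.sqrt_nonneg _)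
    _ = 2 ^ (S * M) * √(2 * (τ ^ 2 * (3 * r * √((S : ℝ) / M)))) := by
        rw [Real.sqrt_mul (by positivity), ← mul_assoc, Real.mul_self_sqrt (by positivity), hnSM]

end SMaux

end Vale.Agent.P321
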