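import Vale.Agent.P321.Defs

namespace Vale.Agent.P321

open Finset

namespace Skel

/-! ### Module A (Basic.lean): the algebra -/
theorem nrm_nonneg (F : Alg) : 0 ≤ nrm F := sorry
theorem nrm_zero : nrm 0 = 0 := sorry
theorem nrm_one : nrm 1 = 1 := sorry
theorem nrm_neg (F : Alg) : nrm (-F) = nrm F := sorry
theorem nrm_add_le (F G : Alg) : nrm (F + G) ≤ nrm F + nrm G := sorry
theorem nrm_sub_le (F G : Alg) : nrm (F - G) ≤ nrm F + nrm G := sorry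
theorem nrm_smul (c : ℝ) (F : Alg) : nrm (c • F) = |c| * nrm F := sorry
theorem nrm_sum_le {ι : Type*} (s : Finset ι) (f : ι → Alg) :
    nrm (∑ i ∈ s, f i) ≤ ∑ i ∈ s, nrm (f i) := sorry
theorem nrm_mul_le (F G : Alg) : nrm (F * G) ≤ nrm F * nrm G := sorry
theorem mass_zero : mass 0 = 0 := sorry
theorem mass_one : mass 1 = 1 := sorry
theorem mass_add (F G : Alg) : mass (F + G) = mass F + mass G := sorry
theorem mass_sub (F G : Alg) : mass (F - G) = mass F - mass G := sorry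
theorem mass_smul (c : ℝ) (F : Alg) : mass (c • F) = c * mass F := sorry
theorem mass_sum {ι : Type*} (s : Finset ι) (f : ι → Alg) :
    mass (∑ i ∈ s, f i) = ∑ i ∈ s, mass (f i) := sorry
theorem mass_mul (F G : Alg) : mass (F * G) = mass F * mass G := sorry
theorem mass_pow (F : Alg) (n : ℕ) : mass (F ^ n) = mass F ^ n := sorry
theorem mass_single (w : Wd) (c : ℝ) : mass (MonoidAlgebra.single w c) = c := sorry
theorem abs_mass_le (F : Alg) : |mass F| ≤ nrm F := sorry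
theorem nrm_of_nonneg {F : Alg} (h : Nonneg F) : nrm F = mass F := sorry
theorem nrm_le_of_abs_le {F R : Alg} (h : ∀ z, |F.coeff z| ≤ R.coeff z) : nrm F ≤ mass R := sorry
theorem nonneg_zero : Nonneg 0 := sorry
theorem nonneg_one : Nonneg 1 := sorry
theorem nonneg_add {F G : Alg} (hF : Nonneg F) (hG : Nonneg G) : Nonneg (F + G) := sorry
theorem nonneg_mul {F G : Alg} (hF : Nonneg F) (hG : Nonneg G) : Nonneg (F * G) := sorry
theorem nonneg_pow {F : Alg} (hF : Nonneg F) (n : ℕ) : Nonneg (F ^ n) := sorry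
theorem nonneg_smul {F : Alg} {c : ℝ} (hc : 0 ≤ c) (hF : Nonneg F) : Nonneg (c • F) := sorry
theorem nonneg_sum {ι : Type*} (s : Finset ι) (f : ι → Alg) (h : ∀ i ∈ s, Nonneg (f i)) :
    Nonneg (∑ i ∈ s, f i) := sorry
theorem mass_nonneg {F : Alg} (hF : Nonneg F) : 0 ≤ mass F := sorry
theorem prob_one : Prob 1 := sorry
theorem prob_mul {F G : Alg} (hF : Prob F) (hG : Prob G) : Prob (F * G) := sorry
theorem prob_pow {F : Alg} (hF : Prob F) (n : ℕ) : Prob (F ^ n) := sorry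
theorem prob_nrm {F : Alg} (hF : Prob F) : nrm F = 1 := sorry
theorem contr_left {P : Alg} (hP : Prob P) (F : Alg) : nrm (P * F) ≤ nrm F := sorry
theorem contr_right {P : Alg} (hP : Prob P) (F : Alg) : nrm (F * P) ≤ nrm F := sorry
theorem absA_coeff (F : Alg) (z : Wd) : (absA F).coeff z = |F.coeff z| := sorry
theorem mass_absA (F : Alg) : mass (absA F) = nrm F := sorry
theorem abs_mul_le (F G : Alg) (z : Wd) :
    |(F * G).coeff z| ≤ (absA F * absA G).coeff z := sorry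
theorem le_mul {F F' G G' : Alg} (hF : Nonneg F) (hG' : Nonneg G') (h : Le F F') (h' : Le G G') :
    Le (F * G) (F' * G') := sorry
theorem mass_mono {F G : Alg} (h : Le F G) : mass F ≤ mass G := sorry
theorem minA_coeff (F G : Alg) (z : Wd) : (minA F G).coeff z = min (F.coeff z) (G.coeff z) := sorry
theorem mass_minA {F G : Alg} (hF : Prob F) (hG : Prob G) :
    mass (minA F G) = 1 - nrm (F - G) / 2 := sorry
theorem tr_prob {q : ℝ} (h0 : 0 ≤ q) (h1 : q ≤ 1) (w : Wd) : Prob (tr q w) := sorry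
theorem tr_mul (q : ℝ) (v w : Wd) : tr q (v * w) = tr q v * tr q w := sorry
theorem tr_pow (q : ℝ) (v : Wd) (n : ℕ) : tr q (v ^ n) = tr q v ^ n := sorry

/-! ### Module B (Dom.lean): calculus of domination -/
theorem dom_mono {t t' ξ ξ' : ℝ} {E F : Alg} (hE : Nonneg E) (h : Dom t ξ E F) (ht : t ≤ t')
    (hξ : ξ ≤ ξ') : Dom t' ξ' E F := sorry
theorem dom_of_nrm {ξ : ℝ} {E F : Alg} (h : nrm F ≤ ξ) : Dom 0 ξ E F := sorry
theorem dom_of_bd {t : ℝ} {E F : Alg} (h : Bd t E F) : Dom t 0 E F := sorry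
theorem dom_add {t t' ξ ξ' : ℝ} {E F F' : Alg} (h : Dom t ξ E F) (h' : Dom t' ξ' E F') :
    Dom (t + t') (ξ + ξ') E (F + F') := sorry
theorem dom_neg {t ξ : ℝ} {E F : Alg} (h : Dom t ξ E F) : Dom t ξ E (-F) := sorry
theorem dom_sub {t t' ξ ξ' : ℝ} {E F F' : Alg} (h : Dom t ξ E F) (h' : Dom t' ξ' E F') :
    Dom (t + t') (ξ + ξ') E (F - F') := sorry
theorem dom_smul {t ξ : ℝ} {E F : Alg} (c : ℝ) (h : Dom t ξ E F) :
    Dom (|c| * t) (|c| * ξ) E (c • F) := sorry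
theorem dom_sum {ι : Type*} (s : Finset ι) {t ξ : ι → ℝ} {E : Alg} {F : ι → Alg}
    (h : ∀ i ∈ s, Dom (t i) (ξ i) E (F i)) : Dom (∑ i ∈ s, t i) (∑ i ∈ s, ξ i) E (∑ i ∈ s, F i) :=
  sorry
theorem dom_left {t ξ : ℝ} {P E F : Alg} (hP : Prob P) (h : Dom t ξ E F) :
    Dom t ξ (P * E) (P * F) := sorry
theorem dom_right {t ξ : ℝ} {P E F : Alg} (hP : Prob P) (h : Dom t ξ E F) :
    Dom t ξ (E * P) (F * P) := sorry
theorem dom_mul {t t' ξ ξ' : ℝ} {E E' F F' : Alg} (hE : Prob E) (hE' : Prob E')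
    (ht : 0 ≤ t) (ht' : 0 ≤ t') (h : Dom t ξ E F) (h' : Dom t' ξ' E' F') :
    Dom (t * t') (t * ξ' + t' * ξ + ξ * ξ') (E * E') (F * F') := sorry
theorem bd_mul {t t' : ℝ} {E E' F F' : Alg} (hE : Nonneg E) (hE' : Nonneg E')
    (ht : 0 ≤ t) (ht' : 0 ≤ t') (h : Bd t E F) (h' : Bd t' E' F') :
    Bd (t * t') (E * E') (F * F') := sorry
theorem dom_trans {s ζ t ξ : ℝ} {E' E F : Alg} (ht : 0 ≤ t) (hEE : Dom s ζ E' E)
    (h : Dom t ξ E F) : Dom (t * s) (ξ + t * ζ) E' F := sorry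
theorem dom_nrm {t ξ : ℝ} {E F : Alg} (hE : Prob E) (h : Dom t ξ E F) : nrm F ≤ t + ξ := sorry
theorem dom_flip {ξ : ℝ} {E P : Alg} (hE : Nonneg E) (hP : Nonneg P)
    (h : Dom (1 / 2) ξ P (E - P)) : Dom 2 (2 * ξ) E P := sorry
theorem dom_clean {t ξ : ℝ} {A d : Alg} (hA : Prob A) (hm : mass d = 0) (ht : 0 ≤ t)
    (hξ : ξ ≤ t) (h : Dom t ξ A d) :
    ∃ d' : Alg, mass d' = 0 ∧ Bd (2 * t) A d' ∧ nrm (d - d') ≤ 2 * ξ := sorry

/-! ### Module C (Hoeff.lean): Hoeffding in the revealed product space.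
`A = law of a block`, `Ω = Fin M → support of A` with the product measure, `f = d / A` bounded by `t`
with mean zero; `mon A d M I` is the push-forward (concatenation) of `∏_{i∈I} f(ω_i) μ(ω)`. -/
theorem hoeff {A d : Alg} {t : ℝ} (hA : Prob A) (hd : Bd t A d) (hm : mass d = 0)
    (ht : 0 ≤ t) (ht1 : t ≤ 1) (M : ℕ) (V : Finset ℕ) (I : ℕ → Finset ℕ)
    (hI : ∀ v ∈ V, I v ⊆ range M)
    (hdis : ∀ v ∈ V, ∀ v' ∈ V, v ≠ v' → Disjoint (I v) (I v'))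
    (k : ℕ) (hk : 1 ≤ k) (hcard : ∀ v ∈ V, k ≤ (I v).card) (c : ℕ → ℝ) (Λ : ℝ) (hΛ : 0 < Λ) :
    Dom (Λ * t ^ k * √(∑ v ∈ V, c v ^ 2)) (2 * Real.exp (-Λ ^ 2 / 2) * ∑ v ∈ V, |c v|) (A ^ M)
      (∑ v ∈ V, c v • mon A d M (I v)) := sorry

/-- product perturbation -/
theorem prodpert {P ρ : Alg} {t : ℝ} (hP : Prob P) (hρ : Bd t P ρ) (hm : mass ρ = 0) (ht : 0 ≤ t)
    (m : ℕ) (Λ : ℝ) (hΛ : 1 ≤ Λ) (h : t * Λ * √(m : ℝ) ≤ 1 / 8) :
    Dom (4 * t * Λ * √(m : ℝ)) (8 * Real.exp (-Λ ^ 2 / 8)) (P ^ m) ((P + ρ) ^ m - P ^ m) := sorry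

/-! ### Module D (Smooth.lean) -/
theorem smooth_pow {A : Alg} {σ : ℝ} (hA : Prob A) (hs : Smooth σ A) (N : ℕ) (hN : 1 ≤ N) (k : ℕ) :
    nrm (A ^ N * (A ^ k - 1)) ≤ k * √(σ / N) := sorry
theorem smooth_comm {A : Alg} {σ : ℝ} (hA : Prob A) (hs : Smooth σ A) (G : ℕ) (hG : 1 ≤ G)
    (J : ℕ) (d : Alg) :
    nrm (A ^ (J * G) * comm A d J * A ^ (J * G)) ≤ (2 ^ J * √(σ / G)) ^ J * nrm d := sorry
/-- smoothing kernel. `w = -( (1-k)^J - 1 )`, `k = (1/N) ∑_{v=1}^N z^v` -/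
theorem kernel {A : Alg} {σ : ℝ} (hA : Prob A) (hs : Smooth σ A) (N G J : ℕ) (hN : 1 ≤ N)
    (hG : 1 ≤ G) :
    ∃ w : ℕ → ℝ, (∀ v, w v ≠ 0 → 1 ≤ v ∧ v ≤ N * J) ∧
      (∑ v ∈ range (N * J + 1), |w v| ≤ 2 ^ J) ∧
      (∑ v ∈ range (N * J + 1), w v ^ 2 ≤ 4 ^ J / N) ∧
      (∑ v ∈ range (N * J + 1), |w (v + 1) - w v| ≤ 2 ^ (J + 1) / N) ∧
      ∀ (M M' : ℕ) (X : Alg), J * G ≤ M → J * (N + G) ≤ M' →
        nrm (A ^ M * X * A ^ M' - ∑ v ∈ range (N * J + 1), w v • (A ^ (M + v) * X * A ^ (M' - v)))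
          ≤ (2 * N * √(σ / G)) ^ J * nrm X := sorry

/-! ### Module E (Expand.lean): expansion of the Thue-Morse words -/
theorem tm_expand (J : ℕ) : ∃ SA SB : Finset ℕ, SA ⊆ range (2 ^ J) ∧ SB ⊆ range (2 ^ J) ∧
    ∀ A d : Alg,
      (tm A (A + d) J).1 = ∑ I ∈ SA.powerset, mon A d (2 ^ J) I ∧
      (tm A (A + d) J).2 = ∑ I ∈ SB.powerset, mon A d (2 ^ J) I ∧
      (∑ i ∈ SB, mon A d (2 ^ J) {i}) - (∑ i ∈ SA, mon A d (2 ^ J) {i}) = comm A d J := sorry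
theorem mon_empty (A d : Alg) (M : ℕ) : mon A d M ∅ = A ^ M := sorry
theorem mon_bd {A d : Alg} {t : ℝ} (hA : Prob A) (hd : Bd t A d) (ht : 0 ≤ t) (M : ℕ)
    (I : Finset ℕ) (hI : I ⊆ range M) : Bd (t ^ I.card) (A ^ M) (mon A d M I) := sorry
theorem mon_mass {A d : Alg} (hA : Prob A) (hd : mass d = 0) (M : ℕ) (I : Finset ℕ)
    (hI : I ⊆ range M) (hne : I.Nonempty) : mass (mon A d M I) = 0 := sorry
/-- shifting / gluing monomials -/
theorem mon_glue (A d : Alg) (x y z M M' : ℕ) (I I' : Finset ℕ) (hI : I ⊆ range M)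
    (hI' : I' ⊆ range M') :
    A ^ x * mon A d M I * A ^ y * mon A d M' I' * A ^ z
      = mon A d (x + M + y + M' + z)
          (I.image (fun i => x + i) ∪ I'.image (fun i => x + M + y + i)) := sorry
theorem tm_prob {A B : Alg} (hA : Prob A) (hB : Prob B) (J : ℕ) :
    Prob (tm A B J).1 ∧ Prob (tm A B J).2 := sorry
theorem step_prob {A B : Alg} (hA : Prob A) (hB : Prob B) (J G : ℕ) :
    Prob (stepA J G A B) ∧ Prob (stepB J G A B) := sorry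
/-- changing the letter `B` -/
theorem tm_pert {A B B' : Alg} {e : ℝ} (hA : Prob A) (hB : Prob B) (hB' : Prob B')
    (h : nrm (B - B') ≤ e) (J : ℕ) :
    nrm ((tm A B J).1 - (tm A B' J).1) ≤ 2 ^ J * e ∧
    nrm ((tm A B J).2 - (tm A B' J).2) ≤ 2 ^ J * e := sorry
/-- `tmA - A^r` is small and has mass zero -/
theorem tm_bd {A d : Alg} {t : ℝ} (hA : Prob A) (hd : Bd t A d) (hm : mass d = 0) (ht : 0 ≤ t)
    (ht1 : t ≤ 1) (J : ℕ) :
    Bd (2 ^ (2 ^ J) * t) (A ^ (2 ^ J)) ((tm A (A + d) J).1 - A ^ (2 ^ J)) ∧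
    mass ((tm A (A + d) J).1 - A ^ (2 ^ J)) = 0 := sorry

/-! ### Module F (Overlap.lean): overlap implies smoothness -/
theorem overlap_smooth {A Z : Alg} (hA : Prob A) (s : ℕ) (c : ℝ) (hc : 0 < c)
    (hZ : Nonneg Z) (h0 : Le Z (A ^ s)) (h1 : Le Z (A ^ (s + 1))) (hm : c ≤ mass Z) :
    Smooth (200 * (s + 1) / c) A := sorry
/-- a product of pairs of laws at distance `≤ 1` has overlap `2^{-T}` -/
theorem overlap_chain (T : ℕ) (X Y : ℕ → Alg) (hX : ∀ i, Prob (X i)) (hY : ∀ i, Prob (Y i))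
    (h : ∀ i < T, nrm (X i - Y i) ≤ 1) :
    ∃ Z : Alg, Nonneg Z ∧ Le Z ((List.range T).map X).prod ∧ Le Z ((List.range T).map Y).prod ∧
      (1 / 2 : ℝ) ^ T ≤ mass Z := sorry

/-! ### Module G (Dyadic.lean) -/
theorem dyadic {a P : Alg} (ha : Prob a) (hP : Prob P) (S : ℕ) (hS : 1 ≤ S) (ω : ℕ → ℝ)
    (h : ∀ S', 1 ≤ S' → S' ≤ S → nrm ((a ^ S' - P ^ S') * P ^ S') ≤ ω S') :
    nrm (a ^ S - P ^ S) ≤ (∑ j ∈ range (Nat.log 2 S), ω (S / 2 ^ (j + 1)))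
      + (Nat.log 2 S + 1) * nrm (a - P) := sorry

/-! ### Module H (Second.lean): second moment in the revealed space -/
theorem second_moment {A ρ : Alg} (hA : Prob A) (r z S : ℕ) {τ : ℝ} (hτ : 0 ≤ τ)
    (hρ : Bd τ (A ^ r) ρ) (hm : mass ρ = 0) (K : ℕ → Alg) (hK : ∀ k, Nonneg (K k))
    {ι : Type} [Fintype ι] (p : ι → ℝ) (hp : ∀ j, 0 ≤ p j) (y : ι → ℕ → ℕ)
    (hy : ∀ j k, y j k ≤ 2 * z) :
    nrm (∑ j, p j • (zprod K (fun k => A ^ (y j k) * (A ^ r + ρ) * A ^ (2 * z - y j k)) S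
        - zprod K (fun _ => A ^ (2 * z + r)) S))
      ≤ (∏ k ∈ range S, mass (K k)) *
        √(∑ j, ∑ j', p j * p j' *
          ((1 + τ ^ 2) ^ ((range S).filter
            (fun k => |(y j k : ℤ) - (y j' k : ℤ)| < (r : ℤ))).card - 1)) := sorry

/-! ### Module I (Walk.lean): collisions of the hidden walk.
`T = Fin S × Fin M`; `s, s'` are sign patterns agreeing outside `I`. -/
theorem walk_collision (S M r : ℕ) (hS : 1 ≤ S) (hM : 1 ≤ M) (hr : 1 ≤ r) (θ τ : ℝ)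
    (hθ : 1 / 2 ≤ θ) (hθ1 : θ ≤ 1) (hτ : 0 ≤ τ)
    (hsm : τ ^ 2 * (3 * r * √((S : ℝ) / M)) ≤ 1 / 2) :
    ∑ I : Finset (Fin S × Fin M), θ ^ I.card * (1 - θ) ^ (Fintype.card (Fin S × Fin M) - I.card) *
      ∑ s : Fin S × Fin M → Bool, ∑ s' : Fin S × Fin M → Bool,
        (if ∀ l, l ∉ I → s l = s' l then
          (1 / 2 : ℝ) ^ (Fintype.card (Fin S × Fin M) + I.card) *
          ((1 + τ ^ 2) ^ ((range S).filter (fun k => |pos s k - pos s' k| < (r : ℤ))).card - 1)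
        else 0)
      ≤ 2 * (τ ^ 2 * (3 * r * √((S : ℝ) / M))) := sorry

/-! ### Module K (SM.lean): assembly of the second moment lemma -/
theorem SM {A ρ : Alg} {σ τ : ℝ} (hA : Prob A) (hs : Smooth σ A) (hσ : 0 ≤ σ) (r : ℕ)
    (hr : 1 ≤ r) (hτ : 0 ≤ τ)
    (hρ : Bd τ (A ^ r) ρ) (hW : Prob (A ^ r + ρ)) (h M z G S : ℕ) (hG : G = M * h + z)
    (hh : 4 * σ + 1 ≤ h) (h2 : 2 ≤ h) (hM : 1 ≤ M) (hz : 1 ≤ z) (hS : 1 ≤ S)
    (htail : (S : ℝ) * (2 * Real.exp (-(z : ℝ) ^ 2 / (2 * (S * M)))) ≤ 1 / 2)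
    (hΓ : τ ^ 2 * (3 * r * √((S : ℝ) / M)) ≤ 1 / 2) :
    nrm (((A ^ G * (A ^ r + ρ) * A ^ G) ^ S - (A ^ (2 * G + r)) ^ S) * (A ^ (2 * G + r)) ^ S)
      ≤ 2 * √(2 * (τ ^ 2 * (3 * r * √((S : ℝ) / M)))) + 4 * √(σ / h) := sorry

end Skel

end Vale.Agent.P321
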