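import Vale.Agent.P321.Skel

namespace Vale.Agent.P321

open Finset

namespace Skel

/-! ### addition to Module C: general form of `hoeff` (needed with `t > 1`, singletons) -/
theorem hoeff_gen {A d : Alg} {t b : ℝ} (hA : Prob A) (hd : Bd t A d) (hm : mass d = 0)
    (ht : 0 ≤ t) (hb : 0 ≤ b) (M : ℕ) (V : Finset ℕ) (I : ℕ → Finset ℕ)
    (hI : ∀ v ∈ V, I v ⊆ range M)
    (hdis : ∀ v ∈ V, ∀ v' ∈ V, v ≠ v' → Disjoint (I v) (I v'))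
    (hne : ∀ v ∈ V, (I v).Nonempty) (hcard : ∀ v ∈ V, t ^ (I v).card ≤ b)
    (c : ℕ → ℝ) (Λ : ℝ) (hΛ : 0 < Λ) :
    Dom (Λ * b * √(∑ v ∈ V, c v ^ 2)) (2 * Real.exp (-Λ ^ 2 / 2) * (b * ∑ v ∈ V, |c v|)) (A ^ M)
      (∑ v ∈ V, c v • mon A d M (I v)) := sorry

/-! ### Module L (SmoothStep.lean) -/
/-- Clean `d = B - A` by `dom_clean` (`d'`, `|d'| ≤ 2tA`), `ρ = tmA(A, A+d') - A^r` (`tm_bd`),
`SM` with `M = 1`, `h = G/2`, `z = G - G/2`, `dyadic`, for exponents `S` and `S+1`; then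
`‖a^(S+1) - a^S‖ ≤ 1/8+1/8+1/8`, `overlap_smooth` with `Z = minA`, `c = 1/2`. -/
theorem smooth_step {A B : Alg} {σ t ξ : ℝ} (hA : Prob A) (hB : Prob B) (hs : Smooth σ A)
    (hσ : 1 ≤ σ) (hD : Dom t ξ A (B - A)) (ht : 0 < t) (hξ : ξ ≤ t) (J G S : ℕ)
    (hG : 8 * σ + 4 ≤ G) (hS : 64 * σ * ulen J G ≤ S)
    (htail : ((S : ℝ) + 1) * (2 * Real.exp (-((G : ℝ) / 2) ^ 2 / (2 * (S + 1)))) ≤ 1 / 2)
    (hΓ : (2 ^ (2 ^ J) * (2 * t)) ^ 2 * (3 * 2 ^ J * √((S : ℝ) + 1)) ≤ 1 / 2)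
    (herr : (Nat.log 2 (S + 1) + 1) *
        (2 * √(2 * ((2 ^ (2 ^ J) * (2 * t)) ^ 2 * (3 * 2 ^ J * √((S : ℝ) + 1))))
          + 4 * √(σ / (G / 2 : ℕ)) + 2 ^ (2 ^ J) * (2 * t))
        + ((S : ℝ) + 1) * 2 ^ (J + 1) * ξ ≤ 1 / 8) :
    Smooth (400 * (S + 1)) (stepA J G A B) := sorry

/-! ### Module M (CrudeStep.lean) -/
/-- `B' = A + d'`; `tmB - tmA = comm + ∑_{|I| ≥ 2} ± mon I` (`tm_expand`), `smooth_comm`. -/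
theorem crude_step {A B : Alg} {σ t ξ : ℝ} (hA : Prob A) (hB : Prob B) (hs : Smooth σ A)
    (hD : Dom t ξ A (B - A)) (ht : 0 ≤ t) (hξ : ξ ≤ t) (J G G1 : ℕ) (ht1 : 2 * t ≤ 1)
    (hG1 : 1 ≤ G1) (hJG : J * G1 ≤ G) :
    Dom (2 ^ (2 ^ J + 3) * t ^ 2) (2 * (2 ^ J * √(σ / G1)) ^ J + 2 ^ (J + 2) * ξ)
      (A ^ ulen J G) (stepB J G A B - stepA J G A B) := sorry
theorem ref_step {A B : Alg} {t ξ : ℝ} (hA : Prob A) (hB : Prob B)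
    (hD : Dom t ξ A (B - A)) (ht : 0 ≤ t) (hξ : ξ ≤ t) (J G : ℕ)
    (ht1 : 2 ^ (2 ^ J) * (2 * t) ≤ 1 / 2) :
    Dom 2 (2 ^ (J + 2) * ξ) (stepA J G A B) (A ^ ulen J G) := sorry

/-! ### Module N (Quad.lean) -/
/-- `kernel` with `X = mon I * A^H * mon I'`, `M' = M`; `mon_glue`; colour `v` modulo `r`;
`hoeff` with `k = 4` in every class. -/
theorem quad {A d : Alg} {σ t : ℝ} (hA : Prob A) (hs : Smooth σ A) (hd : Bd t A d)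
    (hm : mass d = 0) (ht : 0 ≤ t) (ht1 : t ≤ 1) (r N G0 J M H : ℕ) (hr : 1 ≤ r) (hN : 1 ≤ N)
    (hG0 : 1 ≤ G0) (hNH : N * J ≤ H) (hM : J * (N + G0) ≤ M) (I I' : Finset ℕ)
    (hI : I ⊆ range r) (hI' : I' ⊆ range r) (hc : 2 ≤ I.card) (hc' : 2 ≤ I'.card)
    (Λ : ℝ) (hΛ : 0 < Λ) :
    Dom (r * 2 ^ J * Λ * t ^ 4 / √(N : ℝ))
      (2 * r * 2 ^ J * Real.exp (-Λ ^ 2 / 2) + (2 * N * √(σ / G0)) ^ J)
      (A ^ (M + r + H + r + M)) (A ^ M * mon A d r I * A ^ H * mon A d r I' * A ^ M) := sorry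

/-! ### Module O (FineStep.lean) -/
theorem fine_step {A B : Alg} {σ σ' t ξ Λ : ℝ} (hA : Prob A) (hB : Prob B) (hs : Smooth σ A)
    (hD : Dom t ξ A (B - A)) (ht : 0 < t) (hξ : ξ ≤ t) (hξ0 : 0 ≤ ξ)
    (J G g m N G0 G1 G2 : ℕ) (hJ : 1 ≤ J)
    (hs' : Smooth σ' (stepA J G A B)) (hΛ : 1 ≤ Λ) (hN : 1 ≤ N) (hm1 : 1 ≤ m) (hG0 : 1 ≤ G0)
    (hG1 : 1 ≤ G1) (hG2 : 1 ≤ G2)
    (hNG : N * J ≤ 2 * G) (hM : J * (N + G0) ≤ ulen J G * m) (hJG1 : J * G1 ≤ G)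
    (hJG2 : J * G2 ≤ g) (hmg : m ≤ g)
    (hsm : 2 ^ (2 ^ J + 1) * t * Λ * √(2 * (m : ℝ) + 2 ^ J + 2) ≤ 1 / 8)
    (hsm2 : 2 ^ (2 * 2 ^ J + 5) * t ^ 2 ≤ 1) :
    Dom (2 ^ (20 * 2 ^ J) * (t ^ 4 * Λ / √(N : ℝ) + t ^ 5 * Λ * √(m : ℝ)))
      (2 ^ (20 * 2 ^ J) * ((g + 1) * ξ + Real.exp (-Λ ^ 2 / 8) + (2 * N * √(σ / G0)) ^ J
        + (2 ^ J * √(σ / G1)) ^ J + (2 ^ J * √(σ' / G2)) ^ J))
      (stepA J g (stepA J G A B) (stepB J G A B))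
      (stepB J g (stepA J G A B) (stepB J G A B) - stepA J g (stepA J G A B) (stepB J G A B)) :=
  sorry

/-! ### Module P (Base.lean) -/
theorem base_smoothU {q : ℝ} (h0 : 0 < q) (h1 : q < 1) : Smooth (200 / q ^ 2) (tr q wU) := sorry
theorem base_bd {q : ℝ} (h0 : 0 < q) (h1 : q < 1) : Bd (1 / q) (tr q wU) (tr q wV - tr q wU) :=
  sorry
theorem base_dom {q : ℝ} (h0 : 0 < q) (h1 : q < 1) (ε : ℝ) (hε : 0 < ε) (c : ℝ) :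
    ∀ᶠ g : ℕ in Filter.atTop, Dom ((g : ℝ) ^ (-(3 / 4 : ℝ) + ε)) ((g : ℝ) ^ (-c))
      (tr q wU ^ g * tr q wV * tr q wU ^ g)
      (tr q wU ^ (g + 1) * tr q wV * tr q wU ^ (g - 1) - tr q wU ^ g * tr q wV * tr q wU ^ g) :=
  sorry
/-- one defect with margins `p`: `kernel` with `J = 1`, `second_moment` with `S = 1`, `r = 1` -/
theorem base_single {q : ℝ} (h0 : 0 < q) (h1 : q < 1) : ∃ C : ℝ, 0 < C ∧ ∀ p : ℕ, 1 ≤ p →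
    nrm (tr q wU ^ p * (tr q wV - tr q wU) * tr q wU ^ p) ≤ C * (p : ℝ) ^ (-(1 / 6 : ℝ)) := sorry

/-! ### Module Q (Array.lean) -/
/-- the array of defects at spacing `2g+1` is close to the pure background up to `g / (C log g)`
periods -/
theorem base_array_close {q : ℝ} (h0 : 0 < q) (h1 : q < 1) : ∃ C : ℝ, 1 ≤ C ∧
    ∀ᶠ g : ℕ in Filter.atTop, ∀ S : ℕ, 1 ≤ S → (S : ℝ) ≤ g / (C * Real.log g) →
      nrm ((tr q wU ^ g * tr q wV * tr q wU ^ g) ^ S - (tr q wU ^ (2 * g + 1)) ^ S) ≤ 1 / 8 :=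
  sorry
theorem base_chain {A V : Alg} {σ : ℝ} (hA : Prob A) (hV : Prob V) (hs : Smooth σ A)
    (G Sc T' κ p : ℕ) (hG : G = T' * κ + p) (hSc : 3 ≤ Sc)
    (h1 : ∀ S', Sc - 2 ≤ S' → S' ≤ Sc →
      nrm ((A ^ G * V * A ^ G) ^ S' - (A ^ (2 * G + 1)) ^ S') ≤ 1 / 8)
    (h2 : nrm (A ^ p * (V - A) * A ^ p) ≤ 1 / 16)
    (h3 : (2 * p + 1 + κ) * √(σ / ((2 * G + 1 : ℕ) * (Sc - 2 : ℕ) : ℝ)) ≤ 1 / 8) :
    ∃ Z : Alg, Nonneg Z ∧ Le Z ((A ^ G * V * A ^ G) ^ ((2 * T' + 1) * Sc)) ∧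
      Le Z ((A ^ G * V * A ^ G) ^ ((2 * T' + 1) * Sc + 1)) ∧
      (1 / 2 : ℝ) ^ (2 * T' + 1) ≤ mass Z := sorry
theorem base_array {q : ℝ} (h0 : 0 < q) (h1 : q < 1) (ε : ℝ) (hε : 0 < ε) :
    ∀ᶠ g : ℕ in Filter.atTop, Smooth ((g : ℝ) ^ (1 + ε)) (tr q wU ^ g * tr q wV * tr q wU ^ g) :=
  sorry

/-! ### Module R (Words.lean) -/
theorem tr_step (q : ℝ) (J G : ℕ) (v w : Wd) :
    tr q (stepA J G v w) = stepA J G (tr q v) (tr q w) ∧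
    tr q (stepB J G v w) = stepB J G (tr q v) (tr q w) := sorry
theorem step_length (J G : ℕ) (v w : Wd) (h : v.length = w.length) :
    (stepA J G v w).length = ulen J G * v.length ∧
    (stepB J G v w).length = ulen J G * v.length := sorry
theorem step_ne (J G : ℕ) (v w : Wd) (h : v.length = w.length) (hne : v ≠ w) :
    stepA J G v w ≠ stepB J G v w := sorry
theorem base_sys {q : ℝ} (h0 : 0 < q) (h1 : q < 1) : SysC q 1 (3 / 4) 1 := sorry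

/-! ### Module S (Super.lean): asymptotic assembly -/
theorem super_step {q x y l : ℝ} (h0 : 0 < q) (h1 : q < 1) (hx : 0 < x) (hxy : x < 2 * y)
    (hl : 0 ≤ l) (H : SysC q x y l) : SysC q (4 * x) (4 * y + x / 6) (l + 3 * x) := sorry

/-! ### Module T (Final.lean) -/
theorem all_sys {q : ℝ} (h0 : 0 < q) (h1 : q < 1) (k : ℕ) :
    SysC q (4 ^ k) (4 ^ k * (3 / 4 + k / 24)) (4 ^ k) := sorry
theorem close_words {q : ℝ} (h0 : 0 < q) (h1 : q < 1) (a : ℝ) :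
    ∀ᶠ n : ℕ in Filter.atTop, ∃ x y : Fin n → Bool, x ≠ y ∧
      nrm (tr q (FreeMonoid.ofList (List.ofFn x)) - tr q (FreeMonoid.ofList (List.ofFn y)))
        ≤ (n : ℝ) ^ (-a) := sorry
theorem reconstruct_tv {q : ℝ} (h0 : 0 < q) (h1 : q < 1) {n m : ℕ} (x y : Fin n → Bool)
    (hxy : x ≠ y) (h : Reconstructs q n m) :
    1 / 3 ≤ m * nrm (tr q (FreeMonoid.ofList (List.ofFn x))
      - tr q (FreeMonoid.ofList (List.ofFn y))) := sorry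
theorem main {q : ℝ} (h0 : 0 < q) (h1 : q < 1) (a : ℝ) :
    ∀ᶠ n : ℕ in Filter.atTop, ∀ m : ℕ, (m : ℝ) ≤ (n : ℝ) ^ a → ¬ Reconstructs q n m := sorry

end Skel

end Vale.Agent.P321
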