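import Vale.Agent.P321.RDefs

/-! # P321, explicit rate: skeleton (statements only) -/

namespace Vale.Agent.P321

open Finset

namespace Skel3

/-! ### R1 (RBounds.lean) -/
theorem sum_pow_card (k r : ℕ) (hk : 1 ≤ k) (s : ℝ) (hs : 0 ≤ s) (hrs : r * s ≤ 1) :
    ∑ I ∈ (range r).powerset.filter (fun I => k ≤ I.card), s ^ I.card ≤ 2 * (r * s) ^ k := sorry
theorem bd_big {A d : Alg} {s : ℝ} (hA : Prob A) (hd : Bd s A d) (hs : 0 ≤ s) (k r : ℕ)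
    (hk : 1 ≤ k) (hrs : r * s ≤ 1) (c : Finset ℕ → ℝ) (hc : ∀ I, |c I| ≤ 1) :
    Bd (2 * (r * s) ^ k) (A ^ r)
      (∑ I ∈ (range r).powerset.filter (fun I => k ≤ I.card), c I • mon A d r I) := sorry
theorem tm_bd_r {A d : Alg} {t : ℝ} (hA : Prob A) (hd : Bd t A d) (hm : mass d = 0) (ht : 0 ≤ t)
    (J : ℕ) (ht1 : 2 ^ J * t ≤ 1) :
    Bd (2 * (2 ^ J * t)) (A ^ (2 ^ J)) ((tm A (A + d) J).1 - A ^ (2 ^ J)) ∧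
    mass ((tm A (A + d) J).1 - A ^ (2 ^ J)) = 0 := sorry

/-! ### R2 (RCrude.lean) -/
theorem crude_step_r {A B : Alg} {σ t ξ : ℝ} (hA : Prob A) (hB : Prob B) (hs : Smooth σ A)
    (hD : Dom t ξ A (B - A)) (ht : 0 ≤ t) (hξ : ξ ≤ t) (J G G1 : ℕ) (ht1 : 2 ^ (J + 1) * t ≤ 1)
    (hG1 : 1 ≤ G1) (hJG : J * G1 ≤ G) :
    Dom (2 ^ (2 * J + 6) * t ^ 2) (2 * (2 ^ J * √(σ / G1)) ^ J + 2 ^ (J + 2) * ξ)
      (A ^ ulen J G) (stepB J G A B - stepA J G A B) := sorry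
theorem ref_step_r {A B : Alg} {t ξ : ℝ} (hA : Prob A) (hB : Prob B)
    (hD : Dom t ξ A (B - A)) (ht : 0 ≤ t) (hξ : ξ ≤ t) (J G : ℕ)
    (ht1 : 2 ^ (J + 3) * t ≤ 1) :
    Dom 2 (2 ^ (J + 2) * ξ) (stepA J G A B) (A ^ ulen J G) := sorry

/-! ### R3 (RSmooth.lean) -/
theorem smooth_step_r {A B : Alg} {σ t ξ : ℝ} (hA : Prob A) (hB : Prob B) (hs : Smooth σ A)
    (hσ : 1 ≤ σ) (hD : Dom t ξ A (B - A)) (ht : 0 < t) (hξ : ξ ≤ t) (J G S : ℕ)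
    (hG : 8 * σ + 4 ≤ G) (hS : 64 * σ * ulen J G ≤ S)
    (htail : ((S : ℝ) + 1) * (2 * Real.exp (-((G : ℝ) / 2) ^ 2 / (2 * (S + 1)))) ≤ 1 / 2)
    (hΓ : (2 ^ (J + 2) * t) ^ 2 * (3 * 2 ^ J * √((S : ℝ) + 1)) ≤ 1 / 2)
    (herr : (Nat.log 2 (S + 1) + 1) *
        (2 * √(2 * ((2 ^ (J + 2) * t) ^ 2 * (3 * 2 ^ J * √((S : ℝ) + 1))))
          + 4 * √(σ / (G / 2 : ℕ)) + 2 ^ (J + 2) * t)
        + ((S : ℝ) + 1) * 2 ^ (J + 1) * ξ ≤ 1 / 8) :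
    Smooth (400 * (S + 1)) (stepA J G A B) := sorry

/-! ### R4 (RFine.lean) -/
theorem fine_step_r {A B : Alg} {σ σ' t ξ Λ : ℝ} (hA : Prob A) (hB : Prob B) (hs : Smooth σ A)
    (hD : Dom t ξ A (B - A)) (ht : 0 < t) (hξ : ξ ≤ t) (hξ0 : 0 ≤ ξ)
    (J G g m N G0 G1 G2 : ℕ) (hJ : 1 ≤ J)
    (hs' : Smooth σ' (stepA J G A B)) (hΛ : 1 ≤ Λ) (hN : 1 ≤ N) (hm1 : 1 ≤ m) (hG0 : 1 ≤ G0)
    (hG1 : 1 ≤ G1) (hG2 : 1 ≤ G2)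
    (hNG : N * J ≤ 2 * G) (hM : J * (N + G0) ≤ ulen J G * m) (hJG1 : J * G1 ≤ G)
    (hJG2 : J * G2 ≤ g) (hmg : m ≤ g)
    (hsm : 2 ^ (3 * J + 4) * t * Λ * √(2 * (m : ℝ) + 2 ^ J + 2) ≤ 1 / 8)
    (hsm2 : 2 ^ (6 * J + 11) * t ^ 2 ≤ 1) :
    Dom (2 ^ (100 * (J + 1)) * (t ^ 4 * Λ / √(N : ℝ) + t ^ 5 * Λ * √(m : ℝ)))
      (2 ^ (100 * (J + 1)) * ((g + 1) * ξ + Real.exp (-Λ ^ 2 / 8) + (2 * N * √(σ / G0)) ^ J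
        + (2 ^ J * √(σ / G1)) ^ J + (2 ^ J * √(σ' / G2)) ^ J))
      (stepA J g (stepA J G A B) (stepB J G A B))
      (stepB J g (stepA J G A B) (stepB J G A B) - stepA J g (stepA J G A B) (stepB J G A B)) :=
  sorry

/-! ### R5 (RSuper.lean): one uniform super step (design of helper4) -/
theorem super_step_n {q : ℝ} (h0 : 0 < q) (h1 : q < 1) (n : ℕ) (x y l c η : ℝ) (J : ℕ)
    (hη : 0 < η) (hxη : 100 * η ≤ x) (hxy : x + 100 * η ≤ 2 * y) (hl : 0 ≤ l) (hJ : 1 ≤ J)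
    (hX : (2 : ℝ) ^ (200 * (J + 1)) ≤ (n : ℝ) ^ (η / 2))
    (hlog : 1000 * (x + y + c + 1) * (Real.log n + 1) ≤ (n : ℝ) ^ (η / 2))
    (hηJ : 4 * (c + 1) ≤ η * J) (hc : 20 * x + 20 + y ≤ c) (H : SysN q n x y l c) :
    SysN q n (4 * x + 20 * η) (4 * y + x / 6 - 20 * η) (l + 3 * x + 20 * η) (c - 20 * x - 20) :=
  sorry

/-! ### R6 (RBase.lean) -/
theorem base_dom_n {q : ℝ} (h0 : 0 < q) (h1 : q < 1) (ε : ℝ) (hε : 0 < ε) : ∃ c : ℝ, 0 < c ∧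
    ∀ᶠ g : ℕ in Filter.atTop, Dom ((g : ℝ) ^ (-(3 / 4 : ℝ) + ε))
      (Real.exp (-c * (Real.log g) ^ 2))
      (tr q wU ^ g * tr q wV * tr q wU ^ g)
      (tr q wU ^ (g + 1) * tr q wV * tr q wU ^ (g - 1) - tr q wU ^ g * tr q wV * tr q wU ^ g) :=
  sorry
theorem base_sys_n {q : ℝ} (h0 : 0 < q) (h1 : q < 1) : ∃ c : ℝ, 0 < c ∧
    ∀ᶠ n : ℕ in Filter.atTop,
      SysN q n (101 / 100) (74 / 100) (11 / 10) (c * Real.log n) := sorry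

/-! ### R7 (RIter.lean) -/
/-- induction on `k` with a fixed small `η`, `J = ⌊κ₁ log n⌋`:
`x_k ≤ 4^k (x_0 + 7η)`, `y_k ≥ 4^k (1/2 + k/24)`, `l_k ≤ 3 * 4^k`, `c_k ≥ c_* log n - 30 * 4^k`. -/
theorem iter_n {q : ℝ} (h0 : 0 < q) (h1 : q < 1) : ∃ C : ℝ, 1 ≤ C ∧
    ∀ᶠ n : ℕ in Filter.atTop, ∀ k : ℕ, C * ((k + 1) * 4 ^ k) ≤ Real.log n →
      ∃ wA wB : Wd, wA.length = wB.length ∧ wA ≠ wB ∧
        (wA.length : ℝ) ≤ (n : ℝ) ^ (3 * 4 ^ k : ℝ) ∧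
        nrm (tr q wB - tr q wA) ≤ (n : ℝ) ^ (-(4 ^ k * (k / 24) : ℝ)) := sorry

/-! ### R8 (RFinal.lean) -/
theorem close_words_r {q : ℝ} (h0 : 0 < q) (h1 : q < 1) : ∃ c : ℝ, 0 < c ∧
    ∀ᶠ n : ℕ in Filter.atTop, ∃ x y : Fin n → Bool, x ≠ y ∧
      nrm (tr q (FreeMonoid.ofList (List.ofFn x)) - tr q (FreeMonoid.ofList (List.ofFn y)))
        ≤ (n : ℝ) ^ (-(c * Real.log (Real.log n))) := sorry
theorem main_rate {q : ℝ} (h0 : 0 < q) (h1 : q < 1) : ∃ c : ℝ, 0 < c ∧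
    ∀ᶠ n : ℕ in Filter.atTop, ∀ m : ℕ, (m : ℝ) ≤ (n : ℝ) ^ (c * Real.log (Real.log n)) →
      ¬ Reconstructs q n m := sorry

end Skel3

end Vale.Agent.P321
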