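import Vale.Agent.P321.SuperB

/-! Asymptotic assembly of two window steps. -/

namespace Vale.Agent.P321

open Filter

theorem fine_err {n : ℕ} (hn1 : (1 : ℝ) ≤ n) (x η c c1 : ℝ) (J G g N U : ℕ) (hJ : 1 ≤ J)
    (hη : 0 < η) (hx : 0 < x) (hcJ : c + 1 ≤ η * J) (hc1 : c + 1 + (2 * x + 8 * η) ≤ c1)
    (gl : (n : ℝ) ^ (x + η + 2 * η) ≤ G)
    (g2l : (n : ℝ) ^ (2 * (x + η) + 4 * η + 2 * η) ≤ g)
    (g2u : (g : ℝ) ≤ 2 * (n : ℝ) ^ (2 * (x + η) + 4 * η + 2 * η))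
    (Nu : (N : ℝ) ≤ (n : ℝ) ^ (x / 3)) (hJG : J ≤ G) (hJg : J ≤ g) (hJU : 2 * J ≤ U)
    (ul : (n : ℝ) ^ (x + η + 2 * η + 2 * x / 3) ≤ U)
    (e8 : Real.exp (-(1 / 8 * (n : ℝ) ^ (2 * η))) ≤ (n : ℝ) ^ (-(c + 1)))
    (e10 : 2 ^ (20 * 2 ^ J) * (4 + (2 * √(4 * J)) ^ J + 2 * (2 ^ J * √(2 * J)) ^ J)
      * (n : ℝ) ^ (-(c + 1)) ≤ (n : ℝ) ^ (-c)) :
    2 ^ (20 * 2 ^ J) * (((g : ℝ) + 1) * (n : ℝ) ^ (-c1) + Real.exp (-((n : ℝ) ^ η) ^ 2 / 8)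
      + (2 * N * √((n : ℝ) ^ (x + η) / ((U / (2 * J) : ℕ) : ℝ))) ^ J
      + (2 ^ J * √((n : ℝ) ^ (x + η) / ((G / J : ℕ) : ℝ))) ^ J
      + (2 ^ J * √((n : ℝ) ^ (2 * (x + η) + 4 * η) / ((g / J : ℕ) : ℝ))) ^ J)
      ≤ (n : ℝ) ^ (-c) := by
  have hn0 : (0 : ℝ) < n := by linarith
  have f1 : ((g : ℝ) + 1) * (n : ℝ) ^ (-c1) ≤ 3 * (n : ℝ) ^ (-(c + 1)) := by
    have one4 : 1 ≤ (n : ℝ) ^ (2 * (x + η) + 4 * η + 2 * η) := pw_one hn1 (by linarith)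
    calc ((g : ℝ) + 1) * (n : ℝ) ^ (-c1)
        ≤ (3 * (n : ℝ) ^ (2 * (x + η) + 4 * η + 2 * η)) * (n : ℝ) ^ (-c1) := by
          refine mul_le_mul_of_nonneg_right ?_ (by positivity)
          linarith
      _ = 3 * (n : ℝ) ^ (2 * (x + η) + 4 * η + 2 * η + -c1) := by
          rw [← pw_mul hn0 (2 * (x + η) + 4 * η + 2 * η) (-c1)]; ring
      _ ≤ 3 * (n : ℝ) ^ (-(c + 1)) :=
          mul_le_mul_of_nonneg_left (pw_le hn1 (by linarith)) (by norm_num)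
  have f2 : Real.exp (-((n : ℝ) ^ η) ^ 2 / 8) ≤ (n : ℝ) ^ (-(c + 1)) := by
    refine le_trans (le_of_eq ?_) e8
    rw [sq_pw hn0]
    congr 1
    ring
  have f3 := fine_avg hn1 x (x + η) η c J N U hJ Nu hJU ul hcJ
  have f4 := fine_half hn1 (x + η) η c J G hJ hJG gl hcJ
  have f5 := fine_half hn1 (2 * (x + η) + 4 * η) η c J g hJ hJg g2l hcJ
  refine le_trans ?_ e10
  have hK : (0 : ℝ) ≤ 2 ^ (20 * 2 ^ J) := by positivity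
  calc _ ≤ (2 : ℝ) ^ (20 * 2 ^ J) * (3 * (n : ℝ) ^ (-(c + 1)) + (n : ℝ) ^ (-(c + 1))
        + (2 * √(4 * J)) ^ J * (n : ℝ) ^ (-(c + 1))
        + (2 ^ J * √(2 * J)) ^ J * (n : ℝ) ^ (-(c + 1))
        + (2 ^ J * √(2 * J)) ^ J * (n : ℝ) ^ (-(c + 1))) :=
        mul_le_mul_of_nonneg_left
          (add_le_add (add_le_add (add_le_add (add_le_add f1 f2) f3) f4) f5) hK
    _ = _ := by ring

theorem fine_sm {n : ℕ} (hn1 : (1 : ℝ) ≤ n) (x y η : ℝ) (J m : ℕ) (hx : 0 < x)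
    (mu : (m : ℝ) ≤ 2 * (n : ℝ) ^ (2 * x / 3))
    (e6 : 8 * (2 ^ (2 ^ J + 1) * √(6 + 2 ^ J)) * (n : ℝ) ^ (-(y - η) + η + x / 3) ≤ 1) :
    2 ^ (2 ^ J + 1) * (n : ℝ) ^ (-(y - η)) * (n : ℝ) ^ η
      * √(2 * (m : ℝ) + 2 ^ J + 2) ≤ 1 / 8 := by
  have hn0 : (0 : ℝ) < n := by linarith
  have onex := pw_one hn1 (show 0 ≤ 2 * x / 3 by linarith)
  have hr0 : (0 : ℝ) < 2 ^ J := by positivity
  have hsq : √(2 * (m : ℝ) + 2 ^ J + 2) ≤ √(6 + 2 ^ J) * (n : ℝ) ^ (x / 3) := by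
    have : √(2 * (m : ℝ) + 2 ^ J + 2) ≤ √((6 + 2 ^ J) * (n : ℝ) ^ (2 * x / 3)) := by
      refine Real.sqrt_le_sqrt ?_
      nlinarith
    rw [sqrt_pw hn0 _ _ (by positivity)] at this
    have e : 2 * x / 3 / 2 = x / 3 := by ring
    rwa [e] at this
  calc 2 ^ (2 ^ J + 1) * (n : ℝ) ^ (-(y - η)) * (n : ℝ) ^ η * √(2 * (m : ℝ) + 2 ^ J + 2)
      ≤ 2 ^ (2 ^ J + 1) * (n : ℝ) ^ (-(y - η)) * (n : ℝ) ^ η
        * (√(6 + 2 ^ J) * (n : ℝ) ^ (x / 3)) := mul_le_mul_of_nonneg_left hsq (by positivity)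
    _ = 1 / 8 * (8 * (2 ^ (2 ^ J + 1) * √(6 + 2 ^ J))
        * (n : ℝ) ^ (-(y - η) + η + x / 3)) := by
        rw [← pw_mul hn0 (-(y - η) + η), ← pw_mul hn0 (-(y - η))]; ring
    _ ≤ 1 / 8 := by linarith

/-- the integer parameters of the fine step -/
theorem fine_par {n : ℕ} (hn1 : (1 : ℝ) ≤ n) (x η : ℝ) (J G g : ℕ) (hJ : 1 ≤ J) (hx : 0 < x)
    (gl : (n : ℝ) ^ (x + η + 2 * η) ≤ G)
    (g2l : (n : ℝ) ^ (2 * (x + η) + 4 * η + 2 * η) ≤ g)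
    (e1 : 2 ≤ (n : ℝ) ^ (x / 3))
    (e2 : (J : ℝ) * (n : ℝ) ^ (x / 3) ≤ (n : ℝ) ^ (x + η + 2 * η))
    (e3 : 2 * (n : ℝ) ^ (2 * x / 3) ≤ (n : ℝ) ^ (2 * (x + η) + 4 * η + 2 * η))
    (e4 : 2 * (J : ℝ) ≤ (n : ℝ) ^ (x + η + 2 * η)) :
    ∃ N m : ℕ, 1 ≤ N ∧ 1 ≤ m ∧ (N : ℝ) ≤ (n : ℝ) ^ (x / 3) ∧ (n : ℝ) ^ (x / 3) / 4 ≤ N ∧
      (m : ℝ) ≤ 2 * (n : ℝ) ^ (2 * x / 3) ∧ 2 * J ≤ G ∧ N * J ≤ 2 * G ∧ m ≤ g ∧
      1 ≤ ulen J G * m / (2 * J) ∧ J * (N + ulen J G * m / (2 * J)) ≤ ulen J G * m ∧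
      2 * J ≤ ulen J G * m ∧
      (n : ℝ) ^ (x + η + 2 * η + 2 * x / 3) ≤ ((ulen J G * m : ℕ) : ℝ) := by
  have hn0 : (0 : ℝ) < n := by linarith
  have mu : (⌈(n : ℝ) ^ (2 * x / 3)⌉₊ : ℝ) ≤ 2 * (n : ℝ) ^ (2 * x / 3) :=
    ceil_le hn1 (by linarith)
  have ml : (n : ℝ) ^ (2 * x / 3) ≤ (⌈(n : ℝ) ^ (2 * x / 3)⌉₊ : ℝ) := Nat.le_ceil _
  have Nu : (⌊(n : ℝ) ^ (x / 3)⌋₊ : ℝ) ≤ (n : ℝ) ^ (x / 3) := Nat.floor_le (by positivity)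
  have Nl : (n : ℝ) ^ (x / 3) < (⌊(n : ℝ) ^ (x / 3)⌋₊ : ℝ) + 1 := Nat.lt_floor_add_one _
  refine ⟨⌊(n : ℝ) ^ (x / 3)⌋₊, ⌈(n : ℝ) ^ (2 * x / 3)⌉₊, ?_⟩
  generalize ⌈(n : ℝ) ^ (2 * x / 3)⌉₊ = m at mu ml
  generalize ⌊(n : ℝ) ^ (x / 3)⌋₊ = N at Nu Nl
  have onex := pw_one hn1 (show 0 ≤ 2 * x / 3 by linarith)
  have hN1 : 1 ≤ N := by
    have : (0 : ℝ) < N := by linarith
    have : 0 < N := by exact_mod_cast this
    omega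
  have hm1 : 1 ≤ m := by
    have : (0 : ℝ) < m := by linarith
    have : 0 < m := by exact_mod_cast this
    omega
  have hJG2 : 2 * J ≤ G := by
    have : ((2 * J : ℕ) : ℝ) ≤ G := by push_cast; linarith
    exact_mod_cast this
  have hNJ : N * J ≤ G := by
    have : (N : ℝ) * J ≤ G := by
      have := mul_le_mul_of_nonneg_left Nu (Nat.cast_nonneg (α := ℝ) J)
      linarith
    exact_mod_cast this
  have hmg : m ≤ g := by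
    have : (m : ℝ) ≤ g := by linarith
    exact_mod_cast this
  have hu : 2 * G ≤ ulen J G := Nat.le_add_right _ _
  have hum : 2 * G ≤ ulen J G * m := le_trans hu (Nat.le_mul_of_pos_right _ hm1)
  have hM : J * (N + ulen J G * m / (2 * J)) ≤ ulen J G * m := by
    have k1 : 2 * J * (ulen J G * m / (2 * J)) ≤ ulen J G * m := Nat.mul_div_le _ _
    nlinarith
  refine ⟨hN1, hm1, Nu, by linarith, mu, hJG2, by omega, hmg,
    (Nat.one_le_div_iff (by omega)).2 (by omega), hM, by omega, ?_⟩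
  rw [← pw_mul hn0]
  push_cast
  have : (G : ℝ) ≤ ((ulen J G : ℕ) : ℝ) := by
    have : G ≤ ulen J G := by omega
    exact_mod_cast this
  exact mul_le_mul (le_trans gl this) ml (by positivity) (by positivity)

theorem fine_ev (x y η c c1 : ℝ) (J : ℕ) (hJ : 1 ≤ J) (hη : 0 < η) (hxη : 100 * η ≤ x)
    (hxy : x / 2 + 50 * η ≤ y) (hc : 0 ≤ c) (hcJ : c + 1 ≤ η * J)
    (hc1 : c + 1 + (2 * x + 8 * η) ≤ c1) (hyc : y ≤ c1) :
    ∀ᶠ n : ℕ in atTop, ∀ A B : Alg, Prob A → Prob B → Smooth ((n : ℝ) ^ (x + η)) A →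
      Dom ((n : ℝ) ^ (-(y - η))) ((n : ℝ) ^ (-c1)) A (B - A) →
      Smooth ((n : ℝ) ^ (2 * (x + η) + 4 * η)) (stepA J ⌈(n : ℝ) ^ (x + η + 2 * η)⌉₊ A B) →
      Dom ((n : ℝ) ^ (-(4 * y + x / 6 - 6 * η))) ((n : ℝ) ^ (-c))
        (stepA J ⌈(n : ℝ) ^ (2 * (x + η) + 4 * η + 2 * η)⌉₊
          (stepA J ⌈(n : ℝ) ^ (x + η + 2 * η)⌉₊ A B) (stepB J ⌈(n : ℝ) ^ (x + η + 2 * η)⌉₊ A B))
        (stepB J ⌈(n : ℝ) ^ (2 * (x + η) + 4 * η + 2 * η)⌉₊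
          (stepA J ⌈(n : ℝ) ^ (x + η + 2 * η)⌉₊ A B) (stepB J ⌈(n : ℝ) ^ (x + η + 2 * η)⌉₊ A B)
        - stepA J ⌈(n : ℝ) ^ (2 * (x + η) + 4 * η + 2 * η)⌉₊
          (stepA J ⌈(n : ℝ) ^ (x + η + 2 * η)⌉₊ A B)
          (stepB J ⌈(n : ℝ) ^ (x + η + 2 * η)⌉₊ A B)) := by
  have hx : 0 < x := by linarith
  have hy : 0 < y := by linarith
  filter_upwards [sev_const 2 (x / 3) (by linarith),
    sev_rpow J (x / 3) (x + η + 2 * η) (by linarith),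
    sev_rpow 2 (2 * x / 3) (2 * (x + η) + 4 * η + 2 * η) (by linarith),
    sev_const (2 * J) (x + η + 2 * η) (by linarith),
    sev_const J (2 * (x + η) + 4 * η + 2 * η) (by linarith),
    sev_rpow (8 * (2 ^ (2 ^ J + 1) * √(6 + 2 ^ J))) (-(y - η) + η + x / 3) 0 (by linarith),
    sev_rpow (2 ^ (2 * 2 ^ J + 5)) (-(2 * (y - η))) 0 (by linarith),
    sev_exp (1 / 8) (2 * η) (c + 1) (by norm_num) (by linarith),
    sev_rpow (4 * 2 ^ (20 * 2 ^ J)) (-(4 * y + x / 6) + 5 * η) (-(4 * y + x / 6 - 6 * η))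
      (by linarith),
    sev_rpow (2 ^ (20 * 2 ^ J) * (4 + (2 * √(4 * J)) ^ J + 2 * (2 ^ J * √(2 * J)) ^ J))
      (-(c + 1)) (-c) (by linarith),
    eventually_ge_atTop 1] with n e1 e2 e3 e4 e5 e6 e7 e8 e9 e10 h1 A B hA hB hsA hD hsa
  have hn1 : (1 : ℝ) ≤ n := by exact_mod_cast h1
  have hn0 : (0 : ℝ) < n := by linarith
  rw [Real.rpow_zero] at e6 e7
  have gl : (n : ℝ) ^ (x + η + 2 * η) ≤ (⌈(n : ℝ) ^ (x + η + 2 * η)⌉₊ : ℝ) := Nat.le_ceil _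
  have g2l : (n : ℝ) ^ (2 * (x + η) + 4 * η + 2 * η)
    ≤ (⌈(n : ℝ) ^ (2 * (x + η) + 4 * η + 2 * η)⌉₊ : ℝ) := Nat.le_ceil _
  have g2u : (⌈(n : ℝ) ^ (2 * (x + η) + 4 * η + 2 * η)⌉₊ : ℝ)
    ≤ 2 * (n : ℝ) ^ (2 * (x + η) + 4 * η + 2 * η) := ceil_le hn1 (by linarith)
  generalize ⌈(n : ℝ) ^ (x + η + 2 * η)⌉₊ = G at gl hsa ⊢
  generalize ⌈(n : ℝ) ^ (2 * (x + η) + 4 * η + 2 * η)⌉₊ = g at g2l g2u ⊢
  obtain ⟨N, m, hN1, hm1, Nu, Nl, mu, hJG2, hNJ, hmg, hG0, hM, hJU, ul⟩ :=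
    fine_par hn1 x η J G g hJ hx gl g2l e1 e2 e3 e4
  have hJg : J ≤ g := by
    have : (J : ℝ) ≤ g := le_trans e5 g2l
    exact_mod_cast this
  have hG1 : 1 ≤ G / J := (Nat.one_le_div_iff (by omega)).2 (by omega)
  have hG2 : 1 ≤ g / J := (Nat.one_le_div_iff (by omega)).2 hJg
  have hΛ : 1 ≤ (n : ℝ) ^ η := pw_one hn1 hη.le
  have ht0 : 0 < (n : ℝ) ^ (-(y - η)) := by positivity
  have hξt : (n : ℝ) ^ (-c1) ≤ (n : ℝ) ^ (-(y - η)) := pw_le hn1 (by linarith)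
  have hsm := fine_sm hn1 x y η J m hx mu e6
  have hsm2 : 2 ^ (2 * 2 ^ J + 5) * ((n : ℝ) ^ (-(y - η))) ^ 2 ≤ 1 := by
    rw [sq_pw hn0, show 2 * -(y - η) = -(2 * (y - η)) by ring]
    exact e7
  have key := fine_step hA hB hsA hD ht0 hξt (by positivity) J G g m N
    (ulen J G * m / (2 * J)) (G / J) (g / J) hJ hsa hΛ hN1 hm1 hG0 hG1 hG2
    hNJ hM (Nat.mul_div_le G J) (Nat.mul_div_le g J) hmg hsm hsm2
  have hPa := step_prob hA hB J G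
  refine dom_mono (step_prob hPa.1 hPa.2 J g).1.1 key ?_ ?_
  · have hp : (0 : ℝ) < (n : ℝ) ^ (2 * x / 3) := by positivity
    exact le_trans (fine_t hn1 x y η (2 ^ (20 * 2 ^ J)) N m (by positivity) hxy hη Nl
      (by linarith)) e9
  · exact fine_err hn1 x η c c1 J G g N (ulen J G * m) hJ hη hx hcJ hc1 gl g2l g2u Nu (by omega)
      hJg hJU ul e8 e10

theorem super_step {q x y l : ℝ} (h0 : 0 < q) (h1 : q < 1) (hx : 0 < x) (hxy : x < 2 * y)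
    (hl : 0 ≤ l) (H : SysC q x y l) : SysC q (4 * x) (4 * y + x / 6) (l + 3 * x) := by
  intro ε hε c
  obtain ⟨η, hη, hηε, hηx, hηy⟩ : ∃ η : ℝ, 0 < η ∧ 20 * η ≤ ε ∧ 100 * η ≤ x ∧
      x + 100 * η ≤ 2 * y := by
    refine ⟨min (ε / 20) (min (x / 100) ((2 * y - x) / 100)), ?_, ?_, ?_, ?_⟩
    · refine lt_min (by linarith) (lt_min (by linarith) (by linarith))
    · have := min_le_left (ε / 20) (min (x / 100) ((2 * y - x) / 100))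
      linarith
    · have := le_trans (min_le_right (ε / 20) _) (min_le_left (x / 100) ((2 * y - x) / 100))
      linarith
    · have := le_trans (min_le_right (ε / 20) _) (min_le_right (x / 100) ((2 * y - x) / 100))
      linarith
  set c0 : ℝ := |c| with hc0
  have hc00 : 0 ≤ c0 := abs_nonneg c
  set c2 : ℝ := c0 + 10 * x + 10 * y + 1 with hc2
  obtain ⟨J, hJ⟩ := exists_nat_ge ((c2 + 1) / η + 1)
  have hJ1 : 1 ≤ J := by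
    have : (0 : ℝ) < (c2 + 1) / η := by
      have : 0 < y := by linarith
      positivity
    have : (1 : ℝ) ≤ J := by linarith
    exact_mod_cast this
  have hcJ : c2 + 1 ≤ η * J := by
    have : (c2 + 1) / η ≤ J := by linarith
    rw [div_le_iff₀ hη] at this
    linarith
  have hy : 0 < y := by linarith
  set c1 : ℝ := c2 + 10 * x + 10 with hc1
  have ev1 := H η hη c1
  have ev2 := smooth_ev (x + η) (y - η) c1 η J (by linarith) hη (by linarith) (by linarith)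
    (by linarith)
  have ev3 := crude_ev (x + η) (y - η) c1 c2 η J hJ1 (by linarith) hη (by linarith)
    (by linarith) (by linarith) hcJ
  have ev4 := smooth_ev (2 * (x + η) + 4 * η) (2 * (y - η) - η) c2 η J (by linarith) hη
    (by linarith) (by linarith) (by linarith)
  have ev5 := fine_ev x y η c0 c1 J hJ1 hη hηx (by linarith) hc00 (by linarith) (by linarith)
    (by linarith)
  have ev6 := sev_rpow ((4 + 2 ^ J) * (4 + 2 ^ J)) (l + 3 * x + 19 / 2 * η + 5 / 2 * η)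
    (l + 3 * x + ε) (by linarith)
  filter_upwards [ev1, ev2, ev3, ev4, ev5, ev6, eventually_ge_atTop 1] with n k1 k2 k3 k4 k5 k6 h1n
  obtain ⟨wA, wB, w1, w2, w3, w4, w5, w6⟩ := k1
  have hn1 : (1 : ℝ) ≤ n := by exact_mod_cast h1n
  have hn0 : (0 : ℝ) < n := by linarith
  have hA := tr_prob h0.le h1.le wA
  have hB := tr_prob h0.le h1.le wB
  have s1 := k2 _ _ hA hB w5 w6
  have s2 := k3 _ _ hA hB w5 w6
  have s3 := k5 _ _ hA hB w5 w6 s1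
  have gu1 : (⌈(n : ℝ) ^ (x + η + 2 * η)⌉₊ : ℝ) ≤ 2 * (n : ℝ) ^ (x + η + 2 * η) :=
    ceil_le hn1 (by linarith)
  have gu2 : (⌈(n : ℝ) ^ (2 * (x + η) + 4 * η + 2 * η)⌉₊ : ℝ)
    ≤ 2 * (n : ℝ) ^ (2 * (x + η) + 4 * η + 2 * η) := ceil_le hn1 (by linarith)
  generalize ⌈(n : ℝ) ^ (x + η + 2 * η)⌉₊ = G at s1 s2 s3 gu1
  have hPa := step_prob hA hB J G
  have s4 := k4 _ _ hPa.1 hPa.2 s1 s2
  generalize ⌈(n : ℝ) ^ (2 * (x + η) + 4 * η + 2 * η)⌉₊ = g at s3 s4 gu2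
  have t1 := tr_step q J G wA wB
  have l1 := step_length J G wA wB w1
  have l1' : (stepA J G wA wB).length = (stepB J G wA wB).length := by rw [l1.1, l1.2]
  have ne1 := step_ne J G wA wB w1 w2
  have t2 := tr_step q J g (stepA J G wA wB) (stepB J G wA wB)
  have l2 := step_length J g (stepA J G wA wB) (stepB J G wA wB) l1'
  have ne2 := step_ne J g (stepA J G wA wB) (stepB J G wA wB) l1' ne1
  rw [t1.1, t1.2] at t2
  have u1 : 1 ≤ ulen J G := le_trans (Nat.one_le_two_pow) (Nat.le_add_left _ _)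
  have u2 : 1 ≤ ulen J g := le_trans (Nat.one_le_two_pow) (Nat.le_add_left _ _)
  refine ⟨stepA J g (stepA J G wA wB) (stepB J G wA wB),
    stepB J g (stepA J G wA wB) (stepB J G wA wB), by rw [l2.1, l2.2], ne2, ?_, ?_, ?_, ?_⟩
  · rw [l2.1, l1.1]
    exact Nat.one_le_iff_ne_zero.2 (by positivity)
  · rw [l2.1, l1.1]
    have v1 := ev_ulen (s := x + η) (η := η) hn1 J G (by linarith) gu1
    have v2 := ev_ulen (s := 2 * (x + η) + 4 * η) (η := η) hn1 J g (by linarith) gu2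
    push_cast
    calc ((ulen J g : ℕ) : ℝ) * (((ulen J G : ℕ) : ℝ) * (wA.length : ℝ))
        ≤ ((4 + 2 ^ J) * (n : ℝ) ^ (2 * (x + η) + 4 * η + 2 * η))
          * (((4 + 2 ^ J) * (n : ℝ) ^ (x + η + 2 * η)) * (n : ℝ) ^ (l + η)) := by gcongr
      _ = ((4 + 2 ^ J) * (4 + 2 ^ J)) * (n : ℝ) ^ (l + 3 * x + 19 / 2 * η + 5 / 2 * η) := by
          have e : l + 3 * x + 19 / 2 * η + 5 / 2 * η
            = (2 * (x + η) + 4 * η + 2 * η) + ((x + η + 2 * η) + (l + η)) := by ring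
          rw [e, ← pw_mul hn0 (2 * (x + η) + 4 * η + 2 * η) (x + η + 2 * η + (l + η)),
            ← pw_mul hn0 (x + η + 2 * η) (l + η)]
          ring
      _ ≤ _ := k6
  · rw [t2.1]
    exact s4.mono (pw_le hn1 (by linarith))
  · rw [t2.1, t2.2]
    refine dom_mono (step_prob hPa.1 hPa.2 J g).1.1 s3 (pw_le hn1 (by linarith))
      (pw_le hn1 ?_)
    have := le_abs_self c
    linarith

end Vale.Agent.P321
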