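import Vale.Agent.P321.SuperEv
import Vale.Agent.P321.Words
import Vale.Agent.P321.SmoothStep
import Vale.Agent.P321.CrudeStep
import Vale.Agent.P321.FineStep
import Vale.Agent.P321.Expand
import Vale.Agent.P321.Dom

/-! Asymptotic form of the window step: smoothness and crude closeness. -/

namespace Vale.Agent.P321

open Filter

section
variable {n : ℕ}

theorem pw_mul (hn0 : (0 : ℝ) < n) (a b : ℝ) : (n : ℝ) ^ a * (n : ℝ) ^ b = (n : ℝ) ^ (a + b) :=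
  (Real.rpow_add hn0 a b).symm

theorem pw_le (hn1 : (1 : ℝ) ≤ n) {a b : ℝ} (h : a ≤ b) : (n : ℝ) ^ a ≤ (n : ℝ) ^ b :=
  Real.rpow_le_rpow_of_exponent_le hn1 h

theorem pw_one (hn1 : (1 : ℝ) ≤ n) {a : ℝ} (h : 0 ≤ a) : 1 ≤ (n : ℝ) ^ a := Real.one_le_rpow hn1 h

theorem ceil_le (hn1 : (1 : ℝ) ≤ n) {a : ℝ} (ha : 0 ≤ a) :
    (⌈(n : ℝ) ^ a⌉₊ : ℝ) ≤ 2 * (n : ℝ) ^ a := by
  have h1 := pw_one hn1 ha
  have h2 := Nat.ceil_lt_add_one (show (0 : ℝ) ≤ (n : ℝ) ^ a by linarith)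
  linarith

theorem sqrt_pw (hn0 : (0 : ℝ) < n) (C a : ℝ) (hC : 0 ≤ C) :
    √(C * (n : ℝ) ^ a) = √C * (n : ℝ) ^ (a / 2) := by
  rw [Real.sqrt_mul hC, Real.sqrt_eq_rpow ((n : ℝ) ^ a), ← Real.rpow_mul hn0.le]
  congr 2
  ring

theorem sq_pw (hn0 : (0 : ℝ) < n) (a : ℝ) : ((n : ℝ) ^ a) ^ 2 = (n : ℝ) ^ (2 * a) := by
  rw [← Real.rpow_natCast, ← Real.rpow_mul hn0.le]
  congr 1
  push_cast
  ring

theorem pow_pw (hn0 : (0 : ℝ) < n) (a : ℝ) (k : ℕ) :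
    ((n : ℝ) ^ a) ^ k = (n : ℝ) ^ (a * k) := by
  rw [← Real.rpow_natCast, ← Real.rpow_mul hn0.le]

end

theorem div_ge (a b : ℕ) (hb : 0 < b) (h : b ≤ a) : (a : ℝ) / (2 * b) ≤ ((a / b : ℕ) : ℝ) := by
  have hb' : (0 : ℝ) < b := by exact_mod_cast hb
  rw [div_le_iff₀ (by positivity)]
  have h1 : 1 ≤ a / b := (Nat.one_le_div_iff hb).2 h
  have h2 : a < b * (a / b + 1) := by
    have := Nat.lt_mul_div_succ a hb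
    simpa using this
  have h3 : a ≤ (a / b) * (2 * b) := by nlinarith
  exact_mod_cast h3

theorem Smooth.mono {σ σ' : ℝ} {A : Alg} (h : Smooth σ A) (hle : σ ≤ σ') : Smooth σ' A :=
  fun N hN => (h N hN).trans (Real.sqrt_le_sqrt (div_le_div_of_nonneg_right hle (by positivity)))

section
variable {n : ℕ} {s τ c η : ℝ}

theorem ev_tail (hn1 : (1 : ℝ) ≤ n) (G S : ℕ) (gl : (n : ℝ) ^ (s + 2 * η) ≤ G)
    (su1 : (S : ℝ) + 1 ≤ 3 * (n : ℝ) ^ (2 * s + 3 * η))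
    (e3 : Real.exp (-(1 / 24 * (n : ℝ) ^ η)) ≤ (n : ℝ) ^ (-(2 * s + 4 * η)))
    (e4 : 12 ≤ (n : ℝ) ^ η) :
    ((S : ℝ) + 1) * (2 * Real.exp (-((G : ℝ) / 2) ^ 2 / (2 * ((S : ℝ) + 1)))) ≤ 1 / 2 := by
  have hn0 : (0 : ℝ) < n := by linarith
  have hinv : (n : ℝ) ^ (-η) * (n : ℝ) ^ η = 1 := by
    rw [pw_mul hn0, neg_add_cancel, Real.rpow_zero]
  have hmη : 0 < (n : ℝ) ^ (-η) := by positivity
  have tl : Real.exp (-((G : ℝ) / 2) ^ 2 / (2 * ((S : ℝ) + 1)))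
      ≤ (n : ℝ) ^ (-(2 * s + 4 * η)) := by
    refine le_trans (Real.exp_le_exp.2 ?_) e3
    rw [neg_div, neg_le_neg_iff, le_div_iff₀ (by positivity)]
    have a1 : (n : ℝ) ^ (s + 2 * η) * (n : ℝ) ^ (s + 2 * η) ≤ G * G :=
      mul_le_mul gl gl (by positivity) (by positivity)
    rw [pw_mul hn0] at a1
    have a2 : 1 / 24 * (n : ℝ) ^ η * (2 * ((S : ℝ) + 1))
        ≤ 1 / 24 * (n : ℝ) ^ η * (2 * (3 * (n : ℝ) ^ (2 * s + 3 * η))) := by gcongr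
    have a3 : 1 / 24 * (n : ℝ) ^ η * (2 * (3 * (n : ℝ) ^ (2 * s + 3 * η)))
        = 1 / 4 * (n : ℝ) ^ (s + 2 * η + (s + 2 * η)) := by
      have := pw_mul hn0 η (2 * s + 3 * η)
      have e : η + (2 * s + 3 * η) = s + 2 * η + (s + 2 * η) := by ring
      rw [e] at this
      rw [← this]; ring
    nlinarith
  calc ((S : ℝ) + 1) * (2 * Real.exp (-((G : ℝ) / 2) ^ 2 / (2 * ((S : ℝ) + 1))))
      ≤ (3 * (n : ℝ) ^ (2 * s + 3 * η)) * (2 * (n : ℝ) ^ (-(2 * s + 4 * η))) := by gcongr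
    _ = 6 * (n : ℝ) ^ (-η) := by
        have := pw_mul hn0 (2 * s + 3 * η) (-(2 * s + 4 * η))
        have e : 2 * s + 3 * η + -(2 * s + 4 * η) = -η := by ring
        rw [e] at this
        rw [← this]; ring
    _ ≤ 1 / 2 := by nlinarith

theorem ev_Q (hn1 : (1 : ℝ) ≤ n) (S : ℕ) (r R : ℝ) (hr : 0 ≤ r) (hR : 0 ≤ R)
    (su1 : (S : ℝ) + 1 ≤ 4 * (n : ℝ) ^ (2 * s + 3 * η)) :
    (R * (2 * (n : ℝ) ^ (-τ))) ^ 2 * (3 * r * √((S : ℝ) + 1))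
      ≤ 1 / 2 * (48 * R ^ 2 * r * (n : ℝ) ^ (-(2 * τ) + s + 3 / 2 * η)) := by
  have hn0 : (0 : ℝ) < n := by linarith
  have sq : √((S : ℝ) + 1) ≤ 2 * (n : ℝ) ^ (s + 3 / 2 * η) := by
    have : √((S : ℝ) + 1) ≤ √(4 * (n : ℝ) ^ (2 * s + 3 * η)) := Real.sqrt_le_sqrt su1
    rw [sqrt_pw hn0 _ _ (by norm_num)] at this
    have e4' : √(4 : ℝ) = 2 := by
      rw [show (4 : ℝ) = 2 ^ 2 by norm_num]; exact Real.sqrt_sq (by norm_num)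
    have e : (2 * s + 3 * η) / 2 = s + 3 / 2 * η := by ring
    rwa [e4', e] at this
  calc (R * (2 * (n : ℝ) ^ (-τ))) ^ 2 * (3 * r * √((S : ℝ) + 1))
      ≤ (R * (2 * (n : ℝ) ^ (-τ))) ^ 2 * (3 * r * (2 * (n : ℝ) ^ (s + 3 / 2 * η))) := by gcongr
    _ = 24 * R ^ 2 * r * (((n : ℝ) ^ (-τ)) ^ 2 * (n : ℝ) ^ (s + 3 / 2 * η)) := by ring
    _ = 1 / 2 * (48 * R ^ 2 * r * (n : ℝ) ^ (-(2 * τ) + s + 3 / 2 * η)) := by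
        rw [sq_pw hn0, pw_mul hn0]
        have : 2 * -τ + (s + 3 / 2 * η) = -(2 * τ) + s + 3 / 2 * η := by ring
        rw [this]; ring

theorem ev_half (hn1 : (1 : ℝ) ≤ n) (k G : ℕ) (hk : 0 < k) (hkG : k ≤ G)
    (gl : (n : ℝ) ^ (s + 2 * η) ≤ G) :
    √((n : ℝ) ^ s / ((G / k : ℕ) : ℝ)) ≤ √(2 * k) * (n : ℝ) ^ (-η) := by
  have hn0 : (0 : ℝ) < n := by linarith
  have hk0 : (0 : ℝ) < k := by exact_mod_cast hk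
  have a1 : (G : ℝ) / (2 * k) ≤ ((G / k : ℕ) : ℝ) := div_ge G k hk hkG
  have a2 : (n : ℝ) ^ (s + 2 * η) / (2 * k) ≤ ((G / k : ℕ) : ℝ) :=
    le_trans (div_le_div_of_nonneg_right gl (by positivity)) a1
  have a3 : (n : ℝ) ^ s / ((G / k : ℕ) : ℝ) ≤ 2 * k * (n : ℝ) ^ (-(2 * η)) := by
    have hp : 0 < (n : ℝ) ^ (s + 2 * η) / (2 * k) := by positivity
    rw [div_le_iff₀ (lt_of_lt_of_le hp a2)]
    have h4 : 2 * k * (n : ℝ) ^ (-(2 * η)) * ((n : ℝ) ^ (s + 2 * η) / (2 * k)) = (n : ℝ) ^ s := by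
      have := pw_mul hn0 (-(2 * η)) (s + 2 * η)
      have e : -(2 * η) + (s + 2 * η) = s := by ring
      rw [e] at this
      rw [← this]; field_simp
    rw [← h4]
    exact mul_le_mul_of_nonneg_left a2 (by positivity)
  have a4 := Real.sqrt_le_sqrt a3
  rw [sqrt_pw hn0 _ _ (by positivity)] at a4
  have e : -(2 * η) / 2 = -η := by ring
  rwa [e] at a4

theorem ev_err (hn1 : (1 : ℝ) ≤ n) (S J : ℕ) (L X Y Z Cb : ℝ) (hC : 0 ≤ Cb)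
    (hL0 : 0 ≤ L) (hL : L ≤ (n : ℝ) ^ (η / 2))
    (hX0 : 0 ≤ X + Y + Z) (hX : X + Y + Z ≤ Cb * (n : ℝ) ^ (-η))
    (su1 : (S : ℝ) + 1 ≤ 3 * (n : ℝ) ^ (2 * s + 3 * η))
    (e7 : 16 * Cb * (n : ℝ) ^ (-(η / 2)) ≤ 1)
    (e8 : 48 * 2 ^ (J + 1) * (n : ℝ) ^ (2 * s + 3 * η - c) ≤ 1) :
    L * (X + Y + Z) + ((S : ℝ) + 1) * 2 ^ (J + 1) * (n : ℝ) ^ (-c) ≤ 1 / 8 := by
  have hn0 : (0 : ℝ) < n := by linarith
  have c2 : L * (X + Y + Z) ≤ (n : ℝ) ^ (η / 2) * (Cb * (n : ℝ) ^ (-η)) :=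
    mul_le_mul hL hX hX0 (by positivity)
  have c3 : (n : ℝ) ^ (η / 2) * (Cb * (n : ℝ) ^ (-η)) = Cb * (n : ℝ) ^ (-(η / 2)) := by
    have := pw_mul hn0 (η / 2) (-η)
    have e : η / 2 + -η = -(η / 2) := by ring
    rw [e] at this
    rw [← this]; ring
  have c4 : ((S : ℝ) + 1) * 2 ^ (J + 1) * (n : ℝ) ^ (-c)
      ≤ 3 * (2 : ℝ) ^ (J + 1) * (n : ℝ) ^ (2 * s + 3 * η - c) := by
    calc ((S : ℝ) + 1) * 2 ^ (J + 1) * (n : ℝ) ^ (-c)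
        ≤ (3 * (n : ℝ) ^ (2 * s + 3 * η)) * 2 ^ (J + 1) * (n : ℝ) ^ (-c) := by gcongr
      _ = _ := by
        have := pw_mul hn0 (2 * s + 3 * η) (-c)
        rw [← sub_eq_add_neg] at this
        rw [← this]; ring
  linarith

theorem ev_ulen (hn1 : (1 : ℝ) ≤ n) (J G : ℕ) (hs : 0 ≤ s + 2 * η)
    (gu : (G : ℝ) ≤ 2 * (n : ℝ) ^ (s + 2 * η)) :
    ((ulen J G : ℕ) : ℝ) ≤ (4 + 2 ^ J) * (n : ℝ) ^ (s + 2 * η) := by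
  have one2 : 1 ≤ (n : ℝ) ^ (s + 2 * η) := pw_one hn1 hs
  have hr : (0 : ℝ) < 2 ^ J := by positivity
  unfold ulen
  push_cast
  nlinarith

end

theorem smooth_ev (s τ c η : ℝ) (J : ℕ) (hs : 0 < s) (hη : 0 < η) (hτ : s + 10 * η ≤ 2 * τ)
    (hc : 2 * s + 4 * η ≤ c) (hc2 : τ ≤ c) :
    ∀ᶠ n : ℕ in atTop, ∀ A B : Alg, Prob A → Prob B → Smooth ((n : ℝ) ^ s) A →
      Dom ((n : ℝ) ^ (-τ)) ((n : ℝ) ^ (-c)) A (B - A) →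
      Smooth ((n : ℝ) ^ (2 * s + 4 * η)) (stepA J ⌈(n : ℝ) ^ (s + 2 * η)⌉₊ A B) := by
  have hr0 : (0 : ℝ) < 2 ^ J := by positivity
  have hR0 : (0 : ℝ) < 2 ^ (2 ^ J) := by positivity
  have hK0 : (0 : ℝ) < 48 * (2 ^ (2 ^ J)) ^ 2 * 2 ^ J := by positivity
  have hCb0 : (0 : ℝ) < 2 * √(48 * (2 ^ (2 ^ J)) ^ 2 * 2 ^ J) + 8 + 2 * 2 ^ (2 ^ J) := by
    positivity
  filter_upwards [sev_rpow 12 s (s + 2 * η) (by linarith),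
    sev_rpow (64 * (4 + 2 ^ J)) (2 * s + 2 * η) (2 * s + 3 * η) (by linarith),
    sev_exp (1 / 24) η (2 * s + 4 * η) (by norm_num) hη,
    sev_const 12 η hη,
    sev_rpow (48 * (2 ^ (2 ^ J)) ^ 2 * 2 ^ J) (-(2 * τ) + s + 3 / 2 * η) 0 (by linarith),
    sev_log (η / 2) (2 * s + 4 * η) (by linarith) (by linarith),
    sev_rpow (16 * (2 * √(48 * (2 ^ (2 ^ J)) ^ 2 * 2 ^ J) + 8 + 2 * 2 ^ (2 ^ J))) (-(η / 2)) 0
      (by linarith),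
    sev_rpow (48 * 2 ^ (J + 1)) (2 * s + 3 * η - c) 0 (by linarith),
    sev_rpow 1200 (2 * s + 3 * η) (2 * s + 4 * η) (by linarith),
    eventually_ge_atTop 1] with n e1 e2 e3 e4 e5 e6 e7 e8 e9 h1 A B hA hB hsA hD
  have hn1 : (1 : ℝ) ≤ n := by exact_mod_cast h1
  have hn0 : (0 : ℝ) < n := by linarith
  rw [Real.rpow_zero] at e5 e7 e8
  have gl : (n : ℝ) ^ (s + 2 * η) ≤ (⌈(n : ℝ) ^ (s + 2 * η)⌉₊ : ℝ) := Nat.le_ceil _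
  have gu : (⌈(n : ℝ) ^ (s + 2 * η)⌉₊ : ℝ) ≤ 2 * (n : ℝ) ^ (s + 2 * η) :=
    ceil_le hn1 (by linarith)
  have sl : (n : ℝ) ^ (2 * s + 3 * η) ≤ (⌈(n : ℝ) ^ (2 * s + 3 * η)⌉₊ : ℝ) := Nat.le_ceil _
  have su : (⌈(n : ℝ) ^ (2 * s + 3 * η)⌉₊ : ℝ) ≤ 2 * (n : ℝ) ^ (2 * s + 3 * η) :=
    ceil_le hn1 (by linarith)
  generalize ⌈(n : ℝ) ^ (s + 2 * η)⌉₊ = G at gl gu ⊢
  generalize ⌈(n : ℝ) ^ (2 * s + 3 * η)⌉₊ = S at sl su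
  have one1 := pw_one hn1 hs.le
  have one3 : 1 ≤ (n : ℝ) ^ (2 * s + 3 * η) := pw_one hn1 (by linarith)
  have su1 : (S : ℝ) + 1 ≤ 3 * (n : ℝ) ^ (2 * s + 3 * η) := by linarith
  have htail := ev_tail hn1 G S gl su1 e3 e4
  have hQ := ev_Q (s := s) (τ := τ) (η := η) hn1 S (2 ^ J) (2 ^ (2 ^ J)) hr0.le hR0.le
    (by linarith)
  have hΓ : (2 ^ (2 ^ J) * (2 * (n : ℝ) ^ (-τ))) ^ 2 * (3 * 2 ^ J * √((S : ℝ) + 1)) ≤ 1 / 2 := by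
    linarith
  have b1 : √(2 * ((2 ^ (2 ^ J) * (2 * (n : ℝ) ^ (-τ))) ^ 2 * (3 * 2 ^ J * √((S : ℝ) + 1))))
      ≤ √(48 * (2 ^ (2 ^ J)) ^ 2 * 2 ^ J) * (n : ℝ) ^ (-η) := by
    have a1 := Real.sqrt_le_sqrt (show 2 * ((2 ^ (2 ^ J) * (2 * (n : ℝ) ^ (-τ))) ^ 2
      * (3 * 2 ^ J * √((S : ℝ) + 1))) ≤ 48 * (2 ^ (2 ^ J)) ^ 2 * 2 ^ J
        * (n : ℝ) ^ (-(2 * τ) + s + 3 / 2 * η) by linarith)
    rw [sqrt_pw hn0 _ _ hK0.le] at a1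
    refine le_trans a1 (mul_le_mul_of_nonneg_left (pw_le hn1 ?_) (Real.sqrt_nonneg _))
    linarith
  have hG12 : (12 : ℝ) ≤ G := by linarith
  have hG2 : 2 ≤ G := by
    have : (2 : ℝ) ≤ G := by linarith
    exact_mod_cast this
  have b2 := ev_half (s := s) (η := η) hn1 2 G (by norm_num) hG2 gl
  have b2' : √(2 * ((2 : ℕ) : ℝ)) = 2 := by
    rw [show (2 * ((2 : ℕ) : ℝ)) = 2 ^ 2 by norm_num]; exact Real.sqrt_sq (by norm_num)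
  rw [b2'] at b2
  have b3 : (n : ℝ) ^ (-τ) ≤ (n : ℝ) ^ (-η) := pw_le hn1 (by linarith)
  have hlog : (Nat.log 2 (S + 1) : ℝ) + 1 ≤ (n : ℝ) ^ (η / 2) := by
    refine e6 S (le_trans su (le_trans ?_ e9))
    nlinarith
  have b4 := mul_le_mul_of_nonneg_left b3 hR0.le
  have herr := ev_err (s := s) (c := c) (η := η) hn1 S J ((Nat.log 2 (S + 1) : ℝ) + 1)
    (2 * √(2 * ((2 ^ (2 ^ J) * (2 * (n : ℝ) ^ (-τ))) ^ 2 * (3 * 2 ^ J * √((S : ℝ) + 1)))))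
    (4 * √((n : ℝ) ^ s / ((G / 2 : ℕ) : ℝ))) (2 ^ (2 ^ J) * (2 * (n : ℝ) ^ (-τ)))
    (2 * √(48 * (2 ^ (2 ^ J)) ^ 2 * 2 ^ J) + 8 + 2 * 2 ^ (2 ^ J)) hCb0.le (by positivity) hlog
    (by positivity) (by linarith) su1 e7 e8
  refine (smooth_step hA hB hsA one1 hD (by positivity) (pw_le hn1 (by linarith)) J G S
    (by linarith) ?_ htail hΓ herr).mono ?_
  · have u1 := ev_ulen (s := s) (η := η) hn1 J G (by linarith) gu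
    calc 64 * (n : ℝ) ^ s * ((ulen J G : ℕ) : ℝ)
        ≤ 64 * (n : ℝ) ^ s * ((4 + 2 ^ J) * (n : ℝ) ^ (s + 2 * η)) := by gcongr
      _ = 64 * (4 + 2 ^ J) * (n : ℝ) ^ (2 * s + 2 * η) := by
          have := pw_mul hn0 s (s + 2 * η)
          have e : s + (s + 2 * η) = 2 * s + 2 * η := by ring
          rw [e] at this
          rw [← this]; ring
      _ ≤ (n : ℝ) ^ (2 * s + 3 * η) := e2
      _ ≤ S := sl
  · linarith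

end Vale.Agent.P321
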