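import Vale.Agent.P321.SuperA

/-! Asymptotic form of the window step: crude closeness. -/

namespace Vale.Agent.P321

open Filter

theorem crude_ev (s τ c c' η : ℝ) (J : ℕ) (hJ : 1 ≤ J) (hs : 0 < s) (hη : 0 < η) (hτ : 0 < τ)
    (hτc : τ ≤ c) (hc : c' + 1 ≤ c) (hcJ : c' + 1 ≤ η * J) :
    ∀ᶠ n : ℕ in atTop, ∀ A B : Alg, Prob A → Prob B → Smooth ((n : ℝ) ^ s) A →
      Dom ((n : ℝ) ^ (-τ)) ((n : ℝ) ^ (-c)) A (B - A) →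
      Dom ((n : ℝ) ^ (-(2 * τ - η))) ((n : ℝ) ^ (-c')) (stepA J ⌈(n : ℝ) ^ (s + 2 * η)⌉₊ A B)
        (stepB J ⌈(n : ℝ) ^ (s + 2 * η)⌉₊ A B - stepA J ⌈(n : ℝ) ^ (s + 2 * η)⌉₊ A B) := by
  filter_upwards [sev_rpow (4 * 2 ^ (2 ^ J)) (-τ) 0 (by linarith),
    sev_rpow (2 ^ (2 ^ J + 3) * 2) (-(2 * τ)) (-(2 * τ - η)) (by linarith),
    sev_const J (s + 2 * η) (by linarith),
    sev_rpow (2 * (2 * (2 ^ J * √(2 * J)) ^ J)) (-(c' + 1)) (-c') (by linarith),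
    sev_rpow (4 * 2 ^ (J + 2)) (-(c' + 1)) (-c') (by linarith),
    sev_rpow (2 ^ (2 ^ J + 3)) (-(2 * τ)) 0 (by linarith),
    eventually_ge_atTop 1] with n e1 e2 e3 e4 e5 e6 h1 A B hA hB hsA hD
  have hn1 : (1 : ℝ) ≤ n := by exact_mod_cast h1
  have hn0 : (0 : ℝ) < n := by linarith
  rw [Real.rpow_zero] at e1 e6
  have gl : (n : ℝ) ^ (s + 2 * η) ≤ (⌈(n : ℝ) ^ (s + 2 * η)⌉₊ : ℝ) := Nat.le_ceil _
  generalize ⌈(n : ℝ) ^ (s + 2 * η)⌉₊ = G at gl ⊢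
  have hJG : J ≤ G := by
    have : (J : ℝ) ≤ G := le_trans e3 gl
    exact_mod_cast this
  have hG1 : 1 ≤ G / J := (Nat.one_le_div_iff (by omega)).2 hJG
  have hR1 : (1 : ℝ) ≤ 2 ^ (2 ^ J) := one_le_pow₀ (by norm_num)
  have ht0 : 0 < (n : ℝ) ^ (-τ) := by positivity
  have hξt : (n : ℝ) ^ (-c) ≤ (n : ℝ) ^ (-τ) := pw_le hn1 (by linarith)
  have hr : 2 ^ (2 ^ J) * (2 * (n : ℝ) ^ (-τ)) ≤ 1 / 2 := by linarith
  have h2t : 2 * (n : ℝ) ^ (-τ) ≤ 1 := by nlinarith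
  have k1 := crude_step hA hB hsA hD ht0.le hξt J G (G / J) h2t hG1 (Nat.mul_div_le G J)
  have k2 := ref_step hA hB hD ht0.le hξt J G hr
  rw [sq_pw hn0] at k1
  have k3 := dom_trans (by positivity) k2 k1
  refine dom_mono (step_prob hA hB J G).1.1 k3 ?_ ?_
  · calc 2 ^ (2 ^ J + 3) * (n : ℝ) ^ (2 * -τ) * 2
        = 2 ^ (2 ^ J + 3) * 2 * (n : ℝ) ^ (-(2 * τ)) := by
          rw [show 2 * -τ = -(2 * τ) by ring]; ring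
      _ ≤ _ := e2
  · have b1 := ev_half (s := s) (η := η) hn1 J G (by omega) hJG gl
    have b2 : (2 ^ J * √((n : ℝ) ^ s / ((G / J : ℕ) : ℝ))) ^ J
        ≤ (2 ^ J * √(2 * J)) ^ J * (n : ℝ) ^ (-(c' + 1)) := by
      calc (2 ^ J * √((n : ℝ) ^ s / ((G / J : ℕ) : ℝ))) ^ J
          ≤ (2 ^ J * (√(2 * J) * (n : ℝ) ^ (-η))) ^ J := by gcongr
        _ = (2 ^ J * √(2 * J)) ^ J * (n : ℝ) ^ (-η * J) := by
            rw [← pow_pw hn0, ← mul_pow]; congr 1; ring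
        _ ≤ (2 ^ J * √(2 * J)) ^ J * (n : ℝ) ^ (-(c' + 1)) :=
            mul_le_mul_of_nonneg_left (pw_le hn1 (by linarith)) (by positivity)
    have b3 : (n : ℝ) ^ (-c) ≤ (n : ℝ) ^ (-(c' + 1)) := pw_le hn1 (by linarith)
    have b4 : 2 ^ (2 ^ J + 3) * (n : ℝ) ^ (2 * -τ) ≤ 1 := by
      rw [show 2 * -τ = -(2 * τ) by ring]; exact e6
    have b5 : 2 ^ (2 ^ J + 3) * (n : ℝ) ^ (2 * -τ) * (2 ^ (J + 2) * (n : ℝ) ^ (-c))
        ≤ 1 * (2 ^ (J + 2) * (n : ℝ) ^ (-c)) := mul_le_mul_of_nonneg_right b4 (by positivity)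
    have b6 : 2 ^ (J + 2) * (n : ℝ) ^ (-c) ≤ 2 ^ (J + 2) * (n : ℝ) ^ (-(c' + 1)) :=
      mul_le_mul_of_nonneg_left b3 (by positivity)
    linarith

/-- bound of the main term of the fine step -/
theorem fine_t {n : ℕ} (hn1 : (1 : ℝ) ≤ n) (x y η K : ℝ) (N m : ℕ) (hK : 0 ≤ K)
    (hxy : x / 2 + 50 * η ≤ y) (hη : 0 < η)
    (hN : (n : ℝ) ^ (x / 3) / 4 ≤ N) (hm : (m : ℝ) ≤ 4 * (n : ℝ) ^ (2 * x / 3)) :
    K * (((n : ℝ) ^ (-(y - η))) ^ 4 * (n : ℝ) ^ η / √(N : ℝ)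
      + ((n : ℝ) ^ (-(y - η))) ^ 5 * (n : ℝ) ^ η * √(m : ℝ))
      ≤ 4 * K * (n : ℝ) ^ (-(4 * y + x / 6) + 5 * η) := by
  have hn0 : (0 : ℝ) < n := by linarith
  have h1 : (n : ℝ) ^ (x / 6) / 2 ≤ √(N : ℝ) := by
    apply Real.le_sqrt_of_sq_le
    rw [div_pow, sq_pw hn0]
    have : 2 * (x / 6) = x / 3 := by ring
    rw [this]
    linarith
  have h2 : √(m : ℝ) ≤ 2 * (n : ℝ) ^ (x / 3) := by
    apply Real.sqrt_le_iff.2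
    refine ⟨by positivity, ?_⟩
    rw [mul_pow, sq_pw hn0]
    have : 2 * (x / 3) = 2 * x / 3 := by ring
    rw [this]
    linarith
  have a1 : ((n : ℝ) ^ (-(y - η))) ^ 4 * (n : ℝ) ^ η / √(N : ℝ)
      ≤ 2 * (n : ℝ) ^ (-(4 * y + x / 6) + 5 * η) := by
    have hp : 0 < (n : ℝ) ^ (x / 6) / 2 := by positivity
    calc ((n : ℝ) ^ (-(y - η))) ^ 4 * (n : ℝ) ^ η / √(N : ℝ)
        ≤ ((n : ℝ) ^ (-(y - η))) ^ 4 * (n : ℝ) ^ η / ((n : ℝ) ^ (x / 6) / 2) :=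
          div_le_div_of_nonneg_left (by positivity) hp h1
      _ = 2 * (n : ℝ) ^ (-(4 * y + x / 6) + 5 * η) := by
          rw [pow_pw hn0, pw_mul hn0]
          have e := pw_mul hn0 (-(4 * y + x / 6) + 5 * η) (x / 6)
          have e' : -(4 * y + x / 6) + 5 * η + x / 6 = -(y - η) * ((4 : ℕ) : ℝ) + η := by
            push_cast; ring
          rw [e'] at e
          rw [← e]
          field_simp
  have a2 : ((n : ℝ) ^ (-(y - η))) ^ 5 * (n : ℝ) ^ η * √(m : ℝ)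
      ≤ 2 * (n : ℝ) ^ (-(4 * y + x / 6) + 5 * η) := by
    calc ((n : ℝ) ^ (-(y - η))) ^ 5 * (n : ℝ) ^ η * √(m : ℝ)
        ≤ ((n : ℝ) ^ (-(y - η))) ^ 5 * (n : ℝ) ^ η * (2 * (n : ℝ) ^ (x / 3)) := by gcongr
      _ = 2 * (n : ℝ) ^ (-(y - η) * ((5 : ℕ) : ℝ) + η + x / 3) := by
          rw [pow_pw hn0, pw_mul hn0, ← pw_mul hn0 _ (x / 3)]; ring
      _ ≤ 2 * (n : ℝ) ^ (-(4 * y + x / 6) + 5 * η) :=
          mul_le_mul_of_nonneg_left (pw_le hn1 (by push_cast; linarith)) (by norm_num)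
  calc _ ≤ K * (2 * (n : ℝ) ^ (-(4 * y + x / 6) + 5 * η)
        + 2 * (n : ℝ) ^ (-(4 * y + x / 6) + 5 * η)) :=
        mul_le_mul_of_nonneg_left (add_le_add a1 a2) hK
    _ = _ := by ring

/-- bound of one of the error terms of the fine step -/
theorem fine_half {n : ℕ} (hn1 : (1 : ℝ) ≤ n) (s η c : ℝ) (J G : ℕ) (hJ : 1 ≤ J)
    (hJG : J ≤ G) (gl : (n : ℝ) ^ (s + 2 * η) ≤ G) (hc : c + 1 ≤ η * J) :
    (2 ^ J * √((n : ℝ) ^ s / ((G / J : ℕ) : ℝ))) ^ J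
        ≤ (2 ^ J * √(2 * J)) ^ J * (n : ℝ) ^ (-(c + 1)) := by
  have hn0 : (0 : ℝ) < n := by linarith
  have b1 := ev_half (s := s) (η := η) hn1 J G (by omega) hJG gl
  calc (2 ^ J * √((n : ℝ) ^ s / ((G / J : ℕ) : ℝ))) ^ J
      ≤ (2 ^ J * (√(2 * J) * (n : ℝ) ^ (-η))) ^ J := by gcongr
    _ = (2 ^ J * √(2 * J)) ^ J * (n : ℝ) ^ (-η * J) := by
        rw [← pow_pw hn0, ← mul_pow]; congr 1; ring
    _ ≤ (2 ^ J * √(2 * J)) ^ J * (n : ℝ) ^ (-(c + 1)) :=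
        mul_le_mul_of_nonneg_left (pw_le hn1 (by linarith)) (by positivity)

/-- bound of the averaging error of the fine step -/
theorem fine_avg {n : ℕ} (hn1 : (1 : ℝ) ≤ n) (x s η c : ℝ) (J N U : ℕ) (hJ : 1 ≤ J)
    (hNu : (N : ℝ) ≤ (n : ℝ) ^ (x / 3)) (hJU : 2 * J ≤ U)
    (ul : (n : ℝ) ^ (s + 2 * η + 2 * x / 3) ≤ U) (hc : c + 1 ≤ η * J) :
    (2 * N * √((n : ℝ) ^ s / ((U / (2 * J) : ℕ) : ℝ))) ^ J
        ≤ (2 * √(4 * J)) ^ J * (n : ℝ) ^ (-(c + 1)) := by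
  have hn0 : (0 : ℝ) < n := by linarith
  have hJ0 : (0 : ℝ) < J := by exact_mod_cast hJ
  have e0 : s + 2 * η + 2 * x / 3 = s + 2 * (η + x / 3) := by ring
  rw [e0] at ul
  have b1 := ev_half (s := s) (η := η + x / 3) hn1 (2 * J) U (by omega) hJU ul
  have e1 : √(2 * ((2 * J : ℕ) : ℝ)) = √(4 * J) := by
    congr 1; push_cast; ring
  rw [e1] at b1
  calc (2 * N * √((n : ℝ) ^ s / ((U / (2 * J) : ℕ) : ℝ))) ^ J
      ≤ (2 * (n : ℝ) ^ (x / 3) * (√(4 * J) * (n : ℝ) ^ (-(η + x / 3)))) ^ J := by gcongr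
    _ = (2 * √(4 * J)) ^ J * (n : ℝ) ^ (-η * J) := by
        rw [← pow_pw hn0, ← mul_pow]; congr 1
        have := pw_mul hn0 (x / 3) (-(η + x / 3))
        have e : x / 3 + -(η + x / 3) = -η := by ring
        rw [e] at this
        rw [← this]; ring
    _ ≤ (2 * √(4 * J)) ^ J * (n : ℝ) ^ (-(c + 1)) :=
        mul_le_mul_of_nonneg_left (pw_le hn1 (by linarith)) (by positivity)

end Vale.Agent.P321
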