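import Mathlib

/-! Eventual inequalities between powers. -/

namespace Vale.Agent.P321

open Filter

theorem sev_rpow (C a b : ℝ) (h : a < b) : ∀ᶠ n : ℕ in atTop, C * (n : ℝ) ^ a ≤ (n : ℝ) ^ b := by
  have h1 : ∀ᶠ n : ℕ in atTop, C ≤ (n : ℝ) ^ (b - a) :=
    ((tendsto_rpow_atTop (sub_pos.2 h)).comp tendsto_natCast_atTop_atTop).eventually_ge_atTop C
  filter_upwards [h1, eventually_ge_atTop 1] with n hn h1n
  have hn0 : (0 : ℝ) < n := by exact_mod_cast h1n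
  have e : (n : ℝ) ^ b = (n : ℝ) ^ (b - a) * (n : ℝ) ^ a := by
    rw [← Real.rpow_add hn0]; congr 1; ring
  rw [e]
  exact mul_le_mul_of_nonneg_right hn (by positivity)

theorem sev_const (C b : ℝ) (h : 0 < b) : ∀ᶠ n : ℕ in atTop, C ≤ (n : ℝ) ^ b :=
  ((tendsto_rpow_atTop h).comp tendsto_natCast_atTop_atTop).eventually_ge_atTop C

theorem sev_exp (b η K : ℝ) (hb : 0 < b) (hη : 0 < η) :
    ∀ᶠ n : ℕ in atTop, Real.exp (-(b * (n : ℝ) ^ η)) ≤ (n : ℝ) ^ (-K) := by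
  have h1 := tendsto_rpow_mul_exp_neg_mul_atTop_nhds_zero (K / η) b hb
  have h2 : Tendsto (fun n : ℕ => (n : ℝ) ^ η) atTop atTop :=
    (tendsto_rpow_atTop hη).comp tendsto_natCast_atTop_atTop
  have h3 := (h1.comp h2).eventually (ge_mem_nhds (zero_lt_one : (0 : ℝ) < 1))
  filter_upwards [h3, eventually_ge_atTop 1] with n hn h1n
  have hn0 : (0 : ℝ) < n := by exact_mod_cast h1n
  simp only [Function.comp_apply] at hn
  rw [← Real.rpow_mul hn0.le, mul_div_cancel₀ _ hη.ne'] at hn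
  have hp : 0 < (n : ℝ) ^ K := by positivity
  rw [Real.rpow_neg hn0.le, ← one_div, le_div_iff₀ hp, ← neg_mul]
  linarith

theorem sev_log (η K : ℝ) (hη : 0 < η) (hK : 0 < K) :
    ∀ᶠ n : ℕ in atTop, ∀ S : ℕ, (S : ℝ) ≤ (n : ℝ) ^ K →
      (Nat.log 2 (S + 1) : ℝ) + 1 ≤ (n : ℝ) ^ η := by
  set δ : ℝ := η / (2 * (K + 1)) with hδ
  have hδ0 : 0 < δ := by positivity
  have e1 := sev_rpow 2 K (K + 1) (by linarith)
  have e2 := sev_rpow (1 / (δ * Real.log 2) + 1) (η / 2) η (by linarith)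
  filter_upwards [e1, e2, eventually_ge_atTop 1] with n h1 h2 h3 S hS
  have hn1 : (1 : ℝ) ≤ n := by exact_mod_cast h3
  have hn0 : (0 : ℝ) < n := by linarith
  have hl2 : 0 < Real.log 2 := Real.log_pos (by norm_num)
  have hp1 : (1 : ℝ) ≤ (n : ℝ) ^ K := Real.one_le_rpow hn1 hK.le
  have hS1 : ((S + 1 : ℕ) : ℝ) ≤ (n : ℝ) ^ (K + 1) := by push_cast; linarith
  have hSp : (0 : ℝ) < ((S + 1 : ℕ) : ℝ) := by positivity
  have a1 : (Nat.log 2 (S + 1) : ℝ) * Real.log 2 ≤ Real.log ((S + 1 : ℕ) : ℝ) := by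
    have := Nat.pow_log_le_self 2 (Nat.succ_ne_zero S)
    have h := Real.log_le_log (by positivity) (show ((2 ^ Nat.log 2 (S + 1) : ℕ) : ℝ)
      ≤ ((S + 1 : ℕ) : ℝ) by exact_mod_cast this)
    rw [Nat.cast_pow, Real.log_pow] at h
    exact_mod_cast h
  have a2 : Real.log ((S + 1 : ℕ) : ℝ) ≤ ((S + 1 : ℕ) : ℝ) ^ δ / δ :=
    Real.log_le_rpow_div hSp.le hδ0
  have a3 : ((S + 1 : ℕ) : ℝ) ^ δ ≤ (n : ℝ) ^ (η / 2) := by
    have := Real.rpow_le_rpow hSp.le hS1 hδ0.le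
    rw [← Real.rpow_mul hn0.le] at this
    have e : (K + 1) * δ = η / 2 := by rw [hδ]; field_simp
    rwa [e] at this
  have a4 : (Nat.log 2 (S + 1) : ℝ) ≤ 1 / (δ * Real.log 2) * (n : ℝ) ^ (η / 2) := by
    have : (Nat.log 2 (S + 1) : ℝ) * Real.log 2 ≤ (n : ℝ) ^ (η / 2) / δ :=
      le_trans a1 (le_trans a2 (div_le_div_of_nonneg_right a3 hδ0.le))
    rw [← le_div_iff₀ hl2] at this
    refine le_trans this (le_of_eq ?_)
    field_simp
  have a5 : (1 : ℝ) ≤ (n : ℝ) ^ (η / 2) := Real.one_le_rpow hn1 (by linarith)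
  linarith

end Vale.Agent.P321
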